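import Vale.Agent.P256.MathlibUsed
import Vale.Agent.P256.Defs
import Vale.Agent.P256.DefsF

set_option linter.all false

section

/-! Kernel calculus for slack factorizations. -/

namespace Vale.Agent.P256

open Filter Topology

section Basic

variable {L X : Type*}

/-- finite-rank kernels -/
def FR (h : L → X → ℝ) : Prop :=
  ∃ (n : ℕ) (a : Fin n → L → ℝ) (f : Fin n → X → ℝ), ∀ l x, h l x = ∑ k, a k l * f k x

theorem FR.of_fintype {ι : Type*} [Fintype ι] (a : ι → L → ℝ) (f : ι → X → ℝ) :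
    FR (fun l x => ∑ k, a k l * f k x) := by
  classical
  refine ⟨Fintype.card ι, fun k => a ((Fintype.equivFin ι).symm k),
    fun k => f ((Fintype.equivFin ι).symm k), fun l x => ?_⟩
  exact (Equiv.sum_comp (Fintype.equivFin ι).symm (fun k => a k l * f k x)).symm

theorem FR.congr {h h' : L → X → ℝ} (H : FR h) (e : ∀ l x, h' l x = h l x) : FR h' := by
  obtain ⟨n, a, f, hh⟩ := H
  exact ⟨n, a, f, fun l x => (e l x).trans (hh l x)⟩

theorem FR.mulfun (a : L → ℝ) (f : X → ℝ) : FR (fun l x => a l * f x) :=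
  ⟨1, fun _ => a, fun _ => f, fun l x => by simp⟩

theorem FR.left (a : L → ℝ) : FR (fun l (_ : X) => a l) :=
  (FR.mulfun a (fun _ : X => 1)).congr (fun l x => by simp)

theorem FR.right (f : X → ℝ) : FR (fun (_ : L) x => f x) :=
  (FR.mulfun (fun _ : L => 1) f).congr (fun l x => by simp)

theorem FR.const (c : ℝ) : FR (fun (_ : L) (_ : X) => c) := FR.left (fun _ => c)

theorem FR.add {h h' : L → X → ℝ} (H : FR h) (H' : FR h') :
    FR (fun l x => h l x + h' l x) := by
  obtain ⟨n, a, f, hh⟩ := H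
  obtain ⟨n', a', f', hh'⟩ := H'
  refine (FR.of_fintype (ι := Fin n ⊕ Fin n') (Sum.elim a a') (Sum.elim f f')).congr
    (fun l x => ?_)
  simp only [hh, hh', Fintype.sum_sum_type, Sum.elim_inl, Sum.elim_inr]

theorem FR.mul {h h' : L → X → ℝ} (H : FR h) (H' : FR h') :
    FR (fun l x => h l x * h' l x) := by
  obtain ⟨n, a, f, hh⟩ := H
  obtain ⟨n', a', f', hh'⟩ := H'
  refine (FR.of_fintype (ι := Fin n × Fin n') (fun k l => a k.1 l * a' k.2 l)
    (fun k x => f k.1 x * f' k.2 x)).congr (fun l x => ?_)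
  rw [hh, hh', Finset.sum_mul_sum, Fintype.sum_prod_type]
  refine Finset.sum_congr rfl fun i _ => Finset.sum_congr rfl fun j _ => ?_
  ring

theorem FR.sum {ι : Type*} (s : Finset ι) {h : ι → L → X → ℝ} (H : ∀ i ∈ s, FR (h i)) :
    FR (fun l x => ∑ i ∈ s, h i l x) := by
  classical
  induction s using Finset.induction_on with
  | empty => simpa using (FR.const (L := L) (X := X) 0)
  | insert i s hi ih =>
    have h1 := H i (Finset.mem_insert_self i s)
    have h2 := ih (fun j hj => H j (Finset.mem_insert_of_mem hj))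
    refine (h1.add h2).congr (fun l x => ?_)
    rw [Finset.sum_insert hi]

theorem FR.smul {h : L → X → ℝ} (c : ℝ) (H : FR h) : FR (fun l x => c * h l x) :=
  (FR.const c).mul H

theorem FR.neg {h : L → X → ℝ} (H : FR h) : FR (fun l x => - h l x) :=
  (H.smul (-1)).congr (fun l x => by ring)

theorem FR.sub {h h' : L → X → ℝ} (H : FR h) (H' : FR h') :
    FR (fun l x => h l x - h' l x) :=
  (H.add H'.neg).congr (fun l x => by ring)

theorem FR.comp {L' X' : Type*} {h : L → X → ℝ} (H : FR h) (φ : L' → L) (ψ : X' → X) :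
    FR (fun l x => h (φ l) (ψ x)) := by
  obtain ⟨n, a, f, hh⟩ := H
  exact ⟨n, fun k l => a k (φ l), fun k x => f k (ψ x), fun l x => hh _ _⟩

/-- finite sums of squares of finite-rank kernels -/
def Sos (h : L → X → ℝ) : Prop :=
  ∃ (m : ℕ) (g : Fin m → L → X → ℝ), (∀ j, FR (g j)) ∧ ∀ l x, h l x = ∑ j, (g j l x) ^ 2

theorem Sos.congr {h h' : L → X → ℝ} (H : Sos h) (e : ∀ l x, h' l x = h l x) : Sos h' := by
  obtain ⟨m, g, hg, hh⟩ := H
  exact ⟨m, g, hg, fun l x => (e l x).trans (hh l x)⟩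

theorem Sos.of_fintype {ι : Type*} [Fintype ι] (g : ι → L → X → ℝ) (hg : ∀ i, FR (g i)) :
    Sos (fun l x => ∑ i, (g i l x) ^ 2) := by
  classical
  refine ⟨Fintype.card ι, fun k => g ((Fintype.equivFin ι).symm k), fun k => hg _,
    fun l x => ?_⟩
  exact (Equiv.sum_comp (Fintype.equivFin ι).symm (fun k => (g k l x) ^ 2)).symm

theorem FR.sq {h : L → X → ℝ} (H : FR h) : Sos (fun l x => h l x ^ 2) :=
  ⟨1, fun _ => h, fun _ => H, fun l x => by simp⟩

theorem Sos.zero : Sos (fun (_ : L) (_ : X) => (0 : ℝ)) :=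
  ⟨0, fun _ _ _ => 0, fun _ => FR.const 0, fun l x => by simp⟩

theorem Sos.add {h h' : L → X → ℝ} (H : Sos h) (H' : Sos h') :
    Sos (fun l x => h l x + h' l x) := by
  obtain ⟨m, g, hg, hh⟩ := H
  obtain ⟨m', g', hg', hh'⟩ := H'
  refine (Sos.of_fintype (ι := Fin m ⊕ Fin m') (Sum.elim g g') ?_).congr (fun l x => ?_)
  · rintro (i | i)
    · exact hg i
    · exact hg' i
  · simp only [hh, hh', Fintype.sum_sum_type, Sum.elim_inl, Sum.elim_inr]

theorem Sos.mul {h h' : L → X → ℝ} (H : Sos h) (H' : Sos h') :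
    Sos (fun l x => h l x * h' l x) := by
  obtain ⟨m, g, hg, hh⟩ := H
  obtain ⟨m', g', hg', hh'⟩ := H'
  refine (Sos.of_fintype (ι := Fin m × Fin m') (fun k l x => g k.1 l x * g' k.2 l x) ?_).congr
    (fun l x => ?_)
  · intro k; exact (hg k.1).mul (hg' k.2)
  · rw [hh, hh', Finset.sum_mul_sum, Fintype.sum_prod_type]
    refine Finset.sum_congr rfl fun i _ => Finset.sum_congr rfl fun j _ => ?_
    ring

theorem Sos.left {a : L → ℝ} (ha : ∀ l, 0 ≤ a l) : Sos (fun l (_ : X) => a l) :=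
  ((FR.left (X := X) (fun l => Real.sqrt (a l))).sq).congr
    (fun l _ => (Real.sq_sqrt (ha l)).symm)

theorem Sos.right {f : X → ℝ} (hf : ∀ x, 0 ≤ f x) : Sos (fun (_ : L) x => f x) :=
  ((FR.right (L := L) (fun x => Real.sqrt (f x))).sq).congr
    (fun _ x => (Real.sq_sqrt (hf x)).symm)

theorem Sos.const {c : ℝ} (hc : 0 ≤ c) : Sos (fun (_ : L) (_ : X) => c) :=
  Sos.left (fun _ => hc)

theorem Sos.comp {L' X' : Type*} {h : L → X → ℝ} (H : Sos h) (φ : L' → L) (ψ : X' → X) :
    Sos (fun l x => h (φ l) (ψ x)) := by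
  obtain ⟨m, g, hg, hh⟩ := H
  exact ⟨m, fun k l x => g k (φ l) (ψ x), fun k => (hg k).comp φ ψ, fun l x => hh _ _⟩

/-- sums of squares on a product set -/
def SosOn (S : Set L) (T : Set X) (h : L → X → ℝ) : Prop :=
  ∃ h' : L → X → ℝ, Sos h' ∧ ∀ l ∈ S, ∀ x ∈ T, h l x = h' l x

theorem Sos.sosOn {h : L → X → ℝ} (H : Sos h) (S : Set L) (T : Set X) : SosOn S T h :=
  ⟨h, H, fun _ _ _ _ => rfl⟩

theorem SosOn.congr {S : Set L} {T : Set X} {h h' : L → X → ℝ} (H : SosOn S T h)
    (e : ∀ l ∈ S, ∀ x ∈ T, h' l x = h l x) : SosOn S T h' := by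
  obtain ⟨g, hg, hh⟩ := H
  exact ⟨g, hg, fun l hl x hx => (e l hl x hx).trans (hh l hl x hx)⟩

theorem SosOn.mono {S S' : Set L} {T T' : Set X} {h : L → X → ℝ} (H : SosOn S T h)
    (hS : S' ⊆ S) (hT : T' ⊆ T) : SosOn S' T' h := by
  obtain ⟨g, hg, hh⟩ := H
  exact ⟨g, hg, fun l hl x hx => hh l (hS hl) x (hT hx)⟩

theorem SosOn.add {S : Set L} {T : Set X} {h h' : L → X → ℝ} (H : SosOn S T h)
    (H' : SosOn S T h') : SosOn S T (fun l x => h l x + h' l x) := by
  obtain ⟨g, hg, hh⟩ := H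
  obtain ⟨g', hg', hh'⟩ := H'
  exact ⟨_, hg.add hg', fun l hl x hx => by simp only [hh l hl x hx, hh' l hl x hx]⟩

theorem SosOn.mul {S : Set L} {T : Set X} {h h' : L → X → ℝ} (H : SosOn S T h)
    (H' : SosOn S T h') : SosOn S T (fun l x => h l x * h' l x) := by
  obtain ⟨g, hg, hh⟩ := H
  obtain ⟨g', hg', hh'⟩ := H'
  exact ⟨_, hg.mul hg', fun l hl x hx => by simp only [hh l hl x hx, hh' l hl x hx]⟩

theorem SosOn.sum {ι : Type*} {S : Set L} {T : Set X} (s : Finset ι) {h : ι → L → X → ℝ}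
    (H : ∀ i ∈ s, SosOn S T (h i)) : SosOn S T (fun l x => ∑ i ∈ s, h i l x) := by
  classical
  induction s using Finset.induction_on with
  | empty => simpa using (Sos.zero (L := L) (X := X)).sosOn S T
  | insert i s hi ih =>
    have h1 := H i (Finset.mem_insert_self i s)
    have h2 := ih (fun j hj => H j (Finset.mem_insert_of_mem hj))
    refine (h1.add h2).congr (fun l _ x _ => ?_)
    rw [Finset.sum_insert hi]

/-- a nonnegative (on `S`) function of the left variable -/
theorem SosOn.left {S : Set L} {T : Set X} {a : L → ℝ} (ha : ∀ l ∈ S, 0 ≤ a l) :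
    SosOn S T (fun l (_ : X) => a l) :=
  ((Sos.left (X := X) (a := fun l => |a l|) (fun _ => abs_nonneg _)).sosOn S T).congr
    (fun l hl _ _ => (abs_of_nonneg (ha l hl)).symm)

/-- a nonnegative (on `T`) function of the right variable -/
theorem SosOn.right {S : Set L} {T : Set X} {f : X → ℝ} (hf : ∀ x ∈ T, 0 ≤ f x) :
    SosOn S T (fun (_ : L) x => f x) :=
  ((Sos.right (L := L) (f := fun x => |f x|) (fun _ => abs_nonneg _)).sosOn S T).congr
    (fun _ _ x hx => (abs_of_nonneg (hf x hx)).symm)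

theorem SosOn.const {S : Set L} {T : Set X} {c : ℝ} (hc : 0 ≤ c) :
    SosOn S T (fun (_ : L) (_ : X) => c) := (Sos.const hc).sosOn S T

theorem SosOn.smul {S : Set L} {T : Set X} {h : L → X → ℝ} {c : ℝ} (hc : 0 ≤ c)
    (H : SosOn S T h) : SosOn S T (fun l x => c * h l x) :=
  (SosOn.const hc).mul H

theorem SosOn.sq {S : Set L} {T : Set X} {h : L → X → ℝ} (H : FR h) :
    SosOn S T (fun l x => h l x ^ 2) := H.sq.sosOn S T

theorem SosOn.comp {L' X' : Type*} {S : Set L} {T : Set X} {h : L → X → ℝ} (H : SosOn S T h)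
    (φ : L' → L) (ψ : X' → X) : SosOn (φ ⁻¹' S) (ψ ⁻¹' T) (fun l x => h (φ l) (ψ x)) := by
  obtain ⟨g, hg, hh⟩ := H
  exact ⟨_, hg.comp φ ψ, fun l hl x hx => hh _ hl _ hx⟩

theorem SosOn.empty_left {T : Set X} {h : L → X → ℝ} : SosOn (∅ : Set L) T h :=
  ⟨fun _ _ => 0, Sos.zero, fun l hl => absurd hl (Set.notMem_empty l)⟩

theorem SosOn.empty_right {S : Set L} {h : L → X → ℝ} : SosOn S (∅ : Set X) h :=
  ⟨fun _ _ => 0, Sos.zero, fun _ _ x hx => absurd hx (Set.notMem_empty x)⟩

/-- gluing in the left variable -/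
theorem SosOn.union_left {S S' : Set L} {T : Set X} {h : L → X → ℝ} (H : SosOn S T h)
    (H' : SosOn S' T h) : SosOn (S ∪ S') T h := by
  classical
  obtain ⟨g, hg, hh⟩ := H
  obtain ⟨g', hg', hh'⟩ := H'
  refine ⟨fun l x => (if l ∈ S then (1 : ℝ) else 0) * g l x +
    (if l ∈ S then (0 : ℝ) else 1) * g' l x, ?_, ?_⟩
  · refine ((Sos.left (a := fun l => if l ∈ S then (1 : ℝ) else 0) ?_).mul hg).add
      ((Sos.left (a := fun l => if l ∈ S then (0 : ℝ) else 1) ?_).mul hg')
    · intro l; split_ifs <;> norm_num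
    · intro l; split_ifs <;> norm_num
  · rintro l hl x hx
    by_cases hlS : l ∈ S
    · simp [hlS, hh l hlS x hx]
    · have : l ∈ S' := hl.resolve_left hlS
      simp [hlS, hh' l this x hx]

/-- gluing in the right variable -/
theorem SosOn.union_right {S : Set L} {T T' : Set X} {h : L → X → ℝ} (H : SosOn S T h)
    (H' : SosOn S T' h) : SosOn S (T ∪ T') h := by
  classical
  obtain ⟨g, hg, hh⟩ := H
  obtain ⟨g', hg', hh'⟩ := H'
  refine ⟨fun l x => (if x ∈ T then (1 : ℝ) else 0) * g l x +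
    (if x ∈ T then (0 : ℝ) else 1) * g' l x, ?_, ?_⟩
  · refine ((Sos.right (f := fun x => if x ∈ T then (1 : ℝ) else 0) ?_).mul hg).add
      ((Sos.right (f := fun x => if x ∈ T then (0 : ℝ) else 1) ?_).mul hg')
    · intro x; split_ifs <;> norm_num
    · intro x; split_ifs <;> norm_num
  · rintro l hl x hx
    by_cases hxT : x ∈ T
    · simp [hxT, hh l hl x hxT]
    · have : x ∈ T' := hx.resolve_left hxT
      simp [hxT, hh' l hl x this]

end Basic

section Compactness

variable {L X : Type*} [TopologicalSpace L] [TopologicalSpace X]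

/-- Local-to-global principle.  `A`, `B` compact, `S`, `T` arbitrary.  If every pair of points of
`A × B` has neighbourhoods `U`, `V` with the kernel SOS on `(U ∩ S) × (V ∩ T)`, then there are open
sets `U ⊇ A`, `V ⊇ B` with the kernel SOS on `(U ∩ S) × (V ∩ T)`. -/
theorem SosOn.of_local {A : Set L} {B : Set X} (hA : IsCompact A) (hB : IsCompact B)
    {S : Set L} {T : Set X} {h : L → X → ℝ}
    (H : ∀ a ∈ A, ∀ b ∈ B, ∃ U ∈ 𝓝 a, ∃ V ∈ 𝓝 b, SosOn (U ∩ S) (V ∩ T) h) :
    ∃ U ∈ 𝓝ˢ A, ∃ V ∈ 𝓝ˢ B, SosOn (U ∩ S) (V ∩ T) h := by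
  have key : ∀ a ∈ A, ∃ U ∈ 𝓝 a, ∃ V ∈ 𝓝ˢ B, SosOn (U ∩ S) (V ∩ T) h := by
    intro a ha
    have : ∀ s ⊆ B, s ⊆ B := fun s hs => hs
    refine hB.induction_on (p := fun B' => ∃ U ∈ 𝓝 a, ∃ V ∈ 𝓝ˢ B', SosOn (U ∩ S) (V ∩ T) h)
      ?_ ?_ ?_ ?_
    · exact ⟨Set.univ, univ_mem, ∅, by simp, by simpa using SosOn.empty_right⟩
    · rintro s t hst ⟨U, hU, V, hV, hs⟩
      exact ⟨U, hU, V, nhdsSet_mono hst hV, hs⟩
    · rintro s t ⟨U, hU, V, hV, hs⟩ ⟨U', hU', V', hV', hs'⟩
      refine ⟨U ∩ U', inter_mem hU hU', V ∪ V', ?_, ?_⟩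
      · rw [nhdsSet_union]
        exact Filter.union_mem_sup hV hV'
      · rw [Set.union_inter_distrib_right]
        exact (hs.mono (by intro z hz; exact ⟨hz.1.1, hz.2⟩) subset_rfl).union_right
          (hs'.mono (by intro z hz; exact ⟨hz.1.2, hz.2⟩) subset_rfl)
    · intro b hb
      obtain ⟨U, hU, V, hV, hs⟩ := H a ha b hb
      refine ⟨interior V, mem_nhdsWithin_of_mem_nhds (interior_mem_nhds.2 hV), U, hU,
        interior V, ?_, hs.mono subset_rfl (Set.inter_subset_inter_left _ interior_subset)⟩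
      exact isOpen_interior.mem_nhdsSet_self
  refine hA.induction_on (p := fun A' => ∃ U ∈ 𝓝ˢ A', ∃ V ∈ 𝓝ˢ B, SosOn (U ∩ S) (V ∩ T) h)
    ?_ ?_ ?_ ?_
  · exact ⟨∅, by simp, Set.univ, univ_mem, by simpa using SosOn.empty_left⟩
  · rintro s t hst ⟨U, hU, V, hV, hs⟩
    exact ⟨U, nhdsSet_mono hst hU, V, hV, hs⟩
  · rintro s t ⟨U, hU, V, hV, hs⟩ ⟨U', hU', V', hV', hs'⟩
    refine ⟨U ∪ U', ?_, V ∩ V', inter_mem hV hV', ?_⟩
    · rw [nhdsSet_union]
      exact Filter.union_mem_sup hU hU'
    · rw [Set.union_inter_distrib_right]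
      exact (hs.mono subset_rfl (by intro z hz; exact ⟨hz.1.1, hz.2⟩)).union_left
        (hs'.mono subset_rfl (by intro z hz; exact ⟨hz.1.2, hz.2⟩))
  · intro a ha
    obtain ⟨U, hU, V, hV, hs⟩ := key a ha
    refine ⟨interior U, mem_nhdsWithin_of_mem_nhds (interior_mem_nhds.2 hU),
        interior U, ?_, V, hV, hs.mono (Set.inter_subset_inter_left _ interior_subset) subset_rfl⟩
    exact isOpen_interior.mem_nhdsSet_self

end Compactness

end Vale.Agent.P256
end

section

/-! Germs of finite-rank kernels and the robustness theorem. -/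

namespace Vale.Agent.P256

open Filter Topology

section Small

variable {L X : Type*}

theorem small_mul {S : Set L} {T : Set X} {a : L → ℝ} {f : X → ℝ} {α β : ℝ}
    (ha : ∀ l ∈ S, |a l| ≤ α) (hf : ∀ x ∈ T, |f x| ≤ β) :
    SosOn S T (fun l x => α * β + a l * f x) := by
  have h1 : SosOn S T (fun l (_ : X) => α + a l) :=
    SosOn.left (fun l hl => by have := (abs_le.1 (ha l hl)).1; linarith)
  have h2 : SosOn S T (fun (_ : L) x => β + f x) :=
    SosOn.right (fun x hx => by have := (abs_le.1 (hf x hx)).1; linarith)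
  have h3 : SosOn S T (fun l (_ : X) => α - a l) :=
    SosOn.left (fun l hl => by have := (abs_le.1 (ha l hl)).2; linarith)
  have h4 : SosOn S T (fun (_ : L) x => β - f x) :=
    SosOn.right (fun x hx => by have := (abs_le.1 (hf x hx)).2; linarith)
  refine (((h1.mul h2).add (h3.mul h4)).smul (c := 1 / 2) (by norm_num)).congr ?_
  intro l _ x _
  ring

end Small

section Germ

variable {L X : Type*}

/-- finite-rank kernels with convergent coefficients along the filters `F`, `G`; `c` is the limit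
of the kernel. -/
def GermFR (F : Filter L) (G : Filter X) (h : L → X → ℝ) (c : ℝ) : Prop :=
  ∃ (n : ℕ) (a : Fin n → L → ℝ) (f : Fin n → X → ℝ) (a0 f0 : Fin n → ℝ),
    (∀ k, Tendsto (a k) F (𝓝 (a0 k))) ∧ (∀ k, Tendsto (f k) G (𝓝 (f0 k))) ∧
    (∀ l x, h l x = ∑ k, a k l * f k x) ∧ c = ∑ k, a0 k * f0 k

variable {F : Filter L} {G : Filter X}

theorem GermFR.congr {h h' : L → X → ℝ} {c c' : ℝ} (H : GermFR F G h c)
    (e : ∀ l x, h' l x = h l x) (ec : c' = c) : GermFR F G h' c' := by
  obtain ⟨n, a, f, a0, f0, ha, hf, hh, hc⟩ := H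
  exact ⟨n, a, f, a0, f0, ha, hf, fun l x => (e l x).trans (hh l x), ec.trans hc⟩

theorem GermFR.of_fintype {ι : Type*} [Fintype ι] (a : ι → L → ℝ) (f : ι → X → ℝ)
    (a0 f0 : ι → ℝ) (ha : ∀ k, Tendsto (a k) F (𝓝 (a0 k)))
    (hf : ∀ k, Tendsto (f k) G (𝓝 (f0 k))) :
    GermFR F G (fun l x => ∑ k, a k l * f k x) (∑ k, a0 k * f0 k) := by
  classical
  refine ⟨Fintype.card ι, fun k => a ((Fintype.equivFin ι).symm k),
    fun k => f ((Fintype.equivFin ι).symm k), fun k => a0 ((Fintype.equivFin ι).symm k),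
    fun k => f0 ((Fintype.equivFin ι).symm k), fun k => ha _, fun k => hf _,
    fun l x => ?_, ?_⟩
  · exact (Equiv.sum_comp (Fintype.equivFin ι).symm (fun k => a k l * f k x)).symm
  · exact (Equiv.sum_comp (Fintype.equivFin ι).symm (fun k => a0 k * f0 k)).symm

theorem GermFR.mulfun {a : L → ℝ} {f : X → ℝ} {a0 f0 : ℝ} (ha : Tendsto a F (𝓝 a0))
    (hf : Tendsto f G (𝓝 f0)) : GermFR F G (fun l x => a l * f x) (a0 * f0) :=
  ⟨1, fun _ => a, fun _ => f, fun _ => a0, fun _ => f0, fun _ => ha, fun _ => hf,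
    fun l x => by simp, by simp⟩

theorem GermFR.left {a : L → ℝ} {a0 : ℝ} (ha : Tendsto a F (𝓝 a0)) :
    GermFR F G (fun l (_ : X) => a l) a0 :=
  (GermFR.mulfun ha (tendsto_const_nhds (x := (1 : ℝ)))).congr (fun l x => by simp) (by simp)

theorem GermFR.right {f : X → ℝ} {f0 : ℝ} (hf : Tendsto f G (𝓝 f0)) :
    GermFR F G (fun (_ : L) x => f x) f0 :=
  (GermFR.mulfun (tendsto_const_nhds (x := (1 : ℝ))) hf).congr (fun l x => by simp) (by simp)

theorem GermFR.const (c : ℝ) : GermFR F G (fun (_ : L) (_ : X) => c) c :=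
  GermFR.left tendsto_const_nhds

theorem GermFR.add {h h' : L → X → ℝ} {c c' : ℝ} (H : GermFR F G h c) (H' : GermFR F G h' c') :
    GermFR F G (fun l x => h l x + h' l x) (c + c') := by
  obtain ⟨n, a, f, a0, f0, ha, hf, hh, hc⟩ := H
  obtain ⟨n', a', f', a0', f0', ha', hf', hh', hc'⟩ := H'
  refine (GermFR.of_fintype (ι := Fin n ⊕ Fin n') (Sum.elim a a') (Sum.elim f f')
    (Sum.elim a0 a0') (Sum.elim f0 f0') ?_ ?_).congr (fun l x => ?_) ?_
  · rintro (i | i)
    · exact ha i
    · exact ha' i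
  · rintro (i | i)
    · exact hf i
    · exact hf' i
  · simp only [hh, hh', Fintype.sum_sum_type, Sum.elim_inl, Sum.elim_inr]
  · simp only [hc, hc', Fintype.sum_sum_type, Sum.elim_inl, Sum.elim_inr]

theorem GermFR.mul {h h' : L → X → ℝ} {c c' : ℝ} (H : GermFR F G h c) (H' : GermFR F G h' c') :
    GermFR F G (fun l x => h l x * h' l x) (c * c') := by
  obtain ⟨n, a, f, a0, f0, ha, hf, hh, hc⟩ := H
  obtain ⟨n', a', f', a0', f0', ha', hf', hh', hc'⟩ := H'
  refine (GermFR.of_fintype (ι := Fin n × Fin n') (fun k l => a k.1 l * a' k.2 l)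
    (fun k x => f k.1 x * f' k.2 x) (fun k => a0 k.1 * a0' k.2)
    (fun k => f0 k.1 * f0' k.2) ?_ ?_).congr (fun l x => ?_) ?_
  · intro k; exact (ha k.1).mul (ha' k.2)
  · intro k; exact (hf k.1).mul (hf' k.2)
  · rw [hh, hh', Finset.sum_mul_sum, Fintype.sum_prod_type]
    refine Finset.sum_congr rfl fun i _ => Finset.sum_congr rfl fun j _ => ?_
    ring
  · rw [hc, hc', Finset.sum_mul_sum, Fintype.sum_prod_type]
    refine Finset.sum_congr rfl fun i _ => Finset.sum_congr rfl fun j _ => ?_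
    ring

theorem GermFR.sum {ι : Type*} (s : Finset ι) {h : ι → L → X → ℝ} {c : ι → ℝ}
    (H : ∀ i ∈ s, GermFR F G (h i) (c i)) :
    GermFR F G (fun l x => ∑ i ∈ s, h i l x) (∑ i ∈ s, c i) := by
  classical
  induction s using Finset.induction_on with
  | empty => simpa using (GermFR.const (F := F) (G := G) 0)
  | insert i s hi ih =>
    have h1 := H i (Finset.mem_insert_self i s)
    have h2 := ih (fun j hj => H j (Finset.mem_insert_of_mem hj))
    refine (h1.add h2).congr (fun l x => ?_) ?_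
    · rw [Finset.sum_insert hi]
    · rw [Finset.sum_insert hi]

theorem GermFR.smul {h : L → X → ℝ} {c : ℝ} (r : ℝ) (H : GermFR F G h c) :
    GermFR F G (fun l x => r * h l x) (r * c) :=
  (GermFR.const r).mul H

theorem GermFR.neg {h : L → X → ℝ} {c : ℝ} (H : GermFR F G h c) :
    GermFR F G (fun l x => - h l x) (-c) :=
  (H.smul (-1)).congr (fun l x => by ring) (by ring)

theorem GermFR.sub {h h' : L → X → ℝ} {c c' : ℝ} (H : GermFR F G h c) (H' : GermFR F G h' c') :
    GermFR F G (fun l x => h l x - h' l x) (c - c') :=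
  (H.add H'.neg).congr (fun l x => by ring) (by ring)

/-- a germ with limit `0` is arbitrarily small in the SOS sense -/
theorem GermFR.small {h : L → X → ℝ} (H : GermFR F G h 0) {ε : ℝ} (hε : 0 < ε) :
    ∃ S ∈ F, ∃ T ∈ G, SosOn S T (fun l x => ε + h l x) ∧ SosOn S T (fun l x => ε - h l x) := by
  classical
  obtain ⟨n, a, f, a0, f0, ha, hf, hh, hc⟩ := H
  set K : ℝ := ∑ k, (|a0 k| + |f0 k| + 1) with hK
  have hK0 : 0 ≤ K := Finset.sum_nonneg fun k _ => by (clear * -; positivity)
  set δ : ℝ := min 1 (ε / (K + 1)) with hδ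
  have hδpos : 0 < δ := lt_min one_pos (by (clear * - hε; positivity))
  have hδ1 : δ ≤ 1 := min_le_left _ _
  have hδε : δ * K ≤ ε := by
    have h1 : δ ≤ ε / (K + 1) := min_le_right _ _
    have h2 : ε / (K + 1) * K ≤ ε := by
      rw [div_mul_eq_mul_div, div_le_iff₀ (by positivity)]
      linarith
    exact (mul_le_mul_of_nonneg_right h1 hK0).trans h2
  have hS : {l | ∀ k, |a k l - a0 k| ≤ δ} ∈ F := by
    refine eventually_all.2 fun k => ?_
    have h0 : ∀ᶠ l in F, a k l ∈ Metric.ball (a0 k) δ := (ha k) (Metric.ball_mem_nhds _ hδpos)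
    filter_upwards [h0] with l hl
    rw [Metric.mem_ball, Real.dist_eq] at hl
    exact hl.le
  have hT : {x | ∀ k, |f k x - f0 k| ≤ δ} ∈ G := by
    refine eventually_all.2 fun k => ?_
    have h0 : ∀ᶠ x in G, f k x ∈ Metric.ball (f0 k) δ := (hf k) (Metric.ball_mem_nhds _ hδpos)
    filter_upwards [h0] with x hx
    rw [Metric.mem_ball, Real.dist_eq] at hx
    exact hx.le
  have main : ∀ s : ℝ, (s = 1 ∨ s = -1) → SosOn {l | ∀ k, |a k l - a0 k| ≤ δ}
      {x | ∀ k, |f k x - f0 k| ≤ δ} (fun l x => ε + s * h l x) := by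
    intro s hs
    have hs1 : |s| = 1 := by rcases hs with rfl | rfl <;> simp
    have h1 : ∀ k, SosOn {l | ∀ k, |a k l - a0 k| ≤ δ} {x | ∀ k, |f k x - f0 k| ≤ δ}
        (fun l x => δ * (|f0 k| + 1) + (s * (a k l - a0 k)) * f k x) := by
      intro k
      refine small_mul (fun l hl => ?_) (fun x hx => ?_)
      · rw [abs_mul, hs1, one_mul]; exact hl k
      · have h3 : |f k x| ≤ |f k x - f0 k| + |f0 k| := by
          have := abs_add_le (f k x - f0 k) (f0 k)
          simpa only [ge_iff_le, sub_add_cancel] using this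
        have := hx k
        linarith only [hδ1, h3, this]
    have h2 : ∀ k, SosOn {l | ∀ k, |a k l - a0 k| ≤ δ} {x | ∀ k, |f k x - f0 k| ≤ δ}
        (fun (_ : L) x => |a0 k| * δ + (s * a0 k) * (f k x - f0 k)) := by
      intro k
      refine small_mul (a := fun _ => s * a0 k) (fun l _ => ?_) (fun x hx => ?_)
      · rw [abs_mul, hs1, one_mul]
      · exact hx k
    have h3 := (SosOn.sum Finset.univ (fun k _ => (h1 k).add (h2 k))).add
      (SosOn.const (c := ε - δ * K) (by linarith))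
    refine h3.congr ?_
    intro l _ x _
    have e1 : δ * K = ∑ k, δ * (|a0 k| + |f0 k| + 1) := by rw [hK, Finset.mul_sum]
    have e2 : s * ∑ k, a0 k * f0 k = 0 := by rw [← hc, mul_zero]
    have e3 : s * h l x = ∑ k, s * (a k l * f k x) := by rw [hh, Finset.mul_sum]
    have e4 : ∑ k, ((δ * (|f0 k| + 1) + (s * (a k l - a0 k)) * f k x) +
        (|a0 k| * δ + (s * a0 k) * (f k x - f0 k))) =
        ∑ k, δ * (|a0 k| + |f0 k| + 1) + ∑ k, s * (a k l * f k x) - s * ∑ k, a0 k * f0 k := by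
      rw [Finset.mul_sum, ← Finset.sum_add_distrib, ← Finset.sum_sub_distrib]
      refine Finset.sum_congr rfl fun k _ => ?_
      ring
    rw [e4, e1, e2, e3]
    ring
  refine ⟨_, hS, _, hT, ?_, ?_⟩
  · exact (main 1 (Or.inl rfl)).congr (fun l _ x _ => by ring)
  · exact (main (-1) (Or.inr rfl)).congr (fun l _ x _ => by ring)

/-- a germ with positive limit is SOS near the base point -/
theorem GermFR.pos {h : L → X → ℝ} {c : ℝ} (H : GermFR F G h c) (hc : 0 < c) :
    ∃ S ∈ F, ∃ T ∈ G, SosOn S T h := by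
  have H' : GermFR F G (fun l x => h l x - c) 0 :=
    (H.sub (GermFR.const c)).congr (fun l x => rfl) (by ring)
  obtain ⟨S, hS, T, hT, h1, _⟩ := H'.small hc
  exact ⟨S, hS, T, hT, h1.congr (fun l _ x _ => by ring)⟩

end Germ

section Robust

open Matrix

theorem psd_factor {ι : Type*} [Fintype ι] {A : Matrix ι ι ℝ} (hA : A.PosSemidef) :
    ∃ B : Matrix ι ι ℝ, A = Bᵀ * B := by
  classical
  open scoped MatrixOrder in
  have h0 : (0 : Matrix ι ι ℝ) ≤ A := hA.nonneg
  open scoped MatrixOrder in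
  obtain ⟨B, hB⟩ := CStarAlgebra.nonneg_iff_eq_star_mul_self.1 h0
  exact ⟨B, by rw [hB]; rfl⟩


/-- lower bound for a continuous, 2-homogeneous function positive off the origin -/
theorem quad_lower {ι : Type*} [Fintype ι] {q : (ι → ℝ) → ℝ} (hq : Continuous q)
    (hom : ∀ (t : ℝ) (w : ι → ℝ), q (t • w) = t ^ 2 * q w)
    (hpos : ∀ w : ι → ℝ, w ≠ 0 → 0 < q w) :
    ∃ c : ℝ, 0 < c ∧ ∀ w : ι → ℝ, c * ∑ i, w i ^ 2 ≤ q w := by
  have hcont : Continuous (fun w : ι → ℝ => ∑ i, w i ^ 2) := by fun_prop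
  have hclosed : IsClosed {w : ι → ℝ | ∑ i, w i ^ 2 = 1} := isClosed_eq hcont continuous_const
  have hbdd : {w : ι → ℝ | ∑ i, w i ^ 2 = 1} ⊆ Metric.closedBall 0 1 := by
    intro w hw
    rw [mem_closedBall_zero_iff, pi_norm_le_iff_of_nonneg zero_le_one]
    intro i
    rw [Real.norm_eq_abs, abs_le_one_iff_mul_self_le_one]
    have h1 : w i ^ 2 ≤ ∑ j, w j ^ 2 :=
      Finset.single_le_sum (f := fun j => w j ^ 2) (fun j _ => sq_nonneg _) (Finset.mem_univ i)
    have h2 : ∑ j, w j ^ 2 = 1 := hw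
    linarith
  have hcomp : IsCompact {w : ι → ℝ | ∑ i, w i ^ 2 = 1} :=
    (isCompact_closedBall (0 : ι → ℝ) 1).of_isClosed_subset hclosed hbdd
  have hnormalize : ∀ w : ι → ℝ, w ≠ 0 →
      (Real.sqrt (∑ i, w i ^ 2))⁻¹ • w ∈ {w : ι → ℝ | ∑ i, w i ^ 2 = 1} ∧ 0 < ∑ i, w i ^ 2 := by
    intro w hw
    have hpos : 0 < ∑ i, w i ^ 2 := by
      obtain ⟨i, hi⟩ := Function.ne_iff.1 hw
      have h1 : w i ^ 2 ≤ ∑ j, w j ^ 2 :=
        Finset.single_le_sum (f := fun j => w j ^ 2) (fun j _ => sq_nonneg _) (Finset.mem_univ i)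
      have h2 : 0 < w i ^ 2 := by
        have : w i ≠ 0 := by simpa using hi
        positivity
      linarith
    refine ⟨?_, hpos⟩
    show ∑ i, ((Real.sqrt (∑ i, w i ^ 2))⁻¹ • w) i ^ 2 = 1
    have : ∀ i, ((Real.sqrt (∑ i, w i ^ 2))⁻¹ • w) i ^ 2 = (∑ i, w i ^ 2)⁻¹ * w i ^ 2 := by
      intro i
      rw [Pi.smul_apply, smul_eq_mul, mul_pow, inv_pow, Real.sq_sqrt hpos.le]
    rw [Finset.sum_congr rfl (fun i _ => this i), ← Finset.mul_sum, inv_mul_cancel₀ hpos.ne']
  rcases Set.eq_empty_or_nonempty {w : ι → ℝ | ∑ i, w i ^ 2 = 1} with hemp | hne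
  · refine ⟨1, one_pos, fun w => ?_⟩
    by_cases hw : w = 0
    · subst hw
      have := hom 0 0
      simp at this
      simp only [Pi.zero_apply, ne_eq, OfNat.ofNat_ne_zero, not_false_eq_true, zero_pow, Finset.sum_const_zero, mul_zero, this, Std.le_refl]
    · have := (hnormalize w hw).1
      rw [hemp] at this
      exact absurd this (Set.notMem_empty _)
  · obtain ⟨w0, hw0, hmin⟩ := hcomp.exists_isMinOn hne hq.continuousOn
    have hw0' : w0 ≠ 0 := by
      rintro rfl
      have : ∑ i : ι, (0 : ι → ℝ) i ^ 2 = 1 := hw0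
      simp only [Pi.zero_apply, ne_eq, OfNat.ofNat_ne_zero, not_false_eq_true, zero_pow, Finset.sum_const_zero, zero_ne_one] at this
    refine ⟨q w0, hpos w0 hw0', fun w => ?_⟩
    by_cases hw : w = 0
    · subst hw
      have := hom 0 0
      simp at this
      simp only [Pi.zero_apply, ne_eq, OfNat.ofNat_ne_zero, not_false_eq_true, zero_pow, Finset.sum_const_zero, mul_zero, this, Std.le_refl]
    · obtain ⟨h1, h2⟩ := hnormalize w hw
      have h3 : q w0 ≤ q ((Real.sqrt (∑ i, w i ^ 2))⁻¹ • w) := hmin h1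
      rw [hom, inv_pow, Real.sq_sqrt h2.le] at h3
      rw [inv_mul_eq_div, le_div_iff₀ h2] at h3
      exact h3

theorem posdef_lower {ι : Type*} [Fintype ι] {C : ι → ι → ℝ}
    (hC : ∀ w : ι → ℝ, w ≠ 0 → 0 < ∑ i, ∑ j, C i j * w i * w j) :
    ∃ c : ℝ, 0 < c ∧ ∀ w : ι → ℝ, c * ∑ i, w i ^ 2 ≤ ∑ i, ∑ j, C i j * w i * w j := by
  refine quad_lower (q := fun w => ∑ i, ∑ j, C i j * w i * w j) (by fun_prop) ?_ hC
  intro t w
  simp only [Pi.smul_apply, smul_eq_mul, Finset.mul_sum]
  refine Finset.sum_congr rfl fun i _ => Finset.sum_congr rfl fun j _ => ?_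
  ring

/-- constant positive semidefinite forms in finite-rank kernels are SOS -/
theorem sos_of_psd_form {L X : Type*} {ι : Type*} [Fintype ι] {C : ι → ι → ℝ}
    (hC : ∀ w : ι → ℝ, 0 ≤ ∑ i, ∑ j, C i j * w i * w j) {v : ι → L → X → ℝ}
    (hv : ∀ i, FR (v i)) :
    Sos (fun l x => ∑ i, ∑ j, C i j * v i l x * v j l x) := by
  classical
  set A : Matrix ι ι ℝ := Matrix.of (fun i j => (C i j + C j i) / 2) with hA
  have hsymm : A.IsHermitian := by
    ext i j
    simp [hA, add_comm]
  have hform : ∀ w : ι → ℝ, ∑ i, ∑ j, A i j * w i * w j = ∑ i, ∑ j, C i j * w i * w j := by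
    intro w
    have h1 : ∑ i, ∑ j, C j i * w i * w j = ∑ i, ∑ j, C i j * w i * w j := by
      rw [Finset.sum_comm]
      refine Finset.sum_congr rfl fun i _ => Finset.sum_congr rfl fun j _ => ?_
      ring
    have h2 : ∑ i, ∑ j, A i j * w i * w j =
        (∑ i, ∑ j, C i j * w i * w j + ∑ i, ∑ j, C j i * w i * w j) / 2 := by
      rw [← Finset.sum_add_distrib, Finset.sum_div]
      refine Finset.sum_congr rfl fun i _ => ?_
      rw [← Finset.sum_add_distrib, Finset.sum_div]
      refine Finset.sum_congr rfl fun j _ => ?_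
      simp only [hA, Matrix.of_apply]
      ring
    rw [h2, h1]; ring
  have hpsd : A.PosSemidef := by
    refine Matrix.PosSemidef.of_dotProduct_mulVec_nonneg hsymm (fun w => ?_)
    have e : star w ⬝ᵥ (A *ᵥ w) = ∑ i, ∑ j, A i j * w i * w j := by
      simp only [dotProduct, Matrix.mulVec, Finset.mul_sum]
      refine Finset.sum_congr rfl fun i _ => Finset.sum_congr rfl fun j _ => ?_
      simp only [Pi.star_apply, star_trivial]
      ring
    rw [e, hform]
    exact hC w
  obtain ⟨B, hB⟩ := psd_factor hpsd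
  refine (Sos.of_fintype (ι := ι) (fun k l x => ∑ i, B k i * v i l x) ?_).congr ?_
  · intro k
    exact FR.sum _ (fun i _ => (hv i).smul (B k i))
  · intro l x
    rw [← hform (fun i => v i l x)]
    have e1 : ∀ i j, A i j = ∑ k, B k i * B k j := by
      intro i j
      rw [hB, Matrix.mul_apply]
      rfl
    have e2 : ∀ k, (∑ i, B k i * v i l x) ^ 2 =
        ∑ i, ∑ j, (B k i * B k j) * v i l x * v j l x := by
      intro k
      rw [sq, Finset.sum_mul_sum]
      refine Finset.sum_congr rfl fun i _ => Finset.sum_congr rfl fun j _ => ?_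
      ring
    symm
    rw [Finset.sum_congr rfl (fun k _ => e2 k), Finset.sum_comm]
    refine Finset.sum_congr rfl fun i _ => ?_
    rw [Finset.sum_comm]
    refine Finset.sum_congr rfl fun j _ => ?_
    rw [e1, Finset.sum_mul, Finset.sum_mul]

/-- `ε/2 (u² + w²) + e u w` is SOS if `ε ± e` are -/
theorem SosOn.cross {L X : Type*} {S : Set L} {T : Set X} {e u w : L → X → ℝ} {ε : ℝ}
    (h1 : SosOn S T (fun l x => ε + e l x)) (h2 : SosOn S T (fun l x => ε - e l x))
    (hu : FR u) (hw : FR w) :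
    SosOn S T (fun l x => ε / 2 * (u l x ^ 2 + w l x ^ 2) + e l x * u l x * w l x) := by
  have h3 := ((h1.mul (SosOn.sq (S := S) (T := T) (hu.add hw))).add
    (h2.mul (SosOn.sq (S := S) (T := T) (hu.sub hw)))).smul (c := 1 / 4) (by norm_num)
  refine h3.congr ?_
  intro l _ x _
  ring

/-- **Robustness theorem.** If the matrix kernel `M` has coefficients that converge along the
filters to a positive definite form then `vᵀ M v` is SOS on a product of elements of the filters,
for each vector `v` of finite-rank kernels. -/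
theorem robust {L X : Type*} {F : Filter L} {G : Filter X} {ι : Type*} [Fintype ι]
    {C : ι → ι → ℝ} (hC : ∀ w : ι → ℝ, w ≠ 0 → 0 < ∑ i, ∑ j, C i j * w i * w j)
    {M : ι → ι → L → X → ℝ} (hM : ∀ i j, GermFR F G (M i j) (C i j))
    {v : ι → L → X → ℝ} (hv : ∀ i, FR (v i)) :
    ∃ S ∈ F, ∃ T ∈ G, SosOn S T (fun l x => ∑ i, ∑ j, M i j l x * v i l x * v j l x) := by
  classical
  obtain ⟨c, hc, hlow⟩ := posdef_lower hC
  set N : ℝ := (Fintype.card ι : ℝ) + 1 with hN
  have hNpos : 0 < N := by (clear * -; positivity)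
  set ε : ℝ := c / N with hε
  have hεpos : 0 < ε := by positivity
  have hsmall : ∀ i j, ∃ S ∈ F, ∃ T ∈ G,
      SosOn S T (fun l x => ε + (M i j l x - C i j)) ∧
      SosOn S T (fun l x => ε - (M i j l x - C i j)) := by
    intro i j
    have : GermFR F G (fun l x => M i j l x - C i j) 0 :=
      ((hM i j).sub (GermFR.const (C i j))).congr (fun l x => rfl) (by ring)
    exact this.small hεpos
  choose S hS T hT h1 h2 using hsmall
  refine ⟨⋂ i, ⋂ j, S i j, ?_, ⋂ i, ⋂ j, T i j, ?_, ?_⟩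
  · exact iInter_mem.2 fun i => iInter_mem.2 fun j => hS i j
  · exact iInter_mem.2 fun i => iInter_mem.2 fun j => hT i j
  · set S' : Set L := ⋂ i, ⋂ j, S i j with hS'
    set T' : Set X := ⋂ i, ⋂ j, T i j with hT'
    have k1 : ∀ i j, SosOn S' T' (fun l x => ε / 2 * (v i l x ^ 2 + v j l x ^ 2) +
        (M i j l x - C i j) * v i l x * v j l x) := by
      intro i j
      have s1 : S' ⊆ S i j := (Set.iInter_subset _ i).trans (Set.iInter_subset _ j)
      have s2 : T' ⊆ T i j := (Set.iInter_subset _ i).trans (Set.iInter_subset _ j)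
      exact SosOn.cross ((h1 i j).mono s1 s2) ((h2 i j).mono s1 s2) (hv i) (hv j)
    have k2 : SosOn S' T' (fun l x => ∑ i, ∑ j,
        (ε / 2 * (v i l x ^ 2 + v j l x ^ 2) + (M i j l x - C i j) * v i l x * v j l x)) :=
      SosOn.sum _ (fun i _ => SosOn.sum _ (fun j _ => k1 i j))
    have k3 : SosOn S' T' (fun l x => ∑ i, ∑ j,
        (C i j - (if i = j then c else 0)) * v i l x * v j l x) := by
      refine (sos_of_psd_form (fun w => ?_) hv).sosOn S' T'
      have e1 : ∑ i, ∑ j, (C i j - (if i = j then c else 0)) * w i * w j =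
          ∑ i, ∑ j, C i j * w i * w j - c * ∑ i, w i ^ 2 := by
        rw [Finset.mul_sum, ← Finset.sum_sub_distrib]
        refine Finset.sum_congr rfl fun i _ => ?_
        have : ∑ j, (C i j - (if i = j then c else 0)) * w i * w j =
            ∑ j, C i j * w i * w j - ∑ j, (if i = j then c else 0) * w i * w j := by
          rw [← Finset.sum_sub_distrib]
          refine Finset.sum_congr rfl fun j _ => ?_
          ring
        rw [this]
        simp only [ite_mul, zero_mul, Finset.sum_ite_eq, Finset.mem_univ, ↓reduceIte, sq, sub_right_inj]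
        ring
      rw [e1]
      linarith only [hlow w]
    have k4 : SosOn S' T' (fun l x => (c - ε * (Fintype.card ι : ℝ)) * ∑ i, v i l x ^ 2) := by
      refine SosOn.smul ?_ (SosOn.sum _ (fun i _ => SosOn.sq (hv i)))
      rw [hε, div_mul_eq_mul_div, sub_nonneg, div_le_iff₀ hNpos]
      have : (Fintype.card ι : ℝ) ≤ N := by simp only [hN, le_add_iff_nonneg_right, zero_le_one]
      nlinarith only [hc]
    refine ((k2.add k3).add k4).congr ?_
    intro l _ x _
    have e1 : ∑ i, ∑ j, (ε / 2 * (v i l x ^ 2 + v j l x ^ 2) +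
        (M i j l x - C i j) * v i l x * v j l x) +
        ∑ i, ∑ j, (C i j - (if i = j then c else 0)) * v i l x * v j l x =
        ∑ i, ∑ j, M i j l x * v i l x * v j l x +
        ∑ i, ∑ j, (ε / 2 * (v i l x ^ 2 + v j l x ^ 2)) -
        ∑ i, ∑ j, (if i = j then c else 0) * v i l x * v j l x := by
      simp only [← Finset.sum_add_distrib, ← Finset.sum_sub_distrib]
      refine Finset.sum_congr rfl fun i _ => Finset.sum_congr rfl fun j _ => ?_
      ring
    have e2 : ∑ i, ∑ j, (ε / 2 * (v i l x ^ 2 + v j l x ^ 2)) =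
        ε * (Fintype.card ι : ℝ) * ∑ i, v i l x ^ 2 := by
      have : ∀ i, ∑ j, (ε / 2 * (v i l x ^ 2 + v j l x ^ 2)) =
          ε / 2 * (Fintype.card ι : ℝ) * v i l x ^ 2 + ε / 2 * ∑ j, v j l x ^ 2 := by
        intro i
        rw [← Finset.mul_sum, Finset.sum_add_distrib, Finset.sum_const, Finset.card_univ,
          nsmul_eq_mul]
        ring
      rw [Finset.sum_congr rfl (fun i _ => this i), Finset.sum_add_distrib, ← Finset.mul_sum,
        Finset.sum_const, Finset.card_univ, nsmul_eq_mul]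
      ring
    have e3 : ∑ i, ∑ j, (if i = j then c else 0) * v i l x * v j l x =
        c * ∑ i, v i l x ^ 2 := by
      rw [Finset.mul_sum]
      refine Finset.sum_congr rfl fun i _ => ?_
      simp only [ite_mul, zero_mul, Finset.sum_ite_eq, Finset.mem_univ, ↓reduceIte, sq]
      ring
    rw [e1, e2, e3]
    ring

end Robust

end Vale.Agent.P256
end

section

/-! Second order Taylor expansion of a polynomial as a kernel. -/

namespace Vale.Agent.P256

open Filter Topology

section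

variable {σ : Type*} [Fintype σ] [DecidableEq σ]

open MvPolynomial

/-- Exact second order Taylor expansion with finite-rank remainder coefficients.  The first
argument of the kernels is the base point `w'`, the second one is `w`. -/
theorem taylor2 (f : MvPolynomial σ ℝ) (w0 : σ → ℝ) :
    ∃ M : σ → σ → (σ → ℝ) → (σ → ℝ) → ℝ,
      (∀ i j, GermFR (𝓝 w0) (𝓝 w0) (M i j) (1 / 2 * eval w0 (pderiv i (pderiv j f)))) ∧
      ∀ w' w : σ → ℝ, eval w f = eval w' f + ∑ i, eval w' (pderiv i f) * (w i - w' i) +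
        ∑ i, ∑ j, M i j w' w * (w i - w' i) * (w j - w' j) := by
  have hev : ∀ (g : MvPolynomial σ ℝ), Tendsto (fun w : σ → ℝ => eval w g) (𝓝 w0)
      (𝓝 (eval w0 g)) := by
    intro g
    exact (MvPolynomial.continuous_eval g).tendsto w0
  induction f using MvPolynomial.induction_on with
  | C a =>
    refine ⟨fun _ _ _ _ => 0, fun i j => ?_, fun w' w => ?_⟩
    · simpa only [one_div, derivation_C, map_zero, mul_zero] using (GermFR.const (F := 𝓝 w0) (G := 𝓝 w0) 0)
    · simp only [eval_C, derivation_C, map_zero, zero_mul, Finset.sum_const_zero, add_zero]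
  | add p q hp hq =>
    obtain ⟨M, hM, eM⟩ := hp
    obtain ⟨M', hM', eM'⟩ := hq
    refine ⟨fun i j w' w => M i j w' w + M' i j w' w, fun i j => ?_, fun w' w => ?_⟩
    · refine ((hM i j).add (hM' i j)).congr (fun _ _ => rfl) ?_
      simp only [map_add]; ring
    · have h1 : ∑ i, ∑ j, (M i j w' w + M' i j w' w) * (w i - w' i) * (w j - w' j) =
          ∑ i, ∑ j, M i j w' w * (w i - w' i) * (w j - w' j) +
          ∑ i, ∑ j, M' i j w' w * (w i - w' i) * (w j - w' j) := by
        simp only [← Finset.sum_add_distrib]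
        refine Finset.sum_congr rfl fun i _ => Finset.sum_congr rfl fun j _ => ?_
        ring
      have h2 : ∑ i, eval w' (pderiv i (p + q)) * (w i - w' i) =
          ∑ i, eval w' (pderiv i p) * (w i - w' i) + ∑ i, eval w' (pderiv i q) * (w i - w' i) := by
        rw [← Finset.sum_add_distrib]
        refine Finset.sum_congr rfl fun i _ => ?_
        rw [map_add, map_add]; ring
      rw [h1, h2, map_add, map_add, eM w' w, eM' w' w]
      ring
  | mul_X p k hp =>
    obtain ⟨M, hM, eM⟩ := hp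
    refine ⟨fun i j w' w => w k * M i j w' w + 1 / 2 *
      (eval w' (pderiv i p) * (if j = k then 1 else 0) +
        eval w' (pderiv j p) * (if i = k then 1 else 0)), fun i j => ?_, fun w' w => ?_⟩
    · have hk : GermFR (𝓝 w0) (𝓝 w0) (fun (_ : σ → ℝ) (w : σ → ℝ) => w k) (w0 k) :=
        GermFR.right ((continuous_apply k).tendsto w0)
      have h1 : GermFR (𝓝 w0) (𝓝 w0) (fun (w' : σ → ℝ) (_ : σ → ℝ) => eval w' (pderiv i p))
          (eval w0 (pderiv i p)) := GermFR.left (hev _)
      have h2 : GermFR (𝓝 w0) (𝓝 w0) (fun (w' : σ → ℝ) (_ : σ → ℝ) => eval w' (pderiv j p))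
          (eval w0 (pderiv j p)) := GermFR.left (hev _)
      refine ((hk.mul (hM i j)).add (((h1.mul (GermFR.const (if j = k then (1:ℝ) else 0))).add
        (h2.mul (GermFR.const (if i = k then (1:ℝ) else 0)))).smul (1 / 2))).congr
          (fun _ _ => rfl) ?_
      simp only [Derivation.leibniz, pderiv_X, Pi.single_apply, smul_eq_mul, map_add, map_mul,
        eval_X]
      by_cases h1 : j = k
      · by_cases h2 : i = k
        · subst h1; subst h2
          simp only [if_true, map_one]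
          ring_nf
          simp only [Derivation.map_one_eq_zero, map_zero, mul_zero, one_div, zero_mul, zero_add]
          try ring
        · subst h1
          simp only [one_div, ↓reduceIte, Derivation.map_one_eq_zero, map_zero, mul_zero, map_one, one_mul, zero_add, Ne.symm h2, add_zero, mul_one, h2]
          try ring
      · by_cases h2 : i = k
        · subst h2
          simp only [one_div, Ne.symm h1, ↓reduceIte, map_zero, mul_zero, zero_mul, add_zero, map_one, mul_one, zero_add, h1]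
          try ring
        · simp only [one_div, Ne.symm h1, ↓reduceIte, map_zero, mul_zero, zero_mul, add_zero, Ne.symm h2, zero_add, h1, h2]
          try ring
    · have d1 : ∀ i, eval w' (pderiv i (p * X k)) =
          eval w' p * (if i = k then 1 else 0) + w' k * eval w' (pderiv i p) := by
        intro i
        simp only [Derivation.leibniz, pderiv_X, Pi.single_apply, smul_eq_mul, map_add, map_mul, eval_X]
        by_cases h : i = k
        · subst h; simp
        · simp [h, Ne.symm h]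
      have d2 : ∑ i, eval w' (pderiv i (p * X k)) * (w i - w' i) =
          eval w' p * (w k - w' k) + w' k * ∑ i, eval w' (pderiv i p) * (w i - w' i) := by
        rw [Finset.sum_congr rfl (fun i _ => by rw [d1 i]), Finset.mul_sum]
        have : ∀ i, (eval w' p * (if i = k then 1 else 0) + w' k * eval w' (pderiv i p)) *
            (w i - w' i) = (if i = k then eval w' p * (w i - w' i) else 0) +
            w' k * (eval w' (pderiv i p) * (w i - w' i)) := by
          intro i; split_ifs <;> ring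
        rw [Finset.sum_congr rfl (fun i _ => this i), Finset.sum_add_distrib]
        simp only [Finset.sum_ite_eq', Finset.mem_univ, ↓reduceIte]
      have d3 : ∑ i, ∑ j, (w k * M i j w' w + 1 / 2 *
          (eval w' (pderiv i p) * (if j = k then 1 else 0) +
          eval w' (pderiv j p) * (if i = k then 1 else 0))) * (w i - w' i) * (w j - w' j) =
          w k * ∑ i, ∑ j, M i j w' w * (w i - w' i) * (w j - w' j) +
          (w k - w' k) * ∑ i, eval w' (pderiv i p) * (w i - w' i) := by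
        have e1 : ∑ i, ∑ j, (w k * M i j w' w + 1 / 2 *
          (eval w' (pderiv i p) * (if j = k then 1 else 0) +
          eval w' (pderiv j p) * (if i = k then 1 else 0))) * (w i - w' i) * (w j - w' j) =
          w k * ∑ i, ∑ j, M i j w' w * (w i - w' i) * (w j - w' j) +
          1 / 2 * ∑ i, ∑ j, (if j = k then eval w' (pderiv i p) * (w i - w' i) * (w j - w' j)
            else 0) +
          1 / 2 * ∑ i, ∑ j, (if i = k then eval w' (pderiv j p) * (w i - w' i) * (w j - w' j)
            else 0) := by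
          simp only [Finset.mul_sum, ← Finset.sum_add_distrib]
          refine Finset.sum_congr rfl fun i _ => Finset.sum_congr rfl fun j _ => ?_
          split_ifs <;> ring
        have e2 : ∑ i, ∑ j, (if j = k then eval w' (pderiv i p) * (w i - w' i) * (w j - w' j)
            else 0) = (w k - w' k) * ∑ i, eval w' (pderiv i p) * (w i - w' i) := by
          rw [Finset.mul_sum]
          refine Finset.sum_congr rfl fun i _ => ?_
          simp only [Finset.sum_ite_eq', Finset.mem_univ, ↓reduceIte]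
          ring
        have e3 : ∑ i, ∑ j, (if i = k then eval w' (pderiv j p) * (w i - w' i) * (w j - w' j)
            else 0) = (w k - w' k) * ∑ i, eval w' (pderiv i p) * (w i - w' i) := by
          rw [Finset.sum_comm, Finset.mul_sum]
          refine Finset.sum_congr rfl fun i _ => ?_
          simp only [Finset.sum_ite_eq', Finset.mem_univ, ↓reduceIte]
          ring
        rw [e1, e2, e3]; ring
      rw [d2, d3, map_mul, map_mul, eval_X, eval_X, eM w' w]
      ring

end

end Vale.Agent.P256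
end

section

/-! Finite-rank kernels with continuous coefficients, and functions with finite-rank second order
Taylor expansions. -/

namespace Vale.Agent.P256

open Filter Topology

section CK

variable {L X : Type*} [TopologicalSpace L] [TopologicalSpace X]

/-- finite-rank kernels whose coefficients are continuous at the points of `D`, `E` -/
def CK (D : Set L) (E : Set X) (h : L → X → ℝ) : Prop :=
  ∃ (n : ℕ) (a : Fin n → L → ℝ) (f : Fin n → X → ℝ),
    (∀ k, ∀ l ∈ D, ContinuousAt (a k) l) ∧ (∀ k, ∀ x ∈ E, ContinuousAt (f k) x) ∧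
    ∀ l x, h l x = ∑ k, a k l * f k x

variable {D : Set L} {E : Set X}

theorem CK.germ {h : L → X → ℝ} (H : CK D E h) {l0 : L} {x0 : X} (hl : l0 ∈ D) (hx : x0 ∈ E) :
    GermFR (𝓝 l0) (𝓝 x0) h (h l0 x0) := by
  obtain ⟨n, a, f, ha, hf, hh⟩ := H
  exact ⟨n, a, f, fun k => a k l0, fun k => f k x0, fun k => ha k l0 hl, fun k => hf k x0 hx,
    hh, hh l0 x0⟩

theorem CK.congr {h h' : L → X → ℝ} (H : CK D E h) (e : ∀ l x, h' l x = h l x) : CK D E h' := by
  obtain ⟨n, a, f, ha, hf, hh⟩ := H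
  exact ⟨n, a, f, ha, hf, fun l x => (e l x).trans (hh l x)⟩

theorem CK.of_fintype {ι : Type*} [Fintype ι] (a : ι → L → ℝ) (f : ι → X → ℝ)
    (ha : ∀ k, ∀ l ∈ D, ContinuousAt (a k) l) (hf : ∀ k, ∀ x ∈ E, ContinuousAt (f k) x) :
    CK D E (fun l x => ∑ k, a k l * f k x) := by
  classical
  refine ⟨Fintype.card ι, fun k => a ((Fintype.equivFin ι).symm k),
    fun k => f ((Fintype.equivFin ι).symm k), fun k => ha _, fun k => hf _, fun l x => ?_⟩
  exact (Equiv.sum_comp (Fintype.equivFin ι).symm (fun k => a k l * f k x)).symm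

theorem CK.mulfun {a : L → ℝ} {f : X → ℝ} (ha : ∀ l ∈ D, ContinuousAt a l)
    (hf : ∀ x ∈ E, ContinuousAt f x) : CK D E (fun l x => a l * f x) :=
  ⟨1, fun _ => a, fun _ => f, fun _ => ha, fun _ => hf, fun l x => by simp⟩

theorem CK.left {a : L → ℝ} (ha : ∀ l ∈ D, ContinuousAt a l) :
    CK D E (fun l (_ : X) => a l) :=
  (CK.mulfun ha (f := fun _ : X => 1) (fun _ _ => continuousAt_const)).congr
    (fun l x => by simp)

theorem CK.right {f : X → ℝ} (hf : ∀ x ∈ E, ContinuousAt f x) :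
    CK D E (fun (_ : L) x => f x) :=
  (CK.mulfun (a := fun _ : L => 1) (fun _ _ => continuousAt_const) hf).congr
    (fun l x => by simp)

theorem CK.const (c : ℝ) : CK D E (fun (_ : L) (_ : X) => c) :=
  CK.left (fun _ _ => continuousAt_const)

theorem CK.add {h h' : L → X → ℝ} (H : CK D E h) (H' : CK D E h') :
    CK D E (fun l x => h l x + h' l x) := by
  obtain ⟨n, a, f, ha, hf, hh⟩ := H
  obtain ⟨n', a', f', ha', hf', hh'⟩ := H'
  refine (CK.of_fintype (ι := Fin n ⊕ Fin n') (Sum.elim a a') (Sum.elim f f') ?_ ?_).congr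
    (fun l x => ?_)
  · rintro (k | k)
    · exact ha k
    · exact ha' k
  · rintro (k | k)
    · exact hf k
    · exact hf' k
  · simp only [hh, hh', Fintype.sum_sum_type, Sum.elim_inl, Sum.elim_inr]

theorem CK.mul {h h' : L → X → ℝ} (H : CK D E h) (H' : CK D E h') :
    CK D E (fun l x => h l x * h' l x) := by
  obtain ⟨n, a, f, ha, hf, hh⟩ := H
  obtain ⟨n', a', f', ha', hf', hh'⟩ := H'
  refine (CK.of_fintype (ι := Fin n × Fin n') (fun k l => a k.1 l * a' k.2 l)
    (fun k x => f k.1 x * f' k.2 x) ?_ ?_).congr (fun l x => ?_)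
  · intro k l hl; exact (ha k.1 l hl).mul (ha' k.2 l hl)
  · intro k x hx; exact (hf k.1 x hx).mul (hf' k.2 x hx)
  · rw [hh, hh', Finset.sum_mul_sum, Fintype.sum_prod_type]
    refine Finset.sum_congr rfl fun i _ => Finset.sum_congr rfl fun j _ => ?_
    ring

theorem CK.sum {ι : Type*} (s : Finset ι) {h : ι → L → X → ℝ} (H : ∀ i ∈ s, CK D E (h i)) :
    CK D E (fun l x => ∑ i ∈ s, h i l x) := by
  classical
  induction s using Finset.induction_on with
  | empty => simpa using (CK.const (D := D) (E := E) 0)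
  | insert i s hi ih =>
    have h1 := H i (Finset.mem_insert_self i s)
    have h2 := ih (fun j hj => H j (Finset.mem_insert_of_mem hj))
    refine (h1.add h2).congr (fun l x => ?_)
    rw [Finset.sum_insert hi]

theorem CK.smul {h : L → X → ℝ} (c : ℝ) (H : CK D E h) : CK D E (fun l x => c * h l x) :=
  (CK.const c).mul H

theorem CK.neg {h : L → X → ℝ} (H : CK D E h) : CK D E (fun l x => - h l x) :=
  (H.smul (-1)).congr (fun l x => by ring)

theorem CK.sub {h h' : L → X → ℝ} (H : CK D E h) (H' : CK D E h') :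
    CK D E (fun l x => h l x - h' l x) :=
  (H.add H'.neg).congr (fun l x => by ring)

end CK

section T2

variable {σ : Type*} [Fintype σ]

/-- functions with a finite-rank second order Taylor expansion on `D` -/
structure T2 (D : Set (σ → ℝ)) (f : (σ → ℝ) → ℝ) (df : σ → (σ → ℝ) → ℝ) : Prop where
  cont : ∀ w ∈ D, ContinuousAt f w
  dcont : ∀ i, ∀ w ∈ D, ContinuousAt (df i) w
  tay : ∃ R : σ → σ → (σ → ℝ) → (σ → ℝ) → ℝ, (∀ i j, CK D D (R i j)) ∧
    ∀ w' ∈ D, ∀ w ∈ D, f w = f w' + ∑ i, df i w' * (w i - w' i) +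
      ∑ i, ∑ j, R i j w' w * (w i - w' i) * (w j - w' j)

variable {D : Set (σ → ℝ)}

omit [Fintype σ] in
theorem CK.coord (i : σ) : CK D D (fun (w' w : σ → ℝ) => w i - w' i) :=
  (CK.right (fun _ _ => (continuous_apply i).continuousAt)).sub
    (CK.left (fun _ _ => (continuous_apply i).continuousAt))

/-- first order expansion -/
theorem T2.first {f : (σ → ℝ) → ℝ} {df : σ → (σ → ℝ) → ℝ} (H : T2 D f df) :
    ∃ P : σ → (σ → ℝ) → (σ → ℝ) → ℝ, (∀ i, CK D D (P i)) ∧
      ∀ w' ∈ D, ∀ w ∈ D, f w - f w' = ∑ i, P i w' w * (w i - w' i) := by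
  obtain ⟨R, hR, e⟩ := H.tay
  refine ⟨fun i w' w => df i w' + ∑ j, R i j w' w * (w j - w' j), fun i => ?_,
    fun w' hw' w hw => ?_⟩
  · exact (CK.left (H.dcont i)).add (CK.sum _ (fun j _ => (hR i j).mul (CK.coord j)))
  · rw [e w' hw' w hw]
    have : ∑ i, (df i w' + ∑ j, R i j w' w * (w j - w' j)) * (w i - w' i) =
        ∑ i, df i w' * (w i - w' i) + ∑ i, ∑ j, R i j w' w * (w i - w' i) * (w j - w' j) := by
      rw [← Finset.sum_add_distrib]
      refine Finset.sum_congr rfl fun i _ => ?_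
      rw [add_mul, Finset.sum_mul]
      congr 1
      refine Finset.sum_congr rfl fun j _ => ?_
      ring
    rw [this]; ring

theorem T2.mul {f g : (σ → ℝ) → ℝ} {df dg : σ → (σ → ℝ) → ℝ} (H : T2 D f df) (H' : T2 D g dg) :
    T2 D (fun w => f w * g w) (fun i w => g w * df i w + f w * dg i w) := by
  obtain ⟨R, hR, e⟩ := H.tay
  obtain ⟨S, hS, e'⟩ := H'.tay
  obtain ⟨P, hP, eP⟩ := H.first
  refine ⟨fun w hw => (H.cont w hw).mul (H'.cont w hw), fun i w hw =>
    ((H'.cont w hw).mul (H.dcont i w hw)).add ((H.cont w hw).mul (H'.dcont i w hw)),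
    fun i j w' w => g w' * R i j w' w + P i w' w * dg j w' + f w * S i j w' w,
    fun i j => ?_, fun w' hw' w hw => ?_⟩
  · exact (((CK.left H'.cont).mul (hR i j)).add ((hP i).mul (CK.left (H'.dcont j)))).add
      ((CK.right H.cont).mul (hS i j))
  · have h1 : ∑ i, ∑ j, (g w' * R i j w' w + P i w' w * dg j w' + f w * S i j w' w) *
        (w i - w' i) * (w j - w' j) =
        g w' * ∑ i, ∑ j, R i j w' w * (w i - w' i) * (w j - w' j) +
        (∑ i, P i w' w * (w i - w' i)) * (∑ j, dg j w' * (w j - w' j)) +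
        f w * ∑ i, ∑ j, S i j w' w * (w i - w' i) * (w j - w' j) := by
      rw [Finset.sum_mul_sum]
      simp only [Finset.mul_sum, ← Finset.sum_add_distrib]
      refine Finset.sum_congr rfl fun i _ => Finset.sum_congr rfl fun j _ => ?_
      ring
    have h2 : ∑ i, (g w' * df i w' + f w' * dg i w') * (w i - w' i) =
        g w' * ∑ i, df i w' * (w i - w' i) + f w' * ∑ i, dg i w' * (w i - w' i) := by
      simp only [Finset.mul_sum, ← Finset.sum_add_distrib]
      refine Finset.sum_congr rfl fun i _ => ?_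
      ring
    have k1 := e w' hw' w hw
    have k2 := e' w' hw' w hw
    rw [h1, h2, ← eP w' hw' w hw]
    have k3 : ∑ i, ∑ j, R i j w' w * (w i - w' i) * (w j - w' j) =
        f w - f w' - ∑ i, df i w' * (w i - w' i) := by linarith only [k1]
    have k4 : ∑ i, ∑ j, S i j w' w * (w i - w' i) * (w j - w' j) =
        g w - g w' - ∑ i, dg i w' * (w i - w' i) := by linarith only [k2]
    rw [k3, k4]
    ring

theorem T2.inv {f : (σ → ℝ) → ℝ} {df : σ → (σ → ℝ) → ℝ} (H : T2 D f df)
    (h0 : ∀ w ∈ D, f w ≠ 0) :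
    T2 D (fun w => (f w)⁻¹) (fun i w => - ((f w)⁻¹ * (f w)⁻¹ * df i w)) := by
  obtain ⟨R, hR, e⟩ := H.tay
  obtain ⟨P, hP, eP⟩ := H.first
  have hinv : ∀ w ∈ D, ContinuousAt (fun w => (f w)⁻¹) w := fun w hw =>
    (H.cont w hw).inv₀ (h0 w hw)
  refine ⟨hinv, fun i w hw => (((hinv w hw).mul (hinv w hw)).mul (H.dcont i w hw)).neg,
    fun i j w' w => (f w)⁻¹ * (f w')⁻¹ * ((f w')⁻¹ * df i w' * P j w' w - R i j w' w),
    fun i j => ?_, fun w' hw' w hw => ?_⟩
  · exact ((CK.right hinv).mul (CK.left hinv)).mul ((((CK.left hinv).mul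
      (CK.left (H.dcont i))).mul (hP j)).sub (hR i j))
  · have h1 : ∑ i, ∑ j, (f w)⁻¹ * (f w')⁻¹ * ((f w')⁻¹ * df i w' * P j w' w - R i j w' w) *
        (w i - w' i) * (w j - w' j) =
        (f w)⁻¹ * (f w')⁻¹ * ((f w')⁻¹ * ((∑ i, df i w' * (w i - w' i)) *
          (∑ j, P j w' w * (w j - w' j))) -
          ∑ i, ∑ j, R i j w' w * (w i - w' i) * (w j - w' j)) := by
      rw [Finset.sum_mul_sum]
      simp only [Finset.mul_sum, ← Finset.sum_sub_distrib]
      refine Finset.sum_congr rfl fun i _ => Finset.sum_congr rfl fun j _ => ?_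
      ring
    have h2 : ∑ i, - ((f w')⁻¹ * (f w')⁻¹ * df i w') * (w i - w' i) =
        - ((f w')⁻¹ * (f w')⁻¹) * ∑ i, df i w' * (w i - w' i) := by
      rw [Finset.mul_sum]
      refine Finset.sum_congr rfl fun i _ => ?_
      ring
    have k1 := e w' hw' w hw
    have k3 : ∑ i, ∑ j, R i j w' w * (w i - w' i) * (w j - w' j) =
        f w - f w' - ∑ i, df i w' * (w i - w' i) := by linarith only [k1]
    rw [h1, h2, ← eP w' hw' w hw, k3]
    have n1 := h0 w hw
    have n2 := h0 w' hw'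
    field_simp
    ring

open MvPolynomial in
theorem T2.poly [DecidableEq σ] (f : MvPolynomial σ ℝ) :
    T2 D (fun w => eval w f) (fun i w => eval w (pderiv i f)) := by
  have hev : ∀ (g : MvPolynomial σ ℝ), ∀ w ∈ D, ContinuousAt (fun w : σ → ℝ => eval w g) w := by
    intro g w _
    exact (MvPolynomial.continuous_eval g).continuousAt
  refine ⟨hev f, fun i => hev _, ?_⟩
  induction f using MvPolynomial.induction_on with
  | C a =>
    refine ⟨fun _ _ _ _ => 0, fun i j => CK.const 0, fun w' _ w _ => ?_⟩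
    simp only [eval_C, derivation_C, map_zero, zero_mul, Finset.sum_const_zero, add_zero]
  | add p q hp hq =>
    obtain ⟨M, hM, eM⟩ := hp
    obtain ⟨M', hM', eM'⟩ := hq
    refine ⟨fun i j w' w => M i j w' w + M' i j w' w, fun i j => (hM i j).add (hM' i j),
      fun w' hw' w hw => ?_⟩
    have h1 : ∑ i, ∑ j, (M i j w' w + M' i j w' w) * (w i - w' i) * (w j - w' j) =
        ∑ i, ∑ j, M i j w' w * (w i - w' i) * (w j - w' j) +
        ∑ i, ∑ j, M' i j w' w * (w i - w' i) * (w j - w' j) := by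
      simp only [← Finset.sum_add_distrib]
      refine Finset.sum_congr rfl fun i _ => Finset.sum_congr rfl fun j _ => ?_
      ring
    have h2 : ∑ i, eval w' (pderiv i (p + q)) * (w i - w' i) =
        ∑ i, eval w' (pderiv i p) * (w i - w' i) + ∑ i, eval w' (pderiv i q) * (w i - w' i) := by
      rw [← Finset.sum_add_distrib]
      refine Finset.sum_congr rfl fun i _ => ?_
      rw [map_add, map_add]; ring
    rw [h1, h2, map_add, map_add, eM w' hw' w hw, eM' w' hw' w hw]
    ring
  | mul_X p k hp =>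
    obtain ⟨M, hM, eM⟩ := hp
    refine ⟨fun i j w' w => w k * M i j w' w + 1 / 2 *
      (eval w' (pderiv i p) * (if j = k then 1 else 0) +
        eval w' (pderiv j p) * (if i = k then 1 else 0)), fun i j => ?_,
        fun w' hw' w hw => ?_⟩
    · have hk : CK D D (fun (_ : σ → ℝ) (w : σ → ℝ) => w k) :=
        CK.right (fun _ _ => (continuous_apply k).continuousAt)
      exact (hk.mul (hM i j)).add ((((CK.left (hev _)).mul (CK.const _)).add
        ((CK.left (hev _)).mul (CK.const _))).smul (1 / 2))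
    · have d1 : ∀ i, eval w' (pderiv i (p * X k)) =
          eval w' p * (if i = k then 1 else 0) + w' k * eval w' (pderiv i p) := by
        intro i
        simp only [Derivation.leibniz, pderiv_X, Pi.single_apply, smul_eq_mul, map_add, map_mul,
          eval_X]
        by_cases h : i = k
        · subst h; simp
        · simp [h, Ne.symm h]
      have d2 : ∑ i, eval w' (pderiv i (p * X k)) * (w i - w' i) =
          eval w' p * (w k - w' k) + w' k * ∑ i, eval w' (pderiv i p) * (w i - w' i) := by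
        rw [Finset.sum_congr rfl (fun i _ => by rw [d1 i]), Finset.mul_sum]
        have : ∀ i, (eval w' p * (if i = k then 1 else 0) + w' k * eval w' (pderiv i p)) *
            (w i - w' i) = (if i = k then eval w' p * (w i - w' i) else 0) +
            w' k * (eval w' (pderiv i p) * (w i - w' i)) := by
          intro i; split_ifs <;> ring
        rw [Finset.sum_congr rfl (fun i _ => this i), Finset.sum_add_distrib]
        simp only [Finset.sum_ite_eq', Finset.mem_univ, ↓reduceIte]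
      have d3 : ∑ i, ∑ j, (w k * M i j w' w + 1 / 2 *
          (eval w' (pderiv i p) * (if j = k then 1 else 0) +
          eval w' (pderiv j p) * (if i = k then 1 else 0))) * (w i - w' i) * (w j - w' j) =
          w k * ∑ i, ∑ j, M i j w' w * (w i - w' i) * (w j - w' j) +
          (w k - w' k) * ∑ i, eval w' (pderiv i p) * (w i - w' i) := by
        have e1 : ∑ i, ∑ j, (w k * M i j w' w + 1 / 2 *
          (eval w' (pderiv i p) * (if j = k then 1 else 0) +
          eval w' (pderiv j p) * (if i = k then 1 else 0))) * (w i - w' i) * (w j - w' j) =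
          w k * ∑ i, ∑ j, M i j w' w * (w i - w' i) * (w j - w' j) +
          1 / 2 * ∑ i, ∑ j, (if j = k then eval w' (pderiv i p) * (w i - w' i) * (w j - w' j)
            else 0) +
          1 / 2 * ∑ i, ∑ j, (if i = k then eval w' (pderiv j p) * (w i - w' i) * (w j - w' j)
            else 0) := by
          simp only [Finset.mul_sum, ← Finset.sum_add_distrib]
          refine Finset.sum_congr rfl fun i _ => Finset.sum_congr rfl fun j _ => ?_
          split_ifs <;> ring
        have e2 : ∑ i, ∑ j, (if j = k then eval w' (pderiv i p) * (w i - w' i) * (w j - w' j)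
            else 0) = (w k - w' k) * ∑ i, eval w' (pderiv i p) * (w i - w' i) := by
          rw [Finset.mul_sum]
          refine Finset.sum_congr rfl fun i _ => ?_
          simp only [Finset.sum_ite_eq', Finset.mem_univ, ↓reduceIte]
          ring
        have e3 : ∑ i, ∑ j, (if i = k then eval w' (pderiv j p) * (w i - w' i) * (w j - w' j)
            else 0) = (w k - w' k) * ∑ i, eval w' (pderiv i p) * (w i - w' i) := by
          rw [Finset.sum_comm, Finset.mul_sum]
          refine Finset.sum_congr rfl fun i _ => ?_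
          simp only [Finset.sum_ite_eq', Finset.mem_univ, ↓reduceIte]
          ring
        rw [e1, e2, e3]; ring
      rw [d2, d3, map_mul, map_mul, eval_X, eval_X, eM w' hw' w hw]
      ring

end T2

end Vale.Agent.P256
end

section

/-! Linear and quadratic forms in a vector of kernels, with finite-rank coefficients. -/

namespace Vale.Agent.P256

open Filter Topology

section Form

variable {L X : Type*} [TopologicalSpace L] [TopologicalSpace X] {ι : Type*} [Fintype ι]

/-- `u = Σ Mᵢ vᵢ` on `D × E`; the value of the form with coefficients `Mᵢ(l,x)` is `c l x` for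
`(l,x) ∈ Z × Y`. -/
def LinK (D : Set L) (E : Set X) (Z : Set L) (Y : Set X) (v : ι → L → X → ℝ) (u : L → X → ℝ)
    (c : L → X → (ι → ℝ) → ℝ) : Prop :=
  ∃ M : ι → L → X → ℝ, (∀ i, CK D E (M i)) ∧
    (∀ l ∈ D, ∀ x ∈ E, u l x = ∑ i, M i l x * v i l x) ∧
    ∀ l ∈ Z, ∀ x ∈ Y, ∀ y, c l x y = ∑ i, M i l x * y i

/-- `u = Σ Mᵢⱼ vᵢ vⱼ` on `D × E`; the value of the form is `c l x` for `(l,x) ∈ Z × Y`. -/
def QuadK (D : Set L) (E : Set X) (Z : Set L) (Y : Set X) (v : ι → L → X → ℝ) (u : L → X → ℝ)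
    (c : L → X → (ι → ℝ) → ℝ) : Prop :=
  ∃ M : ι → ι → L → X → ℝ, (∀ i j, CK D E (M i j)) ∧
    (∀ l ∈ D, ∀ x ∈ E, u l x = ∑ i, ∑ j, M i j l x * v i l x * v j l x) ∧
    ∀ l ∈ Z, ∀ x ∈ Y, ∀ y, c l x y = ∑ i, ∑ j, M i j l x * y i * y j

variable {D Z : Set L} {E Y : Set X} {v : ι → L → X → ℝ}

theorem LinK.congr {u u' : L → X → ℝ} {c c' : L → X → (ι → ℝ) → ℝ} (H : LinK D E Z Y v u c)
    (e : ∀ l ∈ D, ∀ x ∈ E, u' l x = u l x)
    (ec : ∀ l ∈ Z, ∀ x ∈ Y, ∀ y, c' l x y = c l x y) : LinK D E Z Y v u' c' := by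
  obtain ⟨M, hM, h1, h2⟩ := H
  exact ⟨M, hM, fun l hl x hx => (e l hl x hx).trans (h1 l hl x hx),
    fun l hl x hx y => (ec l hl x hx y).trans (h2 l hl x hx y)⟩

theorem QuadK.congr {u u' : L → X → ℝ} {c c' : L → X → (ι → ℝ) → ℝ} (H : QuadK D E Z Y v u c)
    (e : ∀ l ∈ D, ∀ x ∈ E, u' l x = u l x)
    (ec : ∀ l ∈ Z, ∀ x ∈ Y, ∀ y, c' l x y = c l x y) : QuadK D E Z Y v u' c' := by
  obtain ⟨M, hM, h1, h2⟩ := H
  exact ⟨M, hM, fun l hl x hx => (e l hl x hx).trans (h1 l hl x hx),
    fun l hl x hx y => (ec l hl x hx y).trans (h2 l hl x hx y)⟩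

theorem LinK.basic [DecidableEq ι] (i : ι) :
    LinK D E Z Y v (v i) (fun _ _ y => y i) := by
  refine ⟨fun j _ _ => if j = i then 1 else 0, fun j => CK.const _, fun l _ x _ => ?_,
    fun l _ x _ y => ?_⟩
  · simp only [ite_mul, one_mul, zero_mul, Finset.sum_ite_eq', Finset.mem_univ, ↓reduceIte]
  · simp only [ite_mul, one_mul, zero_mul, Finset.sum_ite_eq', Finset.mem_univ, ↓reduceIte]

theorem LinK.zero : LinK D E Z Y v (fun _ _ => 0) (fun _ _ _ => 0) :=
  ⟨fun _ _ _ => 0, fun _ => CK.const _, fun l _ x _ => by simp only [zero_mul, Finset.sum_const_zero], fun l _ x _ y => by simp only [zero_mul, Finset.sum_const_zero]⟩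

theorem QuadK.zero : QuadK D E Z Y v (fun _ _ => 0) (fun _ _ _ => 0) :=
  ⟨fun _ _ _ _ => 0, fun _ _ => CK.const _, fun l _ x _ => by simp only [zero_mul, Finset.sum_const_zero], fun l _ x _ y => by simp only [zero_mul, Finset.sum_const_zero]⟩

theorem LinK.add {u u' : L → X → ℝ} {c c' : L → X → (ι → ℝ) → ℝ} (H : LinK D E Z Y v u c)
    (H' : LinK D E Z Y v u' c') :
    LinK D E Z Y v (fun l x => u l x + u' l x) (fun l x y => c l x y + c' l x y) := by
  obtain ⟨M, hM, h1, h2⟩ := H
  obtain ⟨M', hM', h1', h2'⟩ := H'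
  refine ⟨fun i l x => M i l x + M' i l x, fun i => (hM i).add (hM' i), fun l hl x hx => ?_,
    fun l hl x hx y => ?_⟩
  · beta_reduce
    rw [h1 l hl x hx, h1' l hl x hx, ← Finset.sum_add_distrib]
    refine Finset.sum_congr rfl fun i _ => ?_
    ring
  · beta_reduce
    rw [h2 l hl x hx, h2' l hl x hx, ← Finset.sum_add_distrib]
    refine Finset.sum_congr rfl fun i _ => ?_
    ring

theorem QuadK.add {u u' : L → X → ℝ} {c c' : L → X → (ι → ℝ) → ℝ} (H : QuadK D E Z Y v u c)
    (H' : QuadK D E Z Y v u' c') :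
    QuadK D E Z Y v (fun l x => u l x + u' l x) (fun l x y => c l x y + c' l x y) := by
  obtain ⟨M, hM, h1, h2⟩ := H
  obtain ⟨M', hM', h1', h2'⟩ := H'
  refine ⟨fun i j l x => M i j l x + M' i j l x, fun i j => (hM i j).add (hM' i j),
    fun l hl x hx => ?_, fun l hl x hx y => ?_⟩
  · beta_reduce
    rw [h1 l hl x hx, h1' l hl x hx, ← Finset.sum_add_distrib]
    refine Finset.sum_congr rfl fun i _ => ?_
    rw [← Finset.sum_add_distrib]
    refine Finset.sum_congr rfl fun j _ => ?_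
    ring
  · beta_reduce
    rw [h2 l hl x hx, h2' l hl x hx, ← Finset.sum_add_distrib]
    refine Finset.sum_congr rfl fun i _ => ?_
    rw [← Finset.sum_add_distrib]
    refine Finset.sum_congr rfl fun j _ => ?_
    ring

theorem LinK.smul {u : L → X → ℝ} {c : L → X → (ι → ℝ) → ℝ} (H : LinK D E Z Y v u c)
    {m : L → X → ℝ} (hm : CK D E m) :
    LinK D E Z Y v (fun l x => m l x * u l x) (fun l x y => m l x * c l x y) := by
  obtain ⟨M, hM, h1, h2⟩ := H
  refine ⟨fun i l x => m l x * M i l x, fun i => hm.mul (hM i), fun l hl x hx => ?_,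
    fun l hl x hx y => ?_⟩
  · beta_reduce
    rw [h1 l hl x hx, Finset.mul_sum]
    refine Finset.sum_congr rfl fun i _ => ?_
    ring
  · beta_reduce
    rw [h2 l hl x hx, Finset.mul_sum]
    refine Finset.sum_congr rfl fun i _ => ?_
    ring

theorem QuadK.smul {u : L → X → ℝ} {c : L → X → (ι → ℝ) → ℝ} (H : QuadK D E Z Y v u c)
    {m : L → X → ℝ} (hm : CK D E m) :
    QuadK D E Z Y v (fun l x => m l x * u l x) (fun l x y => m l x * c l x y) := by
  obtain ⟨M, hM, h1, h2⟩ := H
  refine ⟨fun i j l x => m l x * M i j l x, fun i j => hm.mul (hM i j), fun l hl x hx => ?_,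
    fun l hl x hx y => ?_⟩
  · beta_reduce
    rw [h1 l hl x hx, Finset.mul_sum]
    refine Finset.sum_congr rfl fun i _ => ?_
    rw [Finset.mul_sum]
    refine Finset.sum_congr rfl fun j _ => ?_
    ring
  · beta_reduce
    rw [h2 l hl x hx, Finset.mul_sum]
    refine Finset.sum_congr rfl fun i _ => ?_
    rw [Finset.mul_sum]
    refine Finset.sum_congr rfl fun j _ => ?_
    ring

theorem LinK.sum {κ : Type*} (s : Finset κ) {u : κ → L → X → ℝ}
    {c : κ → L → X → (ι → ℝ) → ℝ} (H : ∀ k ∈ s, LinK D E Z Y v (u k) (c k)) :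
    LinK D E Z Y v (fun l x => ∑ k ∈ s, u k l x) (fun l x y => ∑ k ∈ s, c k l x y) := by
  classical
  induction s using Finset.induction_on with
  | empty => simpa using LinK.zero
  | insert k s hk ih =>
    have h1 := H k (Finset.mem_insert_self k s)
    have h2 := ih (fun j hj => H j (Finset.mem_insert_of_mem hj))
    refine (h1.add h2).congr (fun l _ x _ => ?_) (fun l _ x _ y => ?_)
    · rw [Finset.sum_insert hk]
    · rw [Finset.sum_insert hk]

theorem QuadK.sum {κ : Type*} (s : Finset κ) {u : κ → L → X → ℝ}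
    {c : κ → L → X → (ι → ℝ) → ℝ} (H : ∀ k ∈ s, QuadK D E Z Y v (u k) (c k)) :
    QuadK D E Z Y v (fun l x => ∑ k ∈ s, u k l x) (fun l x y => ∑ k ∈ s, c k l x y) := by
  classical
  induction s using Finset.induction_on with
  | empty => simpa using QuadK.zero
  | insert k s hk ih =>
    have h1 := H k (Finset.mem_insert_self k s)
    have h2 := ih (fun j hj => H j (Finset.mem_insert_of_mem hj))
    refine (h1.add h2).congr (fun l _ x _ => ?_) (fun l _ x _ y => ?_)
    · rw [Finset.sum_insert hk]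
    · rw [Finset.sum_insert hk]

theorem LinK.mul {u u' : L → X → ℝ} {c c' : L → X → (ι → ℝ) → ℝ} (H : LinK D E Z Y v u c)
    (H' : LinK D E Z Y v u' c') :
    QuadK D E Z Y v (fun l x => u l x * u' l x) (fun l x y => c l x y * c' l x y) := by
  obtain ⟨M, hM, h1, h2⟩ := H
  obtain ⟨M', hM', h1', h2'⟩ := H'
  refine ⟨fun i j l x => M i l x * M' j l x, fun i j => (hM i).mul (hM' j),
    fun l hl x hx => ?_, fun l hl x hx y => ?_⟩
  · beta_reduce
    rw [h1 l hl x hx, h1' l hl x hx, Finset.sum_mul_sum]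
    refine Finset.sum_congr rfl fun i _ => Finset.sum_congr rfl fun j _ => ?_
    ring
  · beta_reduce
    rw [h2 l hl x hx, h2' l hl x hx, Finset.sum_mul_sum]
    refine Finset.sum_congr rfl fun i _ => Finset.sum_congr rfl fun j _ => ?_
    ring

theorem LinK.sq {u : L → X → ℝ} {c : L → X → (ι → ℝ) → ℝ} (H : LinK D E Z Y v u c) :
    QuadK D E Z Y v (fun l x => u l x ^ 2) (fun l x y => c l x y ^ 2) :=
  (H.mul H).congr (fun _ _ _ _ => pow_two _) (fun _ _ _ _ _ => pow_two _)

/-- A quadratic form whose limit is positive definite is SOS. -/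
theorem QuadK.sos {u : L → X → ℝ} {c : L → X → (ι → ℝ) → ℝ} (H : QuadK D E Z Y v u c)
    (hv : ∀ i, FR (v i)) {l0 : L} {x0 : X} (hl : l0 ∈ D) (hx : x0 ∈ E) (hlZ : l0 ∈ Z)
    (hxY : x0 ∈ Y) (hpos : ∀ y : ι → ℝ, y ≠ 0 → 0 < c l0 x0 y) :
    ∃ U ∈ 𝓝 l0, ∃ V ∈ 𝓝 x0, SosOn (U ∩ D) (V ∩ E) u := by
  obtain ⟨M, hM, h1, h2⟩ := H
  obtain ⟨U, hU, V, hV, hs⟩ := robust (F := 𝓝 l0) (G := 𝓝 x0) (C := fun i j => M i j l0 x0)
    (fun y hy => by rw [← h2 l0 hlZ x0 hxY y]; exact hpos y hy)
    (fun i j => (hM i j).germ hl hx) hv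
  exact ⟨U, hU, V, hV, (hs.mono Set.inter_subset_left Set.inter_subset_left).congr
    (fun l hl x hx => h1 l hl.2 x hx.2)⟩

/-- the form `c` is continuous and 2-homogeneous -/
theorem QuadK.form {u : L → X → ℝ} {c : L → X → (ι → ℝ) → ℝ} (H : QuadK D E Z Y v u c)
    {l0 : L} {x0 : X} (hlZ : l0 ∈ Z) (hxY : x0 ∈ Y) :
    Continuous (c l0 x0) ∧ ∀ (t : ℝ) (y : ι → ℝ), c l0 x0 (t • y) = t ^ 2 * c l0 x0 y := by
  obtain ⟨M, hM, h1, h2⟩ := H
  have h3 : c l0 x0 = fun y => ∑ i, ∑ j, M i j l0 x0 * y i * y j := by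
    funext y; exact h2 l0 hlZ x0 hxY y
  rw [h3]
  refine ⟨by fun_prop, fun t y => ?_⟩
  simp only [Pi.smul_apply, smul_eq_mul, Finset.mul_sum]
  refine Finset.sum_congr rfl fun i _ => Finset.sum_congr rfl fun j _ => ?_
  ring

/-- the form `c` depends continuously on the points -/
theorem QuadK.tendsto {u : L → X → ℝ} {c : L → X → (ι → ℝ) → ℝ} (H : QuadK D E Z Y v u c)
    {l0 : L} {x0 : X} (hl : l0 ∈ D) (hx : x0 ∈ E) (hlZ : l0 ∈ Z) (hxY : x0 ∈ Y)
    {Θ : Type*} {F : Filter Θ} {φ : Θ → L} {ψ : Θ → X} (hφ : Tendsto φ F (𝓝 l0))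
    (hψ : Tendsto ψ F (𝓝 x0)) (hφZ : ∀ᶠ θ in F, φ θ ∈ Z) (hψY : ∀ᶠ θ in F, ψ θ ∈ Y)
    (y : ι → ℝ) : Tendsto (fun θ => c (φ θ) (ψ θ) y) F (𝓝 (c l0 x0 y)) := by
  obtain ⟨M, hM, h1, h2⟩ := H
  rw [h2 l0 hlZ x0 hxY y]
  have h3 : Tendsto (fun θ => ∑ i, ∑ j, M i j (φ θ) (ψ θ) * y i * y j) F
      (𝓝 (∑ i, ∑ j, M i j l0 x0 * y i * y j)) := by
    refine tendsto_finsetSum _ (fun i _ => tendsto_finsetSum _ (fun j _ => ?_))
    refine Tendsto.mul_const _ (Tendsto.mul_const _ ?_)
    obtain ⟨n, a, f, ha, hf, hh⟩ := hM i j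
    simp only [hh]
    exact tendsto_finsetSum _ (fun k _ => ((ha k l0 hl).tendsto.comp hφ).mul
      ((hf k x0 hx).tendsto.comp hψ))
  refine h3.congr' ?_
  filter_upwards [hφZ, hψY] with θ h4 h5
  exact (h2 _ h4 _ h5 y).symm

end Form

end Vale.Agent.P256
end

section

/-! Local SOS lemmas: the remainder of second order of a polynomial on a constraint set, the
off-diagonal and the diagonal conical kernels. -/

namespace Vale.Agent.P256

open Filter Topology MvPolynomial

/-- Finsler's lemma for continuous 2-homogeneous functions. -/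
theorem finsler {ι : Type*} [Fintype ι] {q B : (ι → ℝ) → ℝ} (hq : Continuous q)
    (hB : Continuous B) (homq : ∀ (t : ℝ) (w : ι → ℝ), q (t • w) = t ^ 2 * q w)
    (homB : ∀ (t : ℝ) (w : ι → ℝ), B (t • w) = t ^ 2 * B w) (hB0 : ∀ w, 0 ≤ B w)
    (h : ∀ w : ι → ℝ, w ≠ 0 → B w = 0 → 0 < q w) :
    ∃ C : ℝ, 0 < C ∧ ∀ w : ι → ℝ, w ≠ 0 → 0 < q w + C * B w := by
  -- compact sphere (sup norm)
  have hcomp : IsCompact (Metric.sphere (0 : ι → ℝ) 1) := isCompact_sphere 0 1
  have hS1 : IsCompact (Metric.sphere (0 : ι → ℝ) 1 ∩ {w | q w ≤ 0}) :=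
    hcomp.inter_right (isClosed_le hq continuous_const)
  have hne0 : ∀ w ∈ Metric.sphere (0 : ι → ℝ) 1, w ≠ 0 := by
    intro w hw h0
    rw [h0, mem_sphere_zero_iff_norm] at hw
    simp at hw
  have hsphere : ∃ C : ℝ, 0 < C ∧ ∀ w ∈ Metric.sphere (0 : ι → ℝ) 1, 0 < q w + C * B w := by
    rcases Set.eq_empty_or_nonempty (Metric.sphere (0 : ι → ℝ) 1 ∩ {w | q w ≤ 0}) with he | hne
    · refine ⟨1, one_pos, fun w hw => ?_⟩
      have : ¬ q w ≤ 0 := by
        intro hle
        have : w ∈ (Metric.sphere (0 : ι → ℝ) 1 ∩ {w | q w ≤ 0}) := ⟨hw, hle⟩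
        rw [he] at this
        exact Set.notMem_empty _ this
      have := hB0 w
      linarith [not_le.1 ‹¬ q w ≤ 0›]
    · obtain ⟨w1, hw1, hmin1⟩ := hS1.exists_isMinOn hne hB.continuousOn
      obtain ⟨w2, hw2, hmin2⟩ := hS1.exists_isMinOn hne hq.continuousOn
      have hβ : 0 < B w1 := by
        rcases (hB0 w1).lt_or_eq with h1 | h1
        · exact h1
        · exact absurd (h w1 (hne0 w1 hw1.1) h1.symm) (not_lt.2 hw1.2)
      refine ⟨(|q w2| + 1) / B w1, by (clear * - hβ; positivity), fun w hw => ?_⟩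
      by_cases hle : q w ≤ 0
      · have hmem : w ∈ (Metric.sphere (0 : ι → ℝ) 1 ∩ {w | q w ≤ 0}) := ⟨hw, hle⟩
        have h1 : B w1 ≤ B w := hmin1 hmem
        have h2 : q w2 ≤ q w := hmin2 hmem
        have h3 : |q w2| + 1 ≤ (|q w2| + 1) / B w1 * B w := by
          rw [div_mul_eq_mul_div, le_div_iff₀ hβ]
          exact mul_le_mul_of_nonneg_left h1 (by (clear * -; positivity))
        have h4 := neg_abs_le (q w2)
        linarith only [h2, h3, h4]
      · have h1 : 0 ≤ (|q w2| + 1) / B w1 * B w := by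
          have := hB0 w
          (clear * - hβ this; positivity)
        linarith only [hle, h1]
  obtain ⟨C, hC, hpos⟩ := hsphere
  refine ⟨C, hC, fun w hw => ?_⟩
  have hn : 0 < ‖w‖ := norm_pos_iff.2 hw
  have hmem : ‖w‖⁻¹ • w ∈ Metric.sphere (0 : ι → ℝ) 1 := by
    rw [mem_sphere_zero_iff_norm, norm_smul, norm_inv, norm_norm, inv_mul_cancel₀ hn.ne']
  have h1 := hpos _ hmem
  rw [homq, homB] at h1
  have h2 : (‖w‖⁻¹) ^ 2 * q w + C * ((‖w‖⁻¹) ^ 2 * B w) = (‖w‖⁻¹) ^ 2 * (q w + C * B w) := by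
    ring
  rw [h2] at h1
  exact (pos_iff_pos_of_mul_pos h1).1 (by positivity)

variable {σ : Type*} [Fintype σ] [DecidableEq σ]

/-- second order remainder `f(w) - f(w') - Σ ∂ᵢf(w')(w - w')ᵢ` -/
noncomputable def rem2 (f : MvPolynomial σ ℝ) (w' w : σ → ℝ) : ℝ :=
  eval w f - eval w' f - ∑ i, eval w' (pderiv i f) * (w i - w' i)

/-- **Constrained Taylor lemma.**  If the Hessian of `f` at `w0` is negative on the nonzero vectors
orthogonal to the gradients at `w0` of the constraints `g a` and to `k`, then `κ ⟨k,δ⟩² - R₂` is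
SOS near `(w0,w0)` on any set on which all `g a` vanish. -/
theorem sosOn_neg_rem2 {A : Type*} [Fintype A] (f : MvPolynomial σ ℝ) (w0 : σ → ℝ)
    (g : A → MvPolynomial σ ℝ) (k : σ → ℝ) {T : Set (σ → ℝ)} (hT : ∀ w ∈ T, ∀ a, eval w (g a) = 0)
    (hneg : ∀ v : σ → ℝ, v ≠ 0 → (∀ a, ∑ i, eval w0 (pderiv i (g a)) * v i = 0) →
      ∑ i, k i * v i = 0 → ∑ i, ∑ j, eval w0 (pderiv i (pderiv j f)) * v i * v j < 0) :
    ∃ κ : ℝ, 0 < κ ∧ ∃ U ∈ 𝓝 w0, ∃ V ∈ 𝓝 w0, SosOn (U ∩ T) (V ∩ T)
      (fun w' w => κ * (∑ i, k i * (w i - w' i)) ^ 2 - rem2 f w' w) := by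
  classical
  obtain ⟨M, hM, eM⟩ := taylor2 f w0
  choose Mg hMg eMg using fun a => taylor2 (g a) w0
  obtain ⟨C, hC, hpos⟩ := finsler
    (q := fun v : σ → ℝ => -(1 / 2) * ∑ i, ∑ j, eval w0 (pderiv i (pderiv j f)) * v i * v j)
    (B := fun v : σ → ℝ => ∑ a, (∑ i, eval w0 (pderiv i (g a)) * v i) ^ 2 +
      (∑ i, k i * v i) ^ 2) (by fun_prop) (by fun_prop) (by
      intro t w
      simp only [Pi.smul_apply, smul_eq_mul, Finset.mul_sum]
      refine Finset.sum_congr rfl fun i _ => Finset.sum_congr rfl fun j _ => ?_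
      ring) (by
      intro t w
      have h1 : ∀ c : σ → ℝ, ∑ i, c i * (t • w) i = t * ∑ i, c i * w i := by
        intro c
        rw [Finset.mul_sum]
        refine Finset.sum_congr rfl fun i _ => ?_
        simp only [Pi.smul_apply, smul_eq_mul]; ring
      simp only [h1, mul_pow]
      rw [← Finset.mul_sum, mul_add]) (by
      intro w
      (clear * -; positivity)) (by
      intro w hw hB
      have h1 : 0 ≤ ∑ a, (∑ i, eval w0 (pderiv i (g a)) * w i) ^ 2 :=
        Finset.sum_nonneg fun _ _ => sq_nonneg _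
      have h2 : 0 ≤ (∑ i, k i * w i) ^ 2 := sq_nonneg _
      have h3 : ∑ a, (∑ i, eval w0 (pderiv i (g a)) * w i) ^ 2 = 0 := by linarith
      have h4 : (∑ i, k i * w i) ^ 2 = 0 := by linarith
      have h5 := (Finset.sum_eq_zero_iff_of_nonneg (fun _ _ => sq_nonneg _)).1 h3
      have := hneg w hw (fun a => pow_eq_zero_iff (two_ne_zero) |>.1 (h5 a (Finset.mem_univ a)))
        (pow_eq_zero_iff (two_ne_zero) |>.1 h4)
      linarith only [this])
  -- limit matrix
  have hv : ∀ i : σ, FR (fun (w' : σ → ℝ) (w : σ → ℝ) => w i - w' i) := by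
    intro i
    exact (FR.right (fun w : σ → ℝ => w i)).sub (FR.left (fun w' : σ → ℝ => w' i))
  have hvG : ∀ i : σ, GermFR (𝓝 w0) (𝓝 w0) (fun (w' : σ → ℝ) (w : σ → ℝ) => w i - w' i) 0 := by
    intro i
    refine ((GermFR.right (F := 𝓝 w0) ((continuous_apply i).tendsto w0)).sub
      (GermFR.left ((continuous_apply i).tendsto w0))).congr (fun _ _ => rfl) ?_
    ring
  have hev : ∀ (g : MvPolynomial σ ℝ), Tendsto (fun w : σ → ℝ => eval w g) (𝓝 w0)
      (𝓝 (eval w0 g)) := by
    intro g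
    exact (MvPolynomial.continuous_eval g).tendsto w0
  have hR : ∀ a, GermFR (𝓝 w0) (𝓝 w0) (fun w' w => ∑ i, ∑ j, Mg a i j w' w * (w i - w' i) *
      (w j - w' j)) 0 := by
    intro a
    refine (GermFR.sum Finset.univ (fun i _ => GermFR.sum Finset.univ (fun j _ =>
      ((hMg a i j).mul (hvG i)).mul (hvG j)))).congr (fun _ _ => rfl) ?_
    simp only [one_div, mul_zero, Finset.sum_const_zero]
  let Mt : σ → σ → (σ → ℝ) → (σ → ℝ) → ℝ := fun i j w' w =>
    - M i j w' w + C * (∑ a, (eval w' (pderiv i (g a)) * eval w' (pderiv j (g a)) -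
      Mg a i j w' w * (∑ i, ∑ j, Mg a i j w' w * (w i - w' i) * (w j - w' j))) + k i * k j)
  let Ct : σ → σ → ℝ := fun i j => - (1 / 2 * eval w0 (pderiv i (pderiv j f))) +
    C * (∑ a, (eval w0 (pderiv i (g a)) * eval w0 (pderiv j (g a))) + k i * k j)
  have hMt : ∀ i j, GermFR (𝓝 w0) (𝓝 w0) (Mt i j) (Ct i j) := by
    intro i j
    refine ((hM i j).neg.add (((GermFR.sum Finset.univ (fun a _ =>
      ((GermFR.left (hev (pderiv i (g a)))).mul (GermFR.left (hev (pderiv j (g a))))).sub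
        ((hMg a i j).mul (hR a)))).add (GermFR.const (k i * k j))).smul C)).congr
        (fun _ _ => rfl) ?_
    simp only [one_div, mul_zero, sub_zero, Ct]
  have hsq : ∀ (c v : σ → ℝ), (∑ i, c i * v i) ^ 2 = ∑ i, ∑ j, c i * c j * v i * v j := by
    intro c v
    rw [sq, Finset.sum_mul_sum]
    refine Finset.sum_congr rfl fun i _ => Finset.sum_congr rfl fun j _ => ?_
    ring
  have hCt : ∀ v : σ → ℝ, v ≠ 0 → 0 < ∑ i, ∑ j, Ct i j * v i * v j := by
    intro v hv
    have h1 := hpos v hv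
    have h2 : ∑ i, ∑ j, Ct i j * v i * v j =
        -(1 / 2) * ∑ i, ∑ j, eval w0 (pderiv i (pderiv j f)) * v i * v j +
        C * (∑ a, (∑ i, eval w0 (pderiv i (g a)) * v i) ^ 2 + (∑ i, k i * v i) ^ 2) := by
      have h3 : ∑ a, (∑ i, eval w0 (pderiv i (g a)) * v i) ^ 2 = ∑ i, ∑ j,
          (∑ a, eval w0 (pderiv i (g a)) * eval w0 (pderiv j (g a))) * v i * v j := by
        simp only [hsq]
        rw [Finset.sum_comm]
        refine Finset.sum_congr rfl fun i _ => ?_
        rw [Finset.sum_comm]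
        refine Finset.sum_congr rfl fun j _ => ?_
        rw [Finset.sum_mul, Finset.sum_mul]
      rw [h3, hsq, ← Finset.sum_add_distrib, Finset.mul_sum, Finset.mul_sum,
        ← Finset.sum_add_distrib]
      refine Finset.sum_congr rfl fun i _ => ?_
      rw [← Finset.sum_add_distrib, Finset.mul_sum, Finset.mul_sum, ← Finset.sum_add_distrib]
      refine Finset.sum_congr rfl fun j _ => ?_
      simp only [Ct]
      ring
    rw [h2]; exact h1
  obtain ⟨U, hU, V, hV, hs⟩ := robust hCt hMt hv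
  refine ⟨C, hC, U, hU, V, hV, (hs.mono Set.inter_subset_left Set.inter_subset_left).congr ?_⟩
  rintro w' ⟨_, hw'⟩ w ⟨_, hw⟩
  set δ : σ → ℝ := fun i => w i - w' i with hδ
  have e1 : rem2 f w' w = ∑ i, ∑ j, M i j w' w * (w i - w' i) * (w j - w' j) := by
    rw [rem2, eM w' w]; ring
  have e2 : ∀ a, ∑ i, eval w' (pderiv i (g a)) * δ i =
      - ∑ i, ∑ j, Mg a i j w' w * (w i - w' i) * (w j - w' j) := by
    intro a
    have := eMg a w' w
    rw [hT w hw a, hT w' hw' a] at this
    linarith only [this]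
  have e3 : ∑ i, ∑ j, Mt i j w' w * (w i - w' i) * (w j - w' j) =
      - ∑ i, ∑ j, M i j w' w * (w i - w' i) * (w j - w' j) +
      C * (∑ a, ((∑ i, eval w' (pderiv i (g a)) * δ i) ^ 2 -
        (∑ i, ∑ j, Mg a i j w' w * (w i - w' i) * (w j - w' j)) ^ 2) +
        (∑ i, k i * δ i) ^ 2) := by
    have h3 : ∑ a, ((∑ i, eval w' (pderiv i (g a)) * δ i) ^ 2 -
        (∑ i, ∑ j, Mg a i j w' w * (w i - w' i) * (w j - w' j)) ^ 2) = ∑ i, ∑ j,
          (∑ a, (eval w' (pderiv i (g a)) * eval w' (pderiv j (g a)) -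
            Mg a i j w' w * (∑ i, ∑ j, Mg a i j w' w * (w i - w' i) * (w j - w' j))))
            * δ i * δ j := by
      have h4 : ∀ a, ((∑ i, eval w' (pderiv i (g a)) * δ i) ^ 2 -
        (∑ i, ∑ j, Mg a i j w' w * (w i - w' i) * (w j - w' j)) ^ 2) = ∑ i, ∑ j,
          (eval w' (pderiv i (g a)) * eval w' (pderiv j (g a)) -
            Mg a i j w' w * (∑ i, ∑ j, Mg a i j w' w * (w i - w' i) * (w j - w' j)))
            * δ i * δ j := by
        intro a
        rw [hsq]
        set R := ∑ i, ∑ j, Mg a i j w' w * (w i - w' i) * (w j - w' j) with hRdef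
        have h5 : R ^ 2 = ∑ i, ∑ j, (Mg a i j w' w * R) * δ i * δ j := by
          rw [sq]
          nth_rewrite 1 [hRdef]
          rw [Finset.sum_mul]
          refine Finset.sum_congr rfl fun i _ => ?_
          rw [Finset.sum_mul]
          refine Finset.sum_congr rfl fun j _ => ?_
          simp only [hδ]
          ring
        rw [h5, ← Finset.sum_sub_distrib]
        refine Finset.sum_congr rfl fun i _ => ?_
        rw [← Finset.sum_sub_distrib]
        refine Finset.sum_congr rfl fun j _ => ?_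
        ring
      rw [Finset.sum_congr rfl (fun a _ => h4 a), Finset.sum_comm]
      refine Finset.sum_congr rfl fun i _ => ?_
      rw [Finset.sum_comm]
      refine Finset.sum_congr rfl fun j _ => ?_
      rw [Finset.sum_mul, Finset.sum_mul]
    rw [h3, hsq k δ, ← Finset.sum_neg_distrib, ← Finset.sum_add_distrib, Finset.mul_sum,
        ← Finset.sum_add_distrib]
    refine Finset.sum_congr rfl fun i _ => ?_
    rw [← Finset.sum_neg_distrib, ← Finset.sum_add_distrib, Finset.mul_sum,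
      ← Finset.sum_add_distrib]
    refine Finset.sum_congr rfl fun j _ => ?_
    simp only [Mt, hδ]
    ring
  have e4 : ∑ a, ((∑ i, eval w' (pderiv i (g a)) * δ i) ^ 2 -
        (∑ i, ∑ j, Mg a i j w' w * (w i - w' i) * (w j - w' j)) ^ 2) = 0 := by
    refine Finset.sum_eq_zero fun a _ => ?_
    rw [e2 a]; ring
  rw [e3, e4, e1]
  simp only [hδ]
  ring

/-- SOS for the smooth kernel: `-R₂` when the Hessian is negative on the tangent space of the
constraints. -/
theorem sosOn_neg_rem2' {A : Type*} [Fintype A] (f : MvPolynomial σ ℝ) (w0 : σ → ℝ)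
    (g : A → MvPolynomial σ ℝ) {T : Set (σ → ℝ)} (hT : ∀ w ∈ T, ∀ a, eval w (g a) = 0)
    (hneg : ∀ v : σ → ℝ, v ≠ 0 → (∀ a, ∑ i, eval w0 (pderiv i (g a)) * v i = 0) →
      ∑ i, ∑ j, eval w0 (pderiv i (pderiv j f)) * v i * v j < 0) :
    ∃ U ∈ 𝓝 w0, ∃ V ∈ 𝓝 w0, SosOn (U ∩ T) (V ∩ T) (fun w' w => - rem2 f w' w) := by
  obtain ⟨κ, _, U, hU, V, hV, h⟩ := sosOn_neg_rem2 f w0 g (fun _ => 0) hT
    (fun v hv h1 _ => hneg v hv h1)
  refine ⟨U, hU, V, hV, h.congr (fun l _ x _ => ?_)⟩
  simp only [zero_mul, Finset.sum_const_zero, ne_eq, OfNat.ofNat_ne_zero, not_false_eq_true, zero_pow, mul_zero, zero_sub]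

/-- **Smooth point lemma.**  `T` lies in the zero set of `p` and in the Euclidean unit sphere and
Euler's relation holds on `T`; the Hessian of `p` at `z` is negative on the nonzero vectors
orthogonal to `∇p(z)` and to `z`.  Then the slack kernel `⟨∇p(z'), x⟩` is SOS near `(z,z)`. -/
theorem smooth_local {n : ℕ} (p : MvPolynomial (Fin n) ℝ) (z : Fin n → ℝ)
    {T : Set (Fin n → ℝ)} (hT : ∀ x ∈ T, eval x p = 0) (hT1 : ∀ x ∈ T, ∑ i, x i ^ 2 = 1)
    (hE : ∀ x ∈ T, ∑ i, eval x (pderiv i p) * x i = 0)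
    (hneg : ∀ v : Fin n → ℝ, v ≠ 0 → ∑ i, eval z (pderiv i p) * v i = 0 →
      ∑ i, z i * v i = 0 → ∑ i, ∑ j, eval z (pderiv i (pderiv j p)) * v i * v j < 0) :
    ∃ U ∈ 𝓝 z, ∃ V ∈ 𝓝 z, SosOn (U ∩ T) (V ∩ T)
      (fun z' x => ∑ i, eval z' (pderiv i p) * x i) := by
  classical
  set g : Bool → MvPolynomial (Fin n) ℝ :=
    fun b => if b then p else (∑ i, X i ^ 2 - 1 : MvPolynomial (Fin n) ℝ) with hg
  have hTg : ∀ w ∈ T, ∀ b, eval w (g b) = 0 := by
    intro w hw b
    cases b
    · simp only [hg, Bool.false_eq_true, ↓reduceIte, map_sub, map_sum, map_pow, eval_X, hT1 w hw, map_one, sub_self]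
    · simpa only [hg, ↓reduceIte] using hT w hw
  have hneg' : ∀ v : Fin n → ℝ, v ≠ 0 → (∀ a, ∑ i, eval z (pderiv i (g a)) * v i = 0) →
      ∑ i, ∑ j, eval z (pderiv i (pderiv j p)) * v i * v j < 0 := by
    intro v hv hb
    refine hneg v hv ?_ ?_
    · simpa only [hg, ↓reduceIte] using hb true
    · have h1 := hb false
      have h2 : ∀ i, eval z (pderiv i (∑ i, X i ^ 2 - 1 : MvPolynomial (Fin n) ℝ)) = 2 * z i := by
        intro i
        rw [map_sub, map_sum]
        have : ∀ j, pderiv i (X j ^ 2 : MvPolynomial (Fin n) ℝ) =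
            if i = j then 2 * X j else 0 := by
          intro j
          rw [sq, Derivation.leibniz, pderiv_X]
          by_cases h : i = j
          · subst h
            simp
            ring
          · simp [h, Ne.symm h]
        rw [Finset.sum_congr rfl (fun j _ => this j)]
        simp only [Finset.sum_ite_eq, Finset.mem_univ, ↓reduceIte, Derivation.map_one_eq_zero, sub_zero, map_mul, eval_ofNat, eval_X]
      have h3 : ∑ i, eval z (pderiv i (g false)) * v i = 2 * ∑ i, z i * v i := by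
        rw [Finset.mul_sum]
        refine Finset.sum_congr rfl fun i _ => ?_
        have : g false = (∑ i, X i ^ 2 - 1 : MvPolynomial (Fin n) ℝ) := by simp only [hg, Bool.false_eq_true, ↓reduceIte]
        rw [this, h2]; ring
      rw [h3] at h1
      linarith only [h1]
  obtain ⟨U, hU, V, hV, h⟩ := sosOn_neg_rem2' p z g hTg hneg'
  refine ⟨U, hU, V, hV, h.congr ?_⟩
  rintro z' ⟨_, hz'⟩ x ⟨_, hx⟩
  rw [rem2, hT x hx, hT z' hz']
  have : ∑ i, eval z' (pderiv i p) * (x i - z' i) =
      ∑ i, eval z' (pderiv i p) * x i - ∑ i, eval z' (pderiv i p) * z' i := by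
    rw [← Finset.sum_sub_distrib]
    refine Finset.sum_congr rfl fun i _ => ?_
    ring
  rw [this, hE z' hz']
  simp only [sub_self, sub_zero, zero_sub, neg_neg]

section Conic

variable {n : ℕ}

/-- The conical slack kernel (divided by `b'^(m-1)`). The variable `none` is the radius. -/
noncomputable def conicKer (Q : MvPolynomial (Option (Fin n)) ℝ)
    (w' w : Option (Fin n) → ℝ) : ℝ :=
  w none * (∑ i : Fin n, eval w' (pderiv (some i) Q) * w (some i)) -
    (w' none) ^ 2 * eval w' (pderiv none Q)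

/-- diagonal pairs -/
theorem conic_local_diag {A : Type*} [Fintype A] (Q : MvPolynomial (Option (Fin n)) ℝ)
    {w0 : Option (Fin n) → ℝ} {T : Set (Option (Fin n) → ℝ)}
    (g : A → MvPolynomial (Option (Fin n)) ℝ)
    (hTg : ∀ w ∈ T, ∀ a, eval w (g a) = 0)
    (hT : ∀ w ∈ T, 0 ≤ w none) (hQ : ∀ w ∈ T, eval w Q = 0)
    (hE : ∀ w ∈ T, ∑ i : Fin n, eval w (pderiv (some i) Q) * w (some i) =
      w none * eval w (pderiv none Q))
    (h0 : w0 none = 0) (h2 : eval w0 (pderiv none Q) < 0)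
    (hneg : ∀ v : Option (Fin n) → ℝ, v ≠ 0 →
      (∀ a, ∑ i, eval w0 (pderiv i (g a)) * v i = 0) → v none = 0 →
      ∑ i, ∑ j, eval w0 (pderiv i (pderiv j Q)) * v i * v j < 0) :
    ∃ U ∈ 𝓝 w0, ∃ V ∈ 𝓝 w0, SosOn (U ∩ T) (V ∩ T) (conicKer Q) := by
  classical
  obtain ⟨κ, hκ, U, hU, V, hV, hs⟩ := sosOn_neg_rem2 Q w0 g (Pi.single none 1) hTg
    (fun v hv h1 h3 => hneg v hv h1 (by simpa only [Pi.single_apply, ite_mul, one_mul, zero_mul, Finset.sum_ite_eq', Finset.mem_univ,     ↓reduceIte] using h3))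
  have hev : ∀ (g : MvPolynomial (Option (Fin n)) ℝ),
      Tendsto (fun w : Option (Fin n) → ℝ => eval w g) (𝓝 w0) (𝓝 (eval w0 g)) := by
    intro g
    exact (MvPolynomial.continuous_eval g).tendsto w0
  have hG : GermFR (𝓝 w0) (𝓝 w0) (fun (w' : Option (Fin n) → ℝ) (w : Option (Fin n) → ℝ) =>
      - eval w' (pderiv none Q) - κ * w none) (- eval w0 (pderiv none Q)) := by
    refine ((GermFR.left (hev (pderiv none Q))).neg.sub
      ((GermFR.right ((continuous_apply none).tendsto w0)).smul κ)).congr (fun _ _ => rfl) ?_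
    rw [h0]; ring
  obtain ⟨U1, hU1, V1, hV1, hs1⟩ := hG.pos (by linarith)
  refine ⟨U ∩ U1, inter_mem hU hU1, V ∩ V1, inter_mem hV hV1, ?_⟩
  have k1 : SosOn ((U ∩ U1) ∩ T) ((V ∩ V1) ∩ T)
      (fun (_ : Option (Fin n) → ℝ) w => w none) :=
    SosOn.right (fun w hw => hT w hw.2)
  have k2 := hs.mono (S' := (U ∩ U1) ∩ T) (T' := (V ∩ V1) ∩ T)
    (fun w hw => ⟨hw.1.1, hw.2⟩) (fun w hw => ⟨hw.1.1, hw.2⟩)
  have k3 := hs1.mono (S' := (U ∩ U1) ∩ T) (T' := (V ∩ V1) ∩ T)
    (fun w hw => hw.1.2) (fun w hw => hw.1.2)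
  have k4 : SosOn ((U ∩ U1) ∩ T) ((V ∩ V1) ∩ T)
      (fun (w' : Option (Fin n) → ℝ) (w : Option (Fin n) → ℝ) => (w none - w' none) ^ 2) :=
    SosOn.sq ((FR.right (fun w : Option (Fin n) → ℝ => w none)).sub
      (FR.left (fun w : Option (Fin n) → ℝ => w none)))
  refine ((k3.mul k4).add (k1.mul k2)).congr ?_
  rintro w' ⟨_, hw'⟩ w ⟨_, hw⟩
  have e1 : ∑ i, (Pi.single none (1 : ℝ) : Option (Fin n) → ℝ) i * (w i - w' i) =
      w none - w' none := by
    rw [Fintype.sum_option]
    simp only [Pi.single_eq_same, one_mul, ne_eq, reduceCtorEq, not_false_eq_true, Pi.single_eq_of_ne, zero_mul, Finset.sum_const_zero, add_zero]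
  have e2 : rem2 Q w' w = - eval w' (pderiv none Q) * (w none - w' none) -
      (∑ i : Fin n, eval w' (pderiv (some i) Q) * w (some i)) +
      w' none * eval w' (pderiv none Q) := by
    rw [rem2, hQ w hw, hQ w' hw', Fintype.sum_option, ← hE w' hw']
    have : ∑ i : Fin n, eval w' (pderiv (some i) Q) * (w (some i) - w' (some i)) =
        ∑ i : Fin n, eval w' (pderiv (some i) Q) * w (some i) -
        ∑ i : Fin n, eval w' (pderiv (some i) Q) * w' (some i) := by
      rw [← Finset.sum_sub_distrib]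
      refine Finset.sum_congr rfl fun i _ => ?_
      ring
    rw [this]; ring
  rw [e1, e2, conicKer]
  ring

end Conic

end Vale.Agent.P256
end

section

/-! Second order Taylor expansions of polynomials with finite-rank coefficients, with the value of
the coefficients on the diagonal. -/

namespace Vale.Agent.P256

open Filter Topology MvPolynomial

section Tay

variable {σ : Type*} [Fintype σ] [DecidableEq σ]

theorem poly_tay (D : Set (σ → ℝ)) (f : MvPolynomial σ ℝ) :
    ∃ R : σ → σ → (σ → ℝ) → (σ → ℝ) → ℝ, (∀ i j, CK D D (R i j)) ∧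
      (∀ w' w : σ → ℝ, eval w f = eval w' f + ∑ i, eval w' (pderiv i f) * (w i - w' i) +
        ∑ i, ∑ j, R i j w' w * (w i - w' i) * (w j - w' j)) ∧
      ∀ i j, ∀ w : σ → ℝ, R i j w w = 1 / 2 * eval w (pderiv i (pderiv j f)) := by
  have hev : ∀ (g : MvPolynomial σ ℝ), ∀ w ∈ D, ContinuousAt (fun w : σ → ℝ => eval w g) w := by
    intro g w _
    exact (MvPolynomial.continuous_eval g).continuousAt
  induction f using MvPolynomial.induction_on with
  | C a =>
    refine ⟨fun _ _ _ _ => 0, fun i j => CK.const 0, fun w' w => ?_, fun i j w => ?_⟩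
    · simp only [eval_C, derivation_C, map_zero, zero_mul, Finset.sum_const_zero, add_zero]
    · simp only [one_div, derivation_C, map_zero, mul_zero]
  | add p q hp hq =>
    obtain ⟨M, hM, eM, dM⟩ := hp
    obtain ⟨M', hM', eM', dM'⟩ := hq
    refine ⟨fun i j w' w => M i j w' w + M' i j w' w, fun i j => (hM i j).add (hM' i j),
      fun w' w => ?_, fun i j w => ?_⟩
    · have h1 : ∑ i, ∑ j, (M i j w' w + M' i j w' w) * (w i - w' i) * (w j - w' j) =
          ∑ i, ∑ j, M i j w' w * (w i - w' i) * (w j - w' j) +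
          ∑ i, ∑ j, M' i j w' w * (w i - w' i) * (w j - w' j) := by
        simp only [← Finset.sum_add_distrib]
        refine Finset.sum_congr rfl fun i _ => Finset.sum_congr rfl fun j _ => ?_
        ring
      have h2 : ∑ i, eval w' (pderiv i (p + q)) * (w i - w' i) =
          ∑ i, eval w' (pderiv i p) * (w i - w' i) + ∑ i, eval w' (pderiv i q) * (w i - w' i) := by
        rw [← Finset.sum_add_distrib]
        refine Finset.sum_congr rfl fun i _ => ?_
        rw [map_add, map_add]; ring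
      rw [h1, h2, map_add, map_add, eM w' w, eM' w' w]
      ring
    · simp only [dM, dM', map_add]
      ring
  | mul_X p k hp =>
    obtain ⟨M, hM, eM, dM⟩ := hp
    refine ⟨fun i j w' w => w k * M i j w' w + 1 / 2 *
      (eval w' (pderiv i p) * (if j = k then 1 else 0) +
        eval w' (pderiv j p) * (if i = k then 1 else 0)), fun i j => ?_,
        fun w' w => ?_, fun i j w => ?_⟩
    · have hk : CK D D (fun (_ : σ → ℝ) (w : σ → ℝ) => w k) :=
        CK.right (fun _ _ => (continuous_apply k).continuousAt)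
      exact (hk.mul (hM i j)).add ((((CK.left (hev _)).mul (CK.const _)).add
        ((CK.left (hev _)).mul (CK.const _))).smul (1 / 2))
    · have d1 : ∀ i, eval w' (pderiv i (p * X k)) =
          eval w' p * (if i = k then 1 else 0) + w' k * eval w' (pderiv i p) := by
        intro i
        simp only [Derivation.leibniz, pderiv_X, Pi.single_apply, smul_eq_mul, map_add, map_mul,
          eval_X]
        by_cases h : i = k
        · subst h; simp
        · simp [h, Ne.symm h]
      have d2 : ∑ i, eval w' (pderiv i (p * X k)) * (w i - w' i) =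
          eval w' p * (w k - w' k) + w' k * ∑ i, eval w' (pderiv i p) * (w i - w' i) := by
        rw [Finset.sum_congr rfl (fun i _ => by rw [d1 i]), Finset.mul_sum]
        have : ∀ i, (eval w' p * (if i = k then 1 else 0) + w' k * eval w' (pderiv i p)) *
            (w i - w' i) = (if i = k then eval w' p * (w i - w' i) else 0) +
            w' k * (eval w' (pderiv i p) * (w i - w' i)) := by
          intro i; split_ifs <;> ring
        rw [Finset.sum_congr rfl (fun i _ => this i), Finset.sum_add_distrib]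
        simp only [Finset.sum_ite_eq', Finset.mem_univ, ↓reduceIte]
      have d3 : ∑ i, ∑ j, (w k * M i j w' w + 1 / 2 *
          (eval w' (pderiv i p) * (if j = k then 1 else 0) +
          eval w' (pderiv j p) * (if i = k then 1 else 0))) * (w i - w' i) * (w j - w' j) =
          w k * ∑ i, ∑ j, M i j w' w * (w i - w' i) * (w j - w' j) +
          (w k - w' k) * ∑ i, eval w' (pderiv i p) * (w i - w' i) := by
        have e1 : ∑ i, ∑ j, (w k * M i j w' w + 1 / 2 *
          (eval w' (pderiv i p) * (if j = k then 1 else 0) +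
          eval w' (pderiv j p) * (if i = k then 1 else 0))) * (w i - w' i) * (w j - w' j) =
          w k * ∑ i, ∑ j, M i j w' w * (w i - w' i) * (w j - w' j) +
          1 / 2 * ∑ i, ∑ j, (if j = k then eval w' (pderiv i p) * (w i - w' i) * (w j - w' j)
            else 0) +
          1 / 2 * ∑ i, ∑ j, (if i = k then eval w' (pderiv j p) * (w i - w' i) * (w j - w' j)
            else 0) := by
          simp only [Finset.mul_sum, ← Finset.sum_add_distrib]
          refine Finset.sum_congr rfl fun i _ => Finset.sum_congr rfl fun j _ => ?_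
          split_ifs <;> ring
        have e2 : ∑ i, ∑ j, (if j = k then eval w' (pderiv i p) * (w i - w' i) * (w j - w' j)
            else 0) = (w k - w' k) * ∑ i, eval w' (pderiv i p) * (w i - w' i) := by
          rw [Finset.mul_sum]
          refine Finset.sum_congr rfl fun i _ => ?_
          simp only [Finset.sum_ite_eq', Finset.mem_univ, ↓reduceIte]
          ring
        have e3 : ∑ i, ∑ j, (if i = k then eval w' (pderiv j p) * (w i - w' i) * (w j - w' j)
            else 0) = (w k - w' k) * ∑ i, eval w' (pderiv i p) * (w i - w' i) := by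
          rw [Finset.sum_comm, Finset.mul_sum]
          refine Finset.sum_congr rfl fun i _ => ?_
          simp only [Finset.sum_ite_eq', Finset.mem_univ, ↓reduceIte]
          ring
        rw [e1, e2, e3]; ring
      rw [d2, d3, map_mul, map_mul, eval_X, eval_X, eM w' w]
      ring
    · simp only [dM, Derivation.leibniz, pderiv_X, Pi.single_apply, smul_eq_mul, map_add, map_mul, eval_X]
      by_cases h1 : j = k
      · by_cases h2 : i = k
        · subst h1; subst h2
          simp only [if_true, map_one]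
          ring_nf
          simp only [one_div, Derivation.map_one_eq_zero, map_zero, mul_zero, zero_mul, add_zero]
          try ring
        · subst h1
          simp only [one_div, ↓reduceIte, mul_one, h2, mul_zero, add_zero, Derivation.map_one_eq_zero, map_zero, map_one, one_mul, zero_add, Ne.symm h2]
          try ring
      · by_cases h2 : i = k
        · subst h2
          simp only [one_div, h1, ↓reduceIte, mul_zero, mul_one, zero_add, Ne.symm h1, map_zero, zero_mul, add_zero, map_one]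
          try ring
        · simp only [one_div, h1, ↓reduceIte, mul_zero, h2, add_zero, Ne.symm h1, map_zero, zero_mul, Ne.symm h2, zero_add]
          try ring

end Tay

section Comp

variable {L X L' X' : Type*} [TopologicalSpace L] [TopologicalSpace X] [TopologicalSpace L']
  [TopologicalSpace X']

theorem CK.comp {h : L → X → ℝ} (H : CK Set.univ Set.univ h) {φ : L' → L} {ψ : X' → X}
    (hφ : Continuous φ) (hψ : Continuous ψ) :
    CK Set.univ Set.univ (fun l x => h (φ l) (ψ x)) := by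
  obtain ⟨n, a, f, ha, hf, hh⟩ := H
  refine ⟨n, fun k l => a k (φ l), fun k x => f k (ψ x), fun k l _ => ?_, fun k x _ => ?_,
    fun l x => hh _ _⟩
  · exact (ha k (φ l) (Set.mem_univ _)).comp hφ.continuousAt
  · exact (hf k (ψ x) (Set.mem_univ _)).comp hψ.continuousAt

theorem CK.leftc {a : L → ℝ} (ha : Continuous a) :
    CK (Set.univ : Set L) (Set.univ : Set X) (fun l (_ : X) => a l) :=
  CK.left (fun _ _ => ha.continuousAt)

theorem CK.rightc {f : X → ℝ} (hf : Continuous f) :
    CK (Set.univ : Set L) (Set.univ : Set X) (fun (_ : L) x => f x) :=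
  CK.right (fun _ _ => hf.continuousAt)

end Comp

end Vale.Agent.P256
end

section

/-! The local slack kernel along an equimultiple stratum. -/

namespace Vale.Agent.P256

open Filter Topology MvPolynomial

set_option linter.unusedSectionVars false

section Strat

variable {κ : Type*} [Fintype κ] [DecidableEq κ]

/-- base point on the stratum -/
def zp (w : κ ⊕ Option κ → ℝ) : κ → ℝ := fun i => w (.inl i)
/-- radius -/
def bp (w : κ ⊕ Option κ → ℝ) : ℝ := w (.inr none)
/-- direction -/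
def np (w : κ ⊕ Option κ → ℝ) : κ → ℝ := fun i => w (.inr (some i))

theorem zp_cont : Continuous (zp : (κ ⊕ Option κ → ℝ) → κ → ℝ) := by
  unfold zp; fun_prop
theorem bp_cont : Continuous (bp : (κ ⊕ Option κ → ℝ) → ℝ) := by
  unfold bp; fun_prop
theorem np_cont : Continuous (np : (κ ⊕ Option κ → ℝ) → κ → ℝ) := by
  unfold np; fun_prop

/-- the slack kernel, divided by the power of the radius -/
noncomputable def stratKer (P : MvPolynomial (κ ⊕ Option κ) ℝ) (l x : κ ⊕ Option κ → ℝ) : ℝ :=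
  ∑ i, eval l (pderiv (.inr (some i)) P) *
    ((zp x i + bp x * np x i) - (zp l i + bp l * np l i))

/-- the vector of small kernels -/
noncomputable def sVec : κ ⊕ Option κ → (κ ⊕ Option κ → ℝ) → (κ ⊕ Option κ → ℝ) → ℝ
  | .inl i, l, x => x (.inl i) - l (.inl i)
  | .inr none, l, x => x (.inr none) - l (.inr none)
  | .inr (some i), l, x => Real.sqrt (bp x) * (x (.inr (some i)) - l (.inr (some i)))

/-- weights -/
noncomputable def sW : κ ⊕ Option κ → (κ ⊕ Option κ → ℝ) → ℝ
  | .inl _, x => Real.sqrt (bp x)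
  | .inr none, x => Real.sqrt (bp x)
  | .inr (some _), _ => 1

theorem sW_cont (i : κ ⊕ Option κ) : Continuous (sW i : (κ ⊕ Option κ → ℝ) → ℝ) := by
  rcases i with i | _ | i
  · exact Real.continuous_sqrt.comp bp_cont
  · exact Real.continuous_sqrt.comp bp_cont
  · exact continuous_const

theorem sVec_FR (i : κ ⊕ Option κ) : FR (sVec i) := by
  have hc : ∀ j : κ ⊕ Option κ, FR (fun (l : κ ⊕ Option κ → ℝ) (x : κ ⊕ Option κ → ℝ) =>
      x j - l j) := fun j =>
    (FR.right (fun x : κ ⊕ Option κ → ℝ => x j)).sub (FR.left (fun l : κ ⊕ Option κ → ℝ => l j))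
  rcases i with i | _ | i
  · exact hc _
  · exact hc _
  · exact (FR.right (fun x : κ ⊕ Option κ → ℝ => Real.sqrt (bp x))).mul (hc _)

theorem sW_sVec (i : κ ⊕ Option κ) (l x : κ ⊕ Option κ → ℝ) :
    sW i x * sVec i l x = Real.sqrt (bp x) * (x i - l i) := by
  rcases i with i | _ | i
  · rfl
  · rfl
  · show 1 * _ = _
    rw [one_mul]; rfl

theorem CKu.coord (j : κ ⊕ Option κ) : CK (Set.univ) (Set.univ)
    (fun (l : κ ⊕ Option κ → ℝ) (x : κ ⊕ Option κ → ℝ) => x j - l j) :=
  (CK.rightc (continuous_apply j)).sub (CK.leftc (continuous_apply j))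

/-- linear forms in the directions `f i`, the coefficients being continuous on the left -/
theorem linK_of {Z Y : Set (κ ⊕ Option κ → ℝ)} (f : κ → κ ⊕ Option κ)
    (a : κ → (κ ⊕ Option κ → ℝ) → ℝ) (ha : ∀ i, Continuous (a i)) :
    LinK (Set.univ) (Set.univ) Z Y sVec
      (fun l x => ∑ i, a i l * sVec (f i) l x) (fun l _ y => ∑ i, a i l * y (f i)) :=
  LinK.sum _ (fun i _ => (LinK.basic (f i)).smul (CK.leftc (ha i)))

theorem evc {τ : Type*} (g : MvPolynomial τ ℝ) {Z : Type*} [TopologicalSpace Z] {φ : Z → τ → ℝ}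
    (hφ : Continuous φ) : Continuous (fun l => eval (φ l) g) :=
  (MvPolynomial.continuous_eval g).comp hφ

/-- linear forms with small coefficients -/
theorem linK_small {w0 : κ ⊕ Option κ → ℝ}
    {m : κ ⊕ Option κ → (κ ⊕ Option κ → ℝ) → (κ ⊕ Option κ → ℝ) → ℝ}
    (hm : ∀ i, CK Set.univ Set.univ (m i)) (h0 : ∀ i, m i w0 w0 = 0) :
    LinK Set.univ Set.univ {w0} {w0} sVec (fun l x => ∑ i, m i l x * sVec i l x)
      (fun _ _ _ => 0) := by
  refine (LinK.sum (D := Set.univ) (E := Set.univ) (Z := {w0}) (Y := {w0}) (v := sVec)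
      Finset.univ (fun i _ => (LinK.basic i).smul (hm i))).congr (fun _ _ _ _ => rfl) ?_
  rintro l hl x hx y
  rw [Set.mem_singleton_iff] at hl hx
  subst hl; subst hx
  simp only [h0, zero_mul, Finset.sum_const_zero]

theorem quadK_of_lin {w0 : κ ⊕ Option κ → ℝ} {T : Set (κ ⊕ Option κ → ℝ)}
    {u1 u2 : (κ ⊕ Option κ → ℝ) → (κ ⊕ Option κ → ℝ) → ℝ}
    {c : (κ ⊕ Option κ → ℝ) → (κ ⊕ Option κ → ℝ) → (κ ⊕ Option κ → ℝ) → ℝ}
    (h1 : LinK Set.univ Set.univ {w0} {w0} sVec u1 c)
    (h2 : LinK Set.univ Set.univ {w0} {w0} sVec u2 (fun _ _ _ => 0))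
    (h : ∀ l ∈ T, ∀ x ∈ T, u1 l x = - u2 l x) :
    ∃ u : (κ ⊕ Option κ → ℝ) → (κ ⊕ Option κ → ℝ) → ℝ,
      QuadK Set.univ Set.univ {w0} {w0} sVec u (fun _ _ y => (c w0 w0 y) ^ 2) ∧
      ∀ l ∈ T, ∀ x ∈ T, u l x = 0 := by
  refine ⟨_, (h1.sq.add (h2.sq.smul (CK.const (-1)))).congr (fun _ _ _ _ => rfl) ?_, ?_⟩
  · rintro l hl x hx y
    rw [Set.mem_singleton_iff] at hl hx
    subst hl; subst hx
    ring
  · intro l hl x hx
    rw [h l hl x hx]
    ring

/-- the square of a small linear form: constraints on the base point -/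
theorem quadK_z {w0 : κ ⊕ Option κ → ℝ} (G : MvPolynomial κ ℝ)
    {T : Set (κ ⊕ Option κ → ℝ)} (hG : ∀ w ∈ T, eval (zp w) G = 0) :
    ∃ u : (κ ⊕ Option κ → ℝ) → (κ ⊕ Option κ → ℝ) → ℝ,
      QuadK Set.univ Set.univ {w0} {w0} sVec u
        (fun _ _ y => (∑ i, eval (zp w0) (pderiv i G) * y (.inl i)) ^ 2) ∧
      ∀ l ∈ T, ∀ x ∈ T, u l x = 0 := by
  obtain ⟨M, hM, eM, _⟩ := poly_tay Set.univ G
  have h1 : LinK Set.univ Set.univ {w0} {w0} sVec
      (fun l x => ∑ i, eval (zp l) (pderiv i G) * sVec (.inl i) l x)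
      (fun l _ y => ∑ i, eval (zp l) (pderiv i G) * y (.inl i)) :=
    linK_of (fun i => .inl i) (fun i l => eval (zp l) (pderiv i G)) (fun i => evc _ zp_cont)
  let m : κ ⊕ Option κ → (κ ⊕ Option κ → ℝ) → (κ ⊕ Option κ → ℝ) → ℝ := fun i l x =>
    match i with
    | .inl i => ∑ j, M i j (zp l) (zp x) * (x (Sum.inl j) - l (Sum.inl j))
    | .inr _ => 0
  have h2 := linK_small (w0 := w0) (m := m) (by
    rintro (i | i)
    · exact CK.sum Finset.univ (fun j _ => ((hM i j).comp zp_cont zp_cont).mul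
        (CKu.coord (Sum.inl j)))
    · exact CK.const 0) (by
    rintro (i | i)
    · simp only [sub_self, mul_zero, Finset.sum_const_zero, m]
    · rfl)
  refine quadK_of_lin h1 h2 (T := T) fun l hl x hx => ?_
  have h3 := eM (zp l) (zp x)
  rw [hG l hl, hG x hx] at h3
  have e1 : ∑ i, eval (zp l) (pderiv i G) * sVec (.inl i) l x =
      ∑ i, eval (zp l) (pderiv i G) * (zp x i - zp l i) := rfl
  have e2 : ∑ i, m i l x * sVec i l x =
      ∑ i, ∑ j, M i j (zp l) (zp x) * (zp x i - zp l i) * (zp x j - zp l j) := by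
    rw [Fintype.sum_sum_type]
    have : ∑ i : Option κ, m (Sum.inr i) l x * sVec (Sum.inr i) l x = 0 :=
      Finset.sum_eq_zero fun i _ => zero_mul _
    rw [this, add_zero]
    refine Finset.sum_congr rfl fun i _ => ?_
    show (∑ j, M i j (zp l) (zp x) * (x (Sum.inl j) - l (Sum.inl j))) *
      (x (.inl i) - l (.inl i)) = _
    rw [Finset.sum_mul]
    refine Finset.sum_congr rfl fun j _ => ?_
    show _ * (x (.inl i) - l (.inl i)) = _ * (x (.inl i) - l (.inl i)) * (x (.inl j) - l (.inl j))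
    ring
  rw [e1, e2]
  linarith only [h3]

/-- constraints on the direction -/
theorem quadK_n {w0 : κ ⊕ Option κ → ℝ} (G : MvPolynomial κ ℝ)
    {T : Set (κ ⊕ Option κ → ℝ)} (hG : ∀ w ∈ T, eval (np w) G = 0) :
    ∃ u : (κ ⊕ Option κ → ℝ) → (κ ⊕ Option κ → ℝ) → ℝ,
      QuadK Set.univ Set.univ {w0} {w0} sVec u
        (fun _ _ y => (∑ i, eval (np w0) (pderiv i G) * y (.inr (some i))) ^ 2) ∧
      ∀ l ∈ T, ∀ x ∈ T, u l x = 0 := by
  obtain ⟨M, hM, eM, _⟩ := poly_tay Set.univ G
  have h1 : LinK Set.univ Set.univ {w0} {w0} sVec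
      (fun l x => ∑ i, eval (np l) (pderiv i G) * sVec (.inr (some i)) l x)
      (fun l _ y => ∑ i, eval (np l) (pderiv i G) * y (.inr (some i))) :=
    linK_of (fun i => .inr (some i)) (fun i l => eval (np l) (pderiv i G))
      (fun i => evc _ np_cont)
  let m : κ ⊕ Option κ → (κ ⊕ Option κ → ℝ) → (κ ⊕ Option κ → ℝ) → ℝ := fun i l x =>
    match i with
    | .inl _ => 0
    | .inr none => 0
    | .inr (some i) => ∑ j, M i j (np l) (np x) * (x (Sum.inr (some j)) - l (Sum.inr (some j)))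
  have h2 := linK_small (w0 := w0) (m := m) (by
    rintro (i | _ | i)
    · exact CK.const 0
    · exact CK.const 0
    · exact CK.sum Finset.univ (fun j _ => ((hM i j).comp np_cont np_cont).mul
        (CKu.coord (Sum.inr (some j))))) (by
    rintro (i | _ | i)
    · rfl
    · rfl
    · simp only [sub_self, mul_zero, Finset.sum_const_zero, m])
  refine quadK_of_lin h1 h2 (T := T) fun l hl x hx => ?_
  have h3 := eM (np l) (np x)
  rw [hG l hl, hG x hx] at h3
  have e1 : ∑ i, eval (np l) (pderiv i G) * sVec (.inr (some i)) l x =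
      Real.sqrt (bp x) * ∑ i, eval (np l) (pderiv i G) * (np x i - np l i) := by
    rw [Finset.mul_sum]
    refine Finset.sum_congr rfl fun i _ => ?_
    show _ * (Real.sqrt (bp x) * (x (.inr (some i)) - l (.inr (some i)))) =
      _ * (_ * (x (.inr (some i)) - l (.inr (some i))))
    ring
  have e2 : ∑ i, m i l x * sVec i l x = Real.sqrt (bp x) *
      ∑ i, ∑ j, M i j (np l) (np x) * (np x i - np l i) * (np x j - np l j) := by
    rw [Fintype.sum_sum_type, Fintype.sum_option]
    have a1 : ∑ i : κ, m (Sum.inl i) l x * sVec (Sum.inl i) l x = 0 :=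
      Finset.sum_eq_zero fun i _ => zero_mul _
    have a2 : m (Sum.inr none) l x * sVec (Sum.inr none) l x = 0 := zero_mul _
    rw [a1, a2, zero_add, zero_add, Finset.mul_sum]
    refine Finset.sum_congr rfl fun i _ => ?_
    show (∑ j, M i j (np l) (np x) * (x (Sum.inr (some j)) - l (Sum.inr (some j)))) *
      (Real.sqrt (bp x) * (x (.inr (some i)) - l (.inr (some i)))) = _
    rw [Finset.sum_mul, Finset.mul_sum]
    refine Finset.sum_congr rfl fun j _ => ?_
    show _ * (Real.sqrt (bp x) * (x (.inr (some i)) - l (.inr (some i)))) =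
      _ * (_ * (x (.inr (some i)) - l (.inr (some i))) *
        (x (.inr (some j)) - l (.inr (some j))))
    ring
  rw [e1, e2]
  have h4 : ∑ i, eval (np l) (pderiv i G) * (np x i - np l i) =
    - ∑ i, ∑ j, M i j (np l) (np x) * (np x i - np l i) * (np x j - np l j) := by linarith only [h3]
  rw [h4]; ring

/-- small coefficients -/
noncomputable def sM1 (P : MvPolynomial (κ ⊕ Option κ) ℝ) :
    κ ⊕ Option κ → (κ ⊕ Option κ → ℝ) → (κ ⊕ Option κ → ℝ) → ℝ
  | .inl i, l, x => Real.sqrt (bp x) * eval l (pderiv (Sum.inl i) P)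
  | .inr none, l, x => Real.sqrt (bp x) * eval l (pderiv (Sum.inr none) P)
  | .inr (some _), _, _ => 0

theorem sM1_CK (P : MvPolynomial (κ ⊕ Option κ) ℝ) (i : κ ⊕ Option κ) :
    CK Set.univ Set.univ (sM1 P i) := by
  rcases i with i | _ | i
  · exact (CK.rightc (Real.continuous_sqrt.comp bp_cont)).mul
      (CK.leftc (evc (pderiv (Sum.inl i) P) continuous_id))
  · exact (CK.rightc (Real.continuous_sqrt.comp bp_cont)).mul
      (CK.leftc (evc (pderiv (Sum.inr none) P) continuous_id))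
  · exact CK.const 0

theorem sM1_zero (P : MvPolynomial (κ ⊕ Option κ) ℝ) (i : κ ⊕ Option κ)
    {w0 : κ ⊕ Option κ → ℝ} (h0 : bp w0 = 0) : sM1 P i w0 w0 = 0 := by
  have hs0 : Real.sqrt (bp w0) = 0 := by rw [h0]; exact Real.sqrt_zero
  rcases i with i | _ | i
  · show Real.sqrt (bp w0) * _ = 0
    rw [hs0, zero_mul]
  · show Real.sqrt (bp w0) * _ = 0
    rw [hs0, zero_mul]
  · rfl

theorem sM1_sum (P : MvPolynomial (κ ⊕ Option κ) ℝ) (l x : κ ⊕ Option κ → ℝ) :
    ∑ i, sM1 P i l x * sVec i l x = Real.sqrt (bp x) *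
      (∑ i : κ, eval l (pderiv (Sum.inl i) P) * (x (.inl i) - l (.inl i)) +
        eval l (pderiv (Sum.inr none) P) * (x (.inr none) - l (.inr none))) := by
  rw [Fintype.sum_sum_type, Fintype.sum_option]
  have a1 : ∑ i : κ, sM1 P (Sum.inr (some i)) l x * sVec (Sum.inr (some i)) l x = 0 :=
    Finset.sum_eq_zero fun i _ => zero_mul _
  rw [a1, add_zero, mul_add, Finset.mul_sum]
  congr 1
  · refine Finset.sum_congr rfl fun i _ => ?_
    show Real.sqrt (bp x) * _ * (x (.inl i) - l (.inl i)) = _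
    ring
  · show Real.sqrt (bp x) * _ * (x (.inr none) - l (.inr none)) = _
    ring

theorem sM2_sum (M : κ ⊕ Option κ → κ ⊕ Option κ → (κ ⊕ Option κ → ℝ) → (κ ⊕ Option κ → ℝ) → ℝ)
    (l x : κ ⊕ Option κ → ℝ) :
    ∑ i, ((∑ j, M i j l x * (x j - l j)) * sW i x) * sVec i l x =
      Real.sqrt (bp x) * ∑ i, ∑ j, M i j l x * (x i - l i) * (x j - l j) := by
  rw [Finset.mul_sum]
  refine Finset.sum_congr rfl fun i _ => ?_
  rw [mul_assoc, sW_sVec, Finset.sum_mul, Finset.mul_sum]
  refine Finset.sum_congr rfl fun j _ => ?_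
  ring

/-- the equation of the hypersurface -/
theorem quadK_P {w0 : κ ⊕ Option κ → ℝ} (h0 : bp w0 = 0) (P : MvPolynomial (κ ⊕ Option κ) ℝ)
    {T : Set (κ ⊕ Option κ → ℝ)} (hP : ∀ w ∈ T, eval w P = 0) :
    ∃ u : (κ ⊕ Option κ → ℝ) → (κ ⊕ Option κ → ℝ) → ℝ,
      QuadK Set.univ Set.univ {w0} {w0} sVec u
        (fun _ _ y => (∑ i, eval w0 (pderiv (Sum.inr (some i)) P) * y (Sum.inr (some i))) ^ 2) ∧
      ∀ l ∈ T, ∀ x ∈ T, u l x = 0 := by
  obtain ⟨M, hM, eM, _⟩ := poly_tay Set.univ P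
  have h1 : LinK Set.univ Set.univ {w0} {w0} sVec
      (fun l x => ∑ i, eval l (pderiv (Sum.inr (some i)) P) * sVec (Sum.inr (some i)) l x)
      (fun l _ y => ∑ i, eval l (pderiv (Sum.inr (some i)) P) * y (Sum.inr (some i))) :=
    linK_of (fun i => Sum.inr (some i)) (fun i l => eval l (pderiv (Sum.inr (some i)) P))
      (fun i => evc _ continuous_id)
  have h2 : LinK Set.univ Set.univ {w0} {w0} sVec
      (fun l x => ∑ i, ((∑ j, M i j l x * (x j - l j)) * sW i x) * sVec i l x)
      (fun _ _ _ => 0) :=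
    linK_small (w0 := w0) (m := fun i l x => (∑ j, M i j l x * (x j - l j)) * sW i x)
      (fun i => (CK.sum Finset.univ (fun j _ => (hM i j).mul (CKu.coord j))).mul
        (CK.rightc (sW_cont i)))
      (fun i => by simp only [sub_self, mul_zero, Finset.sum_const_zero, zero_mul])
  have h3 : LinK Set.univ Set.univ {w0} {w0} sVec
      (fun l x => ∑ i, sM1 P i l x * sVec i l x) (fun _ _ _ => 0) :=
    linK_small (w0 := w0) (m := sM1 P) (fun i => sM1_CK P i) (fun i => sM1_zero P i h0)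
  have h4 : LinK Set.univ Set.univ {w0} {w0} sVec
      (fun l x => ∑ i, ((∑ j, M i j l x * (x j - l j)) * sW i x) * sVec i l x +
        ∑ i, sM1 P i l x * sVec i l x) (fun _ _ _ => 0) :=
    (h2.add h3).congr (fun _ _ _ _ => rfl) (fun _ _ _ _ _ => (add_zero (0 : ℝ)).symm)
  refine quadK_of_lin h1 h4 (T := T) fun l hl x hx => ?_
  have h5 := eM l x
  rw [hP l hl, hP x hx, Fintype.sum_sum_type, Fintype.sum_option] at h5
  have e1 : ∑ i, eval l (pderiv (Sum.inr (some i)) P) * sVec (Sum.inr (some i)) l x =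
      Real.sqrt (bp x) * ∑ i : κ, eval l (pderiv (Sum.inr (some i)) P) *
        (x (.inr (some i)) - l (.inr (some i))) := by
    rw [Finset.mul_sum]
    refine Finset.sum_congr rfl fun i _ => ?_
    show _ * (Real.sqrt (bp x) * (x (.inr (some i)) - l (.inr (some i)))) =
      _ * (_ * (x (.inr (some i)) - l (.inr (some i))))
    ring
  have h6 : ∑ i : κ, eval l (pderiv (Sum.inr (some i)) P) *
        (x (.inr (some i)) - l (.inr (some i))) =
      - (∑ i, ∑ j, M i j l x * (x i - l i) * (x j - l j) +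
      (∑ i : κ, eval l (pderiv (Sum.inl i) P) * (x (.inl i) - l (.inl i)) +
      eval l (pderiv (Sum.inr none) P) * (x (.inr none) - l (.inr none)))) := by linarith only [h5]
  rw [e1, sM1_sum, sM2_sum, h6]
  ring

end Strat

end Vale.Agent.P256
end

section

/-! The local slack kernel along an equimultiple stratum: the near-diagonal case. -/

namespace Vale.Agent.P256

open Filter Topology MvPolynomial

set_option linter.unusedSectionVars false

section Strat

variable {κ : Type*} [Fintype κ] [DecidableEq κ]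


/-- curvature of the stratum -/
theorem quadK_T1 {A : Type*} [Fintype A] (g : A → MvPolynomial κ ℝ) (c : A → (κ ⊕ Option κ → ℝ) → ℝ)
    (hc : ∀ a, Continuous (c a)) (w0 : (κ ⊕ Option κ → ℝ)) :
    ∃ u : (κ ⊕ Option κ → ℝ) → (κ ⊕ Option κ → ℝ) → ℝ, QuadK Set.univ Set.univ {w0} {w0} sVec u
      (fun _ _ y => - (1 / 2) * ∑ a, c a w0 * ∑ i, ∑ j,
        eval (zp w0) (pderiv i (pderiv j (g a))) * y (Sum.inl i) * y (Sum.inl j)) ∧
      ∀ l x : (κ ⊕ Option κ → ℝ), (∀ a, eval (zp l) (g a) = 0) → (∀ a, eval (zp x) (g a) = 0) →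
        u l x = ∑ a, c a l * ∑ i, eval (zp l) (pderiv i (g a)) * (zp x i - zp l i) := by
  choose M hM eM dM using fun a => poly_tay (σ := κ) Set.univ (g a)
  have h1 : QuadK Set.univ Set.univ {w0} {w0} sVec
      (fun l x => ∑ a, ∑ i, ∑ j, (- c a l * M a i j (zp l) (zp x)) *
        (sVec (Sum.inl i) l x * sVec (Sum.inl j) l x))
      (fun l x y => ∑ a, ∑ i, ∑ j, (- c a l * M a i j (zp l) (zp x)) *
        (y (Sum.inl i) * y (Sum.inl j))) :=
    QuadK.sum Finset.univ fun a _ => QuadK.sum Finset.univ fun i _ =>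
      QuadK.sum Finset.univ fun j _ => ((LinK.basic (Sum.inl i)).mul (LinK.basic (Sum.inl j))).smul
        (m := fun l x => - c a l * M a i j (zp l) (zp x))
        ((CK.leftc (hc a).neg).mul ((hM a i j).comp zp_cont zp_cont))
  refine ⟨_, h1.congr (fun _ _ _ _ => rfl) ?_, ?_⟩
  · rintro l hl x hx y
    rw [Set.mem_singleton_iff] at hl hx
    subst hl; subst hx
    rw [Finset.mul_sum]
    refine Finset.sum_congr rfl fun a _ => ?_
    rw [Finset.mul_sum, Finset.mul_sum]
    refine Finset.sum_congr rfl fun i _ => ?_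
    rw [Finset.mul_sum, Finset.mul_sum]
    refine Finset.sum_congr rfl fun j _ => ?_
    rw [dM]; ring
  · intro l x hl hx
    refine Finset.sum_congr rfl fun a _ => ?_
    have h3 := eM a (zp l) (zp x)
    rw [hl a, hx a] at h3
    have h4 : ∑ i, eval (zp l) (pderiv i (g a)) * (zp x i - zp l i) =
      - ∑ i, ∑ j, M a i j (zp l) (zp x) * (zp x i - zp l i) * (zp x j - zp l j) := by linarith
    rw [h4, mul_neg, Finset.mul_sum, ← Finset.sum_neg_distrib]
    refine Finset.sum_congr rfl fun i _ => ?_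
    rw [Finset.mul_sum, ← Finset.sum_neg_distrib]
    refine Finset.sum_congr rfl fun j _ => ?_
    show _ * ((zp x i - zp l i) * (zp x j - zp l j)) = _
    ring

theorem quadK_T2 (P : MvPolynomial (κ ⊕ Option κ) ℝ) (w0 : (κ ⊕ Option κ → ℝ)) :
    QuadK Set.univ Set.univ {w0} {w0} sVec
      (fun l x => (- 1) * (sVec (Sum.inr none) l x *
        ∑ i, eval l (pderiv (Sum.inl i) P) * sVec (Sum.inl i) l x))
      (fun _ _ y => - (y (Sum.inr none) * ∑ i, eval w0 (pderiv (Sum.inl i) P) * y (Sum.inl i))) := by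
  refine (((LinK.basic (Sum.inr none)).mul (linK_of (Z := {w0}) (Y := {w0})
    (fun i : κ => (Sum.inl i : κ ⊕ Option κ)) (fun i l => eval l (pderiv (Sum.inl i) P))
    (fun i => evc _ continuous_id))).smul (CK.const (-1))).congr (fun _ _ _ _ => rfl) ?_
  rintro l hl x hx y
  rw [Set.mem_singleton_iff] at hl hx
  subst hl; subst hx
  ring

theorem quadK_T3 (P : MvPolynomial (κ ⊕ Option κ) ℝ) (w0 : (κ ⊕ Option κ → ℝ)) :
    QuadK Set.univ Set.univ {w0} {w0} sVec
      (fun l x => (- eval l (pderiv (Sum.inr none) P)) *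
        (sVec (Sum.inr none) l x * sVec (Sum.inr none) l x))
      (fun _ _ y => - (y (Sum.inr none) ^ 2 * eval w0 (pderiv (Sum.inr none) P))) := by
  refine (((LinK.basic (Sum.inr none)).mul (LinK.basic (Sum.inr none))).smul
    (m := fun l _ => - eval l (pderiv (Sum.inr none) P))
    (CK.leftc (evc (pderiv (Sum.inr none) P) continuous_id).neg)).congr (fun _ _ _ _ => rfl) ?_
  rintro l hl x hx y
  rw [Set.mem_singleton_iff] at hl hx
  subst hl; subst hx
  ring

theorem quadK_T4 (P : MvPolynomial (κ ⊕ Option κ) ℝ) {w0 : (κ ⊕ Option κ → ℝ)} (h0 : bp w0 = 0) :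
    ∃ u : (κ ⊕ Option κ → ℝ) → (κ ⊕ Option κ → ℝ) → ℝ, QuadK Set.univ Set.univ {w0} {w0} sVec u
      (fun _ _ y => - (1 / 2) * ∑ i : κ, ∑ j : κ,
        eval w0 (pderiv (Sum.inr (some i)) (pderiv (Sum.inr (some j)) P)) *
          y (Sum.inr (some i)) * y (Sum.inr (some j))) ∧
      ∀ l x : (κ ⊕ Option κ → ℝ), 0 ≤ bp x → eval l P = 0 → eval x P = 0 →
        u l x = bp x * ∑ i, eval l (pderiv i P) * (x i - l i) := by
  obtain ⟨M, hM, eM, dM⟩ := poly_tay Set.univ P
  have h1 : QuadK Set.univ Set.univ {w0} {w0} sVec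
      (fun l x => ∑ i, ∑ j, (- M i j l x * sW i x * sW j x) * (sVec i l x * sVec j l x))
      (fun l x y => ∑ i, ∑ j, (- M i j l x * sW i x * sW j x) * (y i * y j)) :=
    QuadK.sum Finset.univ fun i _ => QuadK.sum Finset.univ fun j _ =>
      ((LinK.basic i).mul (LinK.basic j)).smul
        (m := fun l x => - M i j l x * sW i x * sW j x)
        (((hM i j).neg.mul (CK.rightc (sW_cont i))).mul (CK.rightc (sW_cont j)))
  refine ⟨_, h1.congr (fun _ _ _ _ => rfl) ?_, ?_⟩
  · rintro l hl x hx y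
    rw [Set.mem_singleton_iff] at hl hx
    rw [hl, hx]
    have s1 : ∀ i : κ, sW (Sum.inl i) w0 = 0 := fun i => by
      show Real.sqrt (bp w0) = 0
      rw [h0, Real.sqrt_zero]
    have s2 : sW (Sum.inr none) w0 = 0 := by
      show Real.sqrt (bp w0) = 0
      rw [h0, Real.sqrt_zero]
    have s3 : ∀ i : κ, sW (Sum.inr (some i)) w0 = 1 := fun i => rfl
    rw [Fintype.sum_sum_type, Fintype.sum_option]
    have a1 : ∑ i : κ, ∑ j, (- M (Sum.inl i) j w0 w0 * sW (Sum.inl i) w0 * sW j w0) *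
        (y (Sum.inl i) * y j) = 0 := by
      refine Finset.sum_eq_zero fun i _ => Finset.sum_eq_zero fun j _ => ?_
      rw [s1]; ring
    have a2 : ∑ j, (- M (Sum.inr none) j w0 w0 * sW (Sum.inr none) w0 * sW j w0) *
        (y (Sum.inr none) * y j) = 0 := by
      refine Finset.sum_eq_zero fun j _ => ?_
      rw [s2]; ring
    rw [a1, a2, zero_add, zero_add, Finset.mul_sum]
    refine Finset.sum_congr rfl fun i _ => ?_
    rw [Fintype.sum_sum_type, Fintype.sum_option]
    have a3 : ∑ j : κ, (- M (Sum.inr (some i)) (Sum.inl j) w0 w0 * sW (Sum.inr (some i)) w0 *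
        sW (Sum.inl j) w0) * (y (Sum.inr (some i)) * y (Sum.inl j)) = 0 := by
      refine Finset.sum_eq_zero fun j _ => ?_
      rw [s1]; ring
    have a4 : (- M (Sum.inr (some i)) (Sum.inr none) w0 w0 * sW (Sum.inr (some i)) w0 *
        sW (Sum.inr none) w0) * (y (Sum.inr (some i)) * y (Sum.inr none)) = 0 := by
      rw [s2]; ring
    rw [a3, a4, zero_add, zero_add, Finset.mul_sum]
    refine Finset.sum_congr rfl fun j _ => ?_
    rw [s3, s3, dM]; ring
  · intro l x hb hl hx
    have h3 := eM l x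
    rw [hl, hx] at h3
    have h4 : ∑ i, eval l (pderiv i P) * (x i - l i) =
      - ∑ i, ∑ j, M i j l x * (x i - l i) * (x j - l j) := by linarith
    rw [h4, mul_neg, Finset.mul_sum, ← Finset.sum_neg_distrib]
    refine Finset.sum_congr rfl fun i _ => ?_
    rw [Finset.mul_sum, ← Finset.sum_neg_distrib]
    refine Finset.sum_congr rfl fun j _ => ?_
    have h5 : (- M i j l x * sW i x * sW j x) * (sVec i l x * sVec j l x) =
        - M i j l x * ((sW i x * sVec i l x) * (sW j x * sVec j l x)) := by ring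
    rw [h5, sW_sVec, sW_sVec]
    have h6 : Real.sqrt (bp x) * (x i - l i) * (Real.sqrt (bp x) * (x j - l j)) =
        (Real.sqrt (bp x) * Real.sqrt (bp x)) * ((x i - l i) * (x j - l j)) := by ring
    rw [h6, Real.mul_self_sqrt hb]
    ring

/-- the decomposition of the kernel -/
theorem stratKer_eq {A : Type*} [Fintype A] (g : A → MvPolynomial κ ℝ) (c : A → (κ ⊕ Option κ → ℝ) → ℝ)
    (P : MvPolynomial (κ ⊕ Option κ) ℝ) {l x : (κ ⊕ Option κ → ℝ)}
    (hE : ∑ i, eval l (pderiv (Sum.inr (some i)) P) * np l i = bp l * eval l (pderiv (Sum.inr none) P))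
    (hX : ∀ i, eval l (pderiv (Sum.inr (some i)) P) =
      ∑ a, c a l * eval (zp l) (pderiv i (g a)) + bp l * eval l (pderiv (Sum.inl i) P)) :
    stratKer P l x = ∑ a, c a l * ∑ i, eval (zp l) (pderiv i (g a)) * (zp x i - zp l i) +
      ((- 1) * (sVec (Sum.inr none) l x *
        ∑ i, eval l (pderiv (Sum.inl i) P) * sVec (Sum.inl i) l x) +
      ((- eval l (pderiv (Sum.inr none) P)) *
        (sVec (Sum.inr none) l x * sVec (Sum.inr none) l x) +
      bp x * ∑ i, eval l (pderiv i P) * (x i - l i))) := by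
  have e1 : stratKer P l x =
      ∑ i, eval l (pderiv (Sum.inr (some i)) P) * (zp x i - zp l i) +
      bp x * ∑ i, eval l (pderiv (Sum.inr (some i)) P) * (np x i - np l i) +
      (bp x - bp l) * ∑ i, eval l (pderiv (Sum.inr (some i)) P) * np l i := by
    unfold stratKer
    rw [Finset.mul_sum, Finset.mul_sum, ← Finset.sum_add_distrib, ← Finset.sum_add_distrib]
    refine Finset.sum_congr rfl fun i _ => ?_
    ring
  have e2 : ∑ i, eval l (pderiv (Sum.inr (some i)) P) * (zp x i - zp l i) =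
      ∑ a, c a l * ∑ i, eval (zp l) (pderiv i (g a)) * (zp x i - zp l i) +
      bp l * ∑ i, eval l (pderiv (Sum.inl i) P) * (zp x i - zp l i) := by
    have : ∑ a, c a l * ∑ i, eval (zp l) (pderiv i (g a)) * (zp x i - zp l i) =
        ∑ i, (∑ a, c a l * eval (zp l) (pderiv i (g a))) * (zp x i - zp l i) := by
      simp only [Finset.mul_sum, Finset.sum_mul]
      rw [Finset.sum_comm]
      refine Finset.sum_congr rfl fun i _ => Finset.sum_congr rfl fun a _ => ?_
      ring
    rw [this, Finset.mul_sum, ← Finset.sum_add_distrib]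
    refine Finset.sum_congr rfl fun i _ => ?_
    rw [hX i]; ring
  have e3 : ∑ i, eval l (pderiv i P) * (x i - l i) =
      ∑ i, eval l (pderiv (Sum.inl i) P) * (zp x i - zp l i) +
      (eval l (pderiv (Sum.inr none) P) * (bp x - bp l) +
        ∑ i, eval l (pderiv (Sum.inr (some i)) P) * (np x i - np l i)) := by
    rw [Fintype.sum_sum_type, Fintype.sum_option]
    rfl
  have e4 : ∑ i, eval l (pderiv (Sum.inl i) P) * sVec (Sum.inl i) l x =
      ∑ i, eval l (pderiv (Sum.inl i) P) * (zp x i - zp l i) := rfl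
  have e5 : sVec (Sum.inr none) l x = bp x - bp l := rfl
  rw [e1, e2, e3, e4, e5, hE]
  ring

theorem strat_diag {A B C : Type*} [Fintype A] [Fintype B] [Fintype C]
    (g : A → MvPolynomial κ ℝ) (c : A → (κ ⊕ Option κ → ℝ) → ℝ) (hc : ∀ a, Continuous (c a))
    (G : B → MvPolynomial κ ℝ) (H : C → MvPolynomial κ ℝ)
    (P : MvPolynomial (κ ⊕ Option κ) ℝ) {w0 : (κ ⊕ Option κ → ℝ)} {T : Set (κ ⊕ Option κ → ℝ)} (h0 : bp w0 = 0)
    (hb : ∀ w ∈ T, 0 ≤ bp w) (hP : ∀ w ∈ T, eval w P = 0)
    (hg : ∀ w ∈ T, ∀ a, eval (zp w) (g a) = 0) (hG : ∀ w ∈ T, ∀ b, eval (zp w) (G b) = 0)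
    (hH : ∀ w ∈ T, ∀ k, eval (np w) (H k) = 0)
    (hE : ∀ w ∈ T, ∑ i, eval w (pderiv (Sum.inr (some i)) P) * np w i =
      bp w * eval w (pderiv (Sum.inr none) P))
    (hX : ∀ w ∈ T, ∀ i, eval w (pderiv (Sum.inr (some i)) P) =
      ∑ a, c a w * eval (zp w) (pderiv i (g a)) + bp w * eval w (pderiv (Sum.inl i) P))
    (hpos : ∀ (y : κ → ℝ) (t : ℝ), (y ≠ 0 ∨ t ≠ 0) →
      (∀ a, ∑ i, eval (zp w0) (pderiv i (g a)) * y i = 0) →
      (∀ b, ∑ i, eval (zp w0) (pderiv i (G b)) * y i = 0) →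
      0 < - (1 / 2) * ∑ a, c a w0 * ∑ i, ∑ j,
        eval (zp w0) (pderiv i (pderiv j (g a))) * y i * y j -
        t * ∑ i, eval w0 (pderiv (Sum.inl i) P) * y i -
        t ^ 2 * eval w0 (pderiv (Sum.inr none) P))
    (hneg : ∀ y : κ → ℝ, y ≠ 0 → ∑ i, eval w0 (pderiv (Sum.inr (some i)) P) * y i = 0 →
      (∀ k, ∑ i, eval (np w0) (pderiv i (H k)) * y i = 0) →
      ∑ i, ∑ j, eval w0 (pderiv (Sum.inr (some i)) (pderiv (Sum.inr (some j)) P)) *
        y i * y j < 0) :
    ∃ U ∈ 𝓝 w0, ∃ V ∈ 𝓝 w0, SosOn (U ∩ T) (V ∩ T) (stratKer P) := by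
  obtain ⟨u1, hu1, eu1⟩ := quadK_T1 g c hc w0
  have hu2 := quadK_T2 P w0
  have hu3 := quadK_T3 P w0
  obtain ⟨u4, hu4, eu4⟩ := quadK_T4 P h0
  choose v1 hv1 ev1 using fun a => quadK_z (w0 := w0) (g a) (T := T) (fun w hw => hg w hw a)
  choose v2 hv2 ev2 using fun b => quadK_z (w0 := w0) (G b) (T := T) (fun w hw => hG w hw b)
  choose v3 hv3 ev3 using fun k => quadK_n (w0 := w0) (H k) (T := T) (fun w hw => hH w hw k)
  obtain ⟨v4, hv4, ev4⟩ := quadK_P h0 P hP
  have hmain := hu1.add (hu2.add (hu3.add hu4))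
  have hB := ((QuadK.sum Finset.univ (fun a _ => hv1 a)).add
    (QuadK.sum Finset.univ (fun b _ => hv2 b))).add
    ((QuadK.sum Finset.univ (fun k _ => hv3 k)).add hv4)
  have hfm := hmain.form (Set.mem_singleton w0) (Set.mem_singleton w0)
  have hfB := hB.form (Set.mem_singleton w0) (Set.mem_singleton w0)
  obtain ⟨R, hR, hfin⟩ := finsler hfm.1 hfB.1 hfm.2 hfB.2 (fun w => by (clear * -; positivity)) (by
    intro y hy hy0
    have n1 : ∀ a, 0 ≤ (∑ i, eval (zp w0) (pderiv i (g a)) * y (Sum.inl i)) ^ 2 :=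
      fun a => sq_nonneg _
    have n2 : ∀ a, 0 ≤ (∑ i, eval (zp w0) (pderiv i (G a)) * y (Sum.inl i)) ^ 2 :=
      fun a => sq_nonneg _
    have n3 : ∀ a, 0 ≤ (∑ i, eval (np w0) (pderiv i (H a)) * y (Sum.inr (some i))) ^ 2 :=
      fun a => sq_nonneg _
    have n4 : 0 ≤ (∑ i, eval w0 (pderiv (Sum.inr (some i)) P) * y (Sum.inr (some i))) ^ 2 :=
      sq_nonneg _
    have s1 := Finset.sum_nonneg (s := Finset.univ) fun a _ => n1 a
    have s2 := Finset.sum_nonneg (s := Finset.univ) fun a _ => n2 a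
    have s3 := Finset.sum_nonneg (s := Finset.univ) fun a _ => n3 a
    have z1 : ∀ a, ∑ i, eval (zp w0) (pderiv i (g a)) * y (Sum.inl i) = 0 := fun a =>
      pow_eq_zero_iff (two_ne_zero) |>.1
        ((Finset.sum_eq_zero_iff_of_nonneg fun a _ => n1 a).1 (by linarith only [s1, hy0, n4, s2, s3]) a (Finset.mem_univ _))
    have z2 : ∀ a, ∑ i, eval (zp w0) (pderiv i (G a)) * y (Sum.inl i) = 0 := fun a =>
      pow_eq_zero_iff (two_ne_zero) |>.1
        ((Finset.sum_eq_zero_iff_of_nonneg fun a _ => n2 a).1 (by linarith only [s2, hy0, n4, s1, s3]) a (Finset.mem_univ _))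
    have z3 : ∀ a, ∑ i, eval (np w0) (pderiv i (H a)) * y (Sum.inr (some i)) = 0 := fun a =>
      pow_eq_zero_iff (two_ne_zero) |>.1
        ((Finset.sum_eq_zero_iff_of_nonneg fun a _ => n3 a).1 (by linarith) a (Finset.mem_univ _))
    have z4 : ∑ i, eval w0 (pderiv (Sum.inr (some i)) P) * y (Sum.inr (some i)) = 0 :=
      pow_eq_zero_iff (two_ne_zero) |>.1 (by linarith)
    have k2 : 0 ≤ - (1 / 2) * ∑ i : κ, ∑ j : κ,
        eval w0 (pderiv (Sum.inr (some i)) (pderiv (Sum.inr (some j)) P)) *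
          y (Sum.inr (some i)) * y (Sum.inr (some j)) := by
      by_cases hyn : (fun i => y (Sum.inr (some i))) = (0 : κ → ℝ)
      · have : ∀ i : κ, y (Sum.inr (some i)) = 0 := fun i => congrFun hyn i
        simp only [one_div, this, mul_zero, Finset.sum_const_zero, Std.le_refl]
      · have := hneg (fun i => y (Sum.inr (some i))) hyn z4 z3
        linarith only [this]
    by_cases hy1 : (fun i => y (Sum.inl i)) ≠ (0 : κ → ℝ) ∨ y (Sum.inr none) ≠ 0
    · have := hpos (fun i => y (Sum.inl i)) (y (Sum.inr none)) hy1 z1 z2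
      linarith
    · push Not at hy1
      have e1 : ∀ i : κ, y (Sum.inl i) = 0 := fun i => congrFun hy1.1 i
      have hyn : (fun i => y (Sum.inr (some i))) ≠ (0 : κ → ℝ) := by
        intro hyn
        apply hy
        funext i
        rcases i with i | _ | i
        · exact e1 i
        · exact hy1.2
        · exact congrFun hyn i
      have := hneg (fun i => y (Sum.inr (some i))) hyn z4 z3
      simp only [e1, hy1.2]
      simp only [one_div, mul_zero, Finset.sum_const_zero, neg_zero, ne_eq, OfNat.ofNat_ne_zero, not_false_eq_true, zero_pow, zero_mul, neg_mul, zero_add, Left.neg_pos_iff, gt_iff_lt]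
      linarith only [this])
  obtain ⟨U, hU, V, hV, hs⟩ := (hmain.add (hB.smul (CK.const R))).sos sVec_FR (Set.mem_univ w0)
    (Set.mem_univ w0) (Set.mem_singleton w0) (Set.mem_singleton w0) (fun y hy => hfin y hy)
  refine ⟨U, hU, V, hV, (hs.mono (fun w hw => ⟨hw.1, Set.mem_univ _⟩)
    (fun w hw => ⟨hw.1, Set.mem_univ _⟩)).congr ?_⟩
  intro l hl x hx
  have q1 := eu1 l x (hg l hl.2) (hg x hx.2)
  have q4 := eu4 l x (hb x hx.2) (hP l hl.2) (hP x hx.2)
  have r1 : ∑ a, v1 a l x = 0 := Finset.sum_eq_zero fun a _ => ev1 a l hl.2 x hx.2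
  have r2 : ∑ a, v2 a l x = 0 := Finset.sum_eq_zero fun a _ => ev2 a l hl.2 x hx.2
  have r3 : ∑ a, v3 a l x = 0 := Finset.sum_eq_zero fun a _ => ev3 a l hl.2 x hx.2
  rw [stratKer_eq g c P (hE l hl.2) (hX l hl.2), q1, q4, r1, r2, r3, ev4 l hl.2 x hx.2]
  ring

end Strat

end Vale.Agent.P256
end

section

/-! The local slack kernel along an equimultiple stratum: the off-diagonal case. -/

namespace Vale.Agent.P256

open Filter Topology MvPolynomial

set_option linter.unusedSectionVars false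

section Strat

variable {κ : Type*} [Fintype κ] [DecidableEq κ]


/-- the vector of kernels in the off-diagonal case -/
def oVec : Option κ → (κ ⊕ Option κ → ℝ) → (κ ⊕ Option κ → ℝ) → ℝ
  | none, l, _ => bp l
  | some i, l, x => zp x i - zp l i

theorem oVec_FR (i : Option κ) : FR (oVec i : (κ ⊕ Option κ → ℝ) → (κ ⊕ Option κ → ℝ) → ℝ) := by
  rcases i with _ | i
  · exact FR.left (fun l : (κ ⊕ Option κ → ℝ) => bp l)
  · exact (FR.right (fun x : (κ ⊕ Option κ → ℝ) => zp x i)).sub (FR.left (fun l : (κ ⊕ Option κ → ℝ) => zp l i))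

theorem quadO_T1 {A : Type*} [Fintype A] (g : A → MvPolynomial κ ℝ) (c : A → (κ ⊕ Option κ → ℝ) → ℝ)
    (hc : ∀ a, Continuous (c a)) {w0 w1 : (κ ⊕ Option κ → ℝ)} (hz : zp w1 = zp w0) :
    ∃ u : (κ ⊕ Option κ → ℝ) → (κ ⊕ Option κ → ℝ) → ℝ, QuadK Set.univ Set.univ {w0} {w1} oVec u
      (fun _ _ y => - (1 / 2) * ∑ a, c a w0 * ∑ i, ∑ j,
        eval (zp w0) (pderiv i (pderiv j (g a))) * y (some i) * y (some j)) ∧
      ∀ l x : (κ ⊕ Option κ → ℝ), (∀ a, eval (zp l) (g a) = 0) → (∀ a, eval (zp x) (g a) = 0) →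
        u l x = ∑ a, c a l * ∑ i, eval (zp l) (pderiv i (g a)) * (zp x i - zp l i) := by
  choose M hM eM dM using fun a => poly_tay (σ := κ) Set.univ (g a)
  have h1 : QuadK Set.univ Set.univ {w0} {w1} oVec
      (fun l x => ∑ a, ∑ i, ∑ j, (- c a l * M a i j (zp l) (zp x)) *
        (oVec (some i) l x * oVec (some j) l x))
      (fun l x y => ∑ a, ∑ i, ∑ j, (- c a l * M a i j (zp l) (zp x)) *
        (y (some i) * y (some j))) :=
    QuadK.sum Finset.univ fun a _ => QuadK.sum Finset.univ fun i _ =>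
      QuadK.sum Finset.univ fun j _ => ((LinK.basic (some i)).mul (LinK.basic (some j))).smul
        (m := fun l x => - c a l * M a i j (zp l) (zp x))
        ((CK.leftc (hc a).neg).mul ((hM a i j).comp zp_cont zp_cont))
  refine ⟨_, h1.congr (fun _ _ _ _ => rfl) ?_, ?_⟩
  · rintro l hl x hx y
    rw [Set.mem_singleton_iff] at hl hx
    rw [hl, hx, Finset.mul_sum]
    refine Finset.sum_congr rfl fun a _ => ?_
    rw [Finset.mul_sum, Finset.mul_sum]
    refine Finset.sum_congr rfl fun i _ => ?_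
    rw [Finset.mul_sum, Finset.mul_sum]
    refine Finset.sum_congr rfl fun j _ => ?_
    rw [hz, dM]; ring
  · intro l x hl hx
    refine Finset.sum_congr rfl fun a _ => ?_
    have h3 := eM a (zp l) (zp x)
    rw [hl a, hx a] at h3
    have h4 : ∑ i, eval (zp l) (pderiv i (g a)) * (zp x i - zp l i) =
      - ∑ i, ∑ j, M a i j (zp l) (zp x) * (zp x i - zp l i) * (zp x j - zp l j) := by linarith
    rw [h4, mul_neg, Finset.mul_sum, ← Finset.sum_neg_distrib]
    refine Finset.sum_congr rfl fun i _ => ?_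
    rw [Finset.mul_sum, ← Finset.sum_neg_distrib]
    refine Finset.sum_congr rfl fun j _ => ?_
    show _ * ((zp x i - zp l i) * (zp x j - zp l j)) = _
    ring

theorem quadO_T2 (P : MvPolynomial (κ ⊕ Option κ) ℝ) (w0 w1 : (κ ⊕ Option κ → ℝ)) :
    QuadK Set.univ Set.univ {w0} {w1} oVec
      (fun l x => oVec none l x * ∑ i, eval l (pderiv (Sum.inl i) P) * oVec (some i) l x)
      (fun _ _ y => y none * ∑ i, eval w0 (pderiv (Sum.inl i) P) * y (some i)) := by
  have h1 : LinK Set.univ Set.univ {w0} {w1} oVec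
      (fun l x => ∑ i, eval l (pderiv (Sum.inl i) P) * oVec (some i) l x)
      (fun l _ y => ∑ i, eval l (pderiv (Sum.inl i) P) * y (some i)) :=
    LinK.sum _ (fun i _ => (LinK.basic (some i)).smul
      (CK.leftc (evc (pderiv (Sum.inl i) P) continuous_id)))
  refine ((LinK.basic none).mul h1).congr (fun _ _ _ _ => rfl) ?_
  rintro l hl x hx y
  rw [Set.mem_singleton_iff] at hl hx
  rw [hl]

theorem quadO_T3 (P : MvPolynomial (κ ⊕ Option κ) ℝ) (w0 w1 : (κ ⊕ Option κ → ℝ)) :
    QuadK Set.univ Set.univ {w0} {w1} oVec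
      (fun l x => (- eval l (pderiv (Sum.inr none) P)) * (oVec none l x * oVec none l x))
      (fun _ _ y => - (y none ^ 2 * eval w0 (pderiv (Sum.inr none) P))) := by
  refine (((LinK.basic none).mul (LinK.basic none)).smul
    (m := fun l _ => - eval l (pderiv (Sum.inr none) P))
    (CK.leftc (evc (pderiv (Sum.inr none) P) continuous_id).neg)).congr (fun _ _ _ _ => rfl) ?_
  rintro l hl x hx y
  rw [Set.mem_singleton_iff] at hl hx
  rw [hl]
  ring

theorem quadO_z {w0 w1 : (κ ⊕ Option κ → ℝ)} (hz : zp w1 = zp w0) (G : MvPolynomial κ ℝ)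
    {T T' : Set (κ ⊕ Option κ → ℝ)} (hG : ∀ w ∈ T, eval (zp w) G = 0) (hG' : ∀ w ∈ T', eval (zp w) G = 0) :
    ∃ u : (κ ⊕ Option κ → ℝ) → (κ ⊕ Option κ → ℝ) → ℝ,
      QuadK Set.univ Set.univ {w0} {w1} oVec u
        (fun _ _ y => (∑ i, eval (zp w0) (pderiv i G) * y (some i)) ^ 2) ∧
      ∀ l ∈ T, ∀ x ∈ T', u l x = 0 := by
  obtain ⟨M, hM, eM, _⟩ := poly_tay Set.univ G
  have h1 : LinK Set.univ Set.univ {w0} {w1} oVec
      (fun l x => ∑ i, eval (zp l) (pderiv i G) * oVec (some i) l x)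
      (fun l _ y => ∑ i, eval (zp l) (pderiv i G) * y (some i)) :=
    LinK.sum _ (fun i _ => (LinK.basic (some i)).smul
      (CK.leftc (evc (pderiv i G) zp_cont)))
  have h2 : LinK Set.univ Set.univ {w0} {w1} oVec
      (fun l x => ∑ i, (∑ j, M i j (zp l) (zp x) * (zp x j - zp l j)) * oVec (some i) l x)
      (fun _ _ _ => 0) := by
    refine (LinK.sum (D := Set.univ) (E := Set.univ) (Z := {w0}) (Y := {w1}) (v := oVec)
      Finset.univ (fun i _ => (LinK.basic (some i)).smul
      (m := fun l x => ∑ j, M i j (zp l) (zp x) * (zp x j - zp l j))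
      (CK.sum Finset.univ (fun j _ => ((hM i j).comp zp_cont zp_cont).mul
        ((CK.rightc ((continuous_apply j).comp zp_cont)).sub
          (CK.leftc ((continuous_apply j).comp zp_cont))))))).congr
      (fun _ _ _ _ => rfl) ?_
    rintro l hl x hx y
    rw [Set.mem_singleton_iff] at hl hx
    rw [hl, hx]
    simp only [hz, sub_self, mul_zero, Finset.sum_const_zero, zero_mul]
  refine ⟨_, (h1.sq.add (h2.sq.smul (CK.const (-1)))).congr (fun _ _ _ _ => rfl) ?_, ?_⟩
  · rintro l hl x hx y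
    rw [Set.mem_singleton_iff] at hl hx
    rw [hl]
    ring
  · intro l hl x hx
    have h3 := eM (zp l) (zp x)
    rw [hG l hl, hG' x hx] at h3
    have e1 : ∑ i, eval (zp l) (pderiv i G) * oVec (some i) l x =
        ∑ i, eval (zp l) (pderiv i G) * (zp x i - zp l i) := rfl
    have e2 : ∑ i, (∑ j, M i j (zp l) (zp x) * (zp x j - zp l j)) * oVec (some i) l x =
        ∑ i, ∑ j, M i j (zp l) (zp x) * (zp x i - zp l i) * (zp x j - zp l j) := by
      refine Finset.sum_congr rfl fun i _ => ?_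
      rw [Finset.sum_mul]
      refine Finset.sum_congr rfl fun j _ => ?_
      show _ * (zp x i - zp l i) = _ * (zp x i - zp l i) * (zp x j - zp l j)
      ring
    rw [e1, e2]
    have h4 : ∑ i, eval (zp l) (pderiv i G) * (zp x i - zp l i) =
      - ∑ i, ∑ j, M i j (zp l) (zp x) * (zp x i - zp l i) * (zp x j - zp l j) := by linarith only [h3]
    rw [h4]; ring

theorem stratKer_eq_off {A : Type*} [Fintype A] (g : A → MvPolynomial κ ℝ) (c : A → (κ ⊕ Option κ → ℝ) → ℝ)
    (P : MvPolynomial (κ ⊕ Option κ) ℝ) {l x : (κ ⊕ Option κ → ℝ)}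
    (hE : ∑ i, eval l (pderiv (Sum.inr (some i)) P) * np l i = bp l * eval l (pderiv (Sum.inr none) P))
    (hX : ∀ i, eval l (pderiv (Sum.inr (some i)) P) =
      ∑ a, c a l * eval (zp l) (pderiv i (g a)) + bp l * eval l (pderiv (Sum.inl i) P)) :
    stratKer P l x = ∑ a, c a l * ∑ i, eval (zp l) (pderiv i (g a)) * (zp x i - zp l i) +
      (oVec none l x * ∑ i, eval l (pderiv (Sum.inl i) P) * oVec (some i) l x +
      (- eval l (pderiv (Sum.inr none) P)) * (oVec none l x * oVec none l x)) +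
      bp x * ∑ i, eval l (pderiv (Sum.inr (some i)) P) * np x i := by
  have e1 : stratKer P l x =
      ∑ i, eval l (pderiv (Sum.inr (some i)) P) * (zp x i - zp l i) +
      bp x * ∑ i, eval l (pderiv (Sum.inr (some i)) P) * np x i -
      bp l * ∑ i, eval l (pderiv (Sum.inr (some i)) P) * np l i := by
    unfold stratKer
    rw [Finset.mul_sum, Finset.mul_sum, ← Finset.sum_add_distrib, ← Finset.sum_sub_distrib]
    refine Finset.sum_congr rfl fun i _ => ?_
    ring
  have e2 : ∑ i, eval l (pderiv (Sum.inr (some i)) P) * (zp x i - zp l i) =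
      ∑ a, c a l * ∑ i, eval (zp l) (pderiv i (g a)) * (zp x i - zp l i) +
      bp l * ∑ i, eval l (pderiv (Sum.inl i) P) * (zp x i - zp l i) := by
    have : ∑ a, c a l * ∑ i, eval (zp l) (pderiv i (g a)) * (zp x i - zp l i) =
        ∑ i, (∑ a, c a l * eval (zp l) (pderiv i (g a))) * (zp x i - zp l i) := by
      simp only [Finset.mul_sum, Finset.sum_mul]
      rw [Finset.sum_comm]
      refine Finset.sum_congr rfl fun i _ => Finset.sum_congr rfl fun a _ => ?_
      ring
    rw [this, Finset.mul_sum, ← Finset.sum_add_distrib]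
    refine Finset.sum_congr rfl fun i _ => ?_
    rw [hX i]; ring
  have e4 : ∑ i, eval l (pderiv (Sum.inl i) P) * oVec (some i) l x =
      ∑ i, eval l (pderiv (Sum.inl i) P) * (zp x i - zp l i) := rfl
  have e5 : oVec none l x = bp l := rfl
  rw [e1, e2, e4, e5, hE]
  ring

theorem strat_off {A B : Type*} [Fintype A] [Fintype B]
    (g : A → MvPolynomial κ ℝ) (c : A → (κ ⊕ Option κ → ℝ) → ℝ) (hc : ∀ a, Continuous (c a))
    (G : B → MvPolynomial κ ℝ)
    (P : MvPolynomial (κ ⊕ Option κ) ℝ) {w0 w1 : (κ ⊕ Option κ → ℝ)} (hz : zp w1 = zp w0) {T T' : Set (κ ⊕ Option κ → ℝ)}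
    (hb : ∀ w ∈ T', 0 ≤ bp w)
    (hg : ∀ w ∈ T, ∀ a, eval (zp w) (g a) = 0) (hG : ∀ w ∈ T, ∀ b, eval (zp w) (G b) = 0)
    (hg' : ∀ w ∈ T', ∀ a, eval (zp w) (g a) = 0) (hG' : ∀ w ∈ T', ∀ b, eval (zp w) (G b) = 0)
    (hE : ∀ w ∈ T, ∑ i, eval w (pderiv (Sum.inr (some i)) P) * np w i =
      bp w * eval w (pderiv (Sum.inr none) P))
    (hX : ∀ w ∈ T, ∀ i, eval w (pderiv (Sum.inr (some i)) P) =
      ∑ a, c a w * eval (zp w) (pderiv i (g a)) + bp w * eval w (pderiv (Sum.inl i) P))
    (hpos : ∀ (y : κ → ℝ) (t : ℝ), (y ≠ 0 ∨ t ≠ 0) →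
      (∀ a, ∑ i, eval (zp w0) (pderiv i (g a)) * y i = 0) →
      (∀ b, ∑ i, eval (zp w0) (pderiv i (G b)) * y i = 0) →
      0 < - (1 / 2) * ∑ a, c a w0 * ∑ i, ∑ j,
        eval (zp w0) (pderiv i (pderiv j (g a))) * y i * y j -
        t * ∑ i, eval w0 (pderiv (Sum.inl i) P) * y i -
        t ^ 2 * eval w0 (pderiv (Sum.inr none) P))
    (hoff : (0 < ∑ i, eval w0 (pderiv (Sum.inr (some i)) P) * np w1 i) ∨ ∀ w ∈ T', bp w = 0) :
    ∃ U ∈ 𝓝 w0, ∃ V ∈ 𝓝 w1, SosOn (U ∩ T) (V ∩ T') (stratKer P) := by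
  obtain ⟨u1, hu1, eu1⟩ := quadO_T1 g c hc hz
  have hu2 := quadO_T2 P w0 w1
  have hu3 := quadO_T3 P w0 w1
  choose v1 hv1 ev1 using fun a => quadO_z hz (g a) (T := T) (T' := T')
    (fun w hw => hg w hw a) (fun w hw => hg' w hw a)
  choose v2 hv2 ev2 using fun b => quadO_z hz (G b) (T := T) (T' := T')
    (fun w hw => hG w hw b) (fun w hw => hG' w hw b)
  have hmain := hu1.add (hu2.add hu3)
  have hB := (QuadK.sum Finset.univ (fun a _ => hv1 a)).add
    (QuadK.sum Finset.univ (fun b _ => hv2 b))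
  have hfm := hmain.form (Set.mem_singleton w0) (Set.mem_singleton w1)
  have hfB := hB.form (Set.mem_singleton w0) (Set.mem_singleton w1)
  obtain ⟨R, hR, hfin⟩ := finsler hfm.1 hfB.1 hfm.2 hfB.2 (fun w => by (clear * -; positivity)) (by
    intro y hy hy0
    have n1 : ∀ a, 0 ≤ (∑ i, eval (zp w0) (pderiv i (g a)) * y (some i)) ^ 2 :=
      fun a => sq_nonneg _
    have n2 : ∀ a, 0 ≤ (∑ i, eval (zp w0) (pderiv i (G a)) * y (some i)) ^ 2 :=
      fun a => sq_nonneg _
    have s1 := Finset.sum_nonneg (s := Finset.univ) fun a _ => n1 a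
    have s2 := Finset.sum_nonneg (s := Finset.univ) fun a _ => n2 a
    have z1 : ∀ a, ∑ i, eval (zp w0) (pderiv i (g a)) * y (some i) = 0 := fun a =>
      pow_eq_zero_iff (two_ne_zero) |>.1
        ((Finset.sum_eq_zero_iff_of_nonneg fun a _ => n1 a).1 (by linarith only [s1, hy0, s2]) a (Finset.mem_univ _))
    have z2 : ∀ a, ∑ i, eval (zp w0) (pderiv i (G a)) * y (some i) = 0 := fun a =>
      pow_eq_zero_iff (two_ne_zero) |>.1
        ((Finset.sum_eq_zero_iff_of_nonneg fun a _ => n2 a).1 (by linarith) a (Finset.mem_univ _))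
    have hy1 : (fun i => y (some i)) ≠ (0 : κ → ℝ) ∨ - y none ≠ 0 := by
      by_contra hcon
      push Not at hcon
      apply hy
      funext i
      rcases i with _ | i
      · simpa using hcon.2
      · exact congrFun hcon.1 i
    have := hpos (fun i => y (some i)) (- y none) hy1 z1 z2
    have e1 : (- y none) ^ 2 = y none ^ 2 := by ring
    rw [e1] at this
    linarith)
  obtain ⟨U, hU, V, hV, hs⟩ := (hmain.add (hB.smul (CK.const R))).sos oVec_FR (Set.mem_univ w0)
    (Set.mem_univ w1) (Set.mem_singleton w0) (Set.mem_singleton w1) (fun y hy => hfin y hy)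
  -- the remaining term
  obtain ⟨U', hU', V', hV', hs'⟩ : ∃ U' ∈ 𝓝 w0, ∃ V' ∈ 𝓝 w1, SosOn (U' ∩ T) (V' ∩ T')
      (fun l x => bp x * ∑ i, eval l (pderiv (Sum.inr (some i)) P) * np x i) := by
    rcases hoff with h | h
    · have hg1 : GermFR (𝓝 w0) (𝓝 w1)
          (fun l x => ∑ i, eval l (pderiv (Sum.inr (some i)) P) * np x i)
          (∑ i, eval w0 (pderiv (Sum.inr (some i)) P) * np w1 i) :=
        GermFR.sum _ (fun i _ => GermFR.mulfun
          ((MvPolynomial.continuous_eval (pderiv (Sum.inr (some i)) P)).tendsto w0)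
          ((((continuous_apply i).comp np_cont)).tendsto w1))
      obtain ⟨U', hU', V', hV', h2⟩ := hg1.pos h
      refine ⟨U', hU', V', hV', ?_⟩
      exact (SosOn.right (f := fun x : (κ ⊕ Option κ → ℝ) => bp x) (fun x hx => hb x hx.2)).mul
        (h2.mono Set.inter_subset_left Set.inter_subset_left)
    · refine ⟨Set.univ, univ_mem, Set.univ, univ_mem, ?_⟩
      refine (SosOn.const (le_refl (0 : ℝ))).congr ?_
      intro l _ x hx
      rw [h x hx.2, zero_mul]
  refine ⟨U ∩ U', inter_mem hU hU', V ∩ V', inter_mem hV hV', ?_⟩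
  refine ((hs.mono (S' := U ∩ U' ∩ T) (T' := V ∩ V' ∩ T') (fun w hw => ⟨hw.1.1, Set.mem_univ _⟩)
    (fun w hw => ⟨hw.1.1, Set.mem_univ _⟩)).add (hs'.mono (fun w hw => ⟨hw.1.2, hw.2⟩)
    (fun w hw => ⟨hw.1.2, hw.2⟩))).congr ?_
  intro l hl x hx
  have q1 := eu1 l x (hg l hl.2) (hg' x hx.2)
  have r1 : ∑ a, v1 a l x = 0 := Finset.sum_eq_zero fun a _ => ev1 a l hl.2 x hx.2
  have r2 : ∑ a, v2 a l x = 0 := Finset.sum_eq_zero fun a _ => ev2 a l hl.2 x hx.2
  rw [stratKer_eq_off g c P (hE l hl.2) (hX l hl.2), q1, r1, r2]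
  ring

end Strat

end Vale.Agent.P256
end

section

namespace Vale.Agent.P256

open Polynomial Filter Topology

/-- A real polynomial all of whose complex roots are real splits. -/
theorem splits_of_real_roots (f : ℝ[X]) (h : ∀ z : ℂ, aeval z f = 0 → z.im = 0) : f.Splits := by
  by_cases hf : f = 0
  · rw [hf]; exact Splits.zero
  refine Splits.of_splits_map (algebraMap ℝ ℂ) (IsAlgClosed.splits _) ?_
  intro a ha
  have ha' := (mem_roots'.1 ha).2
  rw [IsRoot.def, eval_map_algebraMap] at ha'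
  refine ⟨a.re, ?_⟩
  have := h a ha'
  apply Complex.ext
  · simp
  · simp [this]

theorem Splits.real_roots {f : ℝ[X]} (hf : f.Splits) (hf0 : f ≠ 0) (z : ℂ) (hz : aeval z f = 0) :
    z.im = 0 := by
  have : z ∈ (algebraMap ℝ ℂ).range := by
    apply hf.mem_range_of_isRoot hf0
    rw [IsRoot.def, eval_map_algebraMap]; exact hz
  obtain ⟨x, hx⟩ := this
  rw [← hx]; simp

/-- For a split polynomial the modulus grows with the distance to the real axis. -/
theorem norm_aeval_mono {f : ℝ[X]} (hf : f.Splits) (x y y' : ℝ) (hy : |y| ≤ |y'|) :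
    ‖aeval ((x : ℂ) + y * Complex.I) f‖ ≤ ‖aeval ((x : ℂ) + y' * Complex.I) f‖ := by
  obtain ⟨m, hm⟩ := splits_iff_exists_multiset.1 hf
  rw [hm]
  have key : ∀ w : ℂ, ‖aeval w (C f.leadingCoeff * (Multiset.map (fun a => X - C a) m).prod)‖
      = ‖(f.leadingCoeff : ℂ)‖ * (m.map (fun a : ℝ => ‖w - (a : ℂ)‖)).prod := by
    intro w
    rw [map_mul, norm_mul, map_multiset_prod, Multiset.map_map]
    congr 1
    · simp
    · clear hm
      induction m using Multiset.induction_on with
      | empty => simp only [Function.comp_apply, aeval_sub, aeval_X, aeval_C, Complex.coe_algebraMap, Multiset.map_zero, Multiset.prod_zero, norm_one]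
      | cons a s ih =>
        simp only [Multiset.map_cons, Multiset.prod_cons, Function.comp, norm_mul] at ih ⊢
        rw [ih]
        simp
  rw [key, key]
  apply mul_le_mul_of_nonneg_left _ (norm_nonneg _)
  clear key hm
  induction m using Multiset.induction_on with
  | empty => simp only [Multiset.map_zero, Multiset.prod_zero, Std.le_refl]
  | cons a s ih =>
    simp only [Multiset.map_cons, Multiset.prod_cons]
    apply mul_le_mul _ ih
    · apply Multiset.prod_nonneg
      intro r hr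
      obtain ⟨b, _, rfl⟩ := Multiset.mem_map.1 hr
      exact norm_nonneg _
    · exact norm_nonneg _
    · have h1 : ∀ t : ℝ, ‖(x : ℂ) + t * Complex.I - (a : ℂ)‖ = Real.sqrt ((x - a) ^ 2 + t ^ 2) := by
        intro t
        rw [Complex.norm_def, Complex.normSq_apply]
        congr 1
        simp only [Complex.sub_re, Complex.add_re, Complex.ofReal_re, Complex.mul_re, Complex.I_re, mul_zero, Complex.ofReal_im, Complex.I_im, mul_one, sub_self, add_zero, Complex.sub_im, Complex.add_im, Complex.mul_im, zero_add, sub_zero]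
        ring
      rw [h1, h1]
      apply Real.sqrt_le_sqrt
      have := sq_le_sq.2 hy
      linarith

/-- Pointwise limits of split real polynomials split. -/
theorem splits_of_tendsto {ι : Type*} {l : Filter ι} [l.NeBot] {F : ι → ℝ[X]} {g : ℝ[X]}
    (hF : ∀ᶠ i in l, (F i).Splits)
    (h : ∀ z : ℂ, Tendsto (fun i => aeval z (F i)) l (𝓝 (aeval z g))) : g.Splits := by
  by_cases hg : g = 0
  · rw [hg]; exact Splits.zero
  apply splits_of_real_roots
  intro z hz
  by_contra him
  have hzero : ∀ y : ℝ, |y| ≤ |z.im| → aeval ((z.re : ℂ) + y * Complex.I) g = 0 := by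
    intro y hy
    have h1 : ‖aeval ((z.re : ℂ) + y * Complex.I) g‖ ≤ ‖aeval ((z.re : ℂ) + z.im * Complex.I) g‖ := by
      refine le_of_tendsto_of_tendsto (h _).norm (h _).norm ?_
      filter_upwards [hF] with i hi
      exact norm_aeval_mono hi _ _ _ hy
    rw [Complex.re_add_im, hz, norm_zero] at h1
    exact norm_le_zero_iff.1 h1
  have hinf : Set.Infinite {w : ℂ | (g.map (algebraMap ℝ ℂ)).IsRoot w} := by
    have hinj : Function.Injective (fun y : ℝ => (z.re : ℂ) + y * Complex.I) := by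
      intro a b hab
      have := congrArg Complex.im hab
      simpa using this
    have h2 : Set.Infinite (Set.Icc (-|z.im|) |z.im|) := by
      apply Set.Icc_infinite
      have := abs_pos.2 him
      linarith
    refine Set.Infinite.mono ?_ (h2.image hinj.injOn)
    rintro w ⟨y, hy, rfl⟩
    simp only [Set.mem_ofPred_eq, IsRoot.def, eval_map_algebraMap]
    exact hzero y (abs_le.2 hy)
  have := eq_zero_of_infinite_isRoot _ hinf
  exact hg ((Polynomial.map_eq_zero _).1 this)

/-- The derivative of a split real polynomial splits. -/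
theorem Splits.derivative' {f : ℝ[X]} (hf : f.Splits) : (derivative f).Splits := by
  by_cases h0 : derivative f = 0
  · rw [h0]; exact Splits.zero
  rw [splits_iff_card_roots]
  apply le_antisymm (card_roots' _)
  have h1 := card_roots_le_derivative f
  have h2 := splits_iff_card_roots.1 hf
  have h3 : f.derivative.natDegree = f.natDegree - 1 := natDegree_derivative f
  omega

/-- Lower bound for a polynomial with only nonpositive roots. -/
theorem eval_ge_of_roots_nonpos {f : ℝ[X]} (hf : f.Splits) (hlc : 0 ≤ f.leadingCoeff)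
    (hr : ∀ a ∈ f.roots, a ≤ 0) {s t : ℝ} (hs : 0 ≤ s) (hst : s ≤ t) :
    f.eval s ≤ f.eval t ∧ 0 ≤ f.eval s ∧ f.leadingCoeff * s ^ f.natDegree ≤ f.eval s := by
  have hcard := splits_iff_card_roots.1 hf
  rw [hf.eval_eq_prod_roots, hf.eval_eq_prod_roots, ← hcard]
  have key : ∀ m : Multiset ℝ, (∀ a ∈ m, a ≤ 0) →
      (m.map (s - ·)).prod ≤ (m.map (t - ·)).prod ∧ 0 ≤ (m.map (s - ·)).prod ∧
      s ^ m.card ≤ (m.map (s - ·)).prod := by
    intro m
    induction m using Multiset.induction_on with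
    | empty => intro _; simp
    | cons a m ih =>
      intro h
      obtain ⟨i1, i2, i3⟩ := ih (fun b hb => h b (Multiset.mem_cons_of_mem hb))
      have ha := h a (Multiset.mem_cons_self a m)
      simp only [Multiset.map_cons, Multiset.prod_cons, Multiset.card_cons]
      refine ⟨?_, ?_, ?_⟩
      · exact mul_le_mul (by linarith only [hst]) i1 i2 (by linarith only [hs, hst, ha])
      · exact mul_nonneg (by linarith only [hs, ha]) i2
      · rw [pow_succ, mul_comm]
        exact mul_le_mul (by linarith only [ha]) i3 (by positivity) (by linarith only [hs, ha])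
  obtain ⟨k1, k2, k3⟩ := key f.roots hr
  exact ⟨mul_le_mul_of_nonneg_left k1 hlc, mul_nonneg hlc k2, mul_le_mul_of_nonneg_left k3 hlc⟩

theorem prod_sq_identity (m : Multiset ℝ) (h0 : ∀ a ∈ m, a ≠ 0) :
    (derivative (m.map (fun a => X - C a)).prod).eval 0 ^ 2 -
      ((m.map (fun a => X - C a)).prod).eval 0 *
        (derivative (derivative (m.map (fun a => X - C a)).prod)).eval 0 =
      ((m.map (fun a => X - C a)).prod).eval 0 ^ 2 * (m.map (fun a => (a ^ 2)⁻¹)).sum := by
  induction m using Multiset.induction_on with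
  | empty => simp only [Multiset.map_zero, Multiset.prod_zero, derivative_one, eval_zero, ne_eq, OfNat.ofNat_ne_zero, not_false_eq_true, zero_pow, eval_one, derivative_zero, mul_zero, sub_self, one_pow, Multiset.sum_zero]
  | cons a m ih =>
    have ih' := ih (fun b hb => h0 b (Multiset.mem_cons_of_mem hb))
    have ha : a ≠ 0 := h0 a (Multiset.mem_cons_self a m)
    simp only [Multiset.map_cons, Multiset.prod_cons, Multiset.sum_cons, derivative_mul,
      derivative_add, derivative_sub, derivative_X, derivative_C, eval_add, eval_mul, eval_sub,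
      eval_X, eval_C, eval_one, eval_zero] at ih' ⊢
    set q0 := ((m.map (fun a => X - C a)).prod).eval 0
    set q1 := (derivative (m.map (fun a => X - C a)).prod).eval 0
    set q2 := (derivative (derivative (m.map (fun a => X - C a)).prod)).eval 0
    set S := (m.map (fun a => (a ^ 2)⁻¹)).sum
    have h1 : a ^ 2 * (a ^ 2)⁻¹ = 1 := mul_inv_cancel₀ (pow_ne_zero 2 ha)
    simp only [derivative_one, derivative_zero, eval_zero, sub_zero, zero_sub, one_mul]
    linear_combination (a ^ 2) * ih' - q0 ^ 2 * h1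

/-- If `f` splits, `f(0) ≠ 0` and `f'(0)² - f(0) f''(0) ≤ M² f(0)²` then `f` is controlled by
`f(0)`; moreover the left-hand side is always nonnegative. -/
theorem eval_sq_nonneg {f : ℝ[X]} (hf : f.Splits) (h0 : f.eval 0 ≠ 0) :
    0 ≤ (derivative f).eval 0 ^ 2 - f.eval 0 * (derivative (derivative f)).eval 0 ∧
    ∀ M : ℝ, 0 ≤ M →
      (derivative f).eval 0 ^ 2 - f.eval 0 * (derivative (derivative f)).eval 0 ≤
        M ^ 2 * f.eval 0 ^ 2 →
      ∀ t : ℝ, |f.eval t| ≤ |f.eval 0| * (1 + M * |t|) ^ f.natDegree := by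
  obtain ⟨m, hm⟩ := splits_iff_exists_multiset.1 hf
  have hfac : f = C f.leadingCoeff * (m.map (fun a => X - C a)).prod := hm
  set c := f.leadingCoeff with hc
  set P := (m.map (fun a => X - C a)).prod with hP
  have hf0 : f ≠ 0 := by rintro rfl; simp at h0
  have hcne : c ≠ 0 := leadingCoeff_ne_zero.2 hf0
  have e0 : ∀ t, f.eval t = c * P.eval t := by
    intro t; rw [hfac]; simp
  have e1 : (derivative f).eval 0 = c * (derivative P).eval 0 := by
    rw [hfac]; simp
  have e2 : (derivative (derivative f)).eval 0 = c * (derivative (derivative P)).eval 0 := by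
    rw [hfac]; simp
  have hroots : ∀ a ∈ m, a ≠ 0 := by
    rintro a ha rfl
    apply h0
    rw [e0, hP, eval_multiset_prod, Multiset.map_map]
    rw [Multiset.prod_eq_zero]
    · simp
    · rw [Multiset.mem_map]
      exact ⟨0, ha, by simp⟩
  have hid := prod_sq_identity m hroots
  rw [← hP] at hid
  set S := (m.map (fun a => (a ^ 2)⁻¹)).sum with hS
  have hid2 : (derivative f).eval 0 ^ 2 - f.eval 0 * (derivative (derivative f)).eval 0 =
      f.eval 0 ^ 2 * S := by
    rw [e1, e2, e0]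
    linear_combination c ^ 2 * hid
  have hS0 : 0 ≤ S := by
    apply Multiset.sum_nonneg
    intro r hr
    obtain ⟨b, _, rfl⟩ := Multiset.mem_map.1 hr
    (clear * -; positivity)
  refine ⟨by rw [hid2]; (clear * - h0 hS0; positivity), ?_⟩
  intro M hM hle t
  rw [hid2] at hle
  have hpos : 0 < f.eval 0 ^ 2 := by positivity
  have hSM : S ≤ M ^ 2 := by
    have : f.eval 0 ^ 2 * S ≤ f.eval 0 ^ 2 * M ^ 2 := by linarith only [hle]
    exact le_of_mul_le_mul_left this hpos
  have hinv : ∀ a ∈ m, |a|⁻¹ ≤ M := by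
    intro a ha
    have h1 : (a ^ 2)⁻¹ ≤ S := by
      apply Multiset.single_le_sum _ _ (Multiset.mem_map_of_mem _ ha)
      intro r hr
      obtain ⟨b, _, rfl⟩ := Multiset.mem_map.1 hr
      (clear * -; positivity)
    have h2 : (|a|⁻¹) ^ 2 ≤ M ^ 2 := by
      rw [inv_pow, sq_abs]; linarith only [hSM, h1]
    exact le_of_sq_le_sq h2 hM
  have hdeg : f.natDegree = m.card := by
    rw [hfac, natDegree_C_mul hcne, hP, natDegree_multiset_prod_X_sub_C_eq_card]
  rw [hdeg, e0, e0, abs_mul, abs_mul, mul_assoc]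
  apply mul_le_mul_of_nonneg_left _ (abs_nonneg c)
  rw [hP]
  clear hid2 hid hdeg e0 e1 e2 hm hfac hS0 hSM hle
  clear_value S P c
  clear hP hS
  induction m using Multiset.induction_on with
  | empty => simp
  | cons a m ih =>
    have ih' := ih (fun b hb => hroots b (Multiset.mem_cons_of_mem hb))
      (fun b hb => hinv b (Multiset.mem_cons_of_mem hb))
    have ha : a ≠ 0 := hroots a (Multiset.mem_cons_self a m)
    have hia := hinv a (Multiset.mem_cons_self a m)
    simp only [Multiset.map_cons, Multiset.prod_cons, eval_mul, eval_sub, eval_X, eval_C,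
      Multiset.card_cons, abs_mul, pow_succ]
    have h3 : |t - a| ≤ |0 - a| * (1 + M * |t|) := by
      have h4 : |t - a| ≤ |t| + |a| := by
        have := abs_sub t a; simpa only [ge_iff_le] using this
      have h5 : |a| * |a|⁻¹ = 1 := mul_inv_cancel₀ (abs_ne_zero.2 ha)
      have h6 : |t| ≤ |a| * M * |t| := by
        have : |a| * |a|⁻¹ ≤ |a| * M := mul_le_mul_of_nonneg_left hia (abs_nonneg a)
        rw [h5] at this
        nlinarith only [this, abs_nonneg t]
      rw [zero_sub, abs_neg]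
      nlinarith only [h4, h6]
    calc |t - a| * |eval t (Multiset.map (fun a => X - C a) m).prod|
        ≤ (|0 - a| * (1 + M * |t|)) *
          (|eval 0 (Multiset.map (fun a => X - C a) m).prod| * (1 + M * |t|) ^ m.card) :=
          mul_le_mul h3 ih' (abs_nonneg _) (by (clear * - ha hM; positivity))
      _ = _ := by ring

end Vale.Agent.P256
end

section

namespace Vale.Agent.P256

open Polynomial Filter Topology

variable {n : ℕ}

/-- The restriction of `p` to the line `t ↦ x + t y`. -/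
noncomputable def line (p : MvPolynomial (Fin n) ℝ) (x y : Fin n → ℝ) : ℝ[X] :=
  MvPolynomial.aeval (fun i => C (x i) + X * C (y i)) p

theorem eval_line (p : MvPolynomial (Fin n) ℝ) (x y : Fin n → ℝ) (t : ℝ) :
    (line p x y).eval t = MvPolynomial.eval (x + t • y) p := by
  unfold line
  induction p using MvPolynomial.induction_on with
  | C a => simp only [X_mul_C, MvPolynomial.algHom_C, algebraMap_eq, eval_C, MvPolynomial.eval_C]
  | add p q hp hq => simp only [map_add, eval_add, hp, hq]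
  | mul_X p i hp =>
    simp only [map_mul, eval_mul, hp, MvPolynomial.aeval_X, MvPolynomial.eval_X, eval_add, eval_C,
      eval_X, Pi.add_apply, Pi.smul_apply, smul_eq_mul]

theorem aeval_line (p : MvPolynomial (Fin n) ℝ) (x y : Fin n → ℝ) (z : ℂ) :
    aeval z (line p x y) = MvPolynomial.aeval (fun i => (x i : ℂ) + z * (y i : ℂ)) p := by
  unfold line
  induction p using MvPolynomial.induction_on with
  | C a => simp only [X_mul_C, MvPolynomial.algHom_C, algebraMap_eq, aeval_C, Complex.coe_algebraMap]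
  | add p q hp hq => simp only [map_add, hp, hq]
  | mul_X p i hp =>
    simp only [map_mul, hp, MvPolynomial.aeval_X, map_add, aeval_C, aeval_X,
      Complex.coe_algebraMap]

theorem aeval_smul {A : Type*} [CommRing A] [Algebra ℝ A] {p : MvPolynomial (Fin n) ℝ} {d : ℕ}
    (hp : p.IsHomogeneous d) (c : A) (v : Fin n → A) :
    MvPolynomial.aeval (fun i => c * v i) p = c ^ d * MvPolynomial.aeval v p := by
  rw [MvPolynomial.aeval_def, MvPolynomial.aeval_def, MvPolynomial.eval₂_eq',
    MvPolynomial.eval₂_eq', Finset.mul_sum]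
  apply Finset.sum_congr rfl
  intro m hm
  have hdeg : ∑ i, m i = d := by
    have := hp (MvPolynomial.mem_support_iff.1 hm)
    rw [← this, Finsupp.weight_apply, Finsupp.sum_fintype]
    · simp only [Pi.one_apply, smul_eq_mul, mul_one]
    · simp
  simp only [mul_pow, Finset.prod_mul_distrib, Finset.prod_pow_eq_pow_sum, hdeg]
  ring

theorem eval_smul' {p : MvPolynomial (Fin n) ℝ} {d : ℕ}
    (hp : p.IsHomogeneous d) (c : ℝ) (v : Fin n → ℝ) :
    MvPolynomial.eval (c • v) p = c ^ d * MvPolynomial.eval v p := by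
  exact aeval_smul hp c v

/-- The restriction of `p` to a line in `Aⁿ`. -/
noncomputable def gline {A : Type*} [CommRing A] [Algebra ℝ A] (p : MvPolynomial (Fin n) ℝ)
    (u v : Fin n → A) : A[X] :=
  MvPolynomial.aeval (fun i => C (u i) + X * C (v i)) p

theorem eval_gline {A : Type*} [CommRing A] [Algebra ℝ A] (p : MvPolynomial (Fin n) ℝ)
    (u v : Fin n → A) (t : A) :
    (gline p u v).eval t = MvPolynomial.aeval (fun i => u i + t * v i) p := by
  unfold gline
  induction p using MvPolynomial.induction_on with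
  | C a => simp [Polynomial.algebraMap_apply]
  | add p q hp hq => simp only [map_add, eval_add, hp, hq]
  | mul_X p i hp =>
    simp only [map_mul, hp, MvPolynomial.aeval_X, eval_mul, eval_add, eval_C, eval_X]

theorem coeff_prod_top' {A : Type*} [CommRing A] {ι : Type*} (s : Finset ι) (f : ι → A[X])
    (k : ι → ℕ) (h : ∀ i ∈ s, (f i).natDegree ≤ k i) :
    (∏ i ∈ s, f i).natDegree ≤ ∑ i ∈ s, k i ∧
      (∏ i ∈ s, f i).coeff (∑ i ∈ s, k i) = ∏ i ∈ s, (f i).coeff (k i) := by
  classical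
  induction s using Finset.induction_on with
  | empty => simp
  | insert a s ha ih =>
    obtain ⟨i1, i2⟩ := ih (fun i hi => h i (Finset.mem_insert_of_mem hi))
    have h1 := h a (Finset.mem_insert_self a s)
    rw [Finset.prod_insert ha, Finset.sum_insert ha, Finset.prod_insert ha]
    refine ⟨natDegree_mul_le.trans (add_le_add h1 i1), ?_⟩
    rw [coeff_mul_add_eq_of_natDegree_le h1 i1, i2]

theorem gline_top {A : Type*} [CommRing A] [Algebra ℝ A] {p : MvPolynomial (Fin n) ℝ} {d : ℕ}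
    (hp : p.IsHomogeneous d) (x y : Fin n → A) :
    (gline p x y).natDegree ≤ d ∧ (gline p x y).coeff d = MvPolynomial.aeval y p := by
  have hdeg : ∀ m ∈ p.support, ∑ i, m i = d := by
    intro m hm
    have := hp (MvPolynomial.mem_support_iff.1 hm)
    rw [← this, Finsupp.weight_apply, Finsupp.sum_fintype]
    · simp only [Pi.one_apply, smul_eq_mul, mul_one]
    · simp
  have hk : ∀ m ∈ p.support, (∏ i, (C (x i) + X * C (y i)) ^ m i : A[X]).natDegree ≤ d ∧
      (∏ i, (C (x i) + X * C (y i)) ^ m i : A[X]).coeff d = ∏ i, y i ^ m i := by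
    intro m hm
    have h1 : ∀ i, (C (x i) + X * C (y i) : A[X]).natDegree ≤ 1 := by
      intro i
      rw [mul_comm]
      exact (natDegree_add_le _ _).trans
        (max_le (by simp) ((natDegree_C_mul_le _ _).trans natDegree_X_le))
    have h2 := coeff_prod_top' Finset.univ (fun i => (C (x i) + X * C (y i) : A[X]) ^ m i)
      (fun i => m i) (by
        intro i _
        refine natDegree_pow_le.trans ?_
        have := h1 i
        nlinarith)
    rw [hdeg m hm] at h2
    refine ⟨h2.1, h2.2.trans ?_⟩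
    apply Finset.prod_congr rfl
    intro i _
    have h3 := coeff_pow_of_natDegree_le (m := m i) (h1 i)
    rw [mul_one] at h3
    rw [h3]
    simp [coeff_C]
  unfold gline
  rw [MvPolynomial.aeval_def, MvPolynomial.aeval_def, MvPolynomial.eval₂_eq']
  constructor
  · apply natDegree_sum_le_of_forall_le
    intro m hm
    refine (natDegree_mul_le).trans ?_
    have := (hk m hm).1
    simpa only [Polynomial.algebraMap_apply, natDegree_C, X_mul_C, zero_add, ge_iff_le] using this
  · rw [finsetSum_coeff, MvPolynomial.eval₂_eq']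
    apply Finset.sum_congr rfl
    intro m hm
    rw [Polynomial.algebraMap_apply, coeff_C_mul, (hk m hm).2]

theorem line_top {p : MvPolynomial (Fin n) ℝ} {d : ℕ} (hp : p.IsHomogeneous d)
    (x y : Fin n → ℝ) :
    (line p x y).natDegree ≤ d ∧ (line p x y).coeff d = MvPolynomial.eval y p :=
  gline_top hp x y

/-! ### Hyperbolic polynomials -/

theorem IsHyperbolic.splits {p : MvPolynomial (Fin n) ℝ} {e : Fin n → ℝ} (hp : IsHyperbolic p e)
    (x : Fin n → ℝ) : (line p x e).Splits := by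
  apply splits_of_real_roots
  intro z hz
  rw [aeval_line] at hz
  refine hp.2.2 (-x) z ?_
  rw [← hz]
  congr 2
  funext i
  simp only [Pi.neg_apply, Complex.ofReal_neg, sub_neg_eq_add]
  ring

/-- `a` is in the (open) cone of `e`: no zero of `p` on the ray `a + t e`, `t ≥ 0`. -/
def InOpen (p : MvPolynomial (Fin n) ℝ) (e a : Fin n → ℝ) : Prop :=
  ∀ t : ℝ, 0 ≤ t → MvPolynomial.eval (a + t • e) p ≠ 0

theorem mem_hypCone_iff {p : MvPolynomial (Fin n) ℝ} {e : Fin n → ℝ} {d : ℕ}
    (hd : p.IsHomogeneous d) (x : Fin n → ℝ) :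
    x ∈ hypCone p e ↔ ∀ t : ℝ, 0 < t → MvPolynomial.eval (x + t • e) p ≠ 0 := by
  have key : ∀ t : ℝ, MvPolynomial.eval (t • e - x) p =
      (-1) ^ d * MvPolynomial.eval (x + (-t) • e) p := by
    intro t
    rw [← eval_smul' hd]
    congr 2
    simp only [neg_smul, smul_add, one_smul, smul_neg, smul_smul, neg_mul, one_mul, neg_neg]
    abel
  constructor
  · intro h t ht h0
    have h1 := h (-t) (by rw [key, neg_neg, h0, mul_zero])
    linarith
  · intro h t h0
    by_contra hneg
    push Not at hneg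
    rw [key] at h0
    rcases mul_eq_zero.1 h0 with h1 | h1
    · exact absurd h1 (pow_ne_zero _ (by norm_num))
    · exact h (-t) (by linarith) h1

theorem continuous_eval (p : MvPolynomial (Fin n) ℝ) :
    Continuous (fun x : Fin n → ℝ => MvPolynomial.eval x p) :=
  MvPolynomial.continuous_eval p

theorem continuous_aeval_complex (p : MvPolynomial (Fin n) ℝ) :
    Continuous (fun x : Fin n → ℂ => MvPolynomial.aeval x p) := by
  induction p using MvPolynomial.induction_on with
  | C a => simpa using continuous_const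
  | add p q hp hq => simp only [map_add]; exact hp.add hq
  | mul_X p i hp =>
    simp only [map_mul, MvPolynomial.aeval_X]; exact hp.mul (continuous_apply i)

end Vale.Agent.P256
end

section

namespace Vale.Agent.P256

open Polynomial

variable {n : ℕ}

/-- directional derivative of `p` at `z` in direction `v` -/
noncomputable def dd (p : MvPolynomial (Fin n) ℝ) (z v : Fin n → ℝ) : ℝ :=
  ∑ i, v i * MvPolynomial.eval z (MvPolynomial.pderiv i p)

/-- second directional derivative of `p` at `z` in direction `v` -/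
noncomputable def dd2 (p : MvPolynomial (Fin n) ℝ) (z v : Fin n → ℝ) : ℝ :=
  ∑ i, ∑ j, v i * v j * MvPolynomial.eval z (MvPolynomial.pderiv i (MvPolynomial.pderiv j p))

/-- the `k`-th homogeneous part of `y ↦ p(z+y)` -/
noncomputable def part (p : MvPolynomial (Fin n) ℝ) (z : Fin n → ℝ) (k : ℕ) :
    MvPolynomial (Fin n) ℝ :=
  MvPolynomial.homogeneousComponent k (translate p z)

end Vale.Agent.P256
end

section

/-! The local SOS lemmas for the slack kernel `(z', x) ↦ dd p z' x`. -/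

namespace Vale.Agent.P256

open Filter Topology MvPolynomial

variable {n : ℕ}

/-- zero set of `p` on the Euclidean unit sphere -/
def sphZ (p : MvPolynomial (Fin n) ℝ) : Set (Fin n → ℝ) :=
  {x | eval x p = 0 ∧ ∑ i, x i ^ 2 = 1}

theorem dd_eq (p : MvPolynomial (Fin n) ℝ) (z v : Fin n → ℝ) :
    dd p z v = ∑ i, eval z (pderiv i p) * v i := by
  unfold dd
  exact Finset.sum_congr rfl fun i _ => mul_comm _ _

theorem dd2_eq (p : MvPolynomial (Fin n) ℝ) (z v : Fin n → ℝ) :
    dd2 p z v = ∑ i, ∑ j, eval z (pderiv i (pderiv j p)) * v i * v j := by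
  unfold dd2
  refine Finset.sum_congr rfl fun i _ => Finset.sum_congr rfl fun j _ => ?_
  ring

theorem dd_self {p : MvPolynomial (Fin n) ℝ} {d : ℕ} (hp : p.IsHomogeneous d)
    (x : Fin n → ℝ) : dd p x x = d * eval x p := by
  have h := congrArg (eval x) hp.sum_X_mul_pderiv
  rw [map_sum, nsmul_eq_mul, map_mul, map_natCast] at h
  rw [← h]
  unfold dd
  refine Finset.sum_congr rfl fun i _ => ?_
  rw [map_mul, eval_X]

/-- (L1) -/
theorem smooth_sos {p : MvPolynomial (Fin n) ℝ} {d : ℕ} (hp : p.IsHomogeneous d)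
    {z : Fin n → ℝ}
    (hneg : ∀ v : Fin n → ℝ, v ≠ 0 → dd p z v = 0 → ∑ i, z i * v i = 0 → dd2 p z v < 0) :
    ∃ U ∈ 𝓝 z, SosOn (U ∩ sphZ p) (U ∩ sphZ p) (fun z' x => dd p z' x) := by
  obtain ⟨U, hU, V, hV, h⟩ := smooth_local p z (T := sphZ p) (fun x hx => hx.1)
    (fun x hx => hx.2) (fun x hx => by rw [← dd_eq, dd_self hp, hx.1, mul_zero])
    (fun v hv h1 h2 => by
      rw [← dd2_eq]; exact hneg v hv (by rw [dd_eq]; exact h1) h2)
  refine ⟨U ∩ V, inter_mem hU hV, ?_⟩
  refine (h.mono (fun x hx => ⟨hx.1.1, hx.2⟩) (fun x hx => ⟨hx.1.2, hx.2⟩)).congr ?_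
  intro z' _ x _
  exact dd_eq p z' x

section Blow

theorem eval_translate (p : MvPolynomial (Fin n) ℝ) (z y : Fin n → ℝ) :
    eval y (translate p z) = eval (z + y) p := by
  unfold translate
  induction p using MvPolynomial.induction_on with
  | C a => simp
  | add p q hp hq => simp only [map_add, hp, hq]
  | mul_X p i hp =>
    simp only [map_mul, hp, MvPolynomial.aeval_X, map_add, eval_C, eval_X, Pi.add_apply]

theorem pderiv_translate (p : MvPolynomial (Fin n) ℝ) (z : Fin n → ℝ) (i : Fin n) :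
    pderiv i (translate p z) = translate (pderiv i p) z := by
  unfold translate
  induction p using MvPolynomial.induction_on with
  | C a => simp
  | add p q hp hq => simp only [map_add, hp, hq]
  | mul_X p k hp =>
    simp only [map_mul, MvPolynomial.aeval_X, pderiv_mul, map_add, hp, pderiv_C, zero_add,
      pderiv_X, Pi.single_apply]
    by_cases h : k = i
    · subst h; simp only [aeval_eq_bind₁, ↓reduceIte, mul_one, map_one]
    · simp [h]

theorem translate_eq_sum (p : MvPolynomial (Fin n) ℝ) (z : Fin n → ℝ) {m N : ℕ}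
    (hm : ∀ k < m, part p z k = 0) (hN : (translate p z).totalDegree ≤ N) :
    translate p z = ∑ j ∈ Finset.range (N + 1), part p z (m + j) := by
  have h1 : translate p z = ∑ k ∈ Finset.range (m + (N + 1)), part p z k := by
    have h2 := sum_homogeneousComponent (translate p z)
    rw [← h2]
    have h3 : Finset.range ((translate p z).totalDegree + 1) ⊆ Finset.range (m + (N + 1)) := by
      intro k hk
      rw [Finset.mem_range] at hk ⊢
      omega
    conv_lhs => rw [h2]
    rw [← Finset.sum_subset h3 ?_]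
    · exact h2.symm
    · intro k _ hk
      rw [Finset.mem_range, not_lt] at hk
      exact homogeneousComponent_eq_zero _ _ (by omega)
  rw [Finset.sum_range_add] at h1
  rw [h1, Finset.sum_eq_zero (fun k hk => hm k (Finset.mem_range.1 hk)), zero_add]

/-- the blown up polynomial `Q(b,u) = Σ_j b^j p_{m+j}(u)` -/
noncomputable def blow (p : MvPolynomial (Fin n) ℝ) (z : Fin n → ℝ) (m N : ℕ) :
    MvPolynomial (Option (Fin n)) ℝ :=
  ∑ j ∈ Finset.range (N + 1), X none ^ j * rename some (part p z (m + j))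

theorem eval_blow (p : MvPolynomial (Fin n) ℝ) (z : Fin n → ℝ) (m N : ℕ)
    (w : Option (Fin n) → ℝ) :
    eval w (blow p z m N) = ∑ j ∈ Finset.range (N + 1),
      w none ^ j * eval (fun i => w (some i)) (part p z (m + j)) := by
  unfold blow
  rw [map_sum]
  refine Finset.sum_congr rfl fun j _ => ?_
  rw [map_mul, map_pow, eval_X, eval_rename]
  rfl

theorem pderiv_some_rename (q : MvPolynomial (Fin n) ℝ) (i : Fin n) :
    pderiv (some i) (rename some q : MvPolynomial (Option (Fin n)) ℝ) =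
      rename some (pderiv i q) :=
  pderiv_rename (Option.some_injective _) i q

theorem pderiv_none_rename (q : MvPolynomial (Fin n) ℝ) :
    pderiv none (rename some q : MvPolynomial (Option (Fin n)) ℝ) = 0 := by
  induction q using MvPolynomial.induction_on with
  | C a => simp
  | add p q hp hq => simp only [map_add, hp, hq, add_zero]
  | mul_X p i hp =>
    simp [hp]

theorem pderiv_some_blow (p : MvPolynomial (Fin n) ℝ) (z : Fin n → ℝ) (m N : ℕ) (i : Fin n) :
    pderiv (some i) (blow p z m N) = ∑ j ∈ Finset.range (N + 1),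
      X none ^ j * rename some (pderiv i (part p z (m + j))) := by
  unfold blow
  rw [map_sum]
  refine Finset.sum_congr rfl fun j _ => ?_
  rw [pderiv_mul, pderiv_some_rename, pderiv_pow]
  simp only [pderiv_X, ne_eq, reduceCtorEq, not_false_eq_true, Pi.single_eq_of_ne, mul_zero, zero_mul, zero_add]

theorem pderiv_none_blow (p : MvPolynomial (Fin n) ℝ) (z : Fin n → ℝ) (m N : ℕ) :
    pderiv none (blow p z m N) = ∑ j ∈ Finset.range (N + 1),
      (j : MvPolynomial (Option (Fin n)) ℝ) * X none ^ (j - 1) *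
        rename some (part p z (m + j)) := by
  unfold blow
  rw [map_sum]
  refine Finset.sum_congr rfl fun j _ => ?_
  rw [pderiv_mul, pderiv_none_rename, pderiv_pow]
  simp only [pderiv_X, Pi.single_eq_same, mul_one, mul_zero, add_zero]

theorem eval_pderiv_some_blow (p : MvPolynomial (Fin n) ℝ) (z : Fin n → ℝ) (m N : ℕ)
    (i : Fin n) (w : Option (Fin n) → ℝ) :
    eval w (pderiv (some i) (blow p z m N)) = ∑ j ∈ Finset.range (N + 1),
      w none ^ j * eval (fun i => w (some i)) (pderiv i (part p z (m + j))) := by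
  rw [pderiv_some_blow, map_sum]
  refine Finset.sum_congr rfl fun j _ => ?_
  rw [map_mul, map_pow, eval_X, eval_rename]
  rfl

theorem eval_pderiv_none_blow (p : MvPolynomial (Fin n) ℝ) (z : Fin n → ℝ) (m N : ℕ)
    (w : Option (Fin n) → ℝ) :
    eval w (pderiv none (blow p z m N)) = ∑ j ∈ Finset.range (N + 1),
      (j : ℝ) * w none ^ (j - 1) * eval (fun i => w (some i)) (part p z (m + j)) := by
  rw [pderiv_none_blow, map_sum]
  refine Finset.sum_congr rfl fun j _ => ?_
  rw [map_mul, map_mul, map_pow, eval_X, eval_rename, map_natCast]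
  rfl

theorem sum_range_zero_pow (N : ℕ) (f : ℕ → ℝ) :
    ∑ j ∈ Finset.range (N + 1), (0 : ℝ) ^ j * f j = f 0 := by
  rw [Finset.sum_eq_single 0]
  · simp
  · intro j _ hj; simp [hj]
  · intro h; simp only [Finset.mem_range, lt_add_iff_pos_left, Order.lt_add_one_iff, zero_le, not_true_eq_false] at h

/-- values at radius zero -/
theorem eval_pderiv_some_blow_zero (p : MvPolynomial (Fin n) ℝ) (z : Fin n → ℝ) (m N : ℕ)
    (i : Fin n) {w : Option (Fin n) → ℝ} (hw : w none = 0) :
    eval w (pderiv (some i) (blow p z m N)) =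
      eval (fun i => w (some i)) (pderiv i (part p z m)) := by
  rw [eval_pderiv_some_blow, hw, sum_range_zero_pow]
  rfl

theorem eval_pderiv_none_blow_zero (p : MvPolynomial (Fin n) ℝ) (z : Fin n → ℝ) (m N : ℕ)
    {w : Option (Fin n) → ℝ} (hw : w none = 0) :
    eval w (pderiv none (blow p z m (N + 1))) =
      eval (fun i => w (some i)) (part p z (m + 1)) := by
  rw [eval_pderiv_none_blow, hw, Finset.sum_eq_single 1]
  · simp
  · intro j _ hj
    rcases Nat.lt_or_ge j 1 with h | h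
    · have : j = 0 := by omega
      subst this; simp
    · have : j - 1 ≠ 0 := by omega
      simp only [ne_eq, this, not_false_eq_true, zero_pow, mul_zero, zero_mul]
  · intro h; simp only [Finset.mem_range, lt_add_iff_pos_left, Order.lt_add_one_iff, zero_le, not_true_eq_false] at h

theorem eval_pderiv2_some_blow_zero (p : MvPolynomial (Fin n) ℝ) (z : Fin n → ℝ) (m N : ℕ)
    (i k : Fin n) {w : Option (Fin n) → ℝ} (hw : w none = 0) :
    eval w (pderiv (some i) (pderiv (some k) (blow p z m N))) =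
      eval (fun i => w (some i)) (pderiv i (pderiv k (part p z m))) := by
  rw [pderiv_some_blow, map_sum, map_sum]
  have : ∀ j ∈ Finset.range (N + 1), eval w (pderiv (some i)
      (X none ^ j * rename some (pderiv k (part p z (m + j))) :
        MvPolynomial (Option (Fin n)) ℝ)) =
      w none ^ j * eval (fun i => w (some i)) (pderiv i (pderiv k (part p z (m + j)))) := by
    intro j _
    rw [pderiv_mul, pderiv_some_rename, pderiv_pow]
    simp only [map_add, map_mul, map_pow, eval_X, eval_rename]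
    simp only [map_natCast, pderiv_X, ne_eq, reduceCtorEq, not_false_eq_true, Pi.single_eq_of_ne, map_zero, mul_zero, zero_mul, zero_add, mul_eq_mul_left_iff, pow_eq_zero_iff']
    left
    rfl
  rw [Finset.sum_congr rfl this, hw, sum_range_zero_pow]
  rfl

theorem part_isHomogeneous (p : MvPolynomial (Fin n) ℝ) (z : Fin n → ℝ) (k : ℕ) :
    (part p z k).IsHomogeneous k := homogeneousComponent_isHomogeneous _ _

theorem eval_add_smul_eq (p : MvPolynomial (Fin n) ℝ) (z : Fin n → ℝ) {m N : ℕ}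
    (hm : ∀ k < m, part p z k = 0) (hN : (translate p z).totalDegree ≤ N)
    (w : Option (Fin n) → ℝ) :
    eval (z + w none • fun i => w (some i)) p = w none ^ m * eval w (blow p z m N) := by
  rw [← eval_translate, translate_eq_sum p z hm hN, map_sum, eval_blow, Finset.mul_sum]
  refine Finset.sum_congr rfl fun j _ => ?_
  rw [eval_smul' (part_isHomogeneous p z (m + j)), pow_add]
  ring

theorem eval_pderiv_add_smul_eq (p : MvPolynomial (Fin n) ℝ) (z : Fin n → ℝ) {m N : ℕ}
    (hm0 : 1 ≤ m) (hm : ∀ k < m, part p z k = 0) (hN : (translate p z).totalDegree ≤ N)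
    (i : Fin n) (w : Option (Fin n) → ℝ) :
    eval (z + w none • fun i => w (some i)) (pderiv i p) =
      w none ^ (m - 1) * eval w (pderiv (some i) (blow p z m N)) := by
  rw [← eval_translate, ← pderiv_translate, translate_eq_sum p z hm hN, map_sum, map_sum,
    eval_pderiv_some_blow, Finset.mul_sum]
  refine Finset.sum_congr rfl fun j _ => ?_
  rw [eval_smul' (part_isHomogeneous p z (m + j)).pderiv]
  have : m + j - 1 = m - 1 + j := by omega
  rw [this, pow_add]
  ring

/-- Euler's relation for the blown-up polynomial -/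
theorem euler_blow (p : MvPolynomial (Fin n) ℝ) (z : Fin n → ℝ) (m N : ℕ)
    (w : Option (Fin n) → ℝ) :
    ∑ i : Fin n, eval w (pderiv (some i) (blow p z m N)) * w (some i) =
      m * eval w (blow p z m N) + w none * eval w (pderiv none (blow p z m N)) := by
  simp only [eval_pderiv_some_blow, eval_pderiv_none_blow, eval_blow, Finset.sum_mul]
  rw [Finset.sum_comm, Finset.mul_sum, Finset.mul_sum, ← Finset.sum_add_distrib]
  refine Finset.sum_congr rfl fun j _ => ?_
  have h := dd_self (part_isHomogeneous p z (m + j)) (fun i => w (some i))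
  unfold dd at h
  have h2 : ∑ i : Fin n, w none ^ j * eval (fun i => w (some i)) (pderiv i (part p z (m + j))) *
      w (some i) = w none ^ j * ((m + j : ℕ) * eval (fun i => w (some i)) (part p z (m + j))) := by
    rw [← h, Finset.mul_sum]
    refine Finset.sum_congr rfl fun i _ => ?_
    ring
  rw [h2]
  rcases Nat.eq_zero_or_pos j with rfl | hj
  · simp
  · have : w none ^ j = w none * w none ^ (j - 1) := by
      rw [← pow_succ']; congr 1; omega
    rw [this]
    push_cast
    ring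

end Blow

section Cone

/-- the polar coordinates around `z` -/
noncomputable def polar (z x : Fin n → ℝ) : Option (Fin n) → ℝ
  | none => Real.sqrt (∑ i, (x i - z i) ^ 2)
  | some i => (x i - z i) / Real.sqrt (∑ i, (x i - z i) ^ 2)

theorem polar_eq {z : Fin n → ℝ} {b : ℝ} (hb : 0 < b) {u : Fin n → ℝ} (hu : ∑ i, u i ^ 2 = 1)
    {x : Fin n → ℝ} (hx : x = z + b • u) :
    polar z x none = b ∧ ∀ i, polar z x (some i) = u i := by
  have h1 : ∀ i, x i - z i = b * u i := by
    intro i; rw [hx]; simp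
  have h2 : ∑ i, (x i - z i) ^ 2 = b ^ 2 := by
    simp only [h1, mul_pow]
    rw [← Finset.mul_sum, hu, mul_one]
  have h3 : Real.sqrt (∑ i, (x i - z i) ^ 2) = b := by
    rw [h2, Real.sqrt_sq hb.le]
  refine ⟨h3, fun i => ?_⟩
  show (x i - z i) / Real.sqrt (∑ i, (x i - z i) ^ 2) = u i
  rw [h3, h1, mul_div_cancel_left₀ _ hb.ne']

/-- the conical neighbourhood of the direction `u0` at `z` -/
def coneNbhd (p : MvPolynomial (Fin n) ℝ) (z u0 : Fin n → ℝ) (ρ : ℝ) : Set (Fin n → ℝ) :=
  {x | x ∈ sphZ p ∧ ∃ (b : ℝ) (u : Fin n → ℝ), 0 < b ∧ b < ρ ∧ ∑ i, u i ^ 2 = 1 ∧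
    (∀ i, |u i - u0 i| < ρ) ∧ x = z + b • u}

/-- the constraint set in polar coordinates -/
def polT (p : MvPolynomial (Fin n) ℝ) (z : Fin n → ℝ) (m N : ℕ) : Set (Option (Fin n) → ℝ) :=
  {w | 0 ≤ w none ∧ eval w (blow p z m N) = 0 ∧ ∑ i : Fin n, w (some i) ^ 2 = 1 ∧
    ∑ i : Fin n, z i * w (some i) + 1 / 2 * w none = 0}

theorem polar_mem {p : MvPolynomial (Fin n) ℝ} {z : Fin n → ℝ} (hz : ∑ i, z i ^ 2 = 1)
    {m N : ℕ} (hm : ∀ k < m, part p z k = 0) (hN : (translate p z).totalDegree ≤ N)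
    {u0 : Fin n → ℝ} {ρ : ℝ} {x : Fin n → ℝ} (hx : x ∈ coneNbhd p z u0 ρ) :
    polar z x ∈ polT p z m N ∧ 0 < polar z x none ∧ polar z x none < ρ ∧
      (∀ i, |polar z x (some i) - u0 i| < ρ) ∧
      x = z + polar z x none • fun i => polar z x (some i) := by
  obtain ⟨hxT, b, u, hb, hbρ, hu, huρ, hxe⟩ := hx
  obtain ⟨h1, h2⟩ := polar_eq hb hu hxe
  have h2' : (fun i => polar z x (some i)) = u := funext h2
  have hrep : x = z + polar z x none • fun i => polar z x (some i) := by
    rw [h1, h2']; exact hxe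
  refine ⟨⟨?_, ?_, ?_, ?_⟩, ?_, ?_, ?_, hrep⟩
  · rw [h1]; exact hb.le
  · have h3 := eval_add_smul_eq p z hm hN (polar z x)
    rw [← hrep, hxT.1, h1] at h3
    rcases mul_eq_zero.1 h3.symm with h4 | h4
    · exact absurd h4 (pow_ne_zero _ hb.ne')
    · exact h4
  · simp only [h2]; exact hu
  · simp only [h2]
    rw [h1]
    have h4 : ∑ i, x i ^ 2 = 1 := hxT.2
    have h5 : ∑ i, x i ^ 2 = ∑ i, z i ^ 2 + 2 * b * ∑ i, z i * u i + b ^ 2 * ∑ i, u i ^ 2 := by
      rw [Finset.mul_sum, Finset.mul_sum, ← Finset.sum_add_distrib, ← Finset.sum_add_distrib]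
      refine Finset.sum_congr rfl fun i _ => ?_
      rw [hxe]
      simp only [Pi.add_apply, Pi.smul_apply, smul_eq_mul]
      ring
    rw [h4, hz, hu] at h5
    have h6 : b * (∑ i, z i * u i + 1 / 2 * b) = 0 := by linarith only [h5]
    rcases mul_eq_zero.1 h6 with h7 | h7
    · exact absurd h7 hb.ne'
    · exact h7
  · rw [h1]; exact hb
  · rw [h1]; exact hbρ
  · intro i; rw [h2]; exact huρ i

/-- `Θ(z', x) = b'^(m-1) · conicKer` in polar coordinates -/
theorem dd_eq_conicKer {p : MvPolynomial (Fin n) ℝ} {d : ℕ} (hp : p.IsHomogeneous d)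
    {z : Fin n → ℝ} {m N : ℕ} (hm0 : 1 ≤ m)
    (hm : ∀ k < m, part p z k = 0) (hN : (translate p z).totalDegree ≤ N)
    {z' x : Fin n → ℝ} {w' w : Option (Fin n) → ℝ} (hw' : w' ∈ polT p z m N)
    (hz' : z' = z + w' none • fun i => w' (some i)) (hx : x = z + w none • fun i => w (some i))
    (hpz' : eval z' p = 0) :
    dd p z' x = w' none ^ (m - 1) * conicKer (blow p z m N) w' w := by
  have h1 : dd p z' z' = 0 := by rw [dd_self hp, hpz', mul_zero]
  have h2 : dd p z' x = ∑ i, eval z' (pderiv i p) * (x i - z' i) := by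
    have : ∑ i, eval z' (pderiv i p) * (x i - z' i) = dd p z' x - dd p z' z' := by
      rw [dd_eq, dd_eq, ← Finset.sum_sub_distrib]
      refine Finset.sum_congr rfl fun i _ => ?_
      ring
    rw [this, h1, sub_zero]
  have h3 : ∀ i, eval z' (pderiv i p) =
      w' none ^ (m - 1) * eval w' (pderiv (some i) (blow p z m N)) := by
    intro i
    rw [hz']
    exact eval_pderiv_add_smul_eq p z hm0 hm hN i w'
  have h4 : ∀ i, x i - z' i = w none * w (some i) - w' none * w' (some i) := by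
    intro i
    rw [hx, hz']
    simp only [Pi.add_apply, Pi.smul_apply, smul_eq_mul]
    ring
  have h5 := euler_blow p z m N w'
  rw [hw'.2.1, mul_zero, zero_add] at h5
  rw [h2, conicKer]
  have h6 : ∑ i, eval z' (pderiv i p) * (x i - z' i) = w' none ^ (m - 1) *
      (w none * ∑ i : Fin n, eval w' (pderiv (some i) (blow p z m N)) * w (some i) -
        w' none * ∑ i : Fin n, eval w' (pderiv (some i) (blow p z m N)) * w' (some i)) := by
    rw [Finset.mul_sum, Finset.mul_sum, ← Finset.sum_sub_distrib, Finset.mul_sum]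
    refine Finset.sum_congr rfl fun i _ => ?_
    rw [h3, h4]; ring
  rw [h6, h5]
  ring

theorem exists_box {w0 : Option (Fin n) → ℝ} (h0 : w0 none = 0) {U : Set (Option (Fin n) → ℝ)}
    (hU : U ∈ 𝓝 w0) : ∃ ρ : ℝ, 0 < ρ ∧ ∀ w : Option (Fin n) → ℝ, 0 < w none → w none < ρ →
      (∀ i, |w (some i) - w0 (some i)| < ρ) → w ∈ U := by
  obtain ⟨ρ, hρ, hball⟩ := Metric.mem_nhds_iff.1 hU
  refine ⟨ρ, hρ, fun w h1 h2 h3 => hball ?_⟩
  rw [Metric.mem_ball, dist_pi_lt_iff hρ]
  rintro (_ | i)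
  · rw [Real.dist_eq, h0, sub_zero, abs_of_pos h1]; exact h2
  · rw [Real.dist_eq]; exact h3 i

/-- transfer from polar coordinates -/
theorem sosOn_dd_of_conic {p : MvPolynomial (Fin n) ℝ} {d : ℕ} (hp : p.IsHomogeneous d)
    {z : Fin n → ℝ} (hz : ∑ i, z i ^ 2 = 1) {m N : ℕ} (hm0 : 1 ≤ m)
    (hm : ∀ k < m, part p z k = 0) (hN : (translate p z).totalDegree ≤ N)
    {u0 u1 : Fin n → ℝ} {w0 w1 : Option (Fin n) → ℝ} (h0 : w0 none = 0) (h1 : w1 none = 0)
    (h0' : ∀ i, w0 (some i) = u0 i) (h1' : ∀ i, w1 (some i) = u1 i)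
    {U V : Set (Option (Fin n) → ℝ)} (hU : U ∈ 𝓝 w0) (hV : V ∈ 𝓝 w1)
    (hs : SosOn (U ∩ polT p z m N) (V ∩ polT p z m N) (conicKer (blow p z m N))) :
    ∃ ρ : ℝ, 0 < ρ ∧ SosOn (coneNbhd p z u0 ρ) (coneNbhd p z u1 ρ) (fun z' x => dd p z' x) := by
  obtain ⟨ρ0, hρ0, hb0⟩ := exists_box h0 hU
  obtain ⟨ρ1, hρ1, hb1⟩ := exists_box h1 hV
  refine ⟨min ρ0 ρ1, lt_min hρ0 hρ1, ?_⟩
  have k1 := hs.comp (polar z) (polar z)
  have k2 : SosOn (coneNbhd p z u0 (min ρ0 ρ1)) (coneNbhd p z u1 (min ρ0 ρ1))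
      (fun z' x => conicKer (blow p z m N) (polar z z') (polar z x)) := by
    refine k1.mono ?_ ?_
    · intro x hx
      obtain ⟨a1, a2, a3, a4, _⟩ := polar_mem hz hm hN hx
      refine ⟨hb0 _ a2 (a3.trans_le (min_le_left _ _)) (fun i => ?_), a1⟩
      rw [h0']; exact (a4 i).trans_le (min_le_left _ _)
    · intro x hx
      obtain ⟨a1, a2, a3, a4, _⟩ := polar_mem hz hm hN hx
      refine ⟨hb1 _ a2 (a3.trans_le (min_le_right _ _)) (fun i => ?_), a1⟩
      rw [h1']; exact (a4 i).trans_le (min_le_right _ _)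
  have k3 : SosOn (coneNbhd p z u0 (min ρ0 ρ1)) (coneNbhd p z u1 (min ρ0 ρ1))
      (fun (z' : Fin n → ℝ) (_ : Fin n → ℝ) => (polar z z' none) ^ (m - 1)) :=
    SosOn.left (fun z' hz' => by
      obtain ⟨_, a2, _⟩ := polar_mem hz hm hN hz'
      positivity)
  refine (k3.mul k2).congr ?_
  intro z' hz' x hx
  obtain ⟨a1, a2, a3, a4, a5⟩ := polar_mem hz hm hN hz'
  obtain ⟨_, _, _, _, b5⟩ := polar_mem hz hm hN hx
  exact dd_eq_conicKer hp hm0 hm hN a1 a5 b5 hz'.1.1

/-- (L2) diagonal pairs at a conical point -/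
theorem conic_sos_diag {p : MvPolynomial (Fin n) ℝ} {d : ℕ} (hp : p.IsHomogeneous d)
    {z : Fin n → ℝ} (hz : ∑ i, z i ^ 2 = 1) {m : ℕ} (hm0 : 1 ≤ m)
    (hm : ∀ k < m, part p z k = 0) {u0 : Fin n → ℝ}
    (hr : eval u0 (part p z (m + 1)) < 0)
    (hneg : ∀ v : Fin n → ℝ, v ≠ 0 → dd (part p z m) u0 v = 0 → ∑ i, z i * v i = 0 →
      ∑ i, u0 i * v i = 0 → dd2 (part p z m) u0 v < 0) :
    ∃ ρ : ℝ, 0 < ρ ∧ SosOn (coneNbhd p z u0 ρ) (coneNbhd p z u0 ρ) (fun z' x => dd p z' x) := by
  classical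
  set N := (translate p z).totalDegree + 1 with hN
  have hN' : (translate p z).totalDegree ≤ N := by omega
  set Q := blow p z m N with hQ
  set w0 : Option (Fin n) → ℝ := fun o => o.elim 0 u0 with hw0
  have hw0n : w0 none = 0 := rfl
  have hw0s : ∀ i, w0 (some i) = u0 i := fun i => rfl
  have hw0f : (fun i => w0 (some i)) = u0 := rfl
  -- constraints
  set g : Option Bool → MvPolynomial (Option (Fin n)) ℝ := fun a =>
    match a with
    | none => Q
    | some true => ∑ i : Fin n, X (some i) ^ 2 - 1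
    | some false => ∑ i : Fin n, C (z i) * X (some i) + C (1 / 2) * X none with hg
  obtain ⟨U, hU, V, hV, hs⟩ := conic_local_diag (T := polT p z m N) Q (w0 := w0) g
    (by
      intro w hw a
      rcases a with _ | (_ | _)
      · exact hw.2.1
      · have := hw.2.2.2
        simp only [hg, map_add, map_sum, map_mul, eval_C, eval_X]
        exact this
      · have := hw.2.2.1
        simp only [hg, map_sub, map_sum, map_pow, eval_X, map_one]
        rw [this]; ring)
    (fun w hw => hw.1) (fun w hw => hw.2.1)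
    (fun w hw => by
      have := euler_blow p z m N w
      rw [hw.2.1, mul_zero, zero_add] at this
      exact this) hw0n
    (by
      rw [hQ, hN, eval_pderiv_none_blow_zero p z m _ hw0n, hw0f]
      exact hr)
    (by
      intro v hv hc hvn
      set v' : Fin n → ℝ := fun i => v (some i) with hv'
      have hv'0 : v' ≠ 0 := by
        intro h0
        apply hv
        funext o
        rcases o with _ | i
        · exact hvn
        · exact congrFun h0 i
      have c1 : dd (part p z m) u0 v' = 0 := by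
        have := hc none
        rw [Fintype.sum_option, hvn, mul_zero, zero_add] at this
        rw [dd_eq, ← this]
        refine Finset.sum_congr rfl fun i _ => ?_
        have : eval w0 (pderiv (some i) (g none)) = eval u0 (pderiv i (part p z m)) := by
          simp only [hg]
          rw [hQ, eval_pderiv_some_blow_zero p z m N i hw0n, hw0f]
        rw [this]
      have c2 : ∑ i, z i * v' i = 0 := by
        have := hc (some false)
        rw [Fintype.sum_option, hvn, mul_zero, zero_add] at this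
        rw [← this]
        refine Finset.sum_congr rfl fun i _ => ?_
        have e : eval w0 (pderiv (some i) (g (some false))) = z i := by
          simp only [hg, map_add, map_sum, pderiv_C_mul, pderiv_X]
          rw [Finset.sum_eq_single i]
          · simp only [Pi.single_eq_same, mul_one, eval_C, one_div, ne_eq, reduceCtorEq, not_false_eq_true, Pi.single_eq_of_ne, mul_zero, map_zero, add_zero]
          · intro j _ hj; simp [hj]
          · intro h; exact absurd (Finset.mem_univ i) h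
        rw [e]
      have c3 : ∑ i, u0 i * v' i = 0 := by
        have := hc (some true)
        rw [Fintype.sum_option, hvn, mul_zero, zero_add] at this
        have e : ∀ i, eval w0 (pderiv (some i) (g (some true))) = 2 * u0 i := by
          intro i
          simp only [hg, map_sub, map_sum, pderiv_pow, pderiv_X]
          rw [Finset.sum_eq_single i]
          · simp only [hw0, Nat.cast_ofNat, Nat.add_one_sub_one, pow_one, Pi.single_eq_same, mul_one, map_mul, eval_ofNat, eval_X, Option.elim_some, Derivation.map_one_eq_zero, map_zero, sub_zero]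
          · intro j _ hj; simp only [Nat.cast_ofNat, Nat.add_one_sub_one, pow_one, ne_eq, Option.some.injEq, hj, not_false_eq_true, Pi.single_eq_of_ne, mul_zero, map_zero]
          · intro h; exact absurd (Finset.mem_univ i) h
        have e2 : ∑ i, eval w0 (pderiv (some i) (g (some true))) * v (some i) =
            2 * ∑ i, u0 i * v' i := by
          rw [Finset.mul_sum]
          refine Finset.sum_congr rfl fun i _ => ?_
          rw [e]; ring
        rw [e2] at this
        linarith only [this]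
      have h1 := hneg v' hv'0 c1 c2 c3
      rw [dd2_eq] at h1
      have h2 : ∑ i, ∑ j, eval w0 (pderiv i (pderiv j Q)) * v i * v j =
          ∑ i, ∑ j, eval u0 (pderiv i (pderiv j (part p z m))) * v' i * v' j := by
        rw [Fintype.sum_option]
        have e1 : ∑ j, eval w0 (pderiv none (pderiv j Q)) * v none * v j = 0 := by
          rw [hvn]; simp only [mul_zero, zero_mul, Finset.sum_const_zero]
        rw [e1, zero_add]
        refine Finset.sum_congr rfl fun i _ => ?_
        rw [Fintype.sum_option, hvn, mul_zero, zero_add]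
        refine Finset.sum_congr rfl fun j _ => ?_
        rw [hQ, eval_pderiv2_some_blow_zero p z m N i j hw0n, hw0f]
      rw [h2]; exact h1)
  exact sosOn_dd_of_conic hp hz hm0 hm hN' hw0n hw0n hw0s hw0s hU hV hs

/-- (L3) off-diagonal pairs at a conical point; no sign condition on `p_{m+1}` -/
theorem conic_sos_off {p : MvPolynomial (Fin n) ℝ}
    {z : Fin n → ℝ} (hz : ∑ i, z i ^ 2 = 1) {m : ℕ} (hm0 : 1 ≤ m)
    (hm : ∀ k < m, part p z k = 0) {u0 u1 : Fin n → ℝ}
    (hpos : 0 < dd (part p z m) u0 u1) :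
    ∃ ρ : ℝ, 0 < ρ ∧ SosOn (coneNbhd p z u0 ρ ∩ {z' | 0 ≤ dd p z' z}) (coneNbhd p z u1 ρ)
      (fun z' x => dd p z' x) := by
  classical
  set N := (translate p z).totalDegree with hN
  have hN' : (translate p z).totalDegree ≤ N := le_rfl
  set Q := blow p z m N with hQ
  set w0 : Option (Fin n) → ℝ := fun o => o.elim 0 u0 with hw0
  set w1 : Option (Fin n) → ℝ := fun o => o.elim 0 u1 with hw1
  have hw0n : w0 none = 0 := rfl
  have hw1n : w1 none = 0 := rfl
  have hw0f : (fun i => w0 (some i)) = u0 := rfl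
  have hev : ∀ (g : MvPolynomial (Option (Fin n)) ℝ),
      Tendsto (fun w : Option (Fin n) → ℝ => eval w g) (𝓝 w0) (𝓝 (eval w0 g)) := by
    intro g
    exact (MvPolynomial.continuous_eval g).tendsto w0
  have hG : GermFR (𝓝 w0) (𝓝 w1)
      (fun w' w => ∑ i : Fin n, eval w' (pderiv (some i) Q) * w (some i))
      (∑ i : Fin n, eval w0 (pderiv (some i) Q) * w1 (some i)) :=
    GermFR.sum _ (fun i _ => GermFR.mulfun (hev _) ((continuous_apply (some i)).tendsto w1))
  have hlim : 0 < ∑ i : Fin n, eval w0 (pderiv (some i) Q) * w1 (some i) := by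
    have : ∑ i : Fin n, eval w0 (pderiv (some i) Q) * w1 (some i) =
        dd (part p z m) u0 u1 := by
      rw [dd_eq]
      refine Finset.sum_congr rfl fun i _ => ?_
      rw [hQ, eval_pderiv_some_blow_zero p z m N i hw0n, hw0f]
      rfl
    rw [this]; exact hpos
  obtain ⟨U, hU, V, hV, hs⟩ := hG.pos hlim
  obtain ⟨ρ0, hρ0, hb0⟩ := exists_box hw0n hU
  obtain ⟨ρ1, hρ1, hb1⟩ := exists_box hw1n hV
  refine ⟨min ρ0 ρ1, lt_min hρ0 hρ1, ?_⟩
  set S := coneNbhd p z u0 (min ρ0 ρ1) ∩ {z' | 0 ≤ dd p z' z} with hS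
  set T := coneNbhd p z u1 (min ρ0 ρ1) with hT
  have k1 : SosOn S T (fun z' x => ∑ i : Fin n, eval (polar z z') (pderiv (some i) Q) *
      (polar z x) (some i)) := by
    refine (hs.comp (polar z) (polar z)).mono ?_ ?_
    · intro x hx
      obtain ⟨a1, a2, a3, a4, _⟩ := polar_mem hz hm hN' hx.1
      exact hb0 _ a2 (a3.trans_le (min_le_left _ _))
        (fun i => (a4 i).trans_le (min_le_left _ _))
    · intro x hx
      obtain ⟨a1, a2, a3, a4, _⟩ := polar_mem hz hm hN' hx
      exact hb1 _ a2 (a3.trans_le (min_le_right _ _))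
        (fun i => (a4 i).trans_le (min_le_right _ _))
  have k2 : SosOn S T (fun (z' : Fin n → ℝ) (_ : Fin n → ℝ) => (polar z z' none) ^ (m - 1)) :=
    SosOn.left (fun z' hz' => by
      obtain ⟨_, a2, _⟩ := polar_mem hz hm hN' hz'.1
      positivity)
  have k3 : SosOn S T (fun (_ : Fin n → ℝ) (x : Fin n → ℝ) => polar z x none) :=
    SosOn.right (fun x hx => by
      obtain ⟨_, a2, _⟩ := polar_mem hz hm hN' hx
      exact a2.le)
  have k4 : SosOn S T (fun (z' : Fin n → ℝ) (_ : Fin n → ℝ) => dd p z' z) :=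
    SosOn.left (fun z' hz' => hz'.2)
  refine (k4.add ((k2.mul k3).mul k1)).congr ?_
  intro z' hz' x hx
  obtain ⟨a1, a2, a3, a4, a5⟩ := polar_mem hz hm hN' hz'.1
  obtain ⟨_, _, _, _, b5⟩ := polar_mem hz hm hN' hx
  have e1 : dd p z' x = dd p z' z + polar z x none * ∑ i, eval z' (pderiv i p) *
      (polar z x) (some i) := by
    rw [dd_eq, dd_eq, Finset.mul_sum, ← Finset.sum_add_distrib]
    refine Finset.sum_congr rfl fun i _ => ?_
    conv_lhs => rw [b5]
    simp only [Pi.add_apply, Pi.smul_apply, smul_eq_mul]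
    ring
  have h3 : ∀ i, eval z' (pderiv i p) =
      polar z z' none ^ (m - 1) * eval (polar z z') (pderiv (some i) Q) := by
    intro i
    conv_lhs => rw [a5]
    exact eval_pderiv_add_smul_eq p z hm0 hm hN' i (polar z z')
  have e2 : ∑ i, eval z' (pderiv i p) * (polar z x) (some i) =
      polar z z' none ^ (m - 1) * ∑ i, eval (polar z z') (pderiv (some i) Q) *
        (polar z x) (some i) := by
    rw [Finset.mul_sum]
    refine Finset.sum_congr rfl fun i _ => ?_
    rw [h3]; ring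
  rw [e1, e2]
  ring

end Cone

end Vale.Agent.P256
end

section

namespace Vale.Agent.P256

open Polynomial Filter Topology Bornology

variable {n : ℕ}

theorem norm_ge_of_roots (f : ℂ[X]) (hr : ∀ z, f.eval z = 0 → z.im ≤ 0) (t : ℂ)
    (ht : 0 ≤ t.im) : ‖f.leadingCoeff‖ * t.im ^ f.natDegree ≤ ‖f.eval t‖ := by
  have hs : f.Splits := IsAlgClosed.splits f
  by_cases hf : f = 0
  · simp [hf]
  rw [hs.eval_eq_prod_roots, norm_mul, ← splits_iff_card_roots.1 hs]
  apply mul_le_mul_of_nonneg_left _ (norm_nonneg _)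
  have hr' : ∀ a ∈ f.roots, a.im ≤ 0 := fun a ha => hr a ((mem_roots hf).1 ha)
  generalize f.roots = m at hr'
  induction m using Multiset.induction_on with
  | empty => simp
  | cons a m ih =>
    have ih' := ih (fun b hb => hr' b (Multiset.mem_cons_of_mem hb))
    have ha := hr' a (Multiset.mem_cons_self a m)
    simp only [Multiset.map_cons, Multiset.prod_cons, Multiset.card_cons, norm_mul, pow_succ]
    rw [mul_comm]
    apply mul_le_mul _ ih' (by positivity) (norm_nonneg _)
    have h1 : |(t - a).im| ≤ ‖t - a‖ := Complex.abs_im_le_norm _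
    have h2 : (t - a).im = t.im - a.im := by simp
    have h3 : (t - a).im ≤ |(t - a).im| := le_abs_self _
    linarith

theorem open_aux {Y Z : Type*} [NormedAddCommGroup Y] [ProperSpace Y] [NormedAddCommGroup Z]
    {F : ℝ → Y → Z} (hF : Continuous (fun q : ℝ × Y => F q.1 q.2)) {C : Set Y} (hC : IsClosed C)
    {s₀ : ℝ} (h1 : ∀ y ∈ C, F s₀ y ≠ 0)
    (h2 : ∀ᶠ q : ℝ × Y in 𝓝 s₀ ×ˢ cobounded Y, F q.1 q.2 ≠ 0) :
    ∀ᶠ s in 𝓝 s₀, ∀ y ∈ C, F s y ≠ 0 := by
  obtain ⟨pa, hpa, pb, hpb, h⟩ := eventually_prod_iff.1 h2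
  have hb : IsBounded {y | pb y}ᶜ := isBounded_def.2 (by rw [compl_compl]; exact hpb)
  obtain ⟨R, hR⟩ := hb.subset_closedBall (0 : Y)
  have hK : IsCompact (Metric.closedBall (0 : Y) R ∩ C) :=
    (isCompact_closedBall _ _).inter_right hC
  have h3 : ∀ᶠ s in 𝓝 s₀, ∀ y ∈ Metric.closedBall (0 : Y) R ∩ C, F s y ≠ 0 := by
    apply hK.eventually_forall_of_forall_eventually
    intro y hy
    have : (F s₀ y) ≠ 0 := h1 y hy.2
    exact (hF.tendsto (s₀, y)).eventually_ne this
  filter_upwards [h3, hpa] with s hs hps y hy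
  by_cases hyR : y ∈ Metric.closedBall (0 : Y) R
  · exact hs y ⟨hyR, hy⟩
  · have : pb y := by
      by_contra hn
      exact hyR (hR hn)
    exact h hps this

/-- the function `(s,t) ↦ p(i e + t a + s x)` -/
noncomputable def Qf (p : MvPolynomial (Fin n) ℝ) (e a x : Fin n → ℝ) (s : ℝ) (t : ℂ) : ℂ :=
  MvPolynomial.aeval (fun i => Complex.I * (e i : ℂ) + t * (a i : ℂ) + (s : ℂ) * (x i : ℂ)) p

theorem continuous_Qf (p : MvPolynomial (Fin n) ℝ) (e a x : Fin n → ℝ) :
    Continuous (fun q : ℝ × ℂ => Qf p e a x q.1 q.2) := by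
  unfold Qf
  refine (continuous_aeval_complex p).comp ?_
  refine continuous_pi (fun i => ?_)
  have h1 : Continuous (fun q : ℝ × ℂ => (q.1 : ℂ)) := Complex.continuous_ofReal.comp continuous_fst
  have h2 : Continuous (fun q : ℝ × ℂ => q.2) := continuous_snd
  fun_prop

theorem Qf_eq_gline (p : MvPolynomial (Fin n) ℝ) (e a x : Fin n → ℝ) (s : ℝ) (t : ℂ) :
    Qf p e a x s t = (gline p (fun i => Complex.I * (e i : ℂ) + (s : ℂ) * (x i : ℂ))
      (fun i => (a i : ℂ))).eval t := by
  rw [eval_gline, Qf]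
  congr 2
  funext i
  ring

theorem aeval_ofReal (p : MvPolynomial (Fin n) ℝ) (x : Fin n → ℝ) :
    MvPolynomial.aeval (fun i => (x i : ℂ)) p = ((MvPolynomial.eval x p : ℝ) : ℂ) := by
  have h := aeval_line p x 0 0
  simp only [zero_mul, add_zero] at h
  rw [← h]
  have : MvPolynomial.eval x p = (line p x 0).eval 0 := by rw [eval_line]; simp
  rw [this]
  have h2 := Polynomial.aeval_algebraMap_apply_eq_algebraMap_eval (A := ℂ) (0 : ℝ) (line p x 0)
  simpa using h2

/-- Nonvanishing of `p(x + ζ e)` for non-real `ζ`. -/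
theorem IsHyperbolic.ne_zero {p : MvPolynomial (Fin n) ℝ} {e : Fin n → ℝ} (hp : IsHyperbolic p e)
    (x : Fin n → ℝ) (z : ℂ) (hz : z.im ≠ 0) :
    MvPolynomial.aeval (fun i => (x i : ℂ) + z * (e i : ℂ)) p ≠ 0 := by
  intro h
  apply hz
  refine hp.2.2 (-x) z ?_
  rw [← h]
  congr 2
  funext i
  simp only [Pi.neg_apply, Complex.ofReal_neg, sub_neg_eq_add]
  ring

theorem gline_leading {p : MvPolynomial (Fin n) ℝ} {d : ℕ} (hd : p.IsHomogeneous d)
    (u : Fin n → ℂ) (a : Fin n → ℝ) (ha : MvPolynomial.eval a p ≠ 0) :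
    (gline p u (fun i => (a i : ℂ))).natDegree = d ∧
      (gline p u (fun i => (a i : ℂ))).leadingCoeff = ((MvPolynomial.eval a p : ℝ) : ℂ) := by
  obtain ⟨h1, h2⟩ := gline_top hd u (fun i => (a i : ℂ))
  rw [aeval_ofReal] at h2
  have h3 : (gline p u (fun i => (a i : ℂ))).natDegree = d := by
    apply natDegree_eq_of_le_of_coeff_ne_zero h1
    rw [h2]
    exact_mod_cast ha
  refine ⟨h3, ?_⟩
  rw [leadingCoeff, h3, h2]

theorem garding_aux {p : MvPolynomial (Fin n) ℝ} {e a : Fin n → ℝ} (hp : IsHyperbolic p e)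
    (ha : InOpen p e a) (x : Fin n → ℝ) (s : ℝ) (t : ℂ) (ht : 0 ≤ t.im) :
    Qf p e a x s t ≠ 0 := by
  obtain ⟨d, hd⟩ := hp.1
  have ha0 : MvPolynomial.eval a p ≠ 0 := by
    have := ha 0 le_rfl
    simpa only [ne_eq, zero_smul, add_zero] using this
  set A : Set ℝ := {s | ∀ t : ℂ, 0 ≤ t.im → Qf p e a x s t ≠ 0} with hA
  have hreal : ∀ (s : ℝ) (t : ℂ), t.im = 0 → Qf p e a x s t ≠ 0 := by
    intro s t ht
    obtain ⟨r, rfl⟩ : ∃ r : ℝ, t = (r : ℂ) := ⟨t.re, by apply Complex.ext <;> simp [ht]⟩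
    have h1 := hp.ne_zero (fun i => r * a i + s * x i) Complex.I (by simp)
    rw [Qf]
    convert h1 using 2
    congr 1
    funext i
    push_cast
    ring
  have h0 : (0 : ℝ) ∈ A := by
    intro t ht h
    by_cases ht0 : t = 0
    · exact hreal 0 t (by simp [ht0]) h
    have h1 : MvPolynomial.aeval (fun i => t * ((a i : ℂ) + (Complex.I / t) * (e i : ℂ))) p = 0 := by
      rw [← h, Qf]
      congr 2
      funext i
      field_simp
      push_cast
      ring
    rw [aeval_smul hd] at h1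
    have h2 := (mul_eq_zero.1 h1).resolve_left (pow_ne_zero _ ht0)
    have h3 : (Complex.I / t).im = 0 := by
      by_contra h4
      exact hp.ne_zero a (Complex.I / t) h4 h2
    have h4 : (Complex.I / t) = ((Complex.I / t).re : ℂ) := by
      apply Complex.ext <;> simp [h3]
    set r := (Complex.I / t).re with hr
    have hr0 : r ≠ 0 := by
      intro hr0
      rw [hr0] at h4
      have := div_eq_zero_iff.1 (h4.trans (by simp))
      rcases this with h5 | h5
      · exact Complex.I_ne_zero h5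
      · exact ht0 h5
    have h5 : t = Complex.I / (r : ℂ) := by
      have hr0' : (r : ℂ) ≠ 0 := by exact_mod_cast hr0
      rw [div_eq_iff ht0] at h4
      rw [eq_div_iff hr0', h4]; ring
    have h6 : t.im = 1 / r := by
      rw [h5]
      simp [Complex.div_im, Complex.normSq_apply]
    have h7 : r < 0 := by
      by_contra h8
      push Not at h8
      apply ha r h8
      rw [h4] at h2
      have h9 : ((MvPolynomial.eval (a + r • e) p : ℝ) : ℂ) = 0 := by
        rw [← aeval_ofReal, ← h2]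
        congr 2
        funext i
        simp
      exact_mod_cast h9
    rw [h6] at ht
    have := one_div_neg.2 h7
    linarith only [ht, this]
  have hclosed : IsClosed A := by
    rw [← isSeqClosed_iff_isClosed]
    intro u s hu hus t ht
    by_cases hti : t.im = 0
    · exact hreal s t hti
    have htpos : 0 < t.im := lt_of_le_of_ne ht (Ne.symm hti)
    have hb : ∀ k, ‖((MvPolynomial.eval a p : ℝ) : ℂ)‖ * t.im ^ d ≤ ‖Qf p e a x (u k) t‖ := by
      intro k
      have hk := hu k
      obtain ⟨g1, g2⟩ := gline_leading hd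
        (fun i => Complex.I * (e i : ℂ) + ((u k : ℝ) : ℂ) * (x i : ℂ)) a ha0
      have := norm_ge_of_roots (gline p (fun i => Complex.I * (e i : ℂ) + ((u k : ℝ) : ℂ) * (x i : ℂ))
        (fun i => (a i : ℂ))) (by
          intro z hz
          by_contra hz'
          push Not at hz'
          rw [← Qf_eq_gline] at hz
          exact hk z hz'.le hz) t ht
      rw [g1, g2] at this
      rw [Qf_eq_gline]
      exact this
    have hlim : Tendsto (fun k => ‖Qf p e a x (u k) t‖) atTop (𝓝 ‖Qf p e a x s t‖) := by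
      apply Tendsto.norm
      have := ((continuous_Qf p e a x).comp (Continuous.prodMk_left t)).tendsto s
      exact this.comp hus
    have hge := ge_of_tendsto hlim (Eventually.of_forall hb)
    intro hzero
    rw [hzero, norm_zero] at hge
    have : 0 < ‖((MvPolynomial.eval a p : ℝ) : ℂ)‖ * t.im ^ d := by
      apply mul_pos
      · rw [norm_pos_iff]; exact_mod_cast ha0
      · positivity
    linarith
  have hopen : IsOpen A := by
    rw [isOpen_iff_mem_nhds]
    intro s hs
    have hC : IsClosed {t : ℂ | 0 ≤ t.im} := isClosed_le continuous_const Complex.continuous_im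
    refine open_aux (continuous_Qf p e a x) hC hs ?_
    -- large t
    have hlim : Tendsto (fun q : ℝ × ℂ => (fun i => (a i : ℂ) +
        q.2⁻¹ * (Complex.I * (e i : ℂ) + (q.1 : ℂ) * (x i : ℂ)))) (𝓝 s ×ˢ cobounded ℂ)
        (𝓝 (fun i => (a i : ℂ))) := by
      rw [tendsto_pi_nhds]
      intro i
      have h1 : Tendsto (fun q : ℝ × ℂ => q.2⁻¹) (𝓝 s ×ˢ cobounded ℂ) (𝓝 0) :=
        tendsto_inv₀_cobounded.comp tendsto_snd
      have h2 : Tendsto (fun q : ℝ × ℂ => (Complex.I * (e i : ℂ) + (q.1 : ℂ) * (x i : ℂ)))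
          (𝓝 s ×ˢ cobounded ℂ) (𝓝 (Complex.I * (e i : ℂ) + (s : ℂ) * (x i : ℂ))) := by
        have : Continuous (fun r : ℝ => (Complex.I * (e i : ℂ) + (r : ℂ) * (x i : ℂ))) := by
          fun_prop
        exact (this.tendsto s).comp tendsto_fst
      have h3 := (tendsto_const_nhds (x := (a i : ℂ))).add (h1.mul h2)
      simpa only [zero_mul, add_zero] using h3
    have hne : ∀ᶠ v in 𝓝 (fun i => (a i : ℂ)), MvPolynomial.aeval v p ≠ 0 := by
      apply ((continuous_aeval_complex p).tendsto _).eventually_ne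
      rw [aeval_ofReal]
      exact_mod_cast ha0
    have hlarge : ∀ᶠ q : ℝ × ℂ in 𝓝 s ×ˢ cobounded ℂ, q.2 ≠ 0 := by
      have : ∀ᶠ t in cobounded ℂ, t ≠ 0 := by
        have := eventually_ne_cobounded (0 : ℂ)
        exact this
      exact tendsto_snd.eventually this
    filter_upwards [hlim.eventually hne, hlarge] with q h1 h2 h3
    apply h1
    have h4 : Qf p e a x q.1 q.2 = q.2 ^ d * MvPolynomial.aeval (fun i => (a i : ℂ) +
        q.2⁻¹ * (Complex.I * (e i : ℂ) + (q.1 : ℂ) * (x i : ℂ))) p := by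
      rw [← aeval_smul hd, Qf]
      congr 2
      funext i
      field_simp
      ring
    rw [h4] at h3
    exact (mul_eq_zero.1 h3).resolve_left (pow_ne_zero _ h2)
  have huniv : A = Set.univ := IsClopen.eq_univ ⟨hclosed, hopen⟩ ⟨0, h0⟩
  have : s ∈ A := by rw [huniv]; trivial
  exact this t ht

end Vale.Agent.P256
end

section

namespace Vale.Agent.P256

open Polynomial Filter Topology Bornology

variable {n : ℕ}

theorem line_leading {p : MvPolynomial (Fin n) ℝ} {d : ℕ} (hd : p.IsHomogeneous d)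
    (u a : Fin n → ℝ) (ha : MvPolynomial.eval a p ≠ 0) :
    (line p u a).natDegree = d ∧ (line p u a).leadingCoeff = MvPolynomial.eval a p := by
  obtain ⟨h1, h2⟩ := line_top hd u a
  have h3 : (line p u a).natDegree = d := by
    apply natDegree_eq_of_le_of_coeff_ne_zero h1
    rw [h2]
    exact ha
  exact ⟨h3, by rw [leadingCoeff, h3, h2]⟩

theorem roots_line_neg {p : MvPolynomial (Fin n) ℝ} {e a : Fin n → ℝ}
    (ha : InOpen p e a) : ∀ r ∈ (line p a e).roots, r < 0 := by
  intro r hr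
  have h1 := (mem_roots'.1 hr).2
  rw [IsRoot.def, eval_line] at h1
  by_contra h2
  push Not at h2
  exact ha r h2 h1

theorem open_mono {p : MvPolynomial (Fin n) ℝ} {e a : Fin n → ℝ} (hp : IsHyperbolic p e)
    (ha : InOpen p e a) (t : ℝ) (ht : 0 ≤ t) :
    0 < MvPolynomial.eval a p ∧ MvPolynomial.eval a p ≤ MvPolynomial.eval (a + t • e) p := by
  obtain ⟨d, hd⟩ := hp.1
  obtain ⟨h1, h2⟩ := line_leading hd a e hp.2.1.ne'
  have h3 := eval_ge_of_roots_nonpos (hp.splits a) (by rw [h2]; exact hp.2.1.le)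
    (fun r hr => (roots_line_neg ha r hr).le) le_rfl ht
  rw [eval_line, eval_line, zero_smul, add_zero] at h3
  refine ⟨lt_of_le_of_ne h3.2.1 ?_, h3.1⟩
  have := ha 0 le_rfl
  simpa using this.symm

theorem garding1 {p : MvPolynomial (Fin n) ℝ} {e a : Fin n → ℝ} (hp : IsHyperbolic p e)
    (ha : InOpen p e a) : IsHyperbolic p a := by
  obtain ⟨d, hd⟩ := hp.1
  have hpos : 0 < MvPolynomial.eval a p := (open_mono hp ha 0 le_rfl).1
  -- the key bound
  have key : ∀ (x : Fin n → ℝ) (z : ℂ), 0 < z.im →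
      MvPolynomial.aeval (fun i => (x i : ℂ) + z * (a i : ℂ)) p ≠ 0 := by
    intro x z hz
    have hb : ∀ k : ℕ, ‖((MvPolynomial.eval a p : ℝ) : ℂ)‖ * z.im ^ d ≤
        ‖MvPolynomial.aeval (fun i => (((1 / ((k : ℝ) + 1) : ℝ)) : ℂ) * (Complex.I * (e i : ℂ)) +
          (x i : ℂ) + z * (a i : ℂ)) p‖ := by
      intro k
      set ε : ℝ := 1 / ((k : ℝ) + 1) with hε
      have hεpos : 0 < ε := by (clear * -; positivity)
      have hεne : (ε : ℂ) ≠ 0 := by exact_mod_cast hεpos.ne'
      obtain ⟨g1, g2⟩ := gline_leading hd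
        (fun i => (ε : ℂ) * (Complex.I * (e i : ℂ)) + (x i : ℂ)) a hpos.ne'
      have := norm_ge_of_roots (gline p (fun i => (ε : ℂ) * (Complex.I * (e i : ℂ)) + (x i : ℂ))
        (fun i => (a i : ℂ))) (by
          intro w hw
          by_contra hw'
          push Not at hw'
          rw [eval_gline] at hw
          have h1 := garding_aux hp ha x (1 / ε) (w / ε) (by
            rw [Complex.div_ofReal_im]
            (clear * - hw'; positivity))
          have h2 : (fun i => (ε : ℂ) * (Complex.I * (e i : ℂ)) + (x i : ℂ) + w * (a i : ℂ)) =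
              (fun i => (ε : ℂ) * (Complex.I * (e i : ℂ) + (w / ε) * (a i : ℂ) +
                ((1 / ε : ℝ) : ℂ) * (x i : ℂ))) := by
            funext i
            push_cast
            field_simp
            ring
          rw [h2, aeval_smul hd] at hw
          exact h1 ((mul_eq_zero.1 hw).resolve_left (pow_ne_zero _ hεne))) z hz.le
      rw [g1, g2, eval_gline] at this
      exact this
    have hlim : Tendsto (fun k : ℕ => ‖MvPolynomial.aeval (fun i =>
        (((1 / ((k : ℝ) + 1) : ℝ)) : ℂ) * (Complex.I * (e i : ℂ)) +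
          (x i : ℂ) + z * (a i : ℂ)) p‖) atTop
        (𝓝 ‖MvPolynomial.aeval (fun i => (x i : ℂ) + z * (a i : ℂ)) p‖) := by
      apply Tendsto.norm
      have hc : Continuous (fun ε : ℝ => MvPolynomial.aeval (fun i =>
          (ε : ℂ) * (Complex.I * (e i : ℂ)) + (x i : ℂ) + z * (a i : ℂ)) p) := by
        refine (continuous_aeval_complex p).comp ?_
        refine continuous_pi (fun i => ?_)
        fun_prop
      have h0 := (hc.tendsto 0).comp (tendsto_one_div_add_atTop_nhds_zero_nat (𝕜 := ℝ))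
      have h1 : (fun i => ((0 : ℝ) : ℂ) * (Complex.I * (e i : ℂ)) + (x i : ℂ) + z * (a i : ℂ)) =
          (fun i => (x i : ℂ) + z * (a i : ℂ)) := by
        funext i; simp
      rw [h1] at h0
      exact h0
    have hge := ge_of_tendsto hlim (Eventually.of_forall hb)
    intro hzero
    rw [hzero, norm_zero] at hge
    have : 0 < ‖((MvPolynomial.eval a p : ℝ) : ℂ)‖ * z.im ^ d := by
      apply mul_pos
      · rw [norm_pos_iff]; exact_mod_cast hpos.ne'
      · positivity
    linarith
  refine ⟨hp.1, hpos, ?_⟩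
  intro x t ht
  by_contra him
  rcases lt_or_gt_of_ne him with h | h
  · -- negative imaginary part: conjugate
    apply key (-x) (starRingEnd ℂ t) (by simpa only [Complex.conj_im, Left.neg_pos_iff] using h)
    have h1 : MvPolynomial.aeval (fun i => (((-x) i : ℝ) : ℂ) + (starRingEnd ℂ t) * (a i : ℂ)) p =
        starRingEnd ℂ (MvPolynomial.aeval (fun i => t * (a i : ℂ) - (x i : ℂ)) p) := by
      have h2 := aeval_line p (-x) a (starRingEnd ℂ t)
      have h3 := aeval_line p (-x) a t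
      rw [← h2]
      have h4 : (fun i => t * (a i : ℂ) - (x i : ℂ)) =
          (fun i => (((-x) i : ℝ) : ℂ) + t * (a i : ℂ)) := by
        funext i; simp; ring
      rw [h4, ← h3]
      exact Polynomial.aeval_conj _ _
    rw [h1, ht, map_zero]
  · apply key (-x) t h
    rw [← ht]
    congr 2
    funext i
    simp
    ring

theorem path_lemma {p : MvPolynomial (Fin n) ℝ} {c b : ℝ → (Fin n → ℝ)} (hc : Continuous c)
    (hb : Continuous b) (hhyp : ∀ τ, IsHyperbolic p (c τ))
    (hne : ∀ τ, MvPolynomial.eval (b τ) p ≠ 0) {τ₀ : ℝ} (h0 : InOpen p (c τ₀) (b τ₀)) (τ : ℝ) :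
    InOpen p (c τ) (b τ) := by
  obtain ⟨d, hd⟩ := (hhyp τ₀).1
  set A : Set ℝ := {τ | InOpen p (c τ) (b τ)} with hA
  have hcont : Continuous (fun q : ℝ × ℝ => MvPolynomial.eval (b q.1 + q.2 • c q.1) p) := by
    refine (continuous_eval p).comp ?_
    exact (hb.comp continuous_fst).add (continuous_snd.smul (hc.comp continuous_fst))
  have hclosed : IsClosed A := by
    rw [← isSeqClosed_iff_isClosed]
    intro u s hu hus t ht
    have h1 : ∀ k, MvPolynomial.eval (b (u k)) p ≤ MvPolynomial.eval (b (u k) + t • c (u k)) p :=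
      fun k => (open_mono (hhyp _) (hu k) t ht).2
    have h2 : ∀ k, 0 ≤ MvPolynomial.eval (b (u k)) p :=
      fun k => (open_mono (hhyp _) (hu k) t ht).1.le
    have l1 : Tendsto (fun k => MvPolynomial.eval (b (u k)) p) atTop
        (𝓝 (MvPolynomial.eval (b s) p)) :=
      (((continuous_eval p).comp hb).tendsto s).comp hus
    have l2 : Tendsto (fun k => MvPolynomial.eval (b (u k) + t • c (u k)) p) atTop
        (𝓝 (MvPolynomial.eval (b s + t • c s) p)) :=
      ((hcont.comp (Continuous.prodMk_left t)).tendsto s).comp hus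
    have h3 := le_of_tendsto_of_tendsto' l1 l2 h1
    have h4 := ge_of_tendsto' l1 h2
    have h5 := hne s
    have h6 : 0 < MvPolynomial.eval (b s) p := lt_of_le_of_ne h4 h5.symm
    exact (lt_of_lt_of_le h6 h3).ne'
  have hopen : IsOpen A := by
    rw [isOpen_iff_mem_nhds]
    intro s hs
    have hC : IsClosed {t : ℝ | 0 ≤ t} := isClosed_le continuous_const continuous_id
    refine open_aux (F := fun τ t => MvPolynomial.eval (b τ + t • c τ) p) hcont hC hs ?_
    have hlim : Tendsto (fun q : ℝ × ℝ => c q.1 + q.2⁻¹ • b q.1) (𝓝 s ×ˢ cobounded ℝ)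
        (𝓝 (c s + (0 : ℝ) • b s)) := by
      have h1 : Tendsto (fun q : ℝ × ℝ => q.2⁻¹) (𝓝 s ×ˢ cobounded ℝ) (𝓝 0) :=
        tendsto_inv₀_cobounded.comp tendsto_snd
      exact ((hc.tendsto s).comp tendsto_fst).add (h1.smul ((hb.tendsto s).comp tendsto_fst))
    rw [zero_smul, add_zero] at hlim
    have hne' : ∀ᶠ v in 𝓝 (c s), MvPolynomial.eval v p ≠ 0 :=
      ((continuous_eval p).tendsto _).eventually_ne (hhyp s).2.1.ne'
    have hlarge : ∀ᶠ q : ℝ × ℝ in 𝓝 s ×ˢ cobounded ℝ, q.2 ≠ 0 :=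
      tendsto_snd.eventually (eventually_ne_cobounded (0 : ℝ))
    filter_upwards [hlim.eventually hne', hlarge] with q h1 h2 h3
    apply h1
    have h4 : b q.1 + q.2 • c q.1 = q.2 • (c q.1 + q.2⁻¹ • b q.1) := by
      rw [smul_add, smul_smul, mul_inv_cancel₀ h2, one_smul, add_comm]
    simp only [h4, eval_smul' hd] at h3
    exact (mul_eq_zero.1 h3).resolve_left (pow_ne_zero _ h2)
  have huniv : A = Set.univ := IsClopen.eq_univ ⟨hclosed, hopen⟩ ⟨τ₀, h0⟩
  have : τ ∈ A := by rw [huniv]; trivial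
  exact this

theorem InOpen.comb_e {p : MvPolynomial (Fin n) ℝ} {e a : Fin n → ℝ} (hp : IsHyperbolic p e)
    (ha : InOpen p e a) {α β : ℝ} (hα : 0 ≤ α) (hβ : 0 ≤ β) (hαβ : 0 < α + β) :
    InOpen p e (α • e + β • a) := by
  obtain ⟨d, hd⟩ := hp.1
  intro t ht h
  rcases hβ.eq_or_lt with hβ0 | hβ0
  · subst hβ0
    have h1 : α • e + (0 : ℝ) • a + t • e = (α + t) • e := by
      rw [zero_smul, add_zero, add_smul]
    rw [h1, eval_smul' hd] at h
    rcases mul_eq_zero.1 h with h2 | h2
    · exact absurd h2 (pow_ne_zero _ (by linarith : (0 : ℝ) < α + t).ne')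
    · exact hp.2.1.ne' h2
  · have h1 : α • e + β • a + t • e = β • (a + ((α + t) / β) • e) := by
      rw [smul_add, smul_smul, mul_div_cancel₀ _ hβ0.ne', add_smul]
      module
    rw [h1, eval_smul' hd] at h
    rcases mul_eq_zero.1 h with h2 | h2
    · exact absurd h2 (pow_ne_zero _ hβ0.ne')
    · exact ha _ (by (clear * - hα ht hβ0; positivity)) h2

theorem open_symm {p : MvPolynomial (Fin n) ℝ} {e a b : Fin n → ℝ} (hp : IsHyperbolic p e)
    (ha : InOpen p e a) (hb : InOpen p e b) : InOpen p a b := by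
  set c : ℝ → (Fin n → ℝ) := fun τ => (Real.cos τ ^ 2) • e + (Real.sin τ ^ 2) • a with hc
  have hcont : Continuous c := by
    rw [hc]
    fun_prop
  have hin : ∀ τ, InOpen p e (c τ) := fun τ =>
    InOpen.comb_e hp ha (sq_nonneg _) (sq_nonneg _) (by rw [Real.cos_sq_add_sin_sq]; norm_num)
  have h0 : InOpen p (c 0) b := by
    rw [hc]; simpa using hb
  have h1 := path_lemma hcont (continuous_const (y := b)) (fun τ => garding1 hp (hin τ))
    (fun _ => (open_mono hp hb 0 le_rfl).1.ne') h0 (Real.pi / 2)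
  rw [hc] at h1
  simpa using h1

theorem InOpen.add_comb {p : MvPolynomial (Fin n) ℝ} {e a b : Fin n → ℝ} (hp : IsHyperbolic p e)
    (ha : InOpen p e a) (hb : InOpen p e b) (τ : ℝ) :
    InOpen p e ((Real.cos τ ^ 2) • a + (Real.sin τ ^ 2) • b) := by
  obtain ⟨d, hd⟩ := hp.1
  set c : ℝ → (Fin n → ℝ) := fun τ => (Real.cos τ ^ 2) • a + (Real.sin τ ^ 2) • b with hc
  have hcont : Continuous c := by
    rw [hc]
    fun_prop
  have hab := open_symm hp ha hb
  have hne : ∀ τ, MvPolynomial.eval (c τ) p ≠ 0 := by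
    intro τ h
    by_cases hs : Real.sin τ = 0
    · have h2 : Real.cos τ ^ 2 = 1 := by
        have := Real.cos_sq_add_sin_sq τ
        rw [hs] at this
        simpa only [sq_eq_one_iff, ne_eq, OfNat.ofNat_ne_zero, not_false_eq_true, zero_pow, add_zero] using this
      have h3 := (open_mono hp ha 0 le_rfl).1.ne'
      apply h3
      rw [hc] at h
      simpa only [h2, one_smul, hs, ne_eq, OfNat.ofNat_ne_zero, not_false_eq_true, zero_pow, zero_smul,     add_zero] using h
    · have hs2 : 0 < Real.sin τ ^ 2 := by positivity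
      have h1 : c τ = (Real.sin τ ^ 2) • (b + (Real.cos τ ^ 2 / Real.sin τ ^ 2) • a) := by
        rw [hc, smul_add, smul_smul, mul_div_cancel₀ _ hs2.ne']
        module
      rw [h1, eval_smul' hd] at h
      rcases mul_eq_zero.1 h with h2 | h2
      · exact absurd h2 (pow_ne_zero _ hs2.ne')
      · exact hab _ (by (clear * - hs; positivity)) h2
  have h0 : InOpen p e (c 0) := by
    rw [hc]; simpa using ha
  exact path_lemma continuous_const hcont (fun _ => hp) hne h0 τ

theorem InOpen.smul {p : MvPolynomial (Fin n) ℝ} {e a : Fin n → ℝ} (hp : IsHyperbolic p e)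
    (ha : InOpen p e a) {c : ℝ} (hc : 0 < c) : InOpen p e (c • a) := by
  have := InOpen.comb_e hp ha le_rfl hc.le (by linarith : (0 : ℝ) < 0 + c)
  simpa using this

theorem InOpen.add {p : MvPolynomial (Fin n) ℝ} {e a b : Fin n → ℝ} (hp : IsHyperbolic p e)
    (ha : InOpen p e a) (hb : InOpen p e b) : InOpen p e (a + b) := by
  have h1 := InOpen.add_comb hp ha hb (Real.pi / 4)
  have h2 := InOpen.smul hp h1 (by norm_num : (0 : ℝ) < 2)
  have h3 : Real.sqrt 2 ^ 2 = 2 := Real.sq_sqrt (by norm_num)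
  have h4 : (Real.sqrt 2 / 2) ^ 2 = 1 / 2 := by rw [div_pow, h3]; norm_num
  rw [Real.cos_pi_div_four, Real.sin_pi_div_four, h4, smul_add, smul_smul, smul_smul] at h2
  norm_num at h2
  exact h2

end Vale.Agent.P256
end

section

namespace Vale.Agent.P256

open Polynomial Filter Topology Bornology

variable {n : ℕ} {p : MvPolynomial (Fin n) ℝ} {e : Fin n → ℝ}

theorem mem_K_iff (hp : IsHyperbolic p e) (x : Fin n → ℝ) :
    x ∈ hypCone p e ↔ ∀ t : ℝ, 0 < t → InOpen p e (x + t • e) := by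
  obtain ⟨d, hd⟩ := hp.1
  rw [mem_hypCone_iff hd]
  constructor
  · intro h t ht s hs
    have := h (t + s) (by linarith)
    rwa [add_assoc, ← add_smul]
  · intro h t ht
    have := h t ht 0 le_rfl
    simpa only [ne_eq, zero_smul, add_zero] using this

theorem InOpen.mem (hp : IsHyperbolic p e) {x : Fin n → ℝ} (hx : InOpen p e x) :
    x ∈ hypCone p e := by
  obtain ⟨d, hd⟩ := hp.1
  rw [mem_hypCone_iff hd]
  intro t ht
  exact hx t ht.le

theorem e_inOpen (hp : IsHyperbolic p e) : InOpen p e e := by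
  obtain ⟨d, hd⟩ := hp.1
  intro t ht
  have h1 : e + t • e = (1 + t) • e := by module
  rw [h1, eval_smul' hd]
  exact mul_ne_zero (pow_ne_zero _ (by linarith)) hp.2.1.ne'

theorem K_add (hp : IsHyperbolic p e) {x y : Fin n → ℝ} (hx : x ∈ hypCone p e)
    (hy : y ∈ hypCone p e) : x + y ∈ hypCone p e := by
  rw [mem_K_iff hp] at hx hy ⊢
  intro t ht
  have := (hx (t / 2) (by linarith)).add hp (hy (t / 2) (by linarith))
  have h1 : x + (t / 2) • e + (y + (t / 2) • e) = x + y + t • e := by module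
  rwa [h1] at this

theorem K_zero (hp : IsHyperbolic p e) : (0 : Fin n → ℝ) ∈ hypCone p e := by
  rw [mem_K_iff hp]
  intro t ht
  rw [zero_add]
  exact (e_inOpen hp).smul hp ht

theorem K_smul (hp : IsHyperbolic p e) {x : Fin n → ℝ} (hx : x ∈ hypCone p e)
    {c : ℝ} (hc : 0 ≤ c) : c • x ∈ hypCone p e := by
  rcases hc.eq_or_lt with hc0 | hc0
  · rw [← hc0, zero_smul]; exact K_zero hp
  rw [mem_K_iff hp] at hx ⊢
  intro t ht
  have := (hx (t / c) (by positivity)).smul hp hc0
  rwa [smul_add, smul_smul, mul_div_cancel₀ _ hc0.ne'] at this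

theorem InOpen.sub_e {a : Fin n → ℝ} (ha : InOpen p e a) :
    ∃ δ : ℝ, 0 < δ ∧ InOpen p e (a - δ • e) := by
  have hc : Continuous (fun t : ℝ => MvPolynomial.eval (a + t • e) p) := by
    refine (continuous_eval p).comp ?_
    fun_prop
  have h0 : MvPolynomial.eval (a + (0 : ℝ) • e) p ≠ 0 := ha 0 le_rfl
  have h1 := (hc.tendsto 0).eventually_ne h0
  obtain ⟨δ, hδ, h⟩ := Metric.eventually_nhds_iff.1 h1
  refine ⟨δ / 2, by positivity, ?_⟩
  intro t ht
  have h2 : a - (δ / 2) • e + t • e = a + (t - δ / 2) • e := by module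
  rw [h2]
  by_cases h3 : 0 ≤ t - δ / 2
  · exact ha _ h3
  · push Not at h3
    apply h
    rw [Real.dist_eq, sub_zero, abs_of_neg h3]
    linarith only [hδ, ht]

theorem K_add_open (hp : IsHyperbolic p e) {x a : Fin n → ℝ} (hx : x ∈ hypCone p e)
    (ha : InOpen p e a) : InOpen p e (x + a) := by
  obtain ⟨δ, hδ, h⟩ := ha.sub_e
  have h1 := ((mem_K_iff hp x).1 hx δ hδ).add hp h
  have h2 : x + δ • e + (a - δ • e) = x + a := by module
  rwa [h2] at h1

theorem K_eval_ge (hp : IsHyperbolic p e) {d : ℕ} (hd : p.IsHomogeneous d) {x : Fin n → ℝ}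
    (hx : x ∈ hypCone p e) {s t : ℝ} (hs : 0 ≤ s) (hst : s ≤ t) :
    MvPolynomial.eval (x + s • e) p ≤ MvPolynomial.eval (x + t • e) p ∧
    0 ≤ MvPolynomial.eval (x + s • e) p ∧
    MvPolynomial.eval e p * s ^ d ≤ MvPolynomial.eval (x + s • e) p := by
  obtain ⟨h1, h2⟩ := line_leading hd x e hp.2.1.ne'
  have h3 := eval_ge_of_roots_nonpos (hp.splits x) (by rw [h2]; exact hp.2.1.le)
    (by
      intro r hr
      have h4 := (mem_roots'.1 hr).2
      rw [IsRoot.def, eval_line] at h4
      by_contra h5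
      push Not at h5
      exact (mem_hypCone_iff hd x).1 hx r h5 h4) hs hst
  rw [eval_line, eval_line, h1, h2] at h3
  exact h3

theorem K_eval_nonneg (hp : IsHyperbolic p e) {x : Fin n → ℝ}
    (hx : x ∈ hypCone p e) : 0 ≤ MvPolynomial.eval x p := by
  obtain ⟨d, hd⟩ := hp.1
  have := (K_eval_ge hp hd hx le_rfl le_rfl).2.1
  simpa only [ge_iff_le, zero_smul, add_zero] using this

theorem isClosed_K (hp : IsHyperbolic p e) : IsClosed (hypCone p e) := by
  obtain ⟨d, hd⟩ := hp.1
  rw [← isSeqClosed_iff_isClosed]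
  intro u x hu hux
  rw [mem_hypCone_iff hd]
  intro t ht
  have h1 : ∀ k, MvPolynomial.eval e p * t ^ d ≤ MvPolynomial.eval (u k + t • e) p :=
    fun k => (K_eval_ge hp hd (hu k) ht.le le_rfl).2.2
  have hc : Continuous (fun y : Fin n → ℝ => MvPolynomial.eval (y + t • e) p) :=
    (continuous_eval p).comp (by fun_prop)
  have h2 := ge_of_tendsto' ((hc.tendsto x).comp hux) h1
  have h3 : 0 < MvPolynomial.eval e p * t ^ d := mul_pos hp.2.1 (by positivity)
  exact (lt_of_lt_of_le h3 h2).ne'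

theorem inOpen_of_mem_of_ne (hp : IsHyperbolic p e) {x : Fin n → ℝ} (hx : x ∈ hypCone p e)
    (h0 : MvPolynomial.eval x p ≠ 0) : InOpen p e x := by
  obtain ⟨d, hd⟩ := hp.1
  intro t ht
  rcases ht.eq_or_lt with h | h
  · rw [← h]; simpa only [zero_smul, add_zero, ne_eq] using h0
  · exact (mem_hypCone_iff hd x).1 hx t h

theorem isOpen_inOpen (hp : IsHyperbolic p e) : IsOpen {a | InOpen p e a} := by
  obtain ⟨d, hd⟩ := hp.1
  -- near e
  have hnear : ∃ r > 0, ∀ w : Fin n → ℝ, ‖w‖ < r → InOpen p e (e + w) := by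
    have hc : Continuous (fun w : Fin n → ℝ => MvPolynomial.eval (e + w) p) :=
      (continuous_eval p).comp (by fun_prop)
    have h0 : MvPolynomial.eval (e + 0) p ≠ 0 := by simpa only [add_zero, ne_eq] using hp.2.1.ne'
    have h1 := (hc.tendsto 0).eventually_ne h0
    obtain ⟨r, hr, h⟩ := Metric.eventually_nhds_iff.1 h1
    refine ⟨r, hr, fun w hw t ht => ?_⟩
    have h2 : e + w + t • e = (1 + t) • (e + (1 + t)⁻¹ • w) := by
      rw [smul_add, smul_smul, mul_inv_cancel₀ (by linarith : (1 + t) ≠ 0)]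
      module
    rw [h2, eval_smul' hd]
    refine mul_ne_zero (pow_ne_zero _ (by linarith)) (h ?_)
    rw [dist_zero_right, norm_smul, Real.norm_eq_abs, abs_of_pos (by positivity)]
    have h3 : (1 + t)⁻¹ ≤ 1 := inv_le_one_of_one_le₀ (by linarith)
    have := mul_le_mul_of_nonneg_right h3 (norm_nonneg w)
    linarith only [hw, this]
  obtain ⟨r, hr, hnear⟩ := hnear
  rw [Metric.isOpen_iff]
  intro a ha
  obtain ⟨δ, hδ, h⟩ := InOpen.sub_e ha
  refine ⟨δ * r, by positivity, ?_⟩
  intro b hb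
  rw [Metric.mem_ball, dist_eq_norm] at hb
  have h1 : InOpen p e (e + δ⁻¹ • (b - a)) := by
    apply hnear
    rw [norm_smul, Real.norm_eq_abs, abs_of_pos (by positivity)]
    rw [inv_mul_lt_iff₀ hδ]
    exact hb
  have h2 := h.add hp (h1.smul hp hδ)
  have h3 : a - δ • e + δ • (e + δ⁻¹ • (b - a)) = b := by
    rw [smul_add, smul_smul, mul_inv_cancel₀ hδ.ne']
    module
  rw [h3] at h2
  exact h2

/-- The polynomial restricted to any line through a point of the open cone splits. -/
theorem splits_line_open (hp : IsHyperbolic p e) {a : Fin n → ℝ} (ha : InOpen p e a)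
    (v : Fin n → ℝ) : (line p a v).Splits := by
  obtain ⟨d, hd⟩ := hp.1
  apply splits_of_real_roots
  intro z hz
  by_contra him
  have hz0 : z ≠ 0 := by rintro rfl; simp at him
  rw [aeval_line] at hz
  have h1 : (fun i => (a i : ℂ) + z * (v i : ℂ)) = (fun i => z * ((v i : ℂ) + z⁻¹ * (a i : ℂ))) := by
    funext i
    field_simp
    ring
  rw [h1, aeval_smul hd] at hz
  have h2 := (mul_eq_zero.1 hz).resolve_left (pow_ne_zero _ hz0)
  refine (garding1 hp ha).ne_zero v z⁻¹ ?_ h2
  rw [Complex.inv_im]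
  intro h3
  rcases div_eq_zero_iff.1 h3 with h4 | h4
  · exact him (by linarith only [h4])
  · exact hz0 (Complex.normSq_eq_zero.1 h4)

theorem splits_line_dir (hp : IsHyperbolic p e) {a : Fin n → ℝ} (ha : a ∈ hypCone p e)
    (v : Fin n → ℝ) : (line p v a).Splits := by
  have hc : ∀ z : ℂ, Continuous (fun ε : ℝ => aeval z (line p v (a + ε • e))) := by
    intro z
    simp_rw [aeval_line]
    refine (continuous_aeval_complex p).comp ?_
    refine continuous_pi (fun i => ?_)
    simp only [Pi.add_apply, Pi.smul_apply, smul_eq_mul]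
    fun_prop
  refine splits_of_tendsto (l := 𝓝[>] (0 : ℝ)) (F := fun ε : ℝ => line p v (a + ε • e)) ?_ ?_
  · filter_upwards [self_mem_nhdsWithin] with ε hε
    exact (garding1 hp ((mem_K_iff hp a).1 ha ε hε)).splits v
  · intro z
    have h1 := ((hc z).tendsto 0).mono_left (nhdsWithin_le_nhds (s := Set.Ioi 0))
    simpa only [zero_smul, add_zero] using h1

end Vale.Agent.P256
end

section

namespace Vale.Agent.P256

open Polynomial Filter Topology Bornology

variable {n : ℕ} {p : MvPolynomial (Fin n) ℝ} {e : Fin n → ℝ}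

/-- the polynomial `D_v p` -/
noncomputable def dirD (p : MvPolynomial (Fin n) ℝ) (v : Fin n → ℝ) : MvPolynomial (Fin n) ℝ :=
  ∑ i, MvPolynomial.C (v i) * MvPolynomial.pderiv i p

theorem eval_dirD (p : MvPolynomial (Fin n) ℝ) (z v : Fin n → ℝ) :
    MvPolynomial.eval z (dirD p v) = dd p z v := by
  simp only [dirD, map_sum, map_mul, MvPolynomial.eval_C, dd]

theorem dirD_add (p q : MvPolynomial (Fin n) ℝ) (v : Fin n → ℝ) :
    dirD (p + q) v = dirD p v + dirD q v := by
  simp only [dirD, map_add, mul_add, Finset.sum_add_distrib]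

theorem dirD_C (a : ℝ) (v : Fin n → ℝ) : dirD (MvPolynomial.C a) v = 0 := by
  simp only [dirD, MvPolynomial.derivation_C, mul_zero, Finset.sum_const_zero]

theorem dirD_mul_X (p : MvPolynomial (Fin n) ℝ) (i : Fin n) (v : Fin n → ℝ) :
    dirD (p * MvPolynomial.X i) v = dirD p v * MvPolynomial.X i + p * MvPolynomial.C (v i) := by
  simp only [dirD, Derivation.leibniz, MvPolynomial.pderiv_X, smul_eq_mul, mul_add,
    Finset.sum_add_distrib, Finset.sum_mul]
  rw [add_comm]
  congr 1
  · apply Finset.sum_congr rfl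
    intro j _
    ring
  · rw [Finset.sum_eq_single i]
    · simp; ring
    · intro j _ hj
      simp [Pi.single_eq_of_ne' hj]
    · simp only [Finset.mem_univ, not_true_eq_false, Pi.single_eq_same, mul_one, mul_eq_zero, map_eq_zero, IsEmpty.forall_iff]

theorem dirD_zero (v : Fin n → ℝ) : dirD (0 : MvPolynomial (Fin n) ℝ) v = 0 := by
  simp only [dirD, map_zero, mul_zero, Finset.sum_const_zero]

theorem derivative_line (p : MvPolynomial (Fin n) ℝ) (x v : Fin n → ℝ) :
    derivative (line p x v) = line (dirD p v) x v := by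
  induction p using MvPolynomial.induction_on with
  | C a => simp only [line, X_mul_C, MvPolynomial.algHom_C, algebraMap_eq, derivative_C, dirD_C, map_zero]
  | add p q hp hq =>
    have h1 : ∀ p q, line (p + q) x v = line p x v + line q x v := by
      intro p q; simp only [line, X_mul_C, map_add]
    rw [h1, derivative_add, hp, hq, dirD_add, h1]
  | mul_X p i hp =>
    have h1 : ∀ p q, line (p + q) x v = line p x v + line q x v := by
      intro p q; simp only [line, X_mul_C, map_add]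
    have h2 : ∀ p q, line (p * q) x v = line p x v * line q x v := by
      intro p q; simp only [line, X_mul_C, map_mul]
    have h3 : line (MvPolynomial.X i) x v = C (x i) + X * C (v i) := by simp [line]
    have h4 : ∀ a, line (MvPolynomial.C a) x v = C a := by
      intro a; simp [line, Polynomial.algebraMap_apply]
    rw [h2, derivative_mul, hp, dirD_mul_X, h1, h2, h2, h3, h4]
    simp only [X_mul_C, derivative_add, derivative_C, derivative_mul, zero_mul, derivative_X, mul_one, zero_add]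

theorem eval_derivative_line (p : MvPolynomial (Fin n) ℝ) (x v : Fin n → ℝ) (t : ℝ) :
    (derivative (line p x v)).eval t = dd p (x + t • v) v := by
  rw [derivative_line, eval_line, eval_dirD]

theorem eval_derivative2_line (p : MvPolynomial (Fin n) ℝ) (x v : Fin n → ℝ) (t : ℝ) :
    (derivative (derivative (line p x v))).eval t = dd (dirD p v) (x + t • v) v := by
  rw [derivative_line, derivative_line, eval_line, eval_dirD]

theorem dd2_eq_eval (p : MvPolynomial (Fin n) ℝ) (z v : Fin n → ℝ) :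
    dd2 p z v = dd (dirD p v) z v := by
  simp only [dd2, dd, dirD, map_sum, Finset.mul_sum]
  apply Finset.sum_congr rfl
  intro i _
  apply Finset.sum_congr rfl
  intro j _
  rw [MvPolynomial.pderiv_C_mul]
  simp only [map_mul, MvPolynomial.eval_C]
  ring

theorem dd_add (p : MvPolynomial (Fin n) ℝ) (z v w : Fin n → ℝ) :
    dd p z (v + w) = dd p z v + dd p z w := by
  simp only [dd, Pi.add_apply, add_mul, Finset.sum_add_distrib]

theorem dd_smul (p : MvPolynomial (Fin n) ℝ) (z : Fin n → ℝ) (c : ℝ) (v : Fin n → ℝ) :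
    dd p z (c • v) = c * dd p z v := by
  simp only [dd, Pi.smul_apply, smul_eq_mul, mul_assoc, Finset.mul_sum]

theorem dd_sub (p : MvPolynomial (Fin n) ℝ) (z v w : Fin n → ℝ) :
    dd p z (v - w) = dd p z v - dd p z w := by
  simp only [dd, Pi.sub_apply, sub_mul, Finset.sum_sub_distrib]

theorem dd_neg (p : MvPolynomial (Fin n) ℝ) (z v : Fin n → ℝ) :
    dd p z (-v) = - dd p z v := by
  simp only [dd, Pi.neg_apply, neg_mul, Finset.sum_neg_distrib]

theorem dd_euler {d : ℕ} (hd : p.IsHomogeneous d) (z : Fin n → ℝ) :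
    dd p z z = d * MvPolynomial.eval z p := by
  have h := hd.sum_X_mul_pderiv
  have h2 := congrArg (MvPolynomial.eval z) h
  simpa only [dd, map_sum, map_mul, MvPolynomial.eval_X, nsmul_eq_mul, map_natCast] using h2

theorem continuous_dd (p : MvPolynomial (Fin n) ℝ) (v : Fin n → ℝ) :
    Continuous (fun z => dd p z v) := by
  unfold dd
  exact continuous_finsetSum _ (fun i _ => continuous_const.mul (continuous_eval _))

theorem dd_ne_zero_of_smooth {z : Fin n → ℝ} (h : IsSmoothPoint p z) :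
    ∃ v, dd p z v ≠ 0 := by
  obtain ⟨i, hi⟩ := h
  refine ⟨Pi.single i 1, ?_⟩
  unfold dd
  rw [Finset.sum_eq_single i]
  · simpa only [Pi.single_eq_same, one_mul, ne_eq] using hi
  · intro j _ hj
    simp [Pi.single_eq_of_ne hj]
  · simp only [Finset.mem_univ, not_true_eq_false, Pi.single_eq_same, one_mul, IsEmpty.forall_iff]

/-- Monotonicity of `p` along the cone. -/
theorem K_mono (hp : IsHyperbolic p e) {x v : Fin n → ℝ} (hx : x ∈ hypCone p e)
    (hv : v ∈ hypCone p e) : MvPolynomial.eval x p ≤ MvPolynomial.eval (x + v) p := by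
  have h1 : ∀ ε : ℝ, 0 < ε → MvPolynomial.eval (x + ε • e) p ≤
      MvPolynomial.eval (x + ε • e + (v + ε • e)) p := by
    intro ε hε
    have ha := (mem_K_iff hp x).1 hx ε hε
    have hb := (mem_K_iff hp v).1 hv ε hε
    have hab := open_symm hp hb ha
    have := (open_mono (garding1 hp hb) hab 1 zero_le_one).2
    rwa [one_smul] at this
  have c1 : Continuous (fun ε : ℝ => MvPolynomial.eval (x + ε • e) p) :=
    (continuous_eval p).comp (by fun_prop)
  have c2 : Continuous (fun ε : ℝ => MvPolynomial.eval (x + ε • e + (v + ε • e)) p) :=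
    (continuous_eval p).comp (by fun_prop)
  have l1 := (c1.tendsto 0).mono_left (nhdsWithin_le_nhds (s := Set.Ioi 0))
  have l2 := (c2.tendsto 0).mono_left (nhdsWithin_le_nhds (s := Set.Ioi 0))
  have h2 := le_of_tendsto_of_tendsto l1 l2 (by
    filter_upwards [self_mem_nhdsWithin] with ε hε using h1 ε hε)
  simpa only [ge_iff_le, zero_smul, add_zero] using h2

/-- derivative at `0` of a nonnegative polynomial vanishing at `0` -/
theorem deriv_nonneg_of_nonneg {f : ℝ[X]} (h0 : f.eval 0 = 0) (h : ∀ t : ℝ, 0 < t → 0 ≤ f.eval t) :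
    0 ≤ (derivative f).eval 0 := by
  have h1 : f = X * f.divX := by
    have := X_mul_divX_add f
    rw [coeff_zero_eq_eval_zero, h0, C_0, add_zero] at this
    exact this.symm
  have h2 : (derivative f).eval 0 = f.divX.eval 0 := by
    conv_lhs => rw [h1]
    simp
  rw [h2]
  have h3 : Tendsto (fun t : ℝ => f.divX.eval t) (𝓝[>] 0) (𝓝 (f.divX.eval 0)) :=
    (f.divX.continuous.tendsto 0).mono_left nhdsWithin_le_nhds
  refine ge_of_tendsto h3 ?_
  filter_upwards [self_mem_nhdsWithin] with t ht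
  have h4 := h t ht
  rw [h1, eval_mul, eval_X] at h4
  exact nonneg_of_mul_nonneg_right h4 ht

/-- supporting functionals -/
theorem K_dd_nonneg (hp : IsHyperbolic p e) {z v : Fin n → ℝ} (hz : z ∈ hypCone p e)
    (hz0 : MvPolynomial.eval z p = 0) (hv : v ∈ hypCone p e) : 0 ≤ dd p z v := by
  have h1 := deriv_nonneg_of_nonneg (f := line p z v) (by rw [eval_line]; simpa only [zero_smul, add_zero] using hz0)
    (fun t ht => by
      rw [eval_line]
      exact K_eval_nonneg hp (K_add hp hz (K_smul hp hv ht.le)))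
  rw [eval_derivative_line] at h1
  simpa only [ge_iff_le, zero_smul, add_zero] using h1

theorem exists_e_add (hp : IsHyperbolic p e) (v : Fin n → ℝ) :
    ∃ δ : ℝ, 0 < δ ∧ ∀ t : ℝ, |t| ≤ δ → InOpen p e (e + t • v) := by
  have hc : Continuous (fun t : ℝ => e + t • v) := by fun_prop
  have h1 : (fun t : ℝ => e + t • v) ⁻¹' {a | InOpen p e a} ∈ 𝓝 (0 : ℝ) :=
    ((isOpen_inOpen hp).preimage hc).mem_nhds (by
      simpa using e_inOpen hp)
  obtain ⟨δ, hδ, h⟩ := Metric.mem_nhds_iff.1 h1
  refine ⟨δ / 2, by positivity, fun t ht => ?_⟩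
  apply h
  rw [Metric.mem_ball, Real.dist_eq, sub_zero]
  linarith

/-- At a smooth boundary point the derivative in each interior direction is positive. -/
theorem dd_e_pos (hp : IsHyperbolic p e) {z : Fin n → ℝ} (hz : z ∈ hypCone p e)
    (hz0 : MvPolynomial.eval z p = 0) (hs : IsSmoothPoint p z) : 0 < dd p z e := by
  have h0 := K_dd_nonneg hp hz hz0 ((e_inOpen hp).mem hp)
  rcases h0.eq_or_lt with h | h
  · exfalso
    obtain ⟨v, hv⟩ := dd_ne_zero_of_smooth hs
    obtain ⟨δ, hδ, hh⟩ := exists_e_add hp v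
    have h1 := K_dd_nonneg hp hz hz0 ((hh δ (by rw [abs_of_pos hδ])).mem hp)
    have h2 := K_dd_nonneg hp hz hz0 ((hh (-δ) (by rw [abs_neg, abs_of_pos hδ])).mem hp)
    rw [dd_add, dd_smul, ← h, zero_add] at h1 h2
    apply hv
    nlinarith only [h1, hδ, h2]
  · exact h

theorem dd_open_pos (hp : IsHyperbolic p e) {z a : Fin n → ℝ} (hz : z ∈ hypCone p e)
    (hz0 : MvPolynomial.eval z p = 0) (hs : IsSmoothPoint p z) (ha : InOpen p e a) :
    0 < dd p z a := by
  obtain ⟨δ, hδ, h⟩ := ha.sub_e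
  have h1 := K_dd_nonneg hp hz hz0 (h.mem hp)
  rw [dd_sub, dd_smul] at h1
  have h2 := dd_e_pos hp hz hz0 hs
  nlinarith

end Vale.Agent.P256
end

section

namespace Vale.Agent.P256

open Polynomial Filter Topology Bornology

variable {n : ℕ} {p : MvPolynomial (Fin n) ℝ} {e : Fin n → ℝ}

theorem eq_X_mul_divX {f : ℝ[X]} (h0 : f.eval 0 = 0) : f = X * f.divX := by
  have := X_mul_divX_add f
  rw [coeff_zero_eq_eval_zero, h0, C_0, add_zero] at this
  exact this.symm

theorem eval_divX_zero {f : ℝ[X]} (h0 : f.eval 0 = 0) :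
    f.divX.eval 0 = (derivative f).eval 0 := by
  conv_rhs => rw [eq_X_mul_divX h0]
  simp

theorem rigidity_aux {A B Cc : ℝ[X]} {f : ℝ → ℝ[X]} {N : ℕ}
    (hsplit : ∀ δ : ℝ, 0 < δ → (f δ).Splits) (hdeg : ∀ δ : ℝ, (f δ).natDegree ≤ N)
    (hA : ∀ δ, (f δ).eval 0 = A.eval δ) (hB : ∀ δ, (derivative (f δ)).eval 0 = B.eval δ)
    (hC : ∀ δ, (derivative (derivative (f δ))).eval 0 = Cc.eval δ)
    (hA0 : A.eval 0 = 0) (hA1 : 0 < (derivative A).eval 0) (hB0 : B.eval 0 = 0) :
    Cc.eval 0 ≤ 0 ∧ (Cc.eval 0 = 0 → ∀ t : ℝ,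
      Tendsto (fun δ => (f δ).eval t) (𝓝[>] 0) (𝓝 0)) := by
  have eA := eq_X_mul_divX hA0
  have eB := eq_X_mul_divX hB0
  set A1 := A.divX with hA1def
  set B1 := B.divX with hB1def
  have hA1pos : 0 < A1.eval 0 := by rw [hA1def, eval_divX_zero hA0]; exact hA1
  have tend : ∀ g : ℝ[X], Tendsto (fun δ : ℝ => g.eval δ) (𝓝[>] 0) (𝓝 (g.eval 0)) := fun g =>
    (g.continuous.tendsto 0).mono_left nhdsWithin_le_nhds
  have evA : ∀ᶠ δ in 𝓝[>] (0 : ℝ), 0 < A1.eval δ := (tend A1).eventually (lt_mem_nhds hA1pos)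
  have hAe : ∀ δ : ℝ, A.eval δ = δ * A1.eval δ := fun δ => by
    conv_lhs => rw [eA]
    simp
  have hBe : ∀ δ : ℝ, B.eval δ = δ * B1.eval δ := fun δ => by
    conv_lhs => rw [eB]
    simp
  have ineq : ∀ᶠ δ in 𝓝[>] (0 : ℝ), 0 ≤ δ * B1.eval δ ^ 2 - A1.eval δ * Cc.eval δ := by
    filter_upwards [self_mem_nhdsWithin, evA] with δ hδ hAδ
    have hδ' : (0 : ℝ) < δ := hδ
    have h0 : (f δ).eval 0 ≠ 0 := by
      rw [hA, hAe]
      (clear * - hδ' hAδ; positivity)
    have h1 := (eval_sq_nonneg (hsplit δ hδ) h0).1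
    rw [hA, hB, hC, hAe, hBe] at h1
    have h2 : (δ * B1.eval δ) ^ 2 - δ * A1.eval δ * Cc.eval δ =
      δ * (δ * B1.eval δ ^ 2 - A1.eval δ * Cc.eval δ) := by ring
    rw [h2] at h1
    exact nonneg_of_mul_nonneg_right h1 hδ'
  constructor
  · have lim : Tendsto (fun δ : ℝ => δ * B1.eval δ ^ 2 - A1.eval δ * Cc.eval δ) (𝓝[>] 0)
        (𝓝 (0 * B1.eval 0 ^ 2 - A1.eval 0 * Cc.eval 0)) := by
      refine Tendsto.sub (Tendsto.mul ?_ ((tend B1).pow 2)) ((tend A1).mul (tend Cc))
      exact tendsto_id.mono_left nhdsWithin_le_nhds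
    have h := ge_of_tendsto lim ineq
    by_contra hneg
    push Not at hneg
    nlinarith only [h, hA1pos, hneg]
  · intro hC0 t
    have eC := eq_X_mul_divX hC0
    set C1 := Cc.divX with hC1def
    have hCe : ∀ δ : ℝ, Cc.eval δ = δ * C1.eval δ := fun δ => by
      conv_lhs => rw [eC]
      simp
    -- choose M
    obtain ⟨M, hM0, hM⟩ : ∃ M : ℝ, 0 ≤ M ∧
        B1.eval 0 ^ 2 - A1.eval 0 * C1.eval 0 < M ^ 2 * A1.eval 0 ^ 2 := by
      refine ⟨(|B1.eval 0 ^ 2 - A1.eval 0 * C1.eval 0| + 1) / A1.eval 0 ^ 2 + 1, by (clear * - hA1pos; positivity), ?_⟩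
      set R := |B1.eval 0 ^ 2 - A1.eval 0 * C1.eval 0| with hR
      have h1 : B1.eval 0 ^ 2 - A1.eval 0 * C1.eval 0 ≤ R := le_abs_self _
      have h2 : 0 ≤ R := abs_nonneg _
      set q := (R + 1) / A1.eval 0 ^ 2 with hq
      have hq0 : 0 < q := by (clear * - hA1pos; positivity)
      have h3 : q * A1.eval 0 ^ 2 = R + 1 := by rw [hq]; (clear * - hA1pos h2; field_simp)
      have h4 : q ≤ (q + 1) ^ 2 := by nlinarith only []
      have h5 : q * A1.eval 0 ^ 2 ≤ (q + 1) ^ 2 * A1.eval 0 ^ 2 :=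
        mul_le_mul_of_nonneg_right h4 (sq_nonneg _)
      linarith only [h1, h3, h5]
    have evM : ∀ᶠ δ in 𝓝[>] (0 : ℝ), B1.eval δ ^ 2 - A1.eval δ * C1.eval δ <
        M ^ 2 * A1.eval δ ^ 2 := by
      have l1 := ((tend B1).pow 2).sub ((tend A1).mul (tend C1))
      have l2 := (tendsto_const_nhds (x := M ^ 2) (f := 𝓝[>] (0 : ℝ))).mul ((tend A1).pow 2)
      exact l1.eventually_lt l2 hM
    have bound : ∀ᶠ δ in 𝓝[>] (0 : ℝ), |(f δ).eval t| ≤ |A.eval δ| * (1 + M * |t|) ^ N := by
      filter_upwards [self_mem_nhdsWithin, evA, evM] with δ hδ hAδ hMδ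
      have hδ' : (0 : ℝ) < δ := hδ
      have h0 : (f δ).eval 0 ≠ 0 := by
        rw [hA, hAe]
        (clear * - hδ' hAδ; positivity)
      have h1 := (eval_sq_nonneg (hsplit δ hδ) h0).2 M hM0 (by
        rw [hA, hB, hC, hAe, hBe, hCe]
        have : 0 < δ ^ 2 := by positivity
        nlinarith) t
      rw [hA] at h1
      refine h1.trans ?_
      apply mul_le_mul_of_nonneg_left _ (abs_nonneg _)
      apply pow_le_pow_right₀ _ (hdeg δ)
      have := mul_nonneg hM0 (abs_nonneg t)
      linarith only [this]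
    have lim0 : Tendsto (fun δ : ℝ => |A.eval δ| * (1 + M * |t|) ^ N) (𝓝[>] 0) (𝓝 0) := by
      have := ((tend A).abs).mul_const ((1 + M * |t|) ^ N)
      rw [hA0, abs_zero, zero_mul] at this
      exact this
    rw [tendsto_zero_iff_abs_tendsto_zero]
    exact squeeze_zero' (Eventually.of_forall fun _ => abs_nonneg _) bound lim0

/-- Curvature of the boundary at smooth points, and rigidity. -/
theorem curvature (hp : IsHyperbolic p e) {z v : Fin n → ℝ} (hz : z ∈ hypCone p e)
    (hz0 : MvPolynomial.eval z p = 0) (hs : 0 < dd p z e) (hv : dd p z v = 0) :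
    dd2 p z v ≤ 0 ∧ (dd2 p z v = 0 → ∀ t : ℝ, MvPolynomial.eval (z + t • v) p = 0) := by
  obtain ⟨d, hd⟩ := hp.1
  have h := rigidity_aux (A := line p z e) (B := line (dirD p v) z e)
    (Cc := line (dirD (dirD p v) v) z e) (f := fun δ => line p (z + δ • e) v) (N := d)
    (fun δ hδ => splits_line_open hp ((mem_K_iff hp z).1 hz δ hδ) v)
    (fun δ => (line_top hd _ _).1)
    (fun δ => by simp [eval_line])
    (fun δ => by rw [eval_derivative_line, eval_line, eval_dirD]; simp)
    (fun δ => by rw [eval_derivative2_line, eval_line, eval_dirD]; simp)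
    (by simpa [eval_line] using hz0)
    (by rw [eval_derivative_line]; simpa using hs)
    (by rw [eval_line, eval_dirD]; simpa using hv)
  have h2 : (line (dirD (dirD p v) v) z e).eval 0 = dd2 p z v := by
    rw [eval_line, eval_dirD, dd2_eq_eval]; simp
  rw [h2] at h
  refine ⟨h.1, fun h3 t => ?_⟩
  have l1 := h.2 h3 t
  have hc : Continuous (fun δ : ℝ => (line p (z + δ • e) v).eval t) := by
    simp_rw [eval_line]
    exact (continuous_eval p).comp (by fun_prop)
  have l2 := (hc.tendsto 0).mono_left (nhdsWithin_le_nhds (s := Set.Ioi 0))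
  have := tendsto_nhds_unique l1 l2
  rw [eval_line] at this
  simpa using this.symm

/-- If `p` vanishes on a line through a smooth boundary point then the line stays in the cone
near that point. -/
theorem line_in_K (hp : IsHyperbolic p e) {z v : Fin n → ℝ} (hz : z ∈ hypCone p e)
    (hs : 0 < dd p z e) (hv : ∀ t : ℝ, MvPolynomial.eval (z + t • v) p = 0) :
    ∃ t₀ : ℝ, 0 < t₀ ∧ ∀ t : ℝ, |t| ≤ t₀ → z + t • v ∈ hypCone p e := by
  obtain ⟨d, hd⟩ := hp.1
  -- `D_e p > 0` near `z`
  have hc : Continuous (fun q : ℝ × ℝ => dd p (z + q.1 • v + q.2 • e) e) :=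
    (continuous_dd p e).comp (by fun_prop)
  have h1 : ∀ᶠ q : ℝ × ℝ in 𝓝 (0, 0), 0 < dd p (z + q.1 • v + q.2 • e) e := by
    have := hc.tendsto (0, 0)
    simp only [zero_smul, add_zero] at this
    exact this.eventually (lt_mem_nhds hs)
  obtain ⟨r, hr, h2⟩ := Metric.eventually_nhds_iff.1 h1
  set s₀ := r / 2 with hs₀
  have hs₀pos : 0 < s₀ := by positivity
  have hin : InOpen p e (z + s₀ • e) := (mem_K_iff hp z).1 hz s₀ hs₀pos
  have h3 : ∀ᶠ t : ℝ in 𝓝 0, InOpen p e (z + t • v + s₀ • e) := by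
    have hc2 : Continuous (fun t : ℝ => z + t • v + s₀ • e) := by fun_prop
    have := ((isOpen_inOpen hp).preimage hc2).mem_nhds (x := (0 : ℝ)) (by simpa using hin)
    exact this
  obtain ⟨r', hr', h4⟩ := Metric.eventually_nhds_iff.1 h3
  refine ⟨min (r / 2) (r' / 2), by (clear * - hr hr'; positivity), fun t ht => ?_⟩
  have ht1 : |t| ≤ r / 2 := ht.trans (min_le_left _ _)
  have ht2 : |t| < r' := by
    have := ht.trans (min_le_right _ _)
    linarith only [hr', this]
  rw [mem_hypCone_iff hd]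
  intro s hspos
  by_cases hss : s₀ ≤ s
  · have := h4 (y := t) (by rw [Real.dist_eq, sub_zero]; exact ht2) (s - s₀) (by linarith only [hss])
    have h5 : z + t • v + s₀ • e + (s - s₀) • e = z + t • v + s • e := by module
    rwa [h5] at this
  · push Not at hss
    -- strictly increasing on [0, s]
    have hmono : StrictMonoOn (fun s : ℝ => (line p (z + t • v) e).eval s) (Set.Icc 0 s₀) := by
      apply strictMonoOn_of_deriv_pos (convex_Icc _ _)
      · exact (line p (z + t • v) e).continuous.continuousOn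
      · intro x hx
        rw [interior_Icc] at hx
        rw [Polynomial.deriv, eval_derivative_line]
        apply h2 (y := (t, x))
        rw [Prod.dist_eq, max_lt_iff]
        simp only [Real.dist_eq, sub_zero]
        constructor
        · linarith only [hs₀, ht1, hspos, hss]
        · rw [abs_of_pos hx.1]; linarith only [hs₀, hspos, hss, hx.2]
    have := hmono (Set.left_mem_Icc.2 hs₀pos.le) ⟨hspos.le, hss.le⟩ hspos
    simp only [eval_line, zero_smul, add_zero, hv t] at this
    exact this.ne'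

end Vale.Agent.P256
end

section

namespace Vale.Agent.P256

open Polynomial Filter Topology Bornology

variable {n : ℕ} {p : MvPolynomial (Fin n) ℝ} {e : Fin n → ℝ}

theorem aeval_translate {A : Type*} [CommRing A] [Algebra ℝ A] (p : MvPolynomial (Fin n) ℝ)
    (z : Fin n → ℝ) (w : Fin n → A) :
    MvPolynomial.aeval w (translate p z) =
      MvPolynomial.aeval (fun i => algebraMap ℝ A (z i) + w i) p := by
  unfold translate
  induction p using MvPolynomial.induction_on with
  | C a => simp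
  | add p q hp hq => simp only [map_add, hp, hq]
  | mul_X p i hp =>
    simp only [map_mul, hp, MvPolynomial.aeval_X, map_add, MvPolynomial.algHom_C]

theorem part_homog (p : MvPolynomial (Fin n) ℝ) (z : Fin n → ℝ) (k : ℕ) :
    (part p z k).IsHomogeneous k := MvPolynomial.homogeneousComponent_isHomogeneous k _

/-- bound for the number of parts -/
noncomputable def pdeg (p : MvPolynomial (Fin n) ℝ) (z : Fin n → ℝ) : ℕ :=
  (translate p z).totalDegree + 1

theorem part_eq_zero_of_ge (p : MvPolynomial (Fin n) ℝ) (z : Fin n → ℝ) {k : ℕ}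
    (hk : pdeg p z ≤ k) : part p z k = 0 :=
  MvPolynomial.homogeneousComponent_eq_zero _ _ (by unfold pdeg at hk; omega)

theorem aeval_expand {A : Type*} [CommRing A] [Algebra ℝ A] (p : MvPolynomial (Fin n) ℝ)
    (z : Fin n → ℝ) (c : A) (w : Fin n → A) :
    MvPolynomial.aeval (fun i => algebraMap ℝ A (z i) + c * w i) p =
      ∑ k ∈ Finset.range (pdeg p z), c ^ k * MvPolynomial.aeval w (part p z k) := by
  rw [← aeval_translate p z (fun i => c * w i)]
  conv_lhs => rw [← MvPolynomial.sum_homogeneousComponent (translate p z)]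
  rw [map_sum]
  apply Finset.sum_congr rfl
  intro k _
  exact aeval_smul (part_homog p z k) c w

theorem eval_expand (p : MvPolynomial (Fin n) ℝ) (z : Fin n → ℝ) (c : ℝ) (w : Fin n → ℝ) :
    MvPolynomial.eval (z + c • w) p =
      ∑ k ∈ Finset.range (pdeg p z), c ^ k * MvPolynomial.eval w (part p z k) :=
  aeval_expand p z c w

theorem line_expand (p : MvPolynomial (Fin n) ℝ) (z w : Fin n → ℝ) :
    line p z w = ∑ k ∈ Finset.range (pdeg p z), C (MvPolynomial.eval w (part p z k)) * X ^ k := by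
  apply Polynomial.funext
  intro t
  rw [eval_line, eval_expand, eval_finsetSum]
  apply Finset.sum_congr rfl
  intro k _
  rw [eval_mul, eval_C, eval_pow, eval_X, mul_comm]

theorem coeff_line (p : MvPolynomial (Fin n) ℝ) (z w : Fin n → ℝ) (k : ℕ) :
    (line p z w).coeff k = MvPolynomial.eval w (part p z k) := by
  rw [line_expand, finsetSum_coeff]
  simp only [coeff_C_mul, coeff_X_pow]
  by_cases hk : k < pdeg p z
  · rw [Finset.sum_eq_single k]
    · simp
    · intro j _ hj
      simp [Ne.symm hj]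
    · intro h
      exact absurd (Finset.mem_range.2 hk) h
  · push Not at hk
    rw [part_eq_zero_of_ge p z hk, map_zero]
    apply Finset.sum_eq_zero
    intro j hj
    have := Finset.mem_range.1 hj
    have : k ≠ j := by omega
    simp [this]

/-- order comparison of polynomials -/
theorem X_pow_dvd_of_le {f g : ℝ[X]} {k : ℕ} (hfg : ∀ t : ℝ, 0 < t → 0 ≤ f.eval t ∧
    f.eval t ≤ g.eval t) (hg : X ^ k ∣ g) : X ^ k ∣ f := by
  induction k generalizing f g with
  | zero => simp
  | succ k ih =>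
    have hg0 : g.eval 0 = 0 := by
      obtain ⟨h, rfl⟩ := hg
      simp
    have tend : ∀ g : ℝ[X], Tendsto (fun δ : ℝ => g.eval δ) (𝓝[>] 0) (𝓝 (g.eval 0)) := fun g =>
      (g.continuous.tendsto 0).mono_left nhdsWithin_le_nhds
    have hf0 : f.eval 0 = 0 := by
      apply le_antisymm
      · have tg := tend g
        rw [hg0] at tg
        exact le_of_tendsto_of_tendsto (tend f) tg (by
          filter_upwards [self_mem_nhdsWithin] with t ht using (hfg t ht).2)
      · exact ge_of_tendsto (tend f) (by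
          filter_upwards [self_mem_nhdsWithin] with t ht using (hfg t ht).1)
    have ef := eq_X_mul_divX hf0
    have eg := eq_X_mul_divX hg0
    have h1 : X ^ k ∣ g.divX := by
      rw [eg, pow_succ'] at hg
      exact (mul_dvd_mul_iff_left X_ne_zero).1 hg
    have h2 := ih (f := f.divX) (g := g.divX) (by
      intro t ht
      have h3 := hfg t ht
      rw [ef, eg, eval_mul, eval_mul, eval_X] at h3
      exact ⟨nonneg_of_mul_nonneg_right h3.1 ht, le_of_mul_le_mul_left h3.2 ht⟩) h1
    rw [ef, pow_succ']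
    exact mul_dvd_mul_left X h2

theorem exists_C_add (hp : IsHyperbolic p e) (y : Fin n → ℝ) :
    ∃ R : ℝ, 0 < R ∧ ∀ s : ℝ, R ≤ s → InOpen p e (y + s • e) ∧ InOpen p e (s • e - y) := by
  obtain ⟨δ, hδ, h⟩ := exists_e_add hp y
  refine ⟨1 / δ, by positivity, fun s hs => ?_⟩
  have hspos : 0 < s := lt_of_lt_of_le (by positivity) hs
  have h1 : |1 / s| ≤ δ := by
    rw [abs_of_pos (by positivity), div_le_iff₀ hspos]
    rw [div_le_iff₀ hδ] at hs
    linarith
  constructor
  · have h2 := (h (1 / s) h1).smul hp hspos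
    rwa [smul_add, smul_smul, mul_one_div_cancel hspos.ne', one_smul, add_comm] at h2
  · have h2 := (h (-(1 / s)) (by rwa [abs_neg])).smul hp hspos
    rw [smul_add, smul_smul, mul_neg, mul_one_div_cancel hspos.ne'] at h2
    have h3 : s • e - y = s • e + (-1 : ℝ) • y := by module
    rwa [h3]

theorem line_e_ne_zero (hp : IsHyperbolic p e) (z : Fin n → ℝ) : line p z e ≠ 0 := by
  obtain ⟨d, hd⟩ := hp.1
  intro h
  have := (line_leading hd z e hp.2.1.ne').2
  rw [h, leadingCoeff_zero] at this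
  exact hp.2.1.ne this

/-- Existence of the multiplicity: the lowest part of `p` at `z ∈ K` is positive at `e`. -/
theorem exists_mult (hp : IsHyperbolic p e) {z : Fin n → ℝ} (hz : z ∈ hypCone p e) :
    ∃ m, (∀ k < m, part p z k = 0) ∧ 0 < MvPolynomial.eval e (part p z m) := by
  obtain ⟨d, hd⟩ := hp.1
  set g := line p z e with hg
  have hg0 : g ≠ 0 := line_e_ne_zero hp z
  set m := g.natTrailingDegree with hm
  have hdvd : X ^ m ∣ g := by
    rw [X_pow_dvd_iff]
    intro j hj
    exact coeff_eq_zero_of_lt_natTrailingDegree hj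
  refine ⟨m, ?_, ?_⟩
  · intro k hk
    apply MvPolynomial.funext
    intro y
    rw [map_zero]
    obtain ⟨R, hR, hRs⟩ := exists_C_add hp y
    have hzero : ∀ s : ℝ, R ≤ s → MvPolynomial.eval (y + s • e) (part p z k) = 0 := by
      intro s hs
      have hspos : 0 < s := lt_of_lt_of_le hR hs
      have h1 : X ^ m ∣ line p z (y + s • e) := by
        apply X_pow_dvd_of_le (g := line p z ((2 * s) • e))
        · intro t ht
          rw [eval_line, eval_line]
          have h2 : z + t • (y + s • e) ∈ hypCone p e :=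
            K_add hp hz (K_smul hp ((hRs s hs).1.mem hp) ht.le)
          have h3 : t • (s • e - y) ∈ hypCone p e :=
            K_smul hp ((hRs s hs).2.mem hp) ht.le
          refine ⟨K_eval_nonneg hp h2, ?_⟩
          have h4 := K_mono hp h2 h3
          have h5 : z + t • (y + s • e) + t • (s • e - y) = z + t • (2 * s) • e := by module
          rwa [h5] at h4
        · rw [X_pow_dvd_iff]
          intro j hj
          rw [coeff_line, eval_smul' (part_homog p z j), ← coeff_line, ← hg,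
            coeff_eq_zero_of_lt_natTrailingDegree hj, mul_zero]
      rw [X_pow_dvd_iff] at h1
      rw [← coeff_line]
      exact h1 k hk
    have hline : line (part p z k) y e = 0 := by
      apply eq_zero_of_infinite_isRoot
      refine Set.Infinite.mono ?_ (Set.Ici_infinite R)
      intro s hs
      simp only [Set.mem_ofPred_eq, IsRoot.def, eval_line]
      exact hzero s hs
    have := congrArg (Polynomial.eval 0) hline
    rw [eval_line] at this
    simpa only [zero_smul, add_zero, eval_zero] using this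
  · rw [← coeff_line]
    obtain ⟨h, hh⟩ := hdvd
    have hcoef : g.coeff m = h.eval 0 := by
      rw [hh, ← coeff_zero_eq_eval_zero]
      simpa using coeff_X_pow_mul h m 0
    have hne : g.coeff m ≠ 0 := by
      rw [hm]
      exact mt coeff_natTrailingDegree_eq_zero.1 hg0
    rw [← hg, hcoef]
    rw [hcoef] at hne
    refine lt_of_le_of_ne ?_ (Ne.symm hne)
    have tend : Tendsto (fun δ : ℝ => h.eval δ) (𝓝[>] 0) (𝓝 (h.eval 0)) :=
      (h.continuous.tendsto 0).mono_left nhdsWithin_le_nhds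
    refine ge_of_tendsto tend ?_
    filter_upwards [self_mem_nhdsWithin] with t ht
    have ht' : (0 : ℝ) < t := ht
    have h6 : 0 ≤ g.eval t := by
      rw [hg, eval_line]
      exact (K_eval_ge hp hd hz ht'.le le_rfl).2.1
    rw [hh, eval_mul, eval_pow, eval_X] at h6
    exact nonneg_of_mul_nonneg_right h6 (by positivity)

theorem localization_eq {z : Fin n → ℝ} {m : ℕ} (h1 : ∀ k < m, part p z k = 0)
    (h2 : part p z m ≠ 0) : localization p z = part p z m := by
  have : sInf {k : ℕ | MvPolynomial.homogeneousComponent k (translate p z) ≠ 0} = m := by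
    apply le_antisymm
    · exact Nat.sInf_le h2
    · apply le_csInf ⟨m, h2⟩
      intro k hk
      by_contra hlt
      push Not at hlt
      exact hk (h1 k hlt)
  unfold localization
  rw [this]
  rfl

end Vale.Agent.P256
end

section

namespace Vale.Agent.P256

open Polynomial Filter Topology Bornology

variable {n : ℕ} {p : MvPolynomial (Fin n) ℝ} {e : Fin n → ℝ}

theorem homog_dirD {q : MvPolynomial (Fin n) ℝ} {k : ℕ} (hq : q.IsHomogeneous k)
    (v : Fin n → ℝ) : (dirD q v).IsHomogeneous (k - 1) := by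
  unfold dirD
  apply MvPolynomial.IsHomogeneous.sum
  intro i _
  have := (MvPolynomial.isHomogeneous_C (Fin n) (v i)).mul (hq.pderiv (i := i))
  simpa only [zero_add] using this

theorem map_gline {A B : Type*} [CommRing A] [Algebra ℝ A] [CommRing B] [Algebra ℝ B]
    (φ : A →ₐ[ℝ] B) (p : MvPolynomial (Fin n) ℝ) (u v : Fin n → A) :
    (gline p u v).map (φ : A →+* B) = gline p (fun i => φ (u i)) (fun i => φ (v i)) := by
  unfold gline
  induction p using MvPolynomial.induction_on with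
  | C a => simp only [X_mul_C, MvPolynomial.algHom_C, Polynomial.algebraMap_apply, map_C, RingHom.coe_coe, AlgHom.commutes]
  | add p q hp hq => simp only [map_add, Polynomial.map_add, hp, hq]
  | mul_X p i hp =>
    simp only [map_mul, Polynomial.map_mul, hp, MvPolynomial.aeval_X, Polynomial.map_add,
      Polynomial.map_C, Polynomial.map_X, RingHom.coe_coe]

/-- The `j`-th coefficient of `t ↦ p(z + δ e + t u)` as a polynomial in `δ`. -/
noncomputable def cpoly (p : MvPolynomial (Fin n) ℝ) (z e u : Fin n → ℝ) (j : ℕ) : ℝ[X] :=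
  (gline p (fun i => (C (z i) + X * C (e i) : ℝ[X])) (fun i => (C (u i) : ℝ[X]))).coeff j

theorem eval_cpoly (p : MvPolynomial (Fin n) ℝ) (z e u : Fin n → ℝ) (j : ℕ) (δ : ℝ) :
    (cpoly p z e u j).eval δ = (line p (z + δ • e) u).coeff j := by
  have h := map_gline (Polynomial.aeval δ : ℝ[X] →ₐ[ℝ] ℝ) p
    (fun i => (C (z i) + X * C (e i) : ℝ[X])) (fun i => (C (u i) : ℝ[X]))
  have h2 := congrArg (fun f => Polynomial.coeff f j) h
  simp only [Polynomial.coeff_map] at h2
  unfold cpoly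
  have h3 : (fun i => (Polynomial.aeval δ) (C (z i) + X * C (e i) : ℝ[X])) = z + δ • e := by
    funext i
    simp only [map_add, map_mul, Polynomial.aeval_X, Polynomial.aeval_C, Algebra.algebraMap_self,
      RingHom.id_apply, Pi.add_apply, Pi.smul_apply, smul_eq_mul]
  have h4 : (fun i => (Polynomial.aeval δ) (C (u i) : ℝ[X])) = u := by
    funext i
    simp
  rw [h3, h4] at h2
  change (Polynomial.aeval δ) _ = _ at h2
  rw [Polynomial.coe_aeval_eq_eval] at h2
  exact h2

theorem derivative_cpoly (p : MvPolynomial (Fin n) ℝ) (z e u : Fin n → ℝ) (j : ℕ) :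
    derivative (cpoly p z e u j) = cpoly (dirD p e) z e u j := by
  unfold cpoly
  have hadd : ∀ p q : MvPolynomial (Fin n) ℝ,
      gline (p + q) (fun i => (C (z i) + X * C (e i) : ℝ[X])) (fun i => (C (u i) : ℝ[X])) =
      gline p (fun i => (C (z i) + X * C (e i) : ℝ[X])) (fun i => (C (u i) : ℝ[X])) +
      gline q (fun i => (C (z i) + X * C (e i) : ℝ[X])) (fun i => (C (u i) : ℝ[X])) := by
    intro p q; simp [gline]
  have hmul : ∀ p q : MvPolynomial (Fin n) ℝ,
      gline (p * q) (fun i => (C (z i) + X * C (e i) : ℝ[X])) (fun i => (C (u i) : ℝ[X])) =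
      gline p (fun i => (C (z i) + X * C (e i) : ℝ[X])) (fun i => (C (u i) : ℝ[X])) *
      gline q (fun i => (C (z i) + X * C (e i) : ℝ[X])) (fun i => (C (u i) : ℝ[X])) := by
    intro p q; simp only [gline, X_mul_C, map_add, map_mul]
  have hC : ∀ a : ℝ, gline (MvPolynomial.C a) (fun i => (C (z i) + X * C (e i) : ℝ[X]))
      (fun i => (C (u i) : ℝ[X])) = C (C a) := by
    intro a; simp [gline, Polynomial.algebraMap_apply]
  have hX : ∀ i : Fin n, gline (MvPolynomial.X i) (fun i => (C (z i) + X * C (e i) : ℝ[X]))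
      (fun i => (C (u i) : ℝ[X])) = C (C (z i) + X * C (e i)) + X * C (C (u i)) := by
    intro i; simp [gline]
  induction p using MvPolynomial.induction_on generalizing j with
  | C a =>
    rw [dirD_C, hC]
    have : gline (0 : MvPolynomial (Fin n) ℝ) (fun i => (C (z i) + X * C (e i) : ℝ[X]))
      (fun i => (C (u i) : ℝ[X])) = 0 := by simp only [gline, X_mul_C, map_add, map_mul, map_zero]
    rw [this, coeff_zero]
    rw [coeff_C]
    split_ifs <;> simp
  | add p q hp hq => rw [hadd, coeff_add, derivative_add, hp, hq, dirD_add, hadd, coeff_add]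
  | mul_X p i hp =>
    have hco : ∀ (f : ℝ[X][X]) (a b : ℝ[X]) (j : ℕ), (f * (C a + X * C b)).coeff j =
        f.coeff j * a + (if j = 0 then 0 else f.coeff (j - 1) * b) := by
      intro f a b j
      have : f * (C a + X * C b) = f * C a + f * C b * X := by ring
      rw [this, coeff_add, coeff_mul_C]
      cases j with
      | zero => simp
      | succ k => simp only [coeff_mul_X, coeff_mul_C, Nat.add_eq_zero_iff, one_ne_zero, and_false, ↓reduceIte, add_tsub_cancel_right]
    rw [hmul, hX, hco, dirD_mul_X, hadd, hmul, hmul, hX, coeff_add, hco, hC, coeff_mul_C]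
    rw [derivative_add, derivative_mul, hp]
    by_cases hj : j = 0
    · simp only [X_mul_C, hj, derivative_add, derivative_C, derivative_mul, zero_mul, derivative_X, mul_one, zero_add, ↓reduceIte, derivative_zero, add_zero]
    · simp only [hj, if_false]
      rw [derivative_mul, hp]
      simp only [X_mul_C, derivative_add, derivative_C, derivative_mul, zero_mul, derivative_X, mul_one, zero_add, mul_zero, add_zero]
      ring

/-- first-order expansion of parts: `dd p (z+w) v = Σ_k dd P_k w v` -/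
theorem dd_expand (p : MvPolynomial (Fin n) ℝ) (z w v : Fin n → ℝ) :
    dd p (z + w) v = ∑ k ∈ Finset.range (pdeg p z), dd (part p z k) w v := by
  have h1 : line p (z + w) v = ∑ k ∈ Finset.range (pdeg p z), line (part p z k) w v := by
    apply Polynomial.funext
    intro t
    rw [eval_line, eval_finsetSum]
    have := eval_expand p z 1 (w + t • v)
    rw [one_smul, ← add_assoc] at this
    rw [this]
    apply Finset.sum_congr rfl
    intro k _
    rw [eval_line, one_pow, one_mul]
  have h2 := congrArg (fun f => (derivative f).eval 0) h1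
  simp only [derivative_sum, eval_finsetSum, eval_derivative_line, zero_smul, add_zero] at h2
  exact h2

theorem dd_smul_left {q : MvPolynomial (Fin n) ℝ} {k : ℕ} (hq : q.IsHomogeneous k) (t : ℝ)
    (w v : Fin n → ℝ) : dd q (t • w) v = t ^ (k - 1) * dd q w v := by
  rw [← eval_dirD, ← eval_dirD, eval_smul' (homog_dirD hq v)]

theorem eval_part_dirD (p : MvPolynomial (Fin n) ℝ) (z v u : Fin n → ℝ) (j : ℕ) :
    MvPolynomial.eval u (part (dirD p v) z j) = dd (part p z (j + 1)) u v := by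
  rw [← coeff_line]
  have h1 : line (dirD p v) z u =
      ∑ k ∈ Finset.range (pdeg p z), C (dd (part p z k) u v) * X ^ (k - 1) := by
    apply Polynomial.funext
    intro t
    rw [eval_line, eval_dirD, dd_expand, eval_finsetSum]
    apply Finset.sum_congr rfl
    intro k _
    rw [dd_smul_left (part_homog p z k), eval_mul, eval_C, eval_pow, eval_X, mul_comm]
  have h0 : dd (part p z 0) u v = 0 := by
    have : part p z 0 = MvPolynomial.C (MvPolynomial.coeff 0 (translate p z)) :=
      MvPolynomial.homogeneousComponent_zero _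
    rw [this, ← eval_dirD, dirD_C, map_zero]
  rw [h1, finsetSum_coeff]
  simp only [coeff_C_mul, coeff_X_pow]
  by_cases hk : j + 1 < pdeg p z
  · rw [Finset.sum_eq_single (j + 1)]
    · simp only [add_tsub_cancel_right, ↓reduceIte, mul_one]
    · intro k _ hkj
      by_cases hk0 : k = 0
      · subst hk0; rw [h0, zero_mul]
      · have : j ≠ k - 1 := by omega
        simp [this]
    · intro h
      exact absurd (Finset.mem_range.2 hk) h
  · push Not at hk
    rw [part_eq_zero_of_ge p z hk]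
    have : dd (0 : MvPolynomial (Fin n) ℝ) u v = 0 := by
      rw [← eval_dirD, dirD_zero, map_zero]
    rw [this]
    apply Finset.sum_eq_zero
    intro k hk'
    have := Finset.mem_range.1 hk'
    by_cases hk0 : k = 0
    · subst hk0; rw [h0, zero_mul]
    · have : j ≠ k - 1 := by omega
      simp [this]

/-- Rigidity at a point of multiplicity `m = m' + 1`. -/
theorem conic_rigidity (hp : IsHyperbolic p e) {z u : Fin n → ℝ} (hz : z ∈ hypCone p e) {m : ℕ}
    (hm : ∀ k < m + 1, part p z k = 0) (hu : MvPolynomial.eval u (part p z (m + 1)) = 0)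
    (hs : 0 < dd (part p z (m + 1)) u e) :
    MvPolynomial.eval u (part p z (m + 2)) ≤ 0 ∧
      (MvPolynomial.eval u (part p z (m + 2)) = 0 →
        ∀ t : ℝ, MvPolynomial.eval (z + t • u) p = 0) := by
  obtain ⟨d, hd⟩ := hp.1
  set f : ℝ → ℝ[X] := fun δ => derivative^[m] (line p (z + δ • e) u) with hf
  have hsplit : ∀ δ : ℝ, 0 < δ → (f δ).Splits := by
    intro δ hδ
    have h0 := splits_line_open hp ((mem_K_iff hp z).1 hz δ hδ) u
    have : ∀ k, (derivative^[k] (line p (z + δ • e) u)).Splits := by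
      intro k
      induction k with
      | zero => simpa using h0
      | succ k ih => rw [Function.iterate_succ_apply']; exact Splits.derivative' ih
    exact this m
  have hdeg : ∀ δ : ℝ, (f δ).natDegree ≤ d := by
    intro δ
    refine (natDegree_iterate_derivative _ _).trans ?_
    have := (line_top hd (z + δ • e) u).1
    omega
  have hcoef : ∀ δ j, (f δ).coeff j = ((j + m).descFactorial m : ℝ) *
      (cpoly p z e u (j + m)).eval δ := by
    intro δ j
    rw [hf]
    simp only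
    rw [coeff_iterate_derivative, eval_cpoly, nsmul_eq_mul]
  have h := rigidity_aux (A := C ((0 + m).descFactorial m : ℝ) * cpoly p z e u (0 + m))
    (B := C ((1 + m).descFactorial m : ℝ) * cpoly p z e u (1 + m))
    (Cc := C (2 * (2 + m).descFactorial m : ℝ) * cpoly p z e u (2 + m))
    (f := f) (N := d) hsplit hdeg
    (fun δ => by rw [← coeff_zero_eq_eval_zero, hcoef, eval_mul, eval_C])
    (fun δ => by
      rw [← coeff_zero_eq_eval_zero, coeff_derivative, hcoef, eval_mul, eval_C]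
      simp)
    (fun δ => by
      rw [← coeff_zero_eq_eval_zero, coeff_derivative, coeff_derivative, hcoef, eval_mul, eval_C]
      push_cast
      ring)
    (by
      rw [eval_mul, eval_cpoly, zero_smul, add_zero, coeff_line, hm _ (by omega), map_zero,
        mul_zero])
    (by
      rw [derivative_C_mul, eval_mul, eval_C, derivative_cpoly, eval_cpoly, zero_smul, add_zero,
        coeff_line, eval_part_dirD, zero_add]
      apply mul_pos _ hs
      exact_mod_cast Nat.descFactorial_pos.2 le_rfl)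
    (by
      rw [eval_mul, eval_cpoly, zero_smul, add_zero, coeff_line, add_comm 1 m, hu, mul_zero])
  have hfac : (0 : ℝ) < 2 * ((2 + m).descFactorial m : ℝ) := by
    have : 0 < (2 + m).descFactorial m := Nat.descFactorial_pos.2 (by omega)
    positivity
  rw [eval_mul, eval_C, eval_cpoly, zero_smul, add_zero, coeff_line, add_comm 2 m] at h
  rw [add_comm 2 m] at hfac
  refine ⟨?_, fun h3 => ?_⟩
  · by_contra hneg
    push Not at hneg
    have := mul_pos hfac hneg
    linarith [h.1]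
  · have h4 := h.2 (by rw [h3, mul_zero])
    have h5 : derivative^[m] (line p z u) = 0 := by
      apply Polynomial.funext
      intro t
      have l1 := h4 t
      have hc : Continuous (fun δ : ℝ => (f δ).eval t) := by
        have : ∀ δ, (f δ).eval t = ∑ j ∈ Finset.range (d + 1),
            ((j + m).descFactorial m : ℝ) * (cpoly p z e u (j + m)).eval δ * t ^ j := by
          intro δ
          rw [eval_eq_sum_range' (Nat.lt_succ_of_le (hdeg δ))]
          apply Finset.sum_congr rfl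
          intro j _
          rw [hcoef]
        simp_rw [this]
        apply continuous_finsetSum
        intro j _
        exact (continuous_const.mul (cpoly p z e u (j + m)).continuous).mul continuous_const
      have l2 := (hc.tendsto 0).mono_left (nhdsWithin_le_nhds (s := Set.Ioi 0))
      have := tendsto_nhds_unique l1 l2
      rw [hf] at this
      simp only [zero_smul, add_zero] at this
      rw [← this, eval_zero]
    have h6 : line p z u = 0 := by
      ext k
      rw [coeff_zero]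
      by_cases hk : k < m
      · rw [coeff_line, hm k (by omega), map_zero]
      · push Not at hk
        obtain ⟨j, rfl⟩ := Nat.exists_eq_add_of_le' hk
        have h7 := congrArg (fun g => Polynomial.coeff g j) h5
        simp only [coeff_iterate_derivative, coeff_zero, nsmul_eq_mul] at h7
        rcases mul_eq_zero.1 h7 with h8 | h8
        · exfalso
          have : 0 < (j + m).descFactorial m := Nat.descFactorial_pos.2 (by omega)
          exact absurd h8 (by exact_mod_cast this.ne')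
        · exact h8
    intro t
    rw [← eval_line, h6, eval_zero]

end Vale.Agent.P256
end

section

/-! Interface between the hyperbolic facts and the final assembly. -/

namespace Vale.Agent.P256

variable {n : ℕ}

/-- boundary points of the hyperbolicity cone on the Euclidean unit sphere -/
def bdT (p : MvPolynomial (Fin n) ℝ) (e : Fin n → ℝ) : Set (Fin n → ℝ) :=
  {x | x ∈ hypCone p e ∧ MvPolynomial.eval x p = 0 ∧ ∑ i, x i ^ 2 = 1}

/-- unit boundary directions, orthogonal to `z`, of the tangent cone at `z` -/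
def dirS (p : MvPolynomial (Fin n) ℝ) (e z : Fin n → ℝ) (m : ℕ) : Set (Fin n → ℝ) :=
  {u | u ∈ hypCone (part p z m) e ∧ MvPolynomial.eval u (part p z m) = 0 ∧
    ∑ i, u i ^ 2 = 1 ∧ ∑ i, z i * u i = 0}

end Vale.Agent.P256
end

section

/-! The tangent cone (lowest part) of a hyperbolic polynomial at a boundary point. -/

namespace Vale.Agent.P256

open Polynomial Filter Topology

variable {n : ℕ} {p : MvPolynomial (Fin n) ℝ} {e : Fin n → ℝ}

/-- the blown-up polynomial `b^{-m} p(z + b w)` with values in an `ℝ`-algebra -/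
noncomputable def blR {A : Type*} [CommRing A] [Algebra ℝ A] (p : MvPolynomial (Fin n) ℝ)
    (z : Fin n → ℝ) (m : ℕ) (c : A) (w : Fin n → A) : A :=
  ∑ k ∈ Finset.range (pdeg p z), c ^ k * MvPolynomial.aeval w (part p z (m + k))

theorem aeval_expand_m {A : Type*} [CommRing A] [Algebra ℝ A] {p : MvPolynomial (Fin n) ℝ}
    {z : Fin n → ℝ} {m : ℕ} (hm : ∀ k < m, part p z k = 0) (c : A) (w : Fin n → A) :
    MvPolynomial.aeval (fun i => algebraMap ℝ A (z i) + c * w i) p = c ^ m * blR p z m c w := by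
  rw [aeval_expand]
  have h1 : ∑ k ∈ Finset.range (pdeg p z), c ^ k * MvPolynomial.aeval w (part p z k) =
      ∑ k ∈ Finset.range (m + pdeg p z), c ^ k * MvPolynomial.aeval w (part p z k) := by
    apply Finset.sum_subset
    · intro k hk
      rw [Finset.mem_range] at *
      omega
    · intro k _ hk
      rw [Finset.mem_range, not_lt] at hk
      rw [part_eq_zero_of_ge p z hk, map_zero, mul_zero]
  rw [h1, Finset.sum_range_add]
  have h2 : ∑ k ∈ Finset.range m, c ^ k * MvPolynomial.aeval w (part p z k) = 0 := by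
    apply Finset.sum_eq_zero
    intro k hk
    rw [hm k (Finset.mem_range.1 hk), map_zero, mul_zero]
  rw [h2, zero_add]
  unfold blR
  rw [Finset.mul_sum]
  apply Finset.sum_congr rfl
  intro k _
  rw [pow_add, mul_assoc]

theorem eval_expand_m {z : Fin n → ℝ} {m : ℕ} (hm : ∀ k < m, part p z k = 0) (c : ℝ)
    (w : Fin n → ℝ) : MvPolynomial.eval (z + c • w) p = c ^ m * blR p z m c w :=
  aeval_expand_m (A := ℝ) hm c w

theorem blR_zero {A : Type*} [CommRing A] [Algebra ℝ A] (p : MvPolynomial (Fin n) ℝ)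
    (z : Fin n → ℝ) (m : ℕ) (w : Fin n → A) :
    blR p z m 0 w = MvPolynomial.aeval w (part p z m) := by
  unfold blR
  rw [Finset.sum_eq_single 0]
  · simp
  · intro k _ hk
    rw [zero_pow hk, zero_mul]
  · intro h
    exact absurd (Finset.mem_range.2 (by unfold pdeg; omega)) h

theorem continuous_blR (p : MvPolynomial (Fin n) ℝ) (z : Fin n → ℝ) (m : ℕ) :
    Continuous (fun q : ℝ × (Fin n → ℝ) => blR p z m q.1 q.2) := by
  unfold blR
  apply continuous_finsetSum
  intro k _
  exact (continuous_fst.pow k).mul ((continuous_eval (part p z (m + k))).comp continuous_snd)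

theorem continuous_blR_complex (p : MvPolynomial (Fin n) ℝ) (z : Fin n → ℝ) (m : ℕ) :
    Continuous (fun q : ℂ × (Fin n → ℂ) => blR p z m q.1 q.2) := by
  unfold blR
  apply continuous_finsetSum
  intro k _
  exact (continuous_fst.pow k).mul
    ((continuous_aeval_complex (part p z (m + k))).comp continuous_snd)

/-- The tangent cone polynomial is hyperbolic. -/
theorem part_hyp (hp : IsHyperbolic p e) {z : Fin n → ℝ} {m : ℕ}
    (hm : ∀ k < m, part p z k = 0) (he : 0 < MvPolynomial.eval e (part p z m)) :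
    IsHyperbolic (part p z m) e := by
  refine ⟨⟨m, part_homog p z m⟩, he, ?_⟩
  intro x t ht
  set F : ℝ → ℝ[X] := fun b => C ((b ^ m)⁻¹) * line p (z + b • (-x)) (b • e) with hF
  have hsp : (line (part p z m) (-x) e).Splits := by
    apply splits_of_tendsto (l := 𝓝[>] (0 : ℝ)) (F := F)
    · filter_upwards [self_mem_nhdsWithin] with b hb
      have hb' : (0 : ℝ) < b := hb
      apply splits_of_real_roots
      intro ζ hζ
      rw [hF] at hζ
      simp only [map_mul, Polynomial.aeval_C, mul_eq_zero] at hζ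
      rcases hζ with h | h
      · exfalso
        have : ((b ^ m)⁻¹ : ℝ) ≠ 0 := by positivity
        exact this (by simpa using h)
      · rw [aeval_line] at h
        by_contra hne
        apply hp.ne_zero (z + b • (-x)) (ζ * b)
        · simp only [Complex.mul_im, Complex.ofReal_re, Complex.ofReal_im, mul_zero, zero_add]
          exact mul_ne_zero hne hb'.ne'
        · rw [← h]
          congr 2
          funext i
          simp only [Pi.smul_apply, smul_eq_mul, Complex.ofReal_mul]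
          ring
    · intro ζ
      have h1 : ∀ b : ℝ, 0 < b → aeval ζ (F b) =
          blR p z m (b : ℂ) (fun i => ((-x) i : ℂ) + ζ * (e i : ℂ)) := by
        intro b hb
        rw [hF]
        simp only [map_mul, Polynomial.aeval_C]
        rw [aeval_line]
        have h2 := aeval_expand_m (A := ℂ) hm (b : ℂ) (fun i => (((-x) i : ℝ) : ℂ) + ζ * (e i : ℂ))
        have h3 : (fun i => (((z + b • (-x)) i : ℝ) : ℂ) + ζ * (((b • e) i : ℝ) : ℂ)) =
            (fun i => algebraMap ℝ ℂ (z i) + (b : ℂ) * ((((-x) i : ℝ) : ℂ) + ζ * (e i : ℂ))) := by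
          funext i
          simp only [Pi.add_apply, Pi.smul_apply, smul_eq_mul, Complex.ofReal_mul,
            Complex.ofReal_add, Complex.coe_algebraMap]
          ring
        rw [h3, h2]
        have hb2 : (b : ℂ) ^ m ≠ 0 := by
          apply pow_ne_zero
          exact_mod_cast hb.ne'
        simp only [Complex.coe_algebraMap, Complex.ofReal_inv, Complex.ofReal_pow]
        field_simp
      have h2 : Tendsto (fun b : ℝ =>
          blR p z m (b : ℂ) (fun i => ((-x) i : ℂ) + ζ * (e i : ℂ))) (𝓝[>] 0)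
          (𝓝 (blR p z m (0 : ℂ) (fun i => ((-x) i : ℂ) + ζ * (e i : ℂ)))) := by
        have hc : Continuous (fun b : ℝ =>
          blR p z m (b : ℂ) (fun i => (((-x) i : ℝ) : ℂ) + ζ * (e i : ℂ))) :=
          (continuous_blR_complex p z m).comp
            (Continuous.prodMk Complex.continuous_ofReal continuous_const)
        have := (hc.tendsto 0).mono_left (nhdsWithin_le_nhds (s := Set.Ioi 0))
        simpa only [Pi.neg_apply, Complex.ofReal_neg, Complex.ofReal_zero] using this
      rw [blR_zero, ← aeval_line] at h2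
      refine h2.congr' ?_
      filter_upwards [self_mem_nhdsWithin] with b hb
      exact (h1 b hb).symm
  have hne : line (part p z m) (-x) e ≠ 0 := by
    intro h0
    have := (line_top (part_homog p z m) (-x) e).2
    rw [h0, coeff_zero] at this
    exact absurd this he.ne
  apply Splits.real_roots hsp hne
  rw [aeval_line, ← ht]
  congr 2
  funext i
  simp only [Pi.neg_apply, Complex.ofReal_neg]
  ring

/-- real limit of the blow-up -/
theorem tendsto_blow {z : Fin n → ℝ} {m : ℕ} (hm : ∀ k < m, part p z k = 0)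
    (w : Fin n → ℝ) :
    Tendsto (fun b : ℝ => (b ^ m)⁻¹ * MvPolynomial.eval (z + b • w) p) (𝓝[>] 0)
      (𝓝 (MvPolynomial.eval w (part p z m))) := by
  have hc : Continuous (fun b : ℝ => blR p z m b w) :=
    (continuous_blR p z m).comp (Continuous.prodMk continuous_id continuous_const)
  have h2 := (hc.tendsto 0).mono_left (nhdsWithin_le_nhds (s := Set.Ioi 0))
  rw [blR_zero] at h2
  refine h2.congr' ?_
  filter_upwards [self_mem_nhdsWithin] with b hb
  have hb' : (0 : ℝ) < b := hb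
  rw [eval_expand_m hm, ← mul_assoc, inv_mul_cancel₀ (by positivity), one_mul]

/-- the cone is contained in its tangent cone -/
theorem K_sub_part (hp : IsHyperbolic p e) {z : Fin n → ℝ} (hz : z ∈ hypCone p e) {m : ℕ}
    (hm : ∀ k < m, part p z k = 0) (he : 0 < MvPolynomial.eval e (part p z m))
    {x : Fin n → ℝ} (hx : x ∈ hypCone p e) : x ∈ hypCone (part p z m) e := by
  rw [mem_hypCone_iff (part_homog p z m)]
  intro t ht
  have h1 := tendsto_blow hm (x + t • e)
  have h2 := tendsto_blow hm (t • e)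
  have h3 := le_of_tendsto_of_tendsto h2 h1 (by
    filter_upwards [self_mem_nhdsWithin] with b hb
    have hb' : (0 : ℝ) < b := hb
    apply mul_le_mul_of_nonneg_left _ (by positivity)
    have h4 : z + b • (x + t • e) = (z + b • t • e) + b • x := by
      rw [smul_add]; abel
    rw [h4]
    apply K_mono hp
    · exact K_add hp hz (K_smul hp (K_smul hp ((e_inOpen hp).mem hp) ht.le) hb'.le)
    · exact K_smul hp hx hb'.le)
  rw [eval_smul' (part_homog p z m)] at h3
  have : 0 < t ^ m * MvPolynomial.eval e (part p z m) := by positivity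
  exact ne_of_gt (lt_of_lt_of_le this h3)

/-- `z` is in the lineality space of the tangent cone polynomial -/
theorem part_lineality (hd : ∃ d, p.IsHomogeneous d) {z : Fin n → ℝ} {m : ℕ}
    (hm : ∀ k < m, part p z k = 0) (y : Fin n → ℝ) (c : ℝ) :
    MvPolynomial.eval (y + c • z) (part p z m) = MvPolynomial.eval y (part p z m) := by
  obtain ⟨d, hd⟩ := hd
  have h1 := tendsto_blow hm (y + c • z)
  have hc : Tendsto (fun b : ℝ => b / (1 + b * c)) (𝓝[>] 0) (𝓝 0) := by
    have : ContinuousAt (fun b : ℝ => b / (1 + b * c)) 0 := by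
      apply ContinuousAt.div continuousAt_id (by fun_prop) (by simp)
    have h := this.tendsto.mono_left (nhdsWithin_le_nhds (s := Set.Ioi 0))
    simpa using h
  have hblc : Tendsto (fun b : ℝ => (1 + b * c) ^ d * ((1 + b * c) ^ m)⁻¹ *
      blR p z m (b / (1 + b * c)) y) (𝓝[>] 0)
      (𝓝 (1 * MvPolynomial.eval y (part p z m))) := by
    have e1 : Tendsto (fun b : ℝ => (1 + b * c) ^ d * ((1 + b * c) ^ m)⁻¹) (𝓝[>] 0) (𝓝 1) := by
      have : ContinuousAt (fun b : ℝ => (1 + b * c) ^ d * ((1 + b * c) ^ m)⁻¹) 0 := by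
        apply ContinuousAt.mul (by fun_prop)
        apply ContinuousAt.inv₀ (by fun_prop) (by simp)
      have h := this.tendsto.mono_left (nhdsWithin_le_nhds (s := Set.Ioi 0))
      simpa using h
    have e2 : Tendsto (fun b : ℝ => blR p z m (b / (1 + b * c)) y) (𝓝[>] 0)
        (𝓝 (MvPolynomial.eval y (part p z m))) := by
      have hcc : Continuous (fun b : ℝ => blR p z m b y) :=
        (continuous_blR p z m).comp (Continuous.prodMk continuous_id continuous_const)
      have := (hcc.tendsto 0).comp hc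
      rw [blR_zero] at this
      exact this
    exact e1.mul e2
  rw [one_mul] at hblc
  refine tendsto_nhds_unique h1 (hblc.congr' ?_)
  have hpos : ∀ᶠ b : ℝ in 𝓝[>] 0, 0 < 1 + b * c := by
    have : ContinuousAt (fun b : ℝ => 1 + b * c) 0 := by fun_prop
    have h := this.tendsto.mono_left (nhdsWithin_le_nhds (s := Set.Ioi 0))
    apply h.eventually_const_lt
    simp
  filter_upwards [self_mem_nhdsWithin, hpos] with b hb hb1
  have hb' : (0 : ℝ) < b := hb
  have h4 : z + b • (y + c • z) = (1 + b * c) • (z + (b / (1 + b * c)) • y) := by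
    rw [smul_add, smul_add, smul_smul, smul_smul, add_smul, one_smul,
      mul_div_cancel₀ _ hb1.ne']
    abel
  rw [h4, eval_smul' hd, eval_expand_m hm, div_pow]
  (clear * - hb' hb1; field_simp)

/-- points in the interior of the tangent cone lead into the interior of the cone -/
theorem eventually_inOpen_of_part (hp : IsHyperbolic p e) {z : Fin n → ℝ}
    (hz : z ∈ hypCone p e) {m : ℕ}
    (hm : ∀ k < m, part p z k = 0) (he : 0 < MvPolynomial.eval e (part p z m))
    {w : Fin n → ℝ} (hw : InOpen (part p z m) e w) :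
    ∃ b₀ : ℝ, 0 < b₀ ∧ ∀ b : ℝ, 0 < b → b < b₀ → InOpen p e (z + b • w) := by
  have hq := part_hyp hp hm he
  -- the segment from `e` to `w`
  set γ : ℝ → (Fin n → ℝ) := fun τ => (1 - τ) • e + τ • w with hγ
  have hγc : Continuous γ := by rw [hγ]; fun_prop
  have hpos : ∀ τ ∈ Set.Icc (0 : ℝ) 1, 0 < MvPolynomial.eval (γ τ) (part p z m) := by
    intro τ hτ
    have h1 : InOpen (part p z m) e (γ τ) :=
      InOpen.comb_e hq hw (by linarith [hτ.2]) hτ.1 (by linarith)
    exact (open_mono hq h1 0 le_rfl).1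
  have hev : ∀ᶠ b : ℝ in 𝓝 0, ∀ τ ∈ Set.Icc (0 : ℝ) 1, 0 < blR p z m b (γ τ) := by
    apply isCompact_Icc.eventually_forall_of_forall_eventually
    intro τ hτ
    have hc : Continuous (fun q : ℝ × ℝ => blR p z m q.1 (γ q.2)) :=
      (continuous_blR p z m).comp (Continuous.prodMk continuous_fst (hγc.comp continuous_snd))
    have h2 := hc.tendsto (0, τ)
    apply h2.eventually_const_lt
    simp only
    rw [blR_zero]
    exact hpos τ hτ
  obtain ⟨b₀, hb₀, hball⟩ := Metric.eventually_nhds_iff.1 hev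
  refine ⟨b₀, hb₀, ?_⟩
  intro b hb hbb
  have hb2 : ∀ τ ∈ Set.Icc (0 : ℝ) 1, 0 < blR p z m b (γ τ) :=
    hball (by rw [Real.dist_eq, sub_zero, abs_of_pos hb]; exact hbb)
  set cl : ℝ → ℝ := fun τ => max 0 (min τ 1) with hcl
  have hclc : Continuous cl := by rw [hcl]; fun_prop
  have hclI : ∀ τ, cl τ ∈ Set.Icc (0 : ℝ) 1 := by
    intro τ
    refine ⟨le_max_left _ _, max_le zero_le_one (min_le_right _ _)⟩
  have key := path_lemma (p := p) (c := fun _ => e) (b := fun τ => z + b • γ (cl τ))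
    continuous_const (by fun_prop) (fun _ => hp)
    (by
      intro τ
      rw [eval_expand_m hm]
      exact (mul_pos (pow_pos hb m) (hb2 _ (hclI τ))).ne')
    (τ₀ := 0) (by
      have h0 : cl 0 = 0 := by rw [hcl]; simp
      have h1 : γ 0 = e := by rw [hγ]; simp
      show InOpen p e (z + b • γ (cl 0))
      rw [h0, h1]
      exact (mem_K_iff hp z).1 hz b hb) 1
  have h0 : cl 1 = 1 := by rw [hcl]; simp only [min_self, zero_le_one, sup_of_le_right]
  have h1 : γ 1 = w := by rw [hγ]; simp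
  have key' : InOpen p e (z + b • γ (cl 1)) := key
  rw [h0, h1] at key'
  exact key'

end Vale.Agent.P256
end

section

/-! Facts at smooth boundary points, and rigidity of the tangent cone. -/

namespace Vale.Agent.P256

open Polynomial Filter Topology

variable {n : ℕ} {p : MvPolynomial (Fin n) ℝ} {e : Fin n → ℝ}

/-- directional derivative of the blow-up -/
noncomputable def blD (p : MvPolynomial (Fin n) ℝ) (z : Fin n → ℝ) (m : ℕ) (v : Fin n → ℝ)
    (b : ℝ) (u : Fin n → ℝ) : ℝ :=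
  ∑ k ∈ Finset.range (pdeg p z), b ^ k * dd (part p z (m + k)) u v

theorem dd_expand_m {z : Fin n → ℝ} {m : ℕ} (hm1 : 1 ≤ m) (hm : ∀ k < m, part p z k = 0) (b : ℝ)
    (u v : Fin n → ℝ) : dd p (z + b • u) v = b ^ (m - 1) * blD p z m v b u := by
  rw [dd_expand]
  have hzero : ∀ k, part p z k = 0 → dd (part p z k) (b • u) v = 0 := by
    intro k hk
    rw [hk, ← eval_dirD, dirD_zero, map_zero]
  have h1 : ∑ k ∈ Finset.range (pdeg p z), dd (part p z k) (b • u) v =
      ∑ k ∈ Finset.range (m + pdeg p z), dd (part p z k) (b • u) v := by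
    apply Finset.sum_subset
    · intro k hk
      rw [Finset.mem_range] at *
      omega
    · intro k _ hk
      rw [Finset.mem_range, not_lt] at hk
      exact hzero k (part_eq_zero_of_ge p z hk)
  rw [h1, Finset.sum_range_add]
  have h2 : ∑ k ∈ Finset.range m, dd (part p z k) (b • u) v = 0 := by
    apply Finset.sum_eq_zero
    intro k hk
    exact hzero k (hm k (Finset.mem_range.1 hk))
  rw [h2, zero_add]
  unfold blD
  rw [Finset.mul_sum]
  apply Finset.sum_congr rfl
  intro k _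
  rw [dd_smul_left (part_homog p z (m + k)), ← mul_assoc, ← pow_add]
  congr 2
  omega

theorem blD_zero (p : MvPolynomial (Fin n) ℝ) (z : Fin n → ℝ) (m : ℕ) (v u : Fin n → ℝ) :
    blD p z m v 0 u = dd (part p z m) u v := by
  unfold blD
  rw [Finset.sum_eq_single 0]
  · simp
  · intro k _ hk
    rw [zero_pow hk, zero_mul]
  · intro h
    exact absurd (Finset.mem_range.2 (by unfold pdeg; omega)) h

theorem continuous_blD (p : MvPolynomial (Fin n) ℝ) (z : Fin n → ℝ) (m : ℕ) (v : Fin n → ℝ) :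
    Continuous (fun q : ℝ × (Fin n → ℝ) => blD p z m v q.1 q.2) := by
  unfold blD
  apply continuous_finsetSum
  intro k _
  exact (continuous_fst.pow k).mul ((continuous_dd (part p z (m + k)) v).comp continuous_snd)

/-- restriction of the blow-up to a line -/
theorem hasDeriv_blR (p : MvPolynomial (Fin n) ℝ) (z : Fin n → ℝ) (m : ℕ) (u v : Fin n → ℝ)
    (b s : ℝ) :
    HasDerivAt (fun s : ℝ => blR p z m b (u + s • v)) (blD p z m v b (u + s • v)) s := by
  unfold blR blD
  apply HasDerivAt.fun_sum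
  intro k _
  apply HasDerivAt.const_mul
  have := (line (part p z (m + k)) u v).hasDerivAt s
  rw [eval_derivative_line] at this
  refine this.congr_of_eventuallyEq ?_
  filter_upwards with t
  rw [eval_line]
  rfl

/-- If `p` vanishes on a ray `z + t u`, `u` a smooth boundary point of the tangent cone, then the
ray stays in the cone near `z`. -/
theorem conic_line_in_K (hp : IsHyperbolic p e) {z : Fin n → ℝ} (hz : z ∈ hypCone p e) {m : ℕ}
    (hm : ∀ k < m, part p z k = 0) (he : 0 < MvPolynomial.eval e (part p z m)) {u : Fin n → ℝ}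
    (hu : u ∈ hypCone (part p z m) e)
    (hs : 0 < dd (part p z m) u e) (hv : ∀ t : ℝ, MvPolynomial.eval (z + t • u) p = 0) :
    ∃ t₀ : ℝ, 0 < t₀ ∧ ∀ t : ℝ, 0 < t → t < t₀ → z + t • u ∈ hypCone p e := by
  obtain ⟨d, hd⟩ := hp.1
  have hq := part_hyp hp hm he
  -- positivity of the derivative near `(0,0)`
  have hc : Continuous (fun q : ℝ × ℝ => blD p z m e q.1 (u + q.2 • e)) :=
    (continuous_blD p z m e).comp (Continuous.prodMk continuous_fst (by fun_prop))
  have hpos : ∀ᶠ q : ℝ × ℝ in 𝓝 (0, 0), 0 < blD p z m e q.1 (u + q.2 • e) := by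
    apply (hc.tendsto (0, 0)).eventually_const_lt
    simp only
    rw [blD_zero, zero_smul, add_zero]
    exact hs
  obtain ⟨r, hr, hball⟩ := Metric.eventually_nhds_iff.1 hpos
  set σ := r / 2 with hσ
  have hσ0 : 0 < σ := by positivity
  obtain ⟨b₀, hb₀, hb⟩ := eventually_inOpen_of_part hp hz hm he ((mem_K_iff hq u).1 hu σ hσ0)
  refine ⟨min b₀ σ, lt_min hb₀ hσ0, ?_⟩
  intro b hb0 hbb
  have hb1 : b < b₀ := lt_of_lt_of_le hbb (min_le_left _ _)
  have hb2 : b < σ := lt_of_lt_of_le hbb (min_le_right _ _)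
  rw [mem_hypCone_iff hd]
  intro t ht
  by_cases hts : b * σ ≤ t
  · have h1 := hb b hb0 hb1 (t - b * σ) (by linarith only [hts])
    have h2 : z + b • (u + σ • e) + (t - b * σ) • e = z + b • u + t • e := by
      rw [smul_add, smul_smul, sub_smul]; abel
    rwa [h2] at h1
  · push Not at hts
    have hs0 : 0 < t / b := by (clear * - ht hb0; positivity)
    have hs1 : t / b < σ := by rw [div_lt_iff₀ hb0]; linarith only [hts]
    have hmono : StrictMonoOn (fun s : ℝ => blR p z m b (u + s • e)) (Set.Icc 0 σ) := by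
      apply strictMonoOn_of_deriv_pos (convex_Icc 0 σ)
      · intro s _
        exact (hasDeriv_blR p z m u e b s).continuousAt.continuousWithinAt
      · intro s hs'
        rw [interior_Icc] at hs'
        rw [(hasDeriv_blR p z m u e b s).deriv]
        apply hball (y := (b, s))
        rw [Prod.dist_eq, max_lt_iff]
        simp only [Real.dist_eq, sub_zero]
        rw [abs_of_pos hb0, abs_of_pos hs'.1]
        constructor <;> linarith only [hσ, hb0, hb2, hs'.2]
    have h3 := hmono ⟨le_rfl, hσ0.le⟩ ⟨hs0.le, hs1.le⟩ hs0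
    simp only [zero_smul, add_zero] at h3
    have h4 : blR p z m b u = 0 := by
      have := hv b
      rw [eval_expand_m hm] at this
      exact (mul_eq_zero.1 this).resolve_left (by (clear * - hb0; positivity))
    rw [h4] at h3
    have h5 : z + b • u + t • e = z + b • (u + (t / b) • e) := by
      rw [smul_add, smul_smul, mul_div_cancel₀ _ hb0.ne']; abel
    rw [h5, eval_expand_m hm]
    have : 0 < b ^ m := by positivity
    exact (mul_pos this h3).ne'

/-- if `v` and `-v` are in the cone of a hyperbolic polynomial of degree `m ≥ 2` then `v` is a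
singular zero -/
theorem lineality_singular {q : MvPolynomial (Fin n) ℝ} (hq : IsHyperbolic q e) {m : ℕ}
    (hm2 : 2 ≤ m) (hd : q.IsHomogeneous m) {v : Fin n → ℝ} (hv : v ∈ hypCone q e)
    (hv' : -v ∈ hypCone q e) : MvPolynomial.eval v q = 0 ∧ dd q v e = 0 := by
  have h1 : ∀ s : ℝ, 0 ≤ s → (line q v e).eval s = s ^ m * MvPolynomial.eval e q := by
    intro s hs
    have hse : s • e ∈ hypCone q e := K_smul hq ((e_inOpen hq).mem hq) hs
    have a1 := K_mono hq hse hv
    have a2 := K_mono hq (K_add hq hse hv) hv'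
    have a3 : s • e + v + -v = s • e := by abel
    rw [a3] at a2
    rw [eval_line, add_comm v, ← eval_smul' hd]
    exact le_antisymm a2 a1
  have h2 : line q v e = C (MvPolynomial.eval e q) * X ^ m := by
    apply Polynomial.eq_of_infinite_eval_eq
    apply Set.Infinite.mono (s := Set.Ici (0 : ℝ)) _ (Set.Ici_infinite 0)
    intro s hs
    simp only [Set.mem_ofPred_eq, eval_mul, eval_C, eval_pow, eval_X]
    rw [h1 s hs, mul_comm]
  constructor
  · have h3 := h1 0 le_rfl
    rw [eval_line, zero_smul, add_zero, zero_pow (by omega), zero_mul] at h3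
    exact h3
  · have h3 := eval_derivative_line q v e 0
    rw [h2, zero_smul, add_zero] at h3
    rw [← h3]
    simp only [derivative_C_mul, derivative_X_pow, eval_mul, eval_C, eval_pow, eval_X]
    rw [zero_pow (by omega)]
    ring

theorem mem_span1 {z x : Fin n → ℝ} : x ∈ Submodule.span ℝ {z} ↔ ∃ c : ℝ, x = c • z := by
  rw [Submodule.mem_span_singleton]
  constructor
  · rintro ⟨c, rfl⟩; exact ⟨c, rfl⟩
  · rintro ⟨c, rfl⟩; exact ⟨c, rfl⟩

/-- Rigidity of the tangent cone. -/
theorem tangent_rigid {q : MvPolynomial (Fin n) ℝ} (hq : IsHyperbolic q e) {m : ℕ}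
    (hm2 : 2 ≤ m) (hd : q.IsHomogeneous m) {z : Fin n → ℝ}
    (hloc : ∀ v ∈ hypCone q e, MvPolynomial.eval v q = 0 → v ∉ Submodule.span ℝ {z} →
      IsSmoothPoint q v) {u v : Fin n → ℝ} (hu : u ∈ hypCone q e)
    (huz : u ∉ Submodule.span ℝ {z})
    (hv : ∀ t : ℝ, MvPolynomial.eval (u + t • v) q = 0) :
    ∃ a b : ℝ, v = a • z + b • u := by
  by_contra hne
  push Not at hne
  have hvz : v ∉ Submodule.span ℝ {z} := by
    rw [mem_span1]
    rintro ⟨c, rfl⟩
    exact hne c 0 (by simp)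
  have hnotin : ∀ t : ℝ, u + t • v ∉ Submodule.span ℝ {z} := by
    intro t
    rw [mem_span1]
    rintro ⟨c, hc⟩
    by_cases ht : t = 0
    · subst ht
      apply huz
      rw [mem_span1]
      exact ⟨c, by simpa using hc⟩
    · apply hne (t⁻¹ * c) (- t⁻¹)
      have : t • v = c • z - u := by rw [← hc]; abel
      rw [mul_smul, neg_smul, ← sub_eq_add_neg, ← smul_sub, ← this, smul_smul,
        inv_mul_cancel₀ ht, one_smul]
  set J : Set ℝ := {t | u + t • v ∈ hypCone q e} with hJ
  have hJc : IsClosed J := (isClosed_K hq).preimage (by fun_prop)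
  have hJo : IsOpen J := by
    rw [Metric.isOpen_iff]
    intro t ht
    have hs := dd_e_pos hq ht (hv t) (hloc _ ht (hv t) (hnotin t))
    obtain ⟨t₀, ht₀, h⟩ := line_in_K hq ht hs (v := v) (by
      intro s
      have : u + t • v + s • v = u + (t + s) • v := by rw [add_smul]; abel
      rw [this]; exact hv _)
    refine ⟨t₀, ht₀, fun s hs' => ?_⟩
    rw [Metric.mem_ball, Real.dist_eq] at hs'
    have := h (s - t) hs'.le
    have e1 : u + t • v + (s - t) • v = u + s • v := by rw [sub_smul]; abel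
    rw [e1] at this
    exact this
  have hJu : J = Set.univ := by
    have h0 : (0 : ℝ) ∈ J := by rw [hJ]; simpa using hu
    exact IsClopen.eq_univ ⟨hJc, hJo⟩ ⟨0, h0⟩
  have hdir : ∀ w : Fin n → ℝ, (∀ t : ℝ, 0 < t → u + t • w ∈ hypCone q e) → w ∈ hypCone q e := by
    intro w hw
    have h1 : ∀ k : ℕ, ((k : ℝ) + 1)⁻¹ • u + w ∈ hypCone q e := by
      intro k
      have hk : (0 : ℝ) < (k : ℝ) + 1 := by (clear * -; positivity)
      have := K_smul hq (hw ((k : ℝ) + 1) hk) (inv_pos.2 hk).le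
      rwa [smul_add, smul_smul, inv_mul_cancel₀ hk.ne', one_smul] at this
    apply (isClosed_K hq).mem_of_tendsto (b := atTop) _ (Eventually.of_forall h1)
    have h2 : Tendsto (fun k : ℕ => ((k : ℝ) + 1)⁻¹) atTop (𝓝 0) := by
      have := tendsto_one_div_add_atTop_nhds_zero_nat (𝕜 := ℝ)
      simpa only [one_div] using this
    have h3 := (h2.smul_const u).add_const w
    rwa [zero_smul, zero_add] at h3
  have hv1 : v ∈ hypCone q e := by
    apply hdir
    intro t _
    have : t ∈ J := by rw [hJu]; trivial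
    exact this
  have hv2 : -v ∈ hypCone q e := by
    apply hdir
    intro t _
    have : -t ∈ J := by rw [hJu]; trivial
    have h3 : u + (-t) • v ∈ hypCone q e := this
    rwa [neg_smul, ← smul_neg] at h3
  have hl := lineality_singular hq hm2 hd hv1 hv2
  have := dd_e_pos hq hv1 hl.1 (hloc v hv1 hl.1 hvz)
  rw [hl.2] at this
  exact lt_irrefl _ this

/-- if the derivative of `q` at the smooth boundary point `u` in the direction `x ∈ K` vanishes, then
`q` vanishes on the line -/
theorem zero_line_of_dd (hp : IsHyperbolic p e) {z x : Fin n → ℝ} (hz : z ∈ hypCone p e)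
    (hz0 : MvPolynomial.eval z p = 0) (hs : 0 < dd p z e) (hx : x ∈ hypCone p e)
    (h0 : dd p z x = 0) : ∀ t : ℝ, MvPolynomial.eval (z + t • x) p = 0 := by
  have hc := curvature hp hz hz0 hs h0
  apply hc.2
  apply le_antisymm hc.1
  -- second derivative of a nonnegative function with vanishing value and first derivative
  set f := line p z x with hf
  have hf0 : f.eval 0 = 0 := by rw [hf, eval_line]; simpa only [zero_smul, add_zero] using hz0
  have hf1 : (derivative f).eval 0 = 0 := by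
    rw [hf, eval_derivative_line]; simpa using h0
  have hfn : ∀ t : ℝ, 0 < t → 0 ≤ f.eval t := by
    intro t ht
    rw [hf, eval_line]
    exact K_eval_nonneg hp (K_add hp hz (K_smul hp hx ht.le))
  have e1 := eq_X_mul_divX hf0
  have e2 : f.divX.eval 0 = 0 := by rw [eval_divX_zero hf0, hf1]
  have e3 : ∀ t : ℝ, 0 < t → 0 ≤ f.divX.eval t := by
    intro t ht
    have := hfn t ht
    rw [e1, eval_mul, eval_X] at this
    exact nonneg_of_mul_nonneg_right this ht
  have e4 := deriv_nonneg_of_nonneg e2 e3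
  have e5 : dd2 p z x = 2 * (derivative f.divX).eval 0 := by
    have : dd2 p z x = (derivative (derivative f)).eval 0 := by
      rw [hf, eval_derivative2_line, dd2_eq_eval]; simp
    rw [this]
    conv_lhs => rw [e1]
    simp
    ring
  rw [e5]
  (clear * - e4; positivity)

theorem linInd_of_not_span {x y : Fin n → ℝ} (hx : x ≠ 0) (hy : y ∉ Submodule.span ℝ {x}) :
    LinearIndependent ℝ ![x, y] := by
  rw [LinearIndependent.pair_iff' hx]
  intro a ha
  exact hy (Submodule.mem_span_singleton.2 ⟨a, ha⟩)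

end Vale.Agent.P256
end

section

/-! The polynomial `(z,b,ν) ↦ b^{-m} p(z+bν)` along an equimultiple stratum. -/

namespace Vale.Agent.P256

open Filter Topology MvPolynomial

set_option linter.unusedSectionVars false

theorem pderiv_comm' {σ : Type*} (i j : σ) (p : MvPolynomial σ ℝ) :
    pderiv i (pderiv j p) = pderiv j (pderiv i p) := by
  classical
  induction p using MvPolynomial.induction_on with
  | C a => simp
  | add p q hp hq => simp only [map_add, hp, hq]
  | mul_X p k hp =>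
    have hX : ∀ a b : σ, pderiv a (pderiv b (X k : MvPolynomial σ ℝ)) = 0 := by
      intro a b
      rw [pderiv_X, Pi.single_apply]
      split_ifs <;> simp
    simp only [Derivation.leibniz, smul_eq_mul, map_add, hp, hX]
    ring

variable {n : ℕ}

/-- the directional derivative as a linear operator -/
noncomputable def DL (v : Fin n → ℝ) : Module.End ℝ (MvPolynomial (Fin n) ℝ) :=
  ∑ i, v i • (pderiv i : Derivation ℝ (MvPolynomial (Fin n) ℝ) (MvPolynomial (Fin n) ℝ)).toLinearMap

theorem DL_eq (v : Fin n → ℝ) (p : MvPolynomial (Fin n) ℝ) :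
    DL v p = ∑ i, v i • pderiv i p := by
  simp only [DL, LinearMap.sum_apply, LinearMap.smul_apply, Derivation.coeFn_coe]

theorem DL_apply (v : Fin n → ℝ) (p : MvPolynomial (Fin n) ℝ) : DL v p = dirD p v := by
  rw [DL_eq, dirD]
  refine Finset.sum_congr rfl fun i _ => ?_
  rw [MvPolynomial.smul_eq_C_mul]

theorem DL_comm (v w : Fin n → ℝ) : Commute (DL v) (DL w) := by
  refine LinearMap.ext fun p => ?_
  show DL v (DL w p) = DL w (DL v p)
  rw [DL_eq w p, DL_eq v p, map_sum, map_sum]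
  simp only [map_smul, DL_eq, Finset.smul_sum]
  rw [Finset.sum_comm]
  refine Finset.sum_congr rfl fun i _ => Finset.sum_congr rfl fun j _ => ?_
  rw [pderiv_comm' j i, smul_comm]

theorem DL_add (v w : Fin n → ℝ) : DL (v + w) = DL v + DL w := by
  simp only [DL, Pi.add_apply, add_smul, Finset.sum_add_distrib]

theorem DL_smul (c : ℝ) (v : Fin n → ℝ) : DL (c • v) = c • DL v := by
  simp only [DL, Pi.smul_apply, smul_eq_mul, mul_smul, Finset.smul_sum]

theorem iterate_derivative_line (p : MvPolynomial (Fin n) ℝ) (x v : Fin n → ℝ) (k : ℕ) :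
    Polynomial.derivative^[k] (line p x v) = line ((DL v ^ k) p) x v := by
  induction k generalizing p with
  | zero => rfl
  | succ k ih =>
    rw [Function.iterate_succ_apply, derivative_line, ← DL_apply, ih, pow_succ]
    rfl

theorem eval_DL_pow (p : MvPolynomial (Fin n) ℝ) (z v : Fin n → ℝ) (k : ℕ) :
    eval z ((DL v ^ k) p) = k.factorial * eval v (part p z k) := by
  have h1 := congrArg (Polynomial.eval 0) (iterate_derivative_line p z v k)
  rw [eval_line, zero_smul, add_zero, ← Polynomial.coeff_zero_eq_eval_zero,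
    Polynomial.coeff_iterate_derivative, zero_add, coeff_line, Nat.descFactorial_self,
    nsmul_eq_mul] at h1
  exact h1.symm

/-- the polynomial `D_ν^k p (z)` in the variables `z`, `ν` -/
noncomputable def Fp : ℕ → MvPolynomial (Fin n) ℝ → MvPolynomial (Fin n ⊕ Option (Fin n)) ℝ
  | 0, p => rename Sum.inl p
  | k + 1, p => ∑ i, X (Sum.inr (some i)) * Fp k (pderiv i p)

theorem eval_Fp (k : ℕ) (p : MvPolynomial (Fin n) ℝ) (w : Fin n ⊕ Option (Fin n) → ℝ) :
    eval w (Fp k p) = eval (zp w) ((DL (np w) ^ k) p) := by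
  induction k generalizing p with
  | zero =>
    show eval w (rename Sum.inl p) = eval (zp w) p
    rw [eval_rename]; rfl
  | succ k ih =>
    show eval w (∑ i, X (Sum.inr (some i)) * Fp k (pderiv i p)) = _
    rw [map_sum, pow_succ]
    show _ = eval (zp w) ((DL (np w) ^ k) (DL (np w) p))
    rw [DL_eq (np w) p, map_sum, map_sum]
    refine Finset.sum_congr rfl fun i _ => ?_
    rw [map_mul, eval_X, ih, map_smul, smul_eval]
    rfl

theorem eval_Fp' (k : ℕ) (p : MvPolynomial (Fin n) ℝ) (w : Fin n ⊕ Option (Fin n) → ℝ) :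
    eval w (Fp k p) = k.factorial * eval (np w) (part p (zp w) k) := by
  rw [eval_Fp, eval_DL_pow]

theorem pderiv_inl_Fp (k : ℕ) (p : MvPolynomial (Fin n) ℝ) (i : Fin n) :
    pderiv (Sum.inl i) (Fp k p) = Fp k (pderiv i p) := by
  induction k generalizing p with
  | zero => exact pderiv_rename (R := ℝ) (f := (Sum.inl : Fin n → Fin n ⊕ Option (Fin n))) Sum.inl_injective i p
  | succ k ih =>
    show pderiv (Sum.inl i) (∑ j, X (Sum.inr (some j)) * Fp k (pderiv j p)) =
      ∑ j, X (Sum.inr (some j)) * Fp k (pderiv j (pderiv i p))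
    rw [map_sum]
    refine Finset.sum_congr rfl fun j _ => ?_
    rw [Derivation.leibniz, pderiv_X_of_ne (by simp), smul_zero, add_zero, smul_eq_mul, ih,
      pderiv_comm']

theorem pderiv_rename_inl (q : MvPolynomial (Fin n) ℝ) (i : Option (Fin n)) :
    pderiv (Sum.inr i) (rename Sum.inl q : MvPolynomial (Fin n ⊕ Option (Fin n)) ℝ) = 0 := by
  apply pderiv_eq_zero_of_notMem_vars
  intro h
  have := vars_rename (Sum.inl : Fin n → Fin n ⊕ Option (Fin n)) q h
  simp only [Finset.mem_image, reduceCtorEq, and_false, exists_false] at this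

theorem pderiv_none_Fp (k : ℕ) (p : MvPolynomial (Fin n) ℝ) :
    pderiv (Sum.inr none) (Fp k p) = 0 := by
  induction k generalizing p with
  | zero => exact pderiv_rename_inl p none
  | succ k ih =>
    show pderiv (Sum.inr none) (∑ j, X (Sum.inr (some j)) * Fp k (pderiv j p)) = 0
    rw [map_sum]
    refine Finset.sum_eq_zero fun j _ => ?_
    rw [Derivation.leibniz, pderiv_X_of_ne (by simp), smul_zero, add_zero, smul_eq_mul, ih,
      mul_zero]

theorem pderiv_some_Fp (k : ℕ) (p : MvPolynomial (Fin n) ℝ) (i : Fin n) :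
    pderiv (Sum.inr (some i)) (Fp (k + 1) p) = (k + 1 : ℝ) • Fp k (pderiv i p) := by
  have step : ∀ (k : ℕ) (p : MvPolynomial (Fin n) ℝ), pderiv (Sum.inr (some i)) (Fp (k + 1) p) =
      Fp k (pderiv i p) + ∑ j, X (Sum.inr (some j)) * pderiv (Sum.inr (some i))
        (Fp k (pderiv j p)) := by
    intro k p
    show pderiv (Sum.inr (some i)) (∑ j, X (Sum.inr (some j)) * Fp k (pderiv j p)) = _
    rw [map_sum]
    simp only [Derivation.leibniz, smul_eq_mul, pderiv_X, Finset.sum_add_distrib]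
    rw [add_comm]
    congr 1
    rw [Finset.sum_eq_single i]
    · simp
    · intro j _ hj
      rw [Pi.single_eq_of_ne (by simpa using hj), mul_zero]
    · simp only [Finset.mem_univ, not_true_eq_false, Pi.single_eq_same, mul_one, IsEmpty.forall_iff]
  induction k generalizing p with
  | zero =>
    rw [step]
    have : ∑ j, X (Sum.inr (some j)) * pderiv (Sum.inr (some i)) (Fp 0 (pderiv j p)) = 0 := by
      refine Finset.sum_eq_zero fun j _ => ?_
      show _ * pderiv (Sum.inr (some i)) (rename Sum.inl (pderiv j p)) = 0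
      rw [pderiv_rename_inl, mul_zero]
    rw [this]; simp
  | succ k ih =>
    rw [step]
    have : ∑ j, X (Sum.inr (some j)) * pderiv (Sum.inr (some i)) (Fp (k + 1) (pderiv j p)) =
        (k + 1 : ℝ) • Fp (k + 1) (pderiv i p) := by
      show _ = (k + 1 : ℝ) • ∑ j, X (Sum.inr (some j)) * Fp k (pderiv j (pderiv i p))
      rw [Finset.smul_sum]
      refine Finset.sum_congr rfl fun j _ => ?_
      rw [ih, pderiv_comm' i j, mul_smul_comm]
    rw [this]
    push_cast
    rw [add_smul (k + 1 : ℝ) 1, one_smul, add_comm]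

/-- the polynomial `b^{-m} p(z + b ν)` -/
noncomputable def stP (p : MvPolynomial (Fin n) ℝ) (m N : ℕ) :
    MvPolynomial (Fin n ⊕ Option (Fin n)) ℝ :=
  ∑ j ∈ Finset.range (N + 1), ((m + j).factorial : ℝ)⁻¹ • (X (Sum.inr none) ^ j * Fp (m + j) p)

theorem eval_stP (p : MvPolynomial (Fin n) ℝ) (m N : ℕ) (w : Fin n ⊕ Option (Fin n) → ℝ) :
    eval w (stP p m N) = ∑ j ∈ Finset.range (N + 1),
      bp w ^ j * (((m + j).factorial : ℝ)⁻¹ * eval w (Fp (m + j) p)) := by
  unfold stP
  rw [map_sum]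
  refine Finset.sum_congr rfl fun j _ => ?_
  rw [smul_eval, map_mul, map_pow, eval_X]
  show _ * (bp w ^ j * _) = _
  ring

theorem eval_stP' (p : MvPolynomial (Fin n) ℝ) (m N : ℕ) (w : Fin n ⊕ Option (Fin n) → ℝ) :
    eval w (stP p m N) = ∑ j ∈ Finset.range (N + 1),
      bp w ^ j * eval (np w) (part p (zp w) (m + j)) := by
  rw [eval_stP]
  refine Finset.sum_congr rfl fun j _ => ?_
  rw [eval_Fp', inv_mul_cancel_left₀ (by positivity)]

theorem pderiv_inl_stP (p : MvPolynomial (Fin n) ℝ) (m N : ℕ) (i : Fin n) :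
    pderiv (Sum.inl i) (stP p m N) = stP (pderiv i p) m N := by
  unfold stP
  rw [map_sum]
  refine Finset.sum_congr rfl fun j _ => ?_
  rw [Derivation.map_smul, Derivation.leibniz, pderiv_pow, pderiv_X_of_ne (by simp),
    pderiv_inl_Fp]
  simp only [smul_eq_mul, mul_zero, add_zero]

theorem pderiv_some_stP (p : MvPolynomial (Fin n) ℝ) (m N : ℕ) (i : Fin n) :
    pderiv (Sum.inr (some i)) (stP p (m + 1) N) = stP (pderiv i p) m N := by
  unfold stP
  rw [map_sum]
  refine Finset.sum_congr rfl fun j _ => ?_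
  have e1 : m + 1 + j = (m + j) + 1 := by omega
  rw [e1, Derivation.map_smul, Derivation.leibniz, pderiv_pow, pderiv_X_of_ne (by simp),
    pderiv_some_Fp, mul_zero, smul_zero, add_zero, smul_eq_mul, mul_smul_comm, smul_smul]
  congr 1
  rw [Nat.factorial_succ]
  push_cast
  have : ((m + j).factorial : ℝ) ≠ 0 := by positivity
  have h2 : ((m : ℝ) + j + 1) ≠ 0 := by (clear * -; positivity)
  field_simp

theorem eval_pderiv_none_stP (p : MvPolynomial (Fin n) ℝ) (m N : ℕ)
    (w : Fin n ⊕ Option (Fin n) → ℝ) :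
    eval w (pderiv (Sum.inr none) (stP p m N)) = ∑ j ∈ Finset.range (N + 1),
      (j : ℝ) * bp w ^ (j - 1) * (((m + j).factorial : ℝ)⁻¹ * eval w (Fp (m + j) p)) := by
  unfold stP
  rw [map_sum, map_sum]
  refine Finset.sum_congr rfl fun j _ => ?_
  rw [Derivation.map_smul, Derivation.leibniz, pderiv_pow, pderiv_none_Fp, smul_zero, zero_add,
    smul_eval]
  simp only [smul_eq_mul, map_mul, map_pow, eval_X, pderiv_X_self, mul_one, map_natCast]
  show _ = (j : ℝ) * bp w ^ (j - 1) * _
  unfold bp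
  ring

/-- degree bound -/
theorem part_eq_zero_of_homog {d : ℕ} {q : MvPolynomial (Fin n) ℝ} (hq : q.IsHomogeneous d)
    (z : Fin n → ℝ) {k : ℕ} (hk : d < k) (v : Fin n → ℝ) : eval v (part q z k) = 0 := by
  rw [← coeff_line]
  exact Polynomial.coeff_eq_zero_of_natDegree_lt (lt_of_le_of_lt (line_top hq z v).1 hk)

theorem homog_pderiv {d : ℕ} {q : MvPolynomial (Fin n) ℝ} (hq : q.IsHomogeneous d)
    (i : Fin n) : (pderiv i q).IsHomogeneous (d - 1) := hq.pderiv

theorem stP_hX {d : ℕ} {p : MvPolynomial (Fin n) ℝ} (hp : p.IsHomogeneous d) (m : ℕ) {N : ℕ}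
    (hN : d ≤ N) (w : Fin n ⊕ Option (Fin n) → ℝ) (i : Fin n) :
    eval w (pderiv (Sum.inr (some i)) (stP p (m + 1) N)) =
      ((m.factorial : ℝ)⁻¹ * eval w (Fp m (pderiv i p))) +
        bp w * eval w (pderiv (Sum.inl i) (stP p (m + 1) N)) := by
  rw [pderiv_some_stP, pderiv_inl_stP, eval_stP, eval_stP, Finset.sum_range_succ',
    Finset.sum_range_succ _ N]
  have h0 : eval w (Fp (m + 1 + N) (pderiv i p)) = 0 := by
    rw [eval_Fp', part_eq_zero_of_homog (homog_pderiv hp i) _ (by omega), mul_zero]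
  rw [h0]
  simp only [mul_zero, add_zero, pow_zero, one_mul]
  rw [add_comm, Finset.mul_sum]
  congr 1
  refine Finset.sum_congr rfl fun j _ => ?_
  have e1 : m + (j + 1) = m + 1 + j := by omega
  rw [e1, pow_succ]
  ring

theorem stP_hE {p : MvPolynomial (Fin n) ℝ} (m N : ℕ)
    (w : Fin n ⊕ Option (Fin n) → ℝ) :
    ∑ i, eval w (pderiv (Sum.inr (some i)) (stP p (m + 1) N)) * np w i =
      (m + 1) * eval w (stP p (m + 1) N) + bp w * eval w (pderiv (Sum.inr none) (stP p (m + 1) N)) := by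
  have h1 : ∀ i, eval w (pderiv (Sum.inr (some i)) (stP p (m + 1) N)) * np w i =
      ∑ j ∈ Finset.range (N + 1), bp w ^ j * (((m + j).factorial : ℝ)⁻¹ *
        (np w i * eval w (Fp (m + j) (pderiv i p)))) := by
    intro i
    rw [pderiv_some_stP, eval_stP, Finset.sum_mul]
    refine Finset.sum_congr rfl fun j _ => ?_
    ring
  rw [Finset.sum_congr rfl fun i _ => h1 i, Finset.sum_comm, eval_stP, eval_pderiv_none_stP,
    Finset.mul_sum, Finset.mul_sum, ← Finset.sum_add_distrib]
  refine Finset.sum_congr rfl fun j _ => ?_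
  have h2 : eval w (Fp (m + j + 1) p) = ∑ i, np w i * eval w (Fp (m + j) (pderiv i p)) := by
    show eval w (∑ i, X (Sum.inr (some i)) * Fp (m + j) (pderiv i p)) = _
    rw [map_sum]
    refine Finset.sum_congr rfl fun i _ => ?_
    rw [map_mul, eval_X]; rfl
  rw [← Finset.mul_sum, ← Finset.mul_sum, ← h2]
  have e1 : m + 1 + j = (m + j) + 1 := by omega
  rw [e1, Nat.factorial_succ]
  push_cast
  have h3 : ((m + j).factorial : ℝ) ≠ 0 := by positivity
  have h4 : ((m : ℝ) + j + 1) ≠ 0 := by (clear * -; positivity)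
  rcases j with _ | j
  · simp only [pow_zero, Nat.cast_zero, zero_mul, mul_zero, add_zero, one_mul]
    simp only [Nat.cast_zero, add_zero] at h4
    field_simp
  · have e2 : j + 1 - 1 = j := rfl
    rw [e2, pow_succ]
    field_simp
    push_cast
    ring

end Vale.Agent.P256
end

section

/-! Facts at conical boundary points. -/

namespace Vale.Agent.P256

open Polynomial Filter Topology

variable {n : ℕ} {p : MvPolynomial (Fin n) ℝ} {e : Fin n → ℝ}

theorem isClosed_dirS (hp : IsHyperbolic p e) {z : Fin n → ℝ} {m : ℕ}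
    (hm : ∀ k < m, part p z k = 0) (he : 0 < MvPolynomial.eval e (part p z m)) :
    IsClosed (dirS p e z m) := by
  have hq := part_hyp hp hm he
  have h1 := isClosed_K hq
  have h2 : IsClosed {u : Fin n → ℝ | MvPolynomial.eval u (part p z m) = 0} :=
    isClosed_eq (continuous_eval _) continuous_const
  have h3 : IsClosed {u : Fin n → ℝ | ∑ i, u i ^ 2 = 1} :=
    isClosed_eq (by fun_prop) continuous_const
  have h4 : IsClosed {u : Fin n → ℝ | ∑ i, z i * u i = 0} :=
    isClosed_eq (by fun_prop) continuous_const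
  have : dirS p e z m = hypCone (part p z m) e ∩ ({u | MvPolynomial.eval u (part p z m) = 0} ∩
      ({u | ∑ i, u i ^ 2 = 1} ∩ {u | ∑ i, z i * u i = 0})) := by
    ext u; rfl
  rw [this]
  exact h1.inter (h2.inter (h3.inter h4))

theorem isCompact_sphere2 : IsCompact {u : Fin n → ℝ | ∑ i, u i ^ 2 = 1} := by
  apply Metric.isCompact_of_isClosed_isBounded (isClosed_eq (by fun_prop) continuous_const)
  rw [isBounded_iff_forall_norm_le]
  refine ⟨1, ?_⟩
  intro u hu
  rw [pi_norm_le_iff_of_nonneg zero_le_one]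
  intro i
  rw [Real.norm_eq_abs, abs_le_one_iff_mul_self_le_one, ← sq]
  have h1 : ∑ i, u i ^ 2 = 1 := hu
  rw [← h1]
  exact Finset.single_le_sum (f := fun i => u i ^ 2) (fun j _ => sq_nonneg _) (Finset.mem_univ i)

theorem isCompact_dirS (hp : IsHyperbolic p e) {z : Fin n → ℝ} {m : ℕ}
    (hm : ∀ k < m, part p z k = 0) (he : 0 < MvPolynomial.eval e (part p z m)) :
    IsCompact (dirS p e z m) :=
  isCompact_sphere2.of_isClosed_subset (isClosed_dirS hp hm he) (fun _ hu => hu.2.2.1)

theorem dir_of (hp : IsHyperbolic p e) {z : Fin n → ℝ} (hz : z ∈ bdT p e) {m : ℕ}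
    (hm : ∀ k < m, part p z k = 0) (he : 0 < MvPolynomial.eval e (part p z m))
    (O : Set (Fin n → ℝ)) (hO : IsOpen O) (hsub : dirS p e z m ⊆ O) (β : ℝ) (hβ : 0 < β) :
    ∃ U ∈ nhds z, ∀ x ∈ U ∩ bdT p e, x ≠ z → ∃ (b : ℝ) (u : Fin n → ℝ),
      0 < b ∧ b < β ∧ ∑ i, u i ^ 2 = 1 ∧ u ∈ O ∧ x = z + b • u := by
  obtain ⟨hzK, hz0, hz1⟩ := hz
  have hq := part_hyp hp hm he
  set C : Set (Fin n → ℝ) := {u | ∑ i, u i ^ 2 = 1} \ O with hC
  have hCc : IsCompact C := isCompact_sphere2.diff hO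
  have hlin : ∀ (u : Fin n → ℝ) (b : ℝ), 0 < b → z + b • u ∈ hypCone p e →
      u ∈ hypCone (part p z m) e := by
    intro u b hb h
    have h1 := K_sub_part hp hzK hm he h
    have h2 : b • u ∈ hypCone (part p z m) e := by
      rw [mem_hypCone_iff (part_homog p z m)] at h1 ⊢
      intro t ht
      have h3 := h1 t ht
      have h4 : z + b • u + t • e = (b • u + t • e) + (1 : ℝ) • z := by rw [one_smul]; abel
      rw [h4, part_lineality hp.1 hm] at h3
      exact h3
    have h5 := K_smul hq h2 (inv_pos.2 hb).le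
    rwa [smul_smul, inv_mul_cancel₀ hb.ne', one_smul] at h5
  have hev : ∀ᶠ b : ℝ in 𝓝 0, ∀ u ∈ C, (0 < b → z + b • u ∉ bdT p e) := by
    apply hCc.eventually_forall_of_forall_eventually
    intro u hu
    by_cases h1 : u ∈ hypCone (part p z m) e
    · by_cases h2 : MvPolynomial.eval u (part p z m) = 0
      · by_cases h3 : ∑ i, z i * u i = 0
        · exact absurd (hsub ⟨h1, h2, hu.1, h3⟩) hu.2
        · have hcont : Continuous (fun q : ℝ × (Fin n → ℝ) =>
              2 * (∑ i, z i * q.2 i) + q.1 * ∑ i, q.2 i ^ 2) := by fun_prop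
          have h4 : ∀ᶠ q : ℝ × (Fin n → ℝ) in 𝓝 (0, u),
              2 * (∑ i, z i * q.2 i) + q.1 * ∑ i, q.2 i ^ 2 ≠ 0 := by
            apply (hcont.tendsto (0, u)).eventually_ne
            simpa only [zero_mul, add_zero, ne_eq, mul_eq_zero, OfNat.ofNat_ne_zero, false_or] using h3
          filter_upwards [h4] with q hq' hb hmem
          apply hq'
          have h5 := hmem.2.2
          have h6 : ∑ i, (z + q.1 • q.2) i ^ 2 =
              ∑ i, z i ^ 2 + q.1 * (2 * (∑ i, z i * q.2 i) + q.1 * ∑ i, q.2 i ^ 2) := by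
            rw [mul_add, Finset.mul_sum, Finset.mul_sum, Finset.mul_sum, Finset.mul_sum,
              ← Finset.sum_add_distrib, ← Finset.sum_add_distrib]
            apply Finset.sum_congr rfl
            intro i _
            simp only [Pi.add_apply, Pi.smul_apply, smul_eq_mul]
            ring
          rw [h6, hz1] at h5
          have h7 : q.1 * (2 * (∑ i, z i * q.2 i) + q.1 * ∑ i, q.2 i ^ 2) = 0 := by linarith only [h5]
          exact (mul_eq_zero.1 h7).resolve_left hb.ne'
      · have h4 : ∀ᶠ q : ℝ × (Fin n → ℝ) in 𝓝 (0, u), blR p z m q.1 q.2 ≠ 0 := by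
          apply ((continuous_blR p z m).tendsto (0, u)).eventually_ne
          simp only
          rw [blR_zero]
          exact h2
        filter_upwards [h4] with q hq' hb hmem
        apply hq'
        have h5 := hmem.2.1
        rw [eval_expand_m hm] at h5
        exact (mul_eq_zero.1 h5).resolve_left (by (clear * - hb; positivity))
    · have h4 : ∀ᶠ q : ℝ × (Fin n → ℝ) in 𝓝 (0, u), q.2 ∉ hypCone (part p z m) e := by
        have : Tendsto (fun q : ℝ × (Fin n → ℝ) => q.2) (𝓝 (0, u)) (𝓝 u) :=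
          continuous_snd.tendsto (0, u)
        exact this.eventually ((isClosed_K hq).isOpen_compl.mem_nhds h1)
      filter_upwards [h4] with q hq' hb hmem
      exact hq' (hlin _ _ hb hmem.1)
  obtain ⟨r, hr, hball⟩ := Metric.eventually_nhds_iff.1 hev
  set ε := min r β with hε
  have hε0 : 0 < ε := lt_min hr hβ
  refine ⟨{x | Real.sqrt (∑ i, (x i - z i) ^ 2) < ε}, ?_, ?_⟩
  · have hcont : Continuous (fun x : Fin n → ℝ => Real.sqrt (∑ i, (x i - z i) ^ 2)) := by
      fun_prop
    apply (isOpen_lt hcont continuous_const).mem_nhds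
    simpa only [Set.mem_ofPred_eq, sub_self, ne_eq, OfNat.ofNat_ne_zero, not_false_eq_true, zero_pow,     Finset.sum_const_zero, Real.sqrt_zero] using hε0
  · rintro x ⟨hxU, hxT⟩ hxz
    have hxU' : Real.sqrt (∑ i, (x i - z i) ^ 2) < ε := hxU
    set b := Real.sqrt (∑ i, (x i - z i) ^ 2) with hb
    have hsum : 0 < ∑ i, (x i - z i) ^ 2 := by
      apply lt_of_le_of_ne (Finset.sum_nonneg fun i _ => sq_nonneg _)
      intro h
      apply hxz
      funext i
      have := (Finset.sum_eq_zero_iff_of_nonneg (fun i _ => sq_nonneg (x i - z i))).1 h.symm i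
        (Finset.mem_univ i)
      have h2 : x i - z i = 0 := by simpa using this
      linarith only [h2]
    have hb0 : 0 < b := Real.sqrt_pos.2 hsum
    have hb2 : b ^ 2 = ∑ i, (x i - z i) ^ 2 := Real.sq_sqrt hsum.le
    set u : Fin n → ℝ := b⁻¹ • (x - z) with hu
    have hxeq : x = z + b • u := by
      rw [hu, smul_smul, mul_inv_cancel₀ hb0.ne', one_smul]; abel
    have hu1 : ∑ i, u i ^ 2 = 1 := by
      have : ∀ i, u i ^ 2 = (b ^ 2)⁻¹ * (x i - z i) ^ 2 := by
        intro i
        rw [hu]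
        simp only [Pi.smul_apply, Pi.sub_apply, smul_eq_mul]
        rw [mul_pow, inv_pow]
      simp_rw [this]
      rw [← Finset.mul_sum, ← hb2, inv_mul_cancel₀ (by (clear * - hsum; positivity))]
    refine ⟨b, u, hb0, lt_of_lt_of_le hxU' (min_le_right _ _), hu1, ?_, hxeq⟩
    by_contra huO
    have h1 := hball (y := b) (by
      rw [Real.dist_eq, sub_zero, abs_of_pos hb0]
      exact lt_of_lt_of_le hxU' (min_le_left _ _)) u ⟨hu1, huO⟩ hb0
    rw [← hxeq] at h1
    exact h1 hxT

theorem isolated_of (hp : IsHyperbolic p e) {z : Fin n → ℝ} (hz : z ∈ bdT p e) {m : ℕ}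
    (hm1 : 1 ≤ m)
    (hm : ∀ k < m, part p z k = 0) (he : 0 < MvPolynomial.eval e (part p z m))
    (hsm : ∀ u ∈ dirS p e z m, 0 < dd (part p z m) u e) :
    ∃ U ∈ nhds z, ∀ x ∈ U ∩ bdT p e, x ≠ z → 0 < dd p x e := by
  have hopen : IsOpen {q : ℝ × (Fin n → ℝ) | 0 < blD p z m e q.1 q.2} :=
    isOpen_lt continuous_const (continuous_blD p z m e)
  have hsub : ({0} : Set ℝ) ×ˢ dirS p e z m ⊆ {q : ℝ × (Fin n → ℝ) | 0 < blD p z m e q.1 q.2} := by
    rintro ⟨b, u⟩ ⟨hb, hu⟩
    have hb' : b = 0 := hb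
    subst hb'
    show 0 < blD p z m e 0 u
    rw [blD_zero]
    exact hsm u hu
  obtain ⟨I, O, hI, hO, h1, h2, h3⟩ := generalized_tube_lemma isCompact_singleton
    (isCompact_dirS hp hm he) hopen hsub
  obtain ⟨r, hr, hball⟩ := Metric.isOpen_iff.1 hI 0 (h1 rfl)
  obtain ⟨U, hU, h⟩ := dir_of hp hz hm he O hO h2 r hr
  refine ⟨U, hU, ?_⟩
  intro x hx hxz
  obtain ⟨b, u, hb, hbr, _, huO, rfl⟩ := h x hx hxz
  rw [dd_expand_m hm1 hm]
  apply mul_pos (pow_pos hb _)
  have h4 : (b, u) ∈ I ×ˢ O := by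
    refine ⟨hball ?_, huO⟩
    rw [Metric.mem_ball, Real.dist_eq, sub_zero, abs_of_pos hb]
    exact hbr
  exact h3 h4

end Vale.Agent.P256
end

section

/-! Generation and separation facts for the hyperbolicity cone. -/

namespace Vale.Agent.P256

open Polynomial Filter Topology

variable {n : ℕ} {p : MvPolynomial (Fin n) ℝ} {e : Fin n → ℝ}

theorem isClosed_bdT (hp : IsHyperbolic p e) : IsClosed (bdT p e) := by
  have h1 := isClosed_K hp
  have h2 : IsClosed {u : Fin n → ℝ | MvPolynomial.eval u p = 0} :=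
    isClosed_eq (continuous_eval _) continuous_const
  have h3 : IsClosed {u : Fin n → ℝ | ∑ i, u i ^ 2 = 1} :=
    isClosed_eq (by fun_prop) continuous_const
  have : bdT p e = hypCone p e ∩ ({u | MvPolynomial.eval u p = 0} ∩ {u | ∑ i, u i ^ 2 = 1}) := by
    ext u; rfl
  rw [this]
  exact h1.inter (h2.inter h3)

theorem isCompact_bdT (hp : IsHyperbolic p e) : IsCompact (bdT p e) :=
  isCompact_sphere2.of_isClosed_subset (isClosed_bdT hp) (fun _ hu => hu.2.2)

theorem dir_mem (hp : IsHyperbolic p e) {u w : Fin n → ℝ}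
    (hw : ∀ t : ℝ, 0 < t → u + t • w ∈ hypCone p e) : w ∈ hypCone p e := by
  have h1 : ∀ k : ℕ, ((k : ℝ) + 1)⁻¹ • u + w ∈ hypCone p e := by
    intro k
    have hk : (0 : ℝ) < (k : ℝ) + 1 := by positivity
    have := K_smul hp (hw ((k : ℝ) + 1) hk) (inv_pos.2 hk).le
    rwa [smul_add, smul_smul, inv_mul_cancel₀ hk.ne', one_smul] at this
  apply (isClosed_K hp).mem_of_tendsto (b := atTop) _ (Eventually.of_forall h1)
  have h2 : Tendsto (fun k : ℕ => ((k : ℝ) + 1)⁻¹) atTop (𝓝 0) := by
    have := tendsto_one_div_add_atTop_nhds_zero_nat (𝕜 := ℝ)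
    simpa using this
  have h3 := (h2.smul_const u).add_const w
  rwa [zero_smul, zero_add] at h3

theorem neg_open_not_mem (hp : IsHyperbolic p e) (h0 : MvPolynomial.eval 0 p = 0)
    {a : Fin n → ℝ} (ha : InOpen p e a) : -a ∉ hypCone p e := by
  intro h
  have h1 := K_add_open hp h ha
  rw [neg_add_cancel] at h1
  have h2 := h1 0 le_rfl
  rw [zero_smul, add_zero] at h2
  exact h2 h0

theorem exists_min (hp : IsHyperbolic p e) {a : Fin n → ℝ} (v : Fin n → ℝ) (ha : InOpen p e a)
    (hna : -a ∉ hypCone p e) :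
    ∃ s₀ : ℝ, v + s₀ • a ∈ hypCone p e ∧ MvPolynomial.eval (v + s₀ • a) p = 0 := by
  set S : Set ℝ := {s | v + s • a ∈ hypCone p e} with hS
  have hSc : IsClosed S := (isClosed_K hp).preimage (by fun_prop)
  have hnear : ∀ w : Fin n → ℝ, ∀ b : Fin n → ℝ, InOpen p e b →
      ∃ δ : ℝ, 0 < δ ∧ InOpen p e (b + δ • w) := by
    intro w b hb
    have hc : Tendsto (fun δ : ℝ => b + δ • w) (𝓝[>] 0) (𝓝 b) := by
      have : Continuous (fun δ : ℝ => b + δ • w) := by fun_prop
      have h := (this.tendsto 0).mono_left (nhdsWithin_le_nhds (s := Set.Ioi 0))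
      simpa using h
    have h1 := hc.eventually ((isOpen_inOpen hp).mem_nhds hb)
    obtain ⟨δ, h2, h3⟩ := (h1.and self_mem_nhdsWithin).exists
    exact ⟨δ, h3, h2⟩
  have hSn : S.Nonempty := by
    obtain ⟨δ, hδ, h⟩ := hnear v a ha
    refine ⟨δ⁻¹, ?_⟩
    have h1 := K_smul hp (h.mem hp) (inv_pos.2 hδ).le
    rw [smul_add, smul_smul, inv_mul_cancel₀ hδ.ne', one_smul, add_comm] at h1
    exact h1
  have hSb : BddBelow S := by
    by_contra hnb
    apply hna
    apply dir_mem hp (u := v)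
    intro t ht
    rw [not_bddBelow_iff] at hnb
    obtain ⟨s, hs, hst⟩ := hnb (-t)
    have h1 : v + s • a + (-t - s) • a ∈ hypCone p e :=
      K_add hp hs (K_smul hp (ha.mem hp) (by linarith))
    have h2 : v + s • a + (-t - s) • a = v + t • -a := by
      rw [sub_smul, neg_smul, smul_neg]; abel
    rwa [h2] at h1
  have hmem := hSc.csInf_mem hSn hSb
  refine ⟨sInf S, hmem, ?_⟩
  by_contra hne
  have h1 := inOpen_of_mem_of_ne hp hmem hne
  obtain ⟨δ, hδ, h2⟩ := hnear (-a) _ h1
  have h3 : v + sInf S • a + δ • -a = v + (sInf S - δ) • a := by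
    rw [sub_smul, smul_neg]; abel
  rw [h3] at h2
  have h4 : sInf S ≤ sInf S - δ := csInf_le hSb (h2.mem hp)
  linarith

theorem exists_not_mem_span2 (hn : 3 ≤ n) (x y : Fin n → ℝ) :
    ∃ v, v ∉ Submodule.span ℝ ({x, y} : Set (Fin n → ℝ)) := by
  classical
  by_contra h
  push Not at h
  have htop : Submodule.span ℝ ({x, y} : Set (Fin n → ℝ)) = ⊤ := by
    rw [eq_top_iff]; intro v _; exact h v
  have h1 : Module.finrank ℝ (Submodule.span ℝ ({x, y} : Set (Fin n → ℝ))) ≤ 2 := by
    refine (finrank_span_le_card _).trans ?_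
    rw [Set.toFinset_insert, Set.toFinset_singleton]
    exact Finset.card_le_two
  rw [htop, finrank_top, Module.finrank_fin_fun] at h1
  omega

theorem normalize_bdT (hp : IsHyperbolic p e) {y : Fin n → ℝ} (hy : y ∈ hypCone p e)
    (hy0 : MvPolynomial.eval y p = 0) (hne : y ≠ 0) :
    ∃ c : ℝ, 0 < c ∧ ∃ y' ∈ bdT p e, y = c • y' := by
  obtain ⟨d, hd⟩ := hp.1
  have hsum : 0 < ∑ i, y i ^ 2 := by
    apply lt_of_le_of_ne (Finset.sum_nonneg fun i _ => sq_nonneg _)
    intro h
    apply hne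
    funext i
    have := (Finset.sum_eq_zero_iff_of_nonneg (fun i _ => sq_nonneg (y i))).1 h.symm i
      (Finset.mem_univ i)
    simpa using this
  set c := Real.sqrt (∑ i, y i ^ 2) with hc
  have hc0 : 0 < c := Real.sqrt_pos.2 hsum
  have hc2 : c ^ 2 = ∑ i, y i ^ 2 := Real.sq_sqrt hsum.le
  refine ⟨c, hc0, c⁻¹ • y, ⟨K_smul hp hy (inv_pos.2 hc0).le, ?_, ?_⟩, ?_⟩
  · rw [eval_smul' hd, hy0, mul_zero]
  · have : ∀ i, (c⁻¹ • y) i ^ 2 = (c ^ 2)⁻¹ * y i ^ 2 := by
      intro i
      simp only [Pi.smul_apply, smul_eq_mul]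
      rw [mul_pow, inv_pow]
    simp_rw [this]
    rw [← Finset.mul_sum, ← hc2, inv_mul_cancel₀ (by (clear * - hsum; positivity))]
  · rw [smul_smul, mul_inv_cancel₀ hc0.ne', one_smul]

theorem gen_bdT (hp : IsHyperbolic p e) (hn : 2 ≤ n)
    (hpt : ∀ x, x ∈ hypCone p e → -x ∈ hypCone p e → x = 0) {x : Fin n → ℝ}
    (hx : x ∈ hypCone p e) : ∃ (m : ℕ) (c : Fin m → ℝ) (y : Fin m → Fin n → ℝ),
      (∀ k, 0 ≤ c k) ∧ (∀ k, y k ∈ bdT p e) ∧ x = ∑ k, c k • y k := by
  by_cases hx0 : x = 0
  · exact ⟨0, fun _ => 0, fun _ => 0, fun k => k.elim0, fun k => k.elim0, by simp [hx0]⟩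
  by_cases hpx : MvPolynomial.eval x p = 0
  · obtain ⟨c, hc, y, hy, hxy⟩ := normalize_bdT hp hx hpx hx0
    exact ⟨1, fun _ => c, fun _ => y, fun _ => hc.le, fun _ => hy, by simp [hxy]⟩
  have hxo := inOpen_of_mem_of_ne hp hx hpx
  have hnx : -x ∉ hypCone p e := fun h => hx0 (hpt x hx h)
  obtain ⟨v, hv⟩ : ∃ v, v ∉ Submodule.span ℝ ({x} : Set (Fin n → ℝ)) := by
    by_contra h
    push Not at h
    have htop : Submodule.span ℝ ({x} : Set (Fin n → ℝ)) = ⊤ := by
      rw [eq_top_iff]; intro v _; exact h v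
    have h1 := finrank_span_singleton (K := ℝ) hx0
    rw [htop, finrank_top, Module.finrank_fin_fun] at h1
    omega
  obtain ⟨s₀, a1, a2⟩ := exists_min hp v hxo hnx
  obtain ⟨s₁, b1, b2⟩ := exists_min hp (-v) hxo hnx
  have hy1 : v + s₀ • x ≠ 0 := by
    intro h
    apply hv
    rw [mem_span1]
    exact ⟨-s₀, by rw [neg_smul, ← add_eq_zero_iff_eq_neg]; exact h⟩
  have hy2 : -v + s₁ • x ≠ 0 := by
    intro h
    apply hv
    rw [mem_span1]
    refine ⟨s₁, ?_⟩
    have : s₁ • x = v + (-v + s₁ • x) := by abel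
    rw [this, h, add_zero]
  have hsum : v + s₀ • x + (-v + s₁ • x) = (s₀ + s₁) • x := by
    rw [add_smul]; abel
  have hpos : 0 < s₀ + s₁ := by
    by_contra hle
    push Not at hle
    have h1 : (s₀ + s₁) • x ∈ hypCone p e := by rw [← hsum]; exact K_add hp a1 b1
    have h2 : -(v + s₀ • x) ∈ hypCone p e := by
      have h3 : -(v + s₀ • x) = (-v + s₁ • x) + (-(s₀ + s₁)) • x := by
        rw [neg_smul, add_smul]; abel
      rw [h3]
      exact K_add hp b1 (K_smul hp hx (by linarith only [hle]))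
    exact hy1 (hpt _ a1 h2)
  obtain ⟨c1, hc1, y1, hy1', e1⟩ := normalize_bdT hp a1 a2 hy1
  obtain ⟨c2, hc2, y2, hy2', e2⟩ := normalize_bdT hp b1 b2 hy2
  refine ⟨2, ![(s₀ + s₁)⁻¹ * c1, (s₀ + s₁)⁻¹ * c2], ![y1, y2], ?_, ?_, ?_⟩
  · intro k
    fin_cases k
    · simp only [Fin.zero_eta, Fin.isValue, Matrix.cons_val_zero]; (clear * - hpos hc1; positivity)
    · simp only [Fin.mk_one, Fin.isValue, Matrix.cons_val_one, Matrix.cons_val_fin_one]; (clear * - hpos hc2; positivity)
  · intro k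
    fin_cases k
    · simpa using hy1'
    · simpa using hy2'
  · rw [Fin.sum_univ_two]
    simp only [Matrix.cons_val_zero, Matrix.cons_val_one]
    rw [mul_smul, mul_smul, ← e1, ← e2, ← smul_add, hsum, smul_smul,
      inv_mul_cancel₀ hpos.ne', one_smul]

theorem smooth_of_dd_pos {z v : Fin n → ℝ} (h : dd p z v ≠ 0) : IsSmoothPoint p z := by
  by_contra hns
  apply h
  unfold dd
  apply Finset.sum_eq_zero
  intro i _
  unfold IsSmoothPoint at hns
  push Not at hns
  rw [hns i, mul_zero]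

theorem shadow_univ : IsSpectrahedralShadow (Set.univ : Set (Fin n → ℝ)) := by
  refine ⟨0, 0, 0, fun _ => 0, fun _ => 0, ?_, ?_, ?_, ?_⟩
  · exact Matrix.isSymm_zero
  · intro _; exact Matrix.isSymm_zero
  · intro _; exact Matrix.isSymm_zero
  · ext x
    simp only [Set.mem_univ, true_iff]
    refine ⟨fun _ => 0, ?_⟩
    simp only [smul_zero, Finset.sum_const_zero, add_zero, Finset.univ_eq_empty, Matrix.PosSemidef.zero]

theorem K_univ_of_eval_zero_ne (hp : IsHyperbolic p e) (h0 : MvPolynomial.eval 0 p ≠ 0) :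
    hypCone p e = Set.univ := by
  obtain ⟨d, hd⟩ := hp.1
  have hd0 : d = 0 := by
    by_contra hne
    apply h0
    have := eval_smul' hd 0 e
    rw [zero_smul, zero_pow hne, zero_mul] at this
    exact this
  subst hd0
  rw [Set.eq_univ_iff_forall]
  intro x
  rw [mem_hypCone_iff hd]
  intro t _
  have h1 := (MvPolynomial.totalDegree_zero_iff_isHomogeneous (Fin n)).2 hd
  rw [MvPolynomial.totalDegree_eq_zero_iff_eq_C] at h1
  rw [h1] at h0 ⊢
  simpa using h0

end Vale.Agent.P256
end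

section

/-! Vanishing of derivatives along an equimultiple stratum. -/

namespace Vale.Agent.P256

open Filter Topology

variable {n : ℕ} {p : MvPolynomial (Fin n) ℝ} {e : Fin n → ℝ}

/-- `p` vanishes at `z` to order `m` -/
def vanish (p : MvPolynomial (Fin n) ℝ) (z : Fin n → ℝ) (m : ℕ) : Prop :=
  ∀ k < m, part p z k = 0

theorem vanish.mono {z : Fin n → ℝ} {m m' : ℕ} (h : vanish p z m) (hm : m' ≤ m) :
    vanish p z m' := fun k hk => h k (lt_of_lt_of_le hk hm)

theorem part_DL_eq_zero {z v : Fin n → ℝ} {k : ℕ} (h : ∀ u, dd (part p z (k + 1)) u v = 0) :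
    part (DL v p) z k = 0 := by
  apply MvPolynomial.funext
  intro u
  rw [DL_apply, eval_part_dirD, h, map_zero]

theorem vanish.DL {z : Fin n → ℝ} {m : ℕ} (h : vanish p z (m + 1)) (v : Fin n → ℝ) :
    vanish (DL v p) z m := by
  intro k hk
  apply part_DL_eq_zero
  intro u
  rw [h (k + 1) (by omega)]
  simp only [dd, map_zero, mul_zero, Finset.sum_const_zero]

theorem vanish.DL_pow {z : Fin n → ℝ} {m : ℕ} (v : Fin n → ℝ) (k : ℕ) :
    ∀ {p : MvPolynomial (Fin n) ℝ}, vanish p z (m + k) → vanish ((Vale.Agent.P256.DL v ^ k) p) z m := by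
  induction k with
  | zero => intro p h; exact h
  | succ k ih =>
    intro p h
    rw [pow_succ]
    show vanish ((Vale.Agent.P256.DL v ^ k) (Vale.Agent.P256.DL v p)) z m
    exact ih (vanish.DL (by rw [add_assoc]; exact h) v)

theorem vanish.eval {z : Fin n → ℝ} (h : vanish p z 1) : MvPolynomial.eval z p = 0 := by
  have h1 := eval_DL_pow p z 0 0
  rw [h 0 one_pos, map_zero, mul_zero] at h1
  exact h1

/-- second order expansion along a sequence -/
theorem limit_exp {g : MvPolynomial (Fin n) ℝ} {z0 y a : Fin n → ℝ} {b : ℝ} {s ρ : ℕ → ℝ}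
    {u : ℕ → Fin n → ℝ} (hs : Tendsto s atTop (𝓝 0)) (hu : Tendsto u atTop (𝓝 0))
    (hρ : ∀ k, 0 < ρ k) (h1 : Tendsto (fun k => (ρ k)⁻¹ • u k) atTop (𝓝 a))
    (h2 : Tendsto (fun k => (ρ k)⁻¹ * s k ^ 2) atTop (𝓝 b))
    (hg : ∀ k, MvPolynomial.eval (z0 + s k • y + u k) g = 0)
    (g0 : MvPolynomial.eval z0 g = 0) (g1 : dd g z0 y = 0) :
    dd g z0 a + 1 / 2 * b * dd2 g z0 y = 0 := by
  obtain ⟨R, hR, eR, dR⟩ := poly_tay Set.univ g
  have hx : Tendsto (fun k => z0 + s k • y + u k) atTop (𝓝 z0) := by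
    have : Tendsto (fun k => z0 + s k • y + u k) atTop (𝓝 (z0 + (0 : ℝ) • y + 0)) :=
      ((hs.smul_const y).const_add z0).add hu
    simpa using this
  have hRc : ∀ i j, Tendsto (fun k => R i j z0 (z0 + s k • y + u k)) atTop
      (𝓝 (1 / 2 * MvPolynomial.eval z0 (MvPolynomial.pderiv i (MvPolynomial.pderiv j g)))) := by
    intro i j
    rw [← dR]
    obtain ⟨N, α, f, hα, hf, hh⟩ := hR i j
    simp only [hh]
    exact tendsto_finsetSum _ (fun k _ => ((hf k z0 (Set.mem_univ _)).tendsto.comp hx).const_mul _)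
  have hui : ∀ i, Tendsto (fun k => (ρ k)⁻¹ * u k i) atTop (𝓝 (a i)) := fun i =>
    (tendsto_pi_nhds.1 h1 i)
  have hu0 : ∀ i, Tendsto (fun k => u k i) atTop (𝓝 0) := fun i => (tendsto_pi_nhds.1 hu i)
  have hh : ∀ i j, Tendsto (fun k => (ρ k)⁻¹ * ((s k * y i + u k i) * (s k * y j + u k j))) atTop
      (𝓝 (b * (y i * y j))) := by
    intro i j
    have e1 : ∀ k, (ρ k)⁻¹ * ((s k * y i + u k i) * (s k * y j + u k j)) =
        ((ρ k)⁻¹ * s k ^ 2) * (y i * y j) + s k * ((ρ k)⁻¹ * u k j) * y i +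
          s k * ((ρ k)⁻¹ * u k i) * y j + u k i * ((ρ k)⁻¹ * u k j) := by
      intro k; ring
    simp only [e1]
    have := (((h2.mul_const (y i * y j)).add ((hs.mul (hui j)).mul_const (y i))).add
      ((hs.mul (hui i)).mul_const (y j))).add ((hu0 i).mul (hui j))
    simpa only [zero_mul, add_zero] using this
  have hmain : ∀ k, ∑ i, MvPolynomial.eval z0 (MvPolynomial.pderiv i g) * ((ρ k)⁻¹ * u k i) +
      ∑ i, ∑ j, R i j z0 (z0 + s k • y + u k) *
        ((ρ k)⁻¹ * ((s k * y i + u k i) * (s k * y j + u k j))) = 0 := by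
    intro k
    have h3 := eR z0 (z0 + s k • y + u k)
    rw [hg, g0] at h3
    have e1 : ∑ i, MvPolynomial.eval z0 (MvPolynomial.pderiv i g) *
        ((z0 + s k • y + u k) i - z0 i) =
        s k * dd g z0 y + ∑ i, MvPolynomial.eval z0 (MvPolynomial.pderiv i g) * u k i := by
      rw [dd, Finset.mul_sum, ← Finset.sum_add_distrib]
      refine Finset.sum_congr rfl fun i _ => ?_
      simp only [Pi.add_apply, Pi.smul_apply, smul_eq_mul]
      ring
    rw [e1, g1, mul_zero, zero_add, zero_add] at h3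
    have e2 : ∑ i, MvPolynomial.eval z0 (MvPolynomial.pderiv i g) * ((ρ k)⁻¹ * u k i) =
        (ρ k)⁻¹ * ∑ i, MvPolynomial.eval z0 (MvPolynomial.pderiv i g) * u k i := by
      rw [Finset.mul_sum]
      refine Finset.sum_congr rfl fun i _ => ?_
      ring
    have e3 : ∑ i, ∑ j, R i j z0 (z0 + s k • y + u k) *
        ((ρ k)⁻¹ * ((s k * y i + u k i) * (s k * y j + u k j))) =
        (ρ k)⁻¹ * ∑ i, ∑ j, R i j z0 (z0 + s k • y + u k) *
          ((z0 + s k • y + u k) i - z0 i) * ((z0 + s k • y + u k) j - z0 j) := by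
      rw [Finset.mul_sum]
      refine Finset.sum_congr rfl fun i _ => ?_
      rw [Finset.mul_sum]
      refine Finset.sum_congr rfl fun j _ => ?_
      simp only [Pi.add_apply, Pi.smul_apply, smul_eq_mul]
      ring
    rw [e2, e3, ← mul_add, ← h3, mul_zero]
  have hlim := (tendsto_finsetSum Finset.univ (fun i (_ : i ∈ Finset.univ) =>
    (hui i).const_mul (MvPolynomial.eval z0 (MvPolynomial.pderiv i g)))).add
    (tendsto_finsetSum Finset.univ (fun i (_ : i ∈ Finset.univ) =>
      tendsto_finsetSum Finset.univ (fun j (_ : j ∈ Finset.univ) => (hRc i j).mul (hh i j))))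
  have h4 := tendsto_nhds_unique (hlim.congr hmain) tendsto_const_nhds
  rw [dd, dd2, Finset.mul_sum, ← h4]
  congr 1
  · refine Finset.sum_congr rfl fun i _ => ?_
    ring
  · refine Finset.sum_congr rfl fun i _ => ?_
    rw [Finset.mul_sum]
    refine Finset.sum_congr rfl fun j _ => ?_
    ring

/-- if `f(s)/s^N → 0` along a sequence then the `N`-th coefficient of `f` vanishes -/
theorem coeff_zero_of_tendsto {f : Polynomial ℝ} {N : ℕ} {s : ℕ → ℝ} (hs : Tendsto s atTop (𝓝 0))
    (hs0 : ∀ k, 0 < s k) (h : Tendsto (fun k => (s k ^ N)⁻¹ * f.eval (s k)) atTop (𝓝 0)) :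
    f.coeff N = 0 := by
  by_contra hne
  have hf : f ≠ 0 := by
    rintro rfl
    simp at hne
  obtain ⟨g, hg⟩ := Polynomial.exists_eq_pow_rootMultiplicity_mul_and_not_dvd f hf 0
  set r := f.rootMultiplicity 0 with hr
  have hg0 : g.eval 0 ≠ 0 := by
    intro h0
    apply hg.2
    rw [Polynomial.dvd_iff_isRoot]
    exact h0
  have hrN : r ≤ N := by
    by_contra hlt
    push Not at hlt
    apply hne
    rw [hg.1, map_zero, sub_zero, Polynomial.coeff_X_pow_mul', if_neg (by omega)]
  have h1 : Tendsto (fun k => g.eval (s k)) atTop (𝓝 (g.eval 0)) :=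
    (g.continuous.tendsto 0).comp hs
  have h2 : ∀ᶠ k in atTop, |g.eval (s k)| ≤ |(s k ^ N)⁻¹ * f.eval (s k)| := by
    filter_upwards [hs.eventually_lt_const zero_lt_one] with k hk
    have e1 : (s k ^ N)⁻¹ * f.eval (s k) = (s k ^ (N - r))⁻¹ * g.eval (s k) := by
      have h3 : f.eval (s k) = s k ^ r * g.eval (s k) := by
        conv_lhs => rw [hg.1]
        simp
      rw [h3]
      have h4 : s k ^ N = s k ^ (N - r) * s k ^ r := by
        rw [← pow_add, Nat.sub_add_cancel hrN]
      have h5 : s k ^ r ≠ 0 := pow_ne_zero _ (hs0 k).ne'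
      have h6 : s k ^ (N - r) ≠ 0 := pow_ne_zero _ (hs0 k).ne'
      rw [h4]
      (clear * - h5 h6; field_simp)
    rw [e1, abs_mul]
    have h7 : 1 ≤ |(s k ^ (N - r))⁻¹| := by
      have h8 : 0 < s k ^ (N - r) := pow_pos (hs0 k) _
      rw [abs_of_pos (inv_pos.2 h8)]
      exact (one_le_inv₀ h8).2 (pow_le_one₀ (hs0 k).le hk.le)
    nlinarith only [h7, abs_nonneg (g.eval (s k))]
  have h3 : Tendsto (fun k => |g.eval (s k)|) atTop (𝓝 0) := by
    refine squeeze_zero' (Eventually.of_forall fun k => abs_nonneg _) h2 ?_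
    simpa only [abs_mul, abs_inv, abs_pow, abs_zero] using h.abs
  have h4 := tendsto_nhds_unique h3 h1.abs
  exact hg0 (abs_eq_zero.1 h4.symm)

end Vale.Agent.P256
end

section

/-! Hyperbolic facts at a clean stratum. -/

namespace Vale.Agent.P256

open Filter Topology

variable {n : ℕ} {p : MvPolynomial (Fin n) ℝ} {e : Fin n → ℝ}

/-- the lineality space of a form -/
def Lin (q : MvPolynomial (Fin n) ℝ) : Submodule ℝ (Fin n → ℝ) where
  carrier := {y | ∀ v, dd q v y = 0}
  add_mem' := by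
    intro a b ha hb v
    rw [dd_add, ha v, hb v, add_zero]
  zero_mem' := by
    intro v
    simp [dd]
  smul_mem' := by
    intro c a ha v
    rw [dd_smul, ha v, mul_zero]

theorem mem_Lin {q : MvPolynomial (Fin n) ℝ} {y : Fin n → ℝ} : y ∈ Lin q ↔ ∀ v, dd q v y = 0 :=
  Iff.rfl

theorem eval_add_Lin {q : MvPolynomial (Fin n) ℝ} {y : Fin n → ℝ} (hy : y ∈ Lin q)
    (x : Fin n → ℝ) : MvPolynomial.eval (x + y) q = MvPolynomial.eval x q := by
  have h1 : Polynomial.derivative (line q x y) = 0 := by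
    apply Polynomial.funext
    intro t
    rw [eval_derivative_line, hy]; simp
  have h2 := Polynomial.derivative_eq_zero.1 h1
  have h3 := Polynomial.eq_C_of_natDegree_eq_zero h2
  have h4 := eval_line q x y 1
  have h5 := eval_line q x y 0
  rw [h3, Polynomial.eval_C] at h4 h5
  rw [one_smul] at h4
  rw [zero_smul, add_zero] at h5
  rw [← h4, ← h5]

theorem K_add_Lin {q : MvPolynomial (Fin n) ℝ} {d : ℕ} (hd : q.IsHomogeneous d)
    {y : Fin n → ℝ} (hy : y ∈ Lin q) {x : Fin n → ℝ} (hx : x ∈ hypCone q e) :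
    x + y ∈ hypCone q e := by
  rw [mem_hypCone_iff hd] at hx ⊢
  intro t ht
  have : x + y + t • e = x + t • e + y := by abel
  rw [this, eval_add_Lin hy]
  exact hx t ht

/-- data at a point of a clean equimultiple stratum -/
structure StratAt (p : MvPolynomial (Fin n) ℝ) (e z : Fin n → ℝ) (m : ℕ) : Prop where
  two_le : 2 ≤ m
  hm : vanish p z m
  he : 0 < MvPolynomial.eval e (part p z m)
  sm : ∀ v ∈ hypCone (part p z m) e, MvPolynomial.eval v (part p z m) = 0 →
    v ∉ Lin (part p z m) → 0 < dd (part p z m) v e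
  clean : ∀ U ∈ 𝓝 z, ∀ᶠ x in 𝓝 z, ∃ y ∈ U, (∀ l ∈ Lin (part p z m),
    ∑ i, (y i - x i) * l i = 0) ∧ vanish p y m
  curv : ∀ v ∈ Lin (part p z m), v ∉ Submodule.span ℝ {z} →
    MvPolynomial.eval v (part p z (2 * m)) ≠ 0
  face : ∀ y ∈ hypCone p e, y ∉ Submodule.span ℝ {z} → MvPolynomial.eval (z + y) p ≠ 0
  codim : Module.finrank ℝ (Lin (part p z m)) + 2 ≤ n

/-- the point of the blow-up -/
def wp (z : Fin n → ℝ) (b : ℝ) (v : Fin n → ℝ) : Fin n ⊕ Option (Fin n) → ℝ
  | .inl i => z i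
  | .inr none => b
  | .inr (some i) => v i

@[simp] theorem zp_wp (z : Fin n → ℝ) (b : ℝ) (v : Fin n → ℝ) : zp (wp z b v) = z := rfl
@[simp] theorem bp_wp (z : Fin n → ℝ) (b : ℝ) (v : Fin n → ℝ) : bp (wp z b v) = b := rfl
@[simp] theorem np_wp (z : Fin n → ℝ) (b : ℝ) (v : Fin n → ℝ) : np (wp z b v) = v := rfl

theorem wp_cont {Z : Type*} [TopologicalSpace Z] {f : Z → Fin n → ℝ} {g : Z → ℝ}
    {h : Z → Fin n → ℝ} (hf : Continuous f) (hg : Continuous g) (hh : Continuous h) :
    Continuous (fun x => wp (f x) (g x) (h x)) := by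
  refine continuous_pi fun i => ?_
  rcases i with i | _ | i
  · exact (continuous_apply i).comp hf
  · exact hg
  · exact (continuous_apply i).comp hh

theorem eval_stP_zero (p : MvPolynomial (Fin n) ℝ) (m N : ℕ)
    {w : Fin n ⊕ Option (Fin n) → ℝ} (hw : bp w = 0) :
    MvPolynomial.eval w (stP p m N) = MvPolynomial.eval (np w) (part p (zp w) m) := by
  rw [eval_stP', hw]
  exact sum_range_zero_pow N (fun j => MvPolynomial.eval (np w) (part p (zp w) (m + j)))

theorem eval_mul_stP {d : ℕ} (hp : p.IsHomogeneous d) {m N : ℕ} (hN : d ≤ N)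
    {w : Fin n ⊕ Option (Fin n) → ℝ} (hw : vanish p (zp w) m) :
    MvPolynomial.eval (zp w + bp w • np w) p = bp w ^ m * MvPolynomial.eval w (stP p m N) := by
  rw [← eval_line, Polynomial.eval_eq_sum_range' (n := m + (N + 1))
    (lt_of_le_of_lt (line_top hp _ _).1 (by omega)), Finset.sum_range_add, eval_stP']
  have h1 : ∑ k ∈ Finset.range m, (line p (zp w) (np w)).coeff k * bp w ^ k = 0 := by
    refine Finset.sum_eq_zero fun k hk => ?_
    rw [coeff_line, hw k (Finset.mem_range.1 hk), map_zero, zero_mul]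
  rw [h1, zero_add, Finset.mul_sum]
  refine Finset.sum_congr rfl fun k _ => ?_
  rw [coeff_line, pow_add]
  ring

theorem DL_single (p : MvPolynomial (Fin n) ℝ) (i : Fin n) :
    DL (Pi.single i 1) p = MvPolynomial.pderiv i p := by
  rw [DL_eq, Finset.sum_eq_single i]
  · simp
  · intro j _ hj
    rw [Pi.single_eq_of_ne hj, zero_smul]
  · simp only [Finset.mem_univ, not_true_eq_false, Pi.single_eq_same, one_smul, IsEmpty.forall_iff]

theorem vanish.pderiv {z : Fin n → ℝ} {m : ℕ} (h : vanish p z (m + 1)) (i : Fin n) :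
    vanish (MvPolynomial.pderiv i p) z m := by
  rw [← DL_single]
  exact h.DL _

theorem eval_mul_pderiv_stP {d : ℕ} (hp : p.IsHomogeneous d) {m N : ℕ} (hN : d ≤ N)
    {w : Fin n ⊕ Option (Fin n) → ℝ} (hw : vanish p (zp w) (m + 1)) (i : Fin n) :
    MvPolynomial.eval (zp w + bp w • np w) (MvPolynomial.pderiv i p) =
      bp w ^ m * MvPolynomial.eval w (MvPolynomial.pderiv (Sum.inr (some i)) (stP p (m + 1) N)) := by
  rw [pderiv_some_stP]
  exact eval_mul_stP (homog_pderiv hp i) (by omega) (hw.pderiv i)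

/-- nearby points of the same multiplicity lie in the cone -/
theorem near_mem_K (hp : IsHyperbolic p e) {z : Fin n → ℝ} (hz : z ∈ hypCone p e) {m : ℕ}
    (hm : vanish p z m) (he : 0 < MvPolynomial.eval e (part p z m)) :
    ∃ U ∈ 𝓝 z, ∀ y ∈ U, vanish p y m → y ∈ hypCone p e := by
  obtain ⟨d, hd⟩ := hp.1
  have hpos : ∀ t : ℝ, 0 ≤ t → 0 < MvPolynomial.eval (wp z t e) (stP p m d) := by
    intro t ht
    rcases ht.eq_or_lt with h | h
    · subst h
      rw [eval_stP_zero _ _ _ rfl]
      exact he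
    · have h1 := eval_mul_stP hd (le_refl d) (w := wp z t e) hm
      have h2 : 0 < MvPolynomial.eval (z + t • e) p := by
        have h3 := (mem_hypCone_iff hd z).1 hz t h
        have h4 := K_eval_nonneg hp (K_add hp hz (K_smul hp ((e_inOpen hp).mem hp) h.le))
        exact lt_of_le_of_ne h4 (Ne.symm h3)
      rw [zp_wp, bp_wp, np_wp] at h1
      rw [h1] at h2
      exact pos_of_mul_pos_right h2 (by positivity)
  have hc : Continuous (fun q : (Fin n → ℝ) × ℝ => MvPolynomial.eval (wp q.1 q.2 e) (stP p m d)) :=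
    (MvPolynomial.continuous_eval _).comp (wp_cont continuous_fst continuous_snd continuous_const)
  have h1 : ∀ᶠ y in 𝓝 z, ∀ t ∈ Set.Icc (0 : ℝ) 1,
      0 < MvPolynomial.eval (wp y t e) (stP p m d) := by
    apply isCompact_Icc.eventually_forall_of_forall_eventually
    intro t ht
    exact (hc.tendsto (z, t)).eventually_const_lt (hpos t ht.1)
  have h2 : ∀ᶠ y in 𝓝 z, InOpen p e (y + e) := by
    have h3 : Tendsto (fun y : Fin n → ℝ => y + e) (𝓝 z) (𝓝 (z + e)) :=
      (continuous_id.add continuous_const).tendsto z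
    exact h3.eventually ((isOpen_inOpen hp).mem_nhds (K_add_open hp hz (e_inOpen hp)))
  refine ⟨{y | (∀ t ∈ Set.Icc (0 : ℝ) 1, 0 < MvPolynomial.eval (wp y t e) (stP p m d)) ∧
    InOpen p e (y + e)}, h1.and h2, ?_⟩
  rintro y ⟨hy1, hy2⟩ hv
  rw [mem_hypCone_iff hd]
  intro t ht
  by_cases ht1 : t ≤ 1
  · have h3 := eval_mul_stP hd (le_refl d) (w := wp y t e) hv
    rw [zp_wp, bp_wp, np_wp] at h3
    rw [h3]
    exact mul_ne_zero (pow_ne_zero _ ht.ne') (hy1 t ⟨ht.le, ht1⟩).ne'
  · push Not at ht1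
    have h3 := hy2 (t - 1) (by linarith)
    have h4 : y + e + (t - 1) • e = y + t • e := by
      rw [sub_smul, one_smul]; abel
    rwa [h4] at h3

end Vale.Agent.P256
end

section

/-! The second fundamental form of a clean stratum. -/

namespace Vale.Agent.P256

open Filter Topology

variable {n : ℕ} {p : MvPolynomial (Fin n) ℝ} {e : Fin n → ℝ}

theorem eval_DL (g : MvPolynomial (Fin n) ℝ) (z v : Fin n → ℝ) :
    MvPolynomial.eval z (DL v g) = dd g z v := by
  rw [DL_apply, eval_dirD]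

theorem dd2_eq_DL (g : MvPolynomial (Fin n) ℝ) (z v : Fin n → ℝ) :
    dd2 g z v = MvPolynomial.eval z (DL v (DL v g)) := by
  rw [eval_DL, dd2_eq_eval, DL_apply]

/-- `D_w^{m-1} D_v p (z) = (m-1)! D_v q(w)` -/
theorem eval_DL_pow_DL (p : MvPolynomial (Fin n) ℝ) (z v w : Fin n → ℝ) (k : ℕ) :
    MvPolynomial.eval z ((DL w ^ k) (DL v p)) = k.factorial * dd (part p z (k + 1)) w v := by
  rw [eval_DL_pow, DL_apply, eval_part_dirD]

theorem DL_pow_comm (v w : Fin n → ℝ) (k : ℕ) (g : MvPolynomial (Fin n) ℝ) :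
    DL v ((DL w ^ k) g) = (DL w ^ k) (DL v g) := by
  have h := ((DL_comm v w).pow_right k).eq
  exact LinearMap.congr_fun h g

theorem DL_pow_pow_comm (v w : Fin n → ℝ) (j k : ℕ) (g : MvPolynomial (Fin n) ℝ) :
    (DL v ^ j) ((DL w ^ k) g) = (DL w ^ k) ((DL v ^ j) g) := by
  have h := ((DL_comm v w).pow_pow j k).eq
  exact LinearMap.congr_fun h g

theorem StratAt.seq {z : Fin n → ℝ} {m : ℕ} (hS : StratAt p e z m) {y : Fin n → ℝ}
    (hy : y ∈ Lin (part p z m)) :
    ∃ (s ρ : ℕ → ℝ) (u : ℕ → Fin n → ℝ) (a : Fin n → ℝ) (b : ℝ), (∀ k, 0 < s k) ∧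
      Tendsto s atTop (𝓝 0) ∧ Tendsto u atTop (𝓝 0) ∧ (∀ k, 0 < ρ k) ∧
      Tendsto ρ atTop (𝓝 0) ∧
      Tendsto (fun k => (ρ k)⁻¹ • u k) atTop (𝓝 a) ∧
      Tendsto (fun k => (ρ k)⁻¹ * s k ^ 2) atTop (𝓝 b) ∧ 0 < b ∧
      (∀ k, vanish p (z + s k • y + u k) m) ∧ ∀ l ∈ Lin (part p z m), ∑ i, a i * l i = 0 := by
  obtain ⟨m', rfl⟩ : ∃ m', m = m' + 1 := ⟨m - 1, by have := hS.two_le; omega⟩
  -- choose the sequence
  have hex : ∀ k : ℕ, ∃ s : ℝ, 0 < s ∧ s < 1 / ((k : ℝ) + 1) ∧ ∃ u : Fin n → ℝ,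
      ‖s • y + u‖ < 1 / ((k : ℝ) + 1) ∧ (∀ l ∈ Lin (part p z (m' + 1)), ∑ i, u i * l i = 0) ∧
      vanish p (z + s • y + u) (m' + 1) := by
    intro k
    have hk : (0 : ℝ) < 1 / ((k : ℝ) + 1) := by positivity
    have h1 := hS.clean _ (Metric.ball_mem_nhds z hk)
    have h2 : Tendsto (fun s : ℝ => z + s • y) (𝓝[>] 0) (𝓝 z) := by
      have : Continuous (fun s : ℝ => z + s • y) := by fun_prop
      have h3 := (this.tendsto 0).mono_left (nhdsWithin_le_nhds (s := Set.Ioi (0 : ℝ)))
      simpa using h3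
    have h3 : ∀ᶠ s : ℝ in 𝓝[>] 0, s < 1 / ((k : ℝ) + 1) :=
      nhdsWithin_le_nhds (Iio_mem_nhds hk)
    obtain ⟨s, ⟨hs1, hs2⟩, hs3⟩ := (((h2.eventually h1).and h3).and self_mem_nhdsWithin).exists
    obtain ⟨x, hx1, hx2, hx3⟩ := hs1
    refine ⟨s, hs3, hs2, x - z - s • y, ?_, ?_, ?_⟩
    · have : s • y + (x - z - s • y) = x - z := by abel
      rw [this]
      rwa [mem_ball_iff_norm] at hx1
    · intro l hl
      rw [← hx2 l hl]
      refine Finset.sum_congr rfl fun i _ => ?_
      simp only [Pi.sub_apply, Pi.add_apply, Pi.smul_apply, smul_eq_mul]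
      ring
    · have : z + s • y + (x - z - s • y) = x := by abel
      rw [this]
      exact hx3
  choose s hs0 hs1 u hu1 hu2 hu3 using hex
  have hs : Tendsto s atTop (𝓝 0) :=
    squeeze_zero (fun k => (hs0 k).le) (fun k => (hs1 k).le) tendsto_one_div_add_atTop_nhds_zero_nat
  have hsu : Tendsto (fun k => s k • y + u k) atTop (𝓝 0) :=
    squeeze_zero_norm (fun k => (hu1 k).le) tendsto_one_div_add_atTop_nhds_zero_nat
  have hu : Tendsto u atTop (𝓝 0) := by
    have h1 := hsu.sub (hs.smul_const y)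
    have h2 : (fun k => s k • y + u k - s k • y) = u := by
      funext k; abel
    rw [h2] at h1
    simpa using h1
  set ρ : ℕ → ℝ := fun k => ‖u k‖ + s k ^ 2 with hρd
  have hρ : ∀ k, 0 < ρ k := fun k => by
    have := hs0 k
    have : 0 < s k ^ 2 := by positivity
    have := norm_nonneg (u k)
    simp only [hρd]
    linarith
  have hρ0 : Tendsto ρ atTop (𝓝 0) := by
    have := hu.norm.add (hs.pow 2)
    simpa using this
  -- the compact set
  have hmem : ∀ k, (((ρ k)⁻¹ • u k, (ρ k)⁻¹ * s k ^ 2) : (Fin n → ℝ) × ℝ) ∈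
      Metric.closedBall (0 : (Fin n → ℝ) × ℝ) 1 := by
    intro k
    rw [mem_closedBall_zero_iff, Prod.norm_def, sup_le_iff]
    constructor
    · rw [norm_smul, norm_inv, Real.norm_of_nonneg (hρ k).le, inv_mul_le_iff₀ (hρ k), mul_one]
      simp only [hρd]
      have : 0 ≤ s k ^ 2 := sq_nonneg _
      linarith
    · rw [norm_mul, norm_inv, Real.norm_of_nonneg (hρ k).le, inv_mul_le_iff₀ (hρ k), mul_one,
        Real.norm_of_nonneg (sq_nonneg _)]
      simp only [hρd]
      have := norm_nonneg (u k)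
      linarith
  obtain ⟨⟨a, b⟩, _, φ, hφ, hlim⟩ := (isCompact_closedBall (0 : (Fin n → ℝ) × ℝ) 1).tendsto_subseq hmem
  have hlim1 : Tendsto (fun k => (ρ (φ k))⁻¹ • u (φ k)) atTop (𝓝 a) :=
    (continuous_fst.tendsto _).comp hlim
  have hlim2 : Tendsto (fun k => (ρ (φ k))⁻¹ * s (φ k) ^ 2) atTop (𝓝 b) :=
    (continuous_snd.tendsto _).comp hlim
  have haN : ∀ l ∈ Lin (part p z (m' + 1)), ∑ i, a i * l i = 0 := by
    intro l hl
    have h1 : Tendsto (fun k => ∑ i, ((ρ (φ k))⁻¹ • u (φ k)) i * l i) atTop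
        (𝓝 (∑ i, a i * l i)) :=
      tendsto_finsetSum _ fun i _ => ((tendsto_pi_nhds.1 hlim1 i).mul_const _)
    refine tendsto_nhds_unique h1 ?_
    have h2 : (fun k => ∑ i, ((ρ (φ k))⁻¹ • u (φ k)) i * l i) = fun _ => 0 := by
      funext k
      have h3 := hu2 (φ k) l hl
      have h4 : ∑ i, ((ρ (φ k))⁻¹ • u (φ k)) i * l i = (ρ (φ k))⁻¹ * ∑ i, u (φ k) i * l i := by
        rw [Finset.mul_sum]
        refine Finset.sum_congr rfl fun i _ => ?_
        simp only [Pi.smul_apply, smul_eq_mul]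
        ring
      rw [h4, h3, mul_zero]
    rw [h2]
    exact tendsto_const_nhds
  have hb0 : 0 ≤ b := ge_of_tendsto' hlim2 fun k => by
    have := hρ (φ k)
    (clear * - this; positivity)
  have hab : ‖a‖ + b = 1 := by
    have h1 := (hlim1.norm).add hlim2
    refine tendsto_nhds_unique h1 ?_
    have h2 : (fun k => ‖(ρ (φ k))⁻¹ • u (φ k)‖ + (ρ (φ k))⁻¹ * s (φ k) ^ 2) = fun _ => 1 := by
      funext k
      rw [norm_smul, norm_inv, Real.norm_of_nonneg (hρ _).le, ← mul_add]
      exact inv_mul_cancel₀ (hρ _).ne'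
    rw [h2]
    exact tendsto_const_nhds
  have hsφ := hs.comp hφ.tendsto_atTop
  have huφ := hu.comp hφ.tendsto_atTop
  refine ⟨s ∘ φ, ρ ∘ φ, u ∘ φ, a, b, fun k => hs0 _, hsφ, huφ, fun k => hρ _,
    hρ0.comp hφ.tendsto_atTop, hlim1, hlim2, ?_, fun k => hu3 _, haN⟩
  rcases hb0.lt_or_eq with h | h
  · exact h
  exfalso
  have haL : a ∈ Lin (part p z (m' + 1)) := by
    intro w
    have hg : ∀ k, MvPolynomial.eval (z + (s ∘ φ) k • y + (u ∘ φ) k) ((DL w ^ m') p) = 0 := by
      intro k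
      exact (vanish.DL_pow w m' (by rw [Nat.add_comm 1 m']; exact hu3 (φ k)) : vanish _ _ 1).eval
    have g0 : MvPolynomial.eval z ((DL w ^ m') p) = 0 :=
      (vanish.DL_pow w m' (by rw [add_comm]; exact hS.hm) : vanish _ _ 1).eval
    have g1 : dd ((DL w ^ m') p) z y = 0 := by
      rw [← eval_DL, DL_pow_comm, eval_DL_pow_DL, hy, mul_zero]
    have h1 := limit_exp hsφ huφ (fun k => hρ _) hlim1 hlim2 hg g0 g1
    rw [← h, mul_zero, zero_mul, add_zero, ← eval_DL, DL_pow_comm, eval_DL_pow_DL] at h1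
    exact (mul_eq_zero.1 h1).resolve_left (by positivity)
  have ha0 : a = 0 := by
    have h1 := haN a haL
    funext i
    have h2 : ∑ i, a i * a i = 0 := h1
    have := (Finset.sum_eq_zero_iff_of_nonneg (fun i _ => mul_self_nonneg (a i))).1 h2 i
      (Finset.mem_univ i)
    simpa using this
  rw [ha0, norm_zero, ← h] at hab
  norm_num at hab

theorem K_smul_mem_iff_helper {q : MvPolynomial (Fin n) ℝ} (hq : IsHyperbolic q e)
    {u : Fin n → ℝ} {c : ℝ} (hc : 0 < c) (hu : u ∈ hypCone q e) : c⁻¹ • u ∈ hypCone q e :=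
  K_smul hq hu (inv_pos.2 hc).le

/-- the second fundamental form of the stratum points into the open tangent cone -/
theorem StratAt.alpha (hp : IsHyperbolic p e) {z : Fin n → ℝ} (hz : z ∈ hypCone p e) {m : ℕ}
    (hS : StratAt p e z (m + 1)) {y : Fin n → ℝ}
    (hy : y ∈ Lin (part p z (m + 1))) (hyz : y ∉ Submodule.span ℝ {z}) :
    ∃ α : Fin n → ℝ, InOpen (part p z (m + 1)) e α ∧
      ∀ w, dd (part p z (m + 1)) w α + 1 / 2 * ((m.factorial : ℝ)⁻¹ *
        MvPolynomial.eval z ((DL w ^ m) (DL y (DL y p)))) = 0 := by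
  obtain ⟨d, hd⟩ := hp.1
  obtain ⟨s, ρ, u, a, b, hs0, hs, hu, hρ, hρ0, h1, h2, hb, hv, haN⟩ := hS.seq hy
  have hq := part_hyp hp hS.hm hS.he
  have hqd := part_homog p z (m + 1)
  obtain ⟨U, hU, hUK⟩ := near_mem_K hp hz hS.hm hS.he
  have hzk : Tendsto (fun k => z + s k • y + u k) atTop (𝓝 z) := by
    have : Tendsto (fun k => z + s k • y + u k) atTop (𝓝 (z + (0 : ℝ) • y + 0)) :=
      ((hs.smul_const y).const_add z).add hu
    simpa only [zero_smul, add_zero] using this
  have haK : a ∈ hypCone (part p z (m + 1)) e := by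
    refine (isClosed_K hq).mem_of_tendsto h1 ?_
    filter_upwards [hzk.eventually hU] with k hk
    have k1 := K_sub_part hp hz hS.hm hS.he (hUK _ hk (hv k))
    have hzL : z ∈ Lin (part p z (m + 1)) := by
      intro v
      have h3 : ∀ t : ℝ, MvPolynomial.eval (v + t • z) (part p z (m + 1)) =
          MvPolynomial.eval v (part p z (m + 1)) := fun t => part_lineality hp.1 hS.hm v t
      have h4 : line (part p z (m + 1)) v z =
          Polynomial.C (MvPolynomial.eval v (part p z (m + 1))) := by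
        apply Polynomial.funext
        intro t
        rw [eval_line, h3, Polynomial.eval_C]
      have h5 := eval_derivative_line (part p z (m + 1)) v z 0
      rw [h4, Polynomial.derivative_C, Polynomial.eval_zero, zero_smul, add_zero] at h5
      exact h5.symm
    have hL : -(z + s k • y) ∈ Lin (part p z (m + 1)) :=
      Submodule.neg_mem _ (Submodule.add_mem _ hzL (Submodule.smul_mem _ _ hy))
    have k2 := K_add_Lin (e := e) hqd hL k1
    have k3 : z + s k • y + u k + -(z + s k • y) = u k := by abel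
    rw [k3] at k2
    exact K_smul_mem_iff_helper hq (hρ k) k2
  have hα0 : MvPolynomial.eval a (part p z (m + 1)) ≠ 0 := by
    intro ha0
    apply hS.curv y hy hyz
    rw [← coeff_line]
    refine coeff_zero_of_tendsto hs hs0 ?_
    have e1 : ∀ k, (s k ^ (2 * (m + 1)))⁻¹ * (line p z y).eval (s k) =
        (((ρ k)⁻¹ * s k ^ 2)⁻¹) ^ (m + 1) * MvPolynomial.eval
          (wp (z + s k • y + u k) (ρ k) (-((ρ k)⁻¹ • u k))) (stP p (m + 1) d) := by
      intro k
      have h3 := eval_mul_stP hd (le_refl d)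
        (w := wp (z + s k • y + u k) (ρ k) (-((ρ k)⁻¹ • u k))) (hv k)
      rw [zp_wp, bp_wp, np_wp, smul_neg, smul_smul, mul_inv_cancel₀ (hρ k).ne', one_smul] at h3
      have h4 : z + s k • y + u k + -u k = z + s k • y := by abel
      rw [h4] at h3
      rw [eval_line, h3, mul_inv, inv_inv, mul_pow, ← inv_pow, pow_mul, inv_pow, inv_pow]
      ring
    simp only [e1]
    have h5 : Tendsto (fun k => MvPolynomial.eval
        (wp (z + s k • y + u k) (ρ k) (-((ρ k)⁻¹ • u k))) (stP p (m + 1) d)) atTop (𝓝 0) := by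
      have hc : Continuous (fun q : (Fin n → ℝ) × ℝ × (Fin n → ℝ) =>
          MvPolynomial.eval (wp q.1 q.2.1 q.2.2) (stP p (m + 1) d)) :=
        (MvPolynomial.continuous_eval _).comp (wp_cont continuous_fst
          (continuous_fst.comp continuous_snd) (continuous_snd.comp continuous_snd))
      have h6 := (hc.tendsto (z, 0, -a)).comp (hzk.prodMk_nhds (hρ0.prodMk_nhds h1.neg))
      have h7 : MvPolynomial.eval (wp z 0 (-a)) (stP p (m + 1) d) = 0 := by
        rw [eval_stP_zero _ _ _ rfl, zp_wp, np_wp]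
        have h8 : -a = (-1 : ℝ) • a := by simp
        rw [h8, eval_smul' hqd, ha0, mul_zero]
      simp only at h6
      rw [h7] at h6
      exact h6
    have h6 := ((h2.inv₀ hb.ne').pow (m + 1)).mul h5
    rw [mul_zero] at h6
    exact h6
  have hgen : ∀ w, dd ((DL w ^ m) p) z a + 1 / 2 * b * dd2 ((DL w ^ m) p) z y = 0 := by
    intro w
    refine limit_exp hs hu hρ h1 h2 (fun k => ?_) ?_ ?_
    · exact (vanish.DL_pow w m (by rw [Nat.add_comm 1 m]; exact hv k) : vanish _ _ 1).eval
    · exact (vanish.DL_pow w m (by rw [add_comm]; exact hS.hm) : vanish _ _ 1).eval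
    · rw [← eval_DL, DL_pow_comm, eval_DL_pow_DL, hy, mul_zero]
  refine ⟨b⁻¹ • a, ?_, fun w => ?_⟩
  · have h3 := K_smul hq haK (inv_pos.2 hb).le
    refine inOpen_of_mem_of_ne hq h3 ?_
    rw [eval_smul' hqd]
    exact mul_ne_zero (pow_ne_zero _ (inv_ne_zero hb.ne')) hα0
  · have h3 := hgen w
    rw [← eval_DL, DL_pow_comm, eval_DL_pow_DL, dd2_eq_DL, DL_pow_comm, DL_pow_comm] at h3
    rw [dd_smul]
    have h4 : (m.factorial : ℝ) ≠ 0 := by positivity
    field_simp
    linarith

/-- higher mixed derivatives in the direction of the stratum vanish -/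
theorem StratAt.mixed {z : Fin n → ℝ} {m : ℕ} (hS : StratAt p e z (m + 1)) {y : Fin n → ℝ}
    (hy : y ∈ Lin (part p z (m + 1))) (w : Fin n → ℝ) {j k : ℕ} (hjk : (j + 1) + k = m) :
    MvPolynomial.eval z ((DL w ^ k) ((DL y ^ (j + 3)) p)) = 0 := by
  obtain ⟨s, ρ, u, a, b, hs0, hs, hu, hρ, hρ0, h1, h2, hb, hv, haN⟩ := hS.seq hy
  have hvan : ∀ x, vanish p x (m + 1) → vanish ((DL w ^ k) ((DL y ^ (j + 1)) p)) x 1 := by
    intro x hx
    apply vanish.DL_pow
    apply vanish.DL_pow
    have : 1 + k + (j + 1) = m + 1 := by omega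
    rw [this]
    exact hx
  have hyv : vanish (DL y p) z (m + 1) := by
    intro i hi
    by_cases him : i = m
    · subst him
      exact part_DL_eq_zero (fun u => hy u)
    · exact hS.hm.DL y i (by omega)
  -- all `m`-th order derivatives of `D_y p` with one fewer factor vanish
  have hdd : ∀ v, dd ((DL w ^ k) ((DL y ^ (j + 1)) p)) z v = 0 := by
    intro v
    rw [← eval_DL, pow_succ]
    show MvPolynomial.eval z (DL v ((DL w ^ k) ((DL y ^ j) (DL y p)))) = 0
    have h3 : vanish (DL v ((DL w ^ k) ((DL y ^ j) (DL y p)))) z 1 := by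
      apply vanish.DL
      apply vanish.DL_pow
      apply vanish.DL_pow
      have : 1 + 1 + k + j = m + 1 := by omega
      rw [this]
      exact hyv
    exact h3.eval
  have h3 := limit_exp hs hu hρ h1 h2 (g := (DL w ^ k) ((DL y ^ (j + 1)) p))
    (fun i => (hvan _ (hv i)).eval) (hvan _ hS.hm).eval (hdd y)
  rw [hdd, zero_add] at h3
  have h4 : dd2 ((DL w ^ k) ((DL y ^ (j + 1)) p)) z y = 0 :=
    (mul_eq_zero.1 h3).resolve_left (by positivity)
  rw [dd2_eq_DL, DL_pow_comm, DL_pow_comm] at h4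
  have h5 : DL y (DL y ((DL y ^ (j + 1)) p)) = (DL y ^ (j + 3)) p := by
    have : (DL y ^ (j + 3)) = DL y * (DL y * DL y ^ (j + 1)) := by
      rw [← pow_succ', ← pow_succ']
    rw [this]; rfl
  rw [h5] at h4
  exact h4

end Vale.Agent.P256
end

section

/-! Positivity of the limit form at a clean stratum. -/

namespace Vale.Agent.P256

open Filter Topology

variable {n : ℕ} {p : MvPolynomial (Fin n) ℝ} {e : Fin n → ℝ}

/-- unit boundary directions of the tangent cone, orthogonal to its lineality space -/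
def dirL (p : MvPolynomial (Fin n) ℝ) (e z : Fin n → ℝ) (m : ℕ) : Set (Fin n → ℝ) :=
  {u | u ∈ hypCone (part p z m) e ∧ MvPolynomial.eval u (part p z m) = 0 ∧
    ∑ i, u i ^ 2 = 1 ∧ ∀ l ∈ Lin (part p z m), ∑ i, u i * l i = 0}

theorem dirL_not_mem {z u : Fin n → ℝ} {m : ℕ} (hu : u ∈ dirL p e z m) :
    u ∉ Lin (part p z m) := by
  intro h
  have h1 := hu.2.2.2 u h
  have h2 := hu.2.2.1
  have h3 : ∑ i, u i * u i = ∑ i, u i ^ 2 := Finset.sum_congr rfl fun i _ => (sq _).symm
  rw [h3, h2] at h1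
  exact one_ne_zero h1

/-- Rigidity of the tangent cone modulo its lineality space. -/
theorem lin_rigid {q : MvPolynomial (Fin n) ℝ} (hq : IsHyperbolic q e) {m : ℕ}
    (hm2 : 2 ≤ m) (hd : q.IsHomogeneous m)
    (hloc : ∀ v ∈ hypCone q e, MvPolynomial.eval v q = 0 → v ∉ Lin q → 0 < dd q v e)
    {u v : Fin n → ℝ} (hu : u ∈ hypCone q e) (huz : u ∉ Lin q)
    (hv : ∀ t : ℝ, MvPolynomial.eval (u + t • v) q = 0) :
    ∃ a ∈ Lin q, ∃ b : ℝ, v = a + b • u := by
  by_contra hne
  push Not at hne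
  have hvz : v ∉ Lin q := by
    intro h
    exact hne v h 0 (by simp)
  have hnotin : ∀ t : ℝ, u + t • v ∉ Lin q := by
    intro t hc
    by_cases ht : t = 0
    · subst ht
      apply huz
      simpa using hc
    · apply hne (t⁻¹ • (u + t • v)) (Submodule.smul_mem _ _ hc) (- t⁻¹)
      rw [smul_add, smul_smul, inv_mul_cancel₀ ht, one_smul, neg_smul]
      abel
  set J : Set ℝ := {t | u + t • v ∈ hypCone q e} with hJ
  have hJc : IsClosed J := (isClosed_K hq).preimage (by fun_prop)
  have hJo : IsOpen J := by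
    rw [Metric.isOpen_iff]
    intro t ht
    have hs := hloc _ ht (hv t) (hnotin t)
    obtain ⟨t₀, ht₀, h⟩ := line_in_K hq ht hs (v := v) (by
      intro s
      have : u + t • v + s • v = u + (t + s) • v := by rw [add_smul]; abel
      rw [this]; exact hv _)
    refine ⟨t₀, ht₀, fun s hs' => ?_⟩
    rw [Metric.mem_ball, Real.dist_eq] at hs'
    have := h (s - t) hs'.le
    have e1 : u + t • v + (s - t) • v = u + s • v := by rw [sub_smul]; abel
    rw [e1] at this
    exact this
  have hJu : J = Set.univ := by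
    have h0 : (0 : ℝ) ∈ J := by rw [hJ]; simpa using hu
    exact IsClopen.eq_univ ⟨hJc, hJo⟩ ⟨0, h0⟩
  have hv1 : v ∈ hypCone q e := by
    apply dir_mem hq (u := u)
    intro t _
    have : t ∈ J := by rw [hJu]; trivial
    exact this
  have hv2 : -v ∈ hypCone q e := by
    apply dir_mem hq (u := u)
    intro t _
    have : -t ∈ J := by rw [hJu]; trivial
    have h3 : u + (-t) • v ∈ hypCone q e := this
    rwa [neg_smul, ← smul_neg] at h3
  have hl := lineality_singular hq hm2 hd hv1 hv2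
  have := hloc v hv1 hl.1 hvz
  rw [hl.2] at this
  exact lt_irrefl _ this

theorem sum_sq_eq_zero {v : Fin n → ℝ} (h : ∑ i, v i ^ 2 = 0) : v = 0 := by
  funext i
  have := (Finset.sum_eq_zero_iff_of_nonneg (fun i _ => sq_nonneg (v i))).1 h i
    (Finset.mem_univ i)
  simpa using this

theorem StratAt.neg (hp : IsHyperbolic p e) {z : Fin n → ℝ} {m : ℕ}
    (hS : StratAt p e z m) {u : Fin n → ℝ} (hu : u ∈ dirL p e z m) (v : Fin n → ℝ) (hv : v ≠ 0)
    (h1 : dd (part p z m) u v = 0) (h2 : ∀ l ∈ Lin (part p z m), ∑ i, v i * l i = 0)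
    (h3 : ∑ i, u i * v i = 0) :
    dd2 (part p z m) u v < 0 := by
  have hq := part_hyp hp hS.hm hS.he
  have huz := dirL_not_mem hu
  have hc := curvature hq hu.1 hu.2.1 (hS.sm u hu.1 hu.2.1 huz) h1
  apply lt_of_le_of_ne hc.1
  intro h4
  obtain ⟨a, ha, b, hab⟩ := lin_rigid hq hS.two_le (part_homog p z m) hS.sm hu.1 huz (hc.2 h4)
  have e1 : ∑ i, v i ^ 2 = ∑ i, v i * a i + b * ∑ i, u i * v i := by
    rw [Finset.mul_sum, ← Finset.sum_add_distrib]
    apply Finset.sum_congr rfl
    intro i _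
    have : v i = a i + b * u i := by rw [hab]; simp
    rw [sq]
    nth_rewrite 2 [this]
    ring
  rw [h2 a ha, h3, mul_zero, add_zero] at e1
  exact hv (sum_sq_eq_zero e1)

theorem StratAt.off (hp : IsHyperbolic p e) {z : Fin n → ℝ} {m : ℕ}
    (hS : StratAt p e z m) {u : Fin n → ℝ} (hu : u ∈ dirL p e z m) {u' : Fin n → ℝ}
    (hu' : u' ∈ dirL p e z m) (hne : u' ≠ u) : 0 < dd (part p z m) u u' := by
  have hq := part_hyp hp hS.hm hS.he
  have hqd := part_homog p z m
  have huz := dirL_not_mem hu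
  have hsm := hS.sm u hu.1 hu.2.1 huz
  apply lt_of_le_of_ne (K_dd_nonneg hq hu.1 hu.2.1 hu'.1)
  intro h0
  have h1 := zero_line_of_dd hq hu.1 hu.2.1 hsm hu'.1 h0.symm
  obtain ⟨a, ha, b, hab⟩ := lin_rigid hq hS.two_le hqd hS.sm hu.1 huz h1
  have hui : ∀ i, u' i = a i + b * u i := by intro i; rw [hab]; simp
  -- `a = 0`
  have ha0 : a = 0 := by
    apply sum_sq_eq_zero
    have e1 : ∑ i, a i ^ 2 = ∑ i, u' i * a i - b * ∑ i, u i * a i := by
      rw [Finset.mul_sum, ← Finset.sum_sub_distrib]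
      refine Finset.sum_congr rfl fun i _ => ?_
      rw [hui]; ring
    rw [e1, hu'.2.2.2 a ha, hu.2.2.2 a ha]; ring
  rw [ha0] at hab
  have e2 : ∑ i, u' i ^ 2 = b ^ 2 := by
    have : ∀ i, u' i ^ 2 = b ^ 2 * u i ^ 2 := by
      intro i; rw [hui, ha0]; simp; ring
    simp_rw [this]
    rw [← Finset.mul_sum, hu.2.2.1, mul_one]
  rw [hu'.2.2.1] at e2
  have e3 : b = 1 ∨ b = -1 := by
    have : (b - 1) * (b + 1) = 0 := by linarith
    rcases mul_eq_zero.1 this with h | h
    · left; linarith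
    · right; linarith
  rcases e3 with h | h
  · apply hne
    rw [hab, h, one_smul, zero_add]
  · have h2 : -u = u' := by rw [hab, h, neg_smul, one_smul, zero_add]
    have h3 := lineality_singular hq hS.two_le hqd hu.1 (by rw [h2]; exact hu'.1)
    rw [h3.2] at hsm
    exact lt_irrefl _ hsm

/-- the next homogeneous part is negative on the boundary of the tangent cone -/
theorem StratAt.next_neg (hp : IsHyperbolic p e) {z : Fin n → ℝ} (hz : z ∈ hypCone p e) {m : ℕ}
    (hS : StratAt p e z m) {v : Fin n → ℝ} (hv : v ∈ hypCone (part p z m) e)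
    (hv0 : MvPolynomial.eval v (part p z m) = 0) (hvL : v ∉ Lin (part p z m)) :
    MvPolynomial.eval v (part p z (m + 1)) < 0 := by
  obtain ⟨d, hd⟩ := hp.1
  obtain ⟨m', rfl⟩ : ∃ m', m = m' + 1 := ⟨m - 1, by have := hS.two_le; omega⟩
  have hs := hS.sm v hv hv0 hvL
  have h1 := conic_rigidity hp hz hS.hm hv0 hs
  apply lt_of_le_of_ne h1.1
  intro h2
  have h3 := h1.2 h2
  obtain ⟨t₀, ht₀, h4⟩ := conic_line_in_K hp hz hS.hm hS.he hv hs h3
  have h5 := h4 (t₀ / 2) (by linarith) (by linarith)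
  have hzL : z ∈ Lin (part p z (m' + 1)) := by
    intro w
    have h4 : line (part p z (m' + 1)) w z =
        Polynomial.C (MvPolynomial.eval w (part p z (m' + 1))) := by
      apply Polynomial.funext
      intro t
      rw [eval_line, part_lineality hp.1 hS.hm, Polynomial.eval_C]
    have h5 := eval_derivative_line (part p z (m' + 1)) w z 0
    rw [h4, Polynomial.derivative_C, Polynomial.eval_zero, zero_smul, add_zero] at h5
    exact h5.symm
  apply hS.face _ h5
  · intro h6
    apply hvL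
    obtain ⟨c, hc⟩ := mem_span1.1 h6
    have h7 : v = (t₀ / 2)⁻¹ • ((c - 1) • z) := by
      rw [sub_smul, one_smul, ← hc, add_sub_cancel_left, smul_smul,
        inv_mul_cancel₀ (by (clear * - ht₀; positivity)), one_smul]
    rw [h7]
    exact Submodule.smul_mem _ _ (Submodule.smul_mem _ _ hzL)
  · have : z + (z + (t₀ / 2) • v) = (2 : ℝ) • (z + (t₀ / 4) • v) := by
      rw [smul_add, two_smul, smul_smul]
      have : (2 : ℝ) * (t₀ / 4) = t₀ / 2 := by ring
      rw [this]; abel
    rw [this, eval_smul' hd, h3, mul_zero]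

theorem Lin_self (hp : IsHyperbolic p e) {z : Fin n → ℝ} {m : ℕ} (hm : vanish p z m) :
    z ∈ Lin (part p z m) := by
  intro w
  have h4 : line (part p z m) w z = Polynomial.C (MvPolynomial.eval w (part p z m)) := by
    apply Polynomial.funext
    intro t
    rw [eval_line, part_lineality hp.1 hm, Polynomial.eval_C]
  have h5 := eval_derivative_line (part p z m) w z 0
  rw [h4, Polynomial.derivative_C, Polynomial.eval_zero, zero_smul, add_zero] at h5
  exact h5.symm

/-- expansion of the `(m+2)`-nd part -/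
theorem StratAt.expand {z : Fin n → ℝ} {m : ℕ}
    (hS : StratAt p e z (m + 1)) {y : Fin n → ℝ} (hy : y ∈ Lin (part p z (m + 1)))
    (u : Fin n → ℝ) (t : ℝ) :
    ((m + 2).factorial : ℝ) * MvPolynomial.eval (y + t • u) (part p z (m + 2)) =
      t ^ (m + 2) * MvPolynomial.eval z ((DL u ^ (m + 2)) p) +
      (m + 2) * t ^ (m + 1) * MvPolynomial.eval z ((DL u ^ (m + 1)) (DL y p)) +
      (m + 2) * (m + 1) / 2 * t ^ m * MvPolynomial.eval z ((DL u ^ m) (DL y (DL y p))) := by
  rw [← eval_DL_pow, DL_add, DL_smul]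
  have hcomm : Commute (DL y) (t • DL u) := (DL_comm y u).smul_right t
  rw [hcomm.add_pow, LinearMap.sum_apply, map_sum]
  have hterm : ∀ i, MvPolynomial.eval z
      ((DL y ^ i * (t • DL u) ^ (m + 2 - i) * (((m + 2).choose i : ℕ) : Module.End ℝ (MvPolynomial (Fin n) ℝ))) p) =
      ((m + 2).choose i : ℝ) * t ^ (m + 2 - i) *
        MvPolynomial.eval z ((DL u ^ (m + 2 - i)) ((DL y ^ i) p)) := by
    intro i
    have h1 : (DL y ^ i * (t • DL u) ^ (m + 2 - i) *
        (((m + 2).choose i : ℕ) : Module.End ℝ (MvPolynomial (Fin n) ℝ))) p =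
        (((m + 2).choose i : ℝ) * t ^ (m + 2 - i)) • ((DL u ^ (m + 2 - i)) ((DL y ^ i) p)) := by
      rw [smul_pow, mul_smul_comm, smul_mul_assoc]
      show t ^ (m + 2 - i) • ((DL y ^ i) ((DL u ^ (m + 2 - i))
        ((((m + 2).choose i : ℕ) : Module.End ℝ (MvPolynomial (Fin n) ℝ)) p))) = _
      have h2 : ((((m + 2).choose i : ℕ) : Module.End ℝ (MvPolynomial (Fin n) ℝ)) p) =
          ((m + 2).choose i : ℝ) • p := by
        rw [Module.End.natCast_apply, Nat.cast_smul_eq_nsmul]
      rw [h2, map_smul, map_smul, DL_pow_pow_comm, smul_smul, mul_comm (t ^ _)]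
    rw [h1, MvPolynomial.smul_eval]
  rw [Finset.sum_congr rfl fun i _ => hterm i]
  have e1 : m + 2 + 1 = 3 + m := by omega
  rw [e1, Finset.sum_range_add]
  have h0 : ∑ x ∈ Finset.range m, ((m + 2).choose (3 + x) : ℝ) * t ^ (m + 2 - (3 + x)) *
      MvPolynomial.eval z ((DL u ^ (m + 2 - (3 + x))) ((DL y ^ (3 + x)) p)) = 0 := by
    refine Finset.sum_eq_zero fun x hx => ?_
    have hx' := Finset.mem_range.1 hx
    have h3 := hS.mixed hy u (j := x) (k := m + 2 - (3 + x)) (by omega)
    have e2 : x + 3 = 3 + x := by omega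
    rw [e2] at h3
    rw [h3, mul_zero]
  rw [h0, add_zero, Finset.sum_range_succ, Finset.sum_range_succ, Finset.sum_range_one]
  have c2 : ((m + 2).choose 2 : ℝ) = (m + 2) * (m + 1) / 2 := by
    rw [Nat.cast_choose_two]
    push_cast
    ring
  have e3 : m + 2 - 0 = m + 2 := rfl
  have e4 : m + 2 - 1 = m + 1 := rfl
  have e5 : m + 2 - 2 = m := rfl
  rw [c2, e3, e4, e5, Nat.choose_zero_right, Nat.choose_one_right]
  have e6 : (DL y ^ 2) p = DL y (DL y p) := by rw [pow_two]; rfl
  have e7 : (DL y ^ 1) p = DL y p := by rw [pow_one]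
  have e8 : (DL y ^ 0) p = p := by rw [pow_zero]; rfl
  rw [e6, e7, e8]
  push_cast
  ring

theorem alg_pos (m : ℕ) {t A B U r : ℝ} (ht : 0 < t) (hr : r < 0)
    (h : ((m + 2).factorial : ℝ) * r =
      t ^ (m + 2) * U + (m + 2) * t ^ (m + 1) * A + (m + 2) * (m + 1) / 2 * t ^ m * B) :
    0 < - (1 / 2) * ((m.factorial : ℝ)⁻¹ * B) - t * (((m + 1).factorial : ℝ)⁻¹ * A) -
      t ^ 2 * (((m + 2).factorial : ℝ)⁻¹ * U) := by
  have f2 : ((m + 2).factorial : ℝ) = (m + 2) * ((m + 1) * m.factorial) := by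
    rw [Nat.factorial_succ, Nat.factorial_succ]; push_cast; ring
  have f1 : ((m + 1).factorial : ℝ) = (m + 1) * m.factorial := by
    rw [Nat.factorial_succ]; push_cast; ring
  have hm0 : (0 : ℝ) < m.factorial := by positivity
  have h6 : ((m + 2).factorial : ℝ) * r < 0 := mul_neg_of_pos_of_neg (by positivity) hr
  rw [h] at h6
  have h7 : 0 < t ^ m * ((m + 2).factorial : ℝ) := by positivity
  have h8 : (t ^ m * ((m + 2).factorial : ℝ)) * (- (1 / 2) * ((m.factorial : ℝ)⁻¹ * B) -
      t * (((m + 1).factorial : ℝ)⁻¹ * A) - t ^ 2 * (((m + 2).factorial : ℝ)⁻¹ * U)) =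
      - (t ^ (m + 2) * U + (m + 2) * t ^ (m + 1) * A + (m + 2) * (m + 1) / 2 * t ^ m * B) := by
    rw [f2, f1]
    generalize (m.factorial : ℝ) = F at hm0
    have hm1 : F ≠ 0 := hm0.ne'
    have hm2 : ((m : ℝ) + 1) ≠ 0 := by (clear * -; positivity)
    have hm3 : ((m : ℝ) + 2) ≠ 0 := by positivity
    have e1 : t ^ (m + 1) = t ^ m * t := pow_succ t m
    have e2 : t ^ (m + 2) = t ^ m * t * t := by rw [pow_succ, pow_succ]
    rw [e1, e2]
    generalize t ^ m = T
    field_simp
    ring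
  refine pos_of_mul_pos_right (a := t ^ m * ((m + 2).factorial : ℝ)) ?_ h7.le
  rw [h8]
  linarith only [h6]

/-- the limit form -/
noncomputable def Qf2 (p : MvPolynomial (Fin n) ℝ) (z u : Fin n → ℝ) (m : ℕ) (y : Fin n → ℝ)
    (t : ℝ) : ℝ :=
  - (1 / 2) * ((m.factorial : ℝ)⁻¹ * MvPolynomial.eval z ((DL u ^ m) (DL y (DL y p)))) -
    t * (((m + 1).factorial : ℝ)⁻¹ * MvPolynomial.eval z ((DL u ^ (m + 1)) (DL y p))) -
    t ^ 2 * (((m + 2).factorial : ℝ)⁻¹ * MvPolynomial.eval z ((DL u ^ (m + 2)) p))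

theorem Qf2_neg (p : MvPolynomial (Fin n) ℝ) (z u : Fin n → ℝ) (m : ℕ) (y : Fin n → ℝ)
    (t : ℝ) : Qf2 p z u m (-y) (-t) = Qf2 p z u m y t := by
  have e1 : DL (-y) = - DL y := by
    have : -y = (-1 : ℝ) • y := by simp
    rw [this, DL_smul]
    exact neg_one_smul ℝ (DL y)
  have e2 : DL (-y) (DL (-y) p) = DL y (DL y p) := by
    rw [e1, LinearMap.neg_apply, LinearMap.neg_apply, map_neg, neg_neg]
  have e3 : MvPolynomial.eval z ((DL u ^ (m + 1)) (DL (-y) p)) =
      - MvPolynomial.eval z ((DL u ^ (m + 1)) (DL y p)) := by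
    rw [e1, LinearMap.neg_apply, map_neg, map_neg]
  unfold Qf2
  rw [e2, e3]
  ring

theorem StratAt.pos_aux (hp : IsHyperbolic p e) {z : Fin n → ℝ} (hzK : z ∈ hypCone p e) {m : ℕ}
    (hS : StratAt p e z (m + 1)) {u : Fin n → ℝ} (hu : u ∈ dirL p e z (m + 1)) {y : Fin n → ℝ}
    (hy : y ∈ Lin (part p z (m + 1))) {t : ℝ} (ht : 0 < t) : 0 < Qf2 p z u m y t := by
  have hq := part_hyp hp hS.hm hS.he
  have hqd := part_homog p z (m + 1)
  have huL := dirL_not_mem hu
  have h1 : y + t • u ∈ hypCone (part p z (m + 1)) e := by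
    rw [add_comm y]
    exact K_add_Lin hqd hy (K_smul hq hu.1 ht.le)
  have h2 : MvPolynomial.eval (y + t • u) (part p z (m + 1)) = 0 := by
    rw [add_comm y, eval_add_Lin hy, eval_smul' hqd, hu.2.1, mul_zero]
  have h3 : y + t • u ∉ Lin (part p z (m + 1)) := by
    intro h
    apply huL
    have h4 : t • u ∈ Lin (part p z (m + 1)) := by
      have h5 := Submodule.sub_mem _ h hy
      rwa [add_sub_cancel_left] at h5
    have h5 := Submodule.smul_mem _ t⁻¹ h4
    rwa [smul_smul, inv_mul_cancel₀ ht.ne', one_smul] at h5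
  exact alg_pos m ht (hS.next_neg hp hzK h1 h2 h3) (hS.expand hy u t)

theorem StratAt.pos (hp : IsHyperbolic p e) {z : Fin n → ℝ} (hz : z ∈ bdT p e) {m : ℕ}
    (hS : StratAt p e z (m + 1)) {u : Fin n → ℝ} (hu : u ∈ dirL p e z (m + 1)) {y : Fin n → ℝ}
    (hy : y ∈ Lin (part p z (m + 1))) (hyz : ∑ i, z i * y i = 0) {t : ℝ} (hyt : y ≠ 0 ∨ t ≠ 0) :
    0 < Qf2 p z u m y t := by
  obtain ⟨hzK, hz0, hz1⟩ := hz
  have hq := part_hyp hp hS.hm hS.he
  have huL := dirL_not_mem hu
  rcases lt_trichotomy t 0 with ht | ht | ht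
  · rw [← Qf2_neg]
    exact hS.pos_aux hp hzK hu (Submodule.neg_mem _ hy) (by linarith)
  · subst ht
    have hy0 : y ≠ 0 := by
      rcases hyt with h | h
      · exact h
      · exact absurd rfl h
    have hyspan : y ∉ Submodule.span ℝ {z} := by
      rw [mem_span1]
      rintro ⟨c, rfl⟩
      have h1 : ∑ i, z i * (c • z) i = c := by
        have : ∀ i, z i * (c • z) i = c * z i ^ 2 := by
          intro i
          simp only [Pi.smul_apply, smul_eq_mul]
          ring
        simp_rw [this]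
        rw [← Finset.mul_sum, hz1, mul_one]
      rw [hyz] at h1
      exact hy0 (by rw [← h1, zero_smul])
    obtain ⟨α, hα, h1⟩ := hS.alpha hp hzK hy hyspan
    have h2 := dd_open_pos hq hu.1 hu.2.1 (smooth_of_dd_pos (hS.sm u hu.1 hu.2.1 huL).ne') hα
    have h3 := h1 u
    unfold Qf2
    have e1 : (0 : ℝ) ^ 2 = 0 := by norm_num
    rw [e1, zero_mul, zero_mul, sub_zero, sub_zero]
    linarith
  · exact hS.pos_aux hp hzK hu hy ht

end Vale.Agent.P256
end

section

/-! Local SOS decompositions at a clean stratum. -/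

namespace Vale.Agent.P256

open Filter Topology

variable {n : ℕ} {p : MvPolynomial (Fin n) ℝ} {e : Fin n → ℝ}

theorem part_DL (p : MvPolynomial (Fin n) ℝ) (z v : Fin n → ℝ) (k : ℕ) :
    part (DL v p) z k = DL v (part p z (k + 1)) := by
  apply MvPolynomial.funext
  intro u
  rw [eval_DL, DL_apply, eval_part_dirD]

theorem part_pderiv (p : MvPolynomial (Fin n) ℝ) (z : Fin n → ℝ) (i : Fin n) (k : ℕ) :
    part (MvPolynomial.pderiv i p) z k = MvPolynomial.pderiv i (part p z (k + 1)) := by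
  rw [← DL_single, part_DL, DL_single]

theorem exists_gc (n k : ℕ) : ∃ (A : Type) (_ : Fintype A)
    (c : A → (Fin n ⊕ Option (Fin n) → ℝ) → ℝ)
    (L : A → Module.End ℝ (MvPolynomial (Fin n) ℝ)), (∀ a, Continuous (c a)) ∧
      (∀ p w, MvPolynomial.eval w (Fp k p) = ∑ a, c a w * MvPolynomial.eval (zp w) (L a p)) ∧
      (∀ a i p, L a (MvPolynomial.pderiv i p) = MvPolynomial.pderiv i (L a p)) ∧
      (∀ p z, vanish p z (k + 1) → ∀ a, MvPolynomial.eval z (L a p) = 0) := by
  induction k with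
  | zero =>
    refine ⟨Unit, inferInstance, fun _ _ => 1, fun _ => LinearMap.id, fun _ => continuous_const,
      fun p w => ?_, fun _ _ _ => rfl, fun p z h _ => h.eval⟩
    have := eval_Fp 0 p w
    simpa only [Finset.univ_unique, PUnit.default_eq_unit, LinearMap.id_coe, id_eq, one_mul, Finset.sum_const,     Finset.card_singleton, one_smul, pow_zero, Module.End.one_apply] using this
  | succ k ih =>
    obtain ⟨A, hA, c, L, h1, h2, h3, h4⟩ := ih
    refine ⟨Fin n × A, inferInstance, fun a w => np w a.1 * c a.2 w,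
      fun a => L a.2 ∘ₗ (MvPolynomial.pderiv a.1 :
        Derivation ℝ (MvPolynomial (Fin n) ℝ) (MvPolynomial (Fin n) ℝ)).toLinearMap,
      fun a => ((continuous_apply a.1).comp np_cont).mul (h1 a.2), fun p w => ?_,
      fun a i p => ?_, fun p z h a => ?_⟩
    · show MvPolynomial.eval w (∑ i, MvPolynomial.X (Sum.inr (some i)) *
        Fp k (MvPolynomial.pderiv i p)) = _
      rw [map_sum, Fintype.sum_prod_type]
      refine Finset.sum_congr rfl fun i _ => ?_
      rw [map_mul, MvPolynomial.eval_X, h2, Finset.mul_sum]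
      refine Finset.sum_congr rfl fun a _ => ?_
      show np w i * _ = _
      simp only [LinearMap.comp_apply]
      ring_nf
      rfl
    · show L a.2 (MvPolynomial.pderiv a.1 (MvPolynomial.pderiv i p)) =
        MvPolynomial.pderiv i (L a.2 (MvPolynomial.pderiv a.1 p))
      rw [pderiv_comm', h3]
    · exact h4 _ z (h.pderiv a.1) a.2

theorem comm_DL {L : Module.End ℝ (MvPolynomial (Fin n) ℝ)}
    (hL : ∀ i p, L (MvPolynomial.pderiv i p) = MvPolynomial.pderiv i (L p)) (v : Fin n → ℝ)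
    (p : MvPolynomial (Fin n) ℝ) : L (DL v p) = DL v (L p) := by
  rw [DL_eq, DL_eq, map_sum]
  refine Finset.sum_congr rfl fun i _ => ?_
  rw [map_smul, hL]

/-- parameters of the points near a stratum -/
def stT (p : MvPolynomial (Fin n) ℝ) (z : Fin n → ℝ) (m N : ℕ) :
    Set (Fin n ⊕ Option (Fin n) → ℝ) :=
  {w | vanish p (zp w) (m + 1) ∧ ∑ i, z i * zp w i = 1 ∧ 0 ≤ bp w ∧
    MvPolynomial.eval w (stP p (m + 1) N) = 0 ∧ ∑ i, np w i ^ 2 = 1 ∧
    ∀ l ∈ Lin (part p z (m + 1)), ∑ i, np w i * l i = 0}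

/-- parameters of the points of a stratum -/
def stT0 (p : MvPolynomial (Fin n) ℝ) (z : Fin n → ℝ) (m : ℕ) :
    Set (Fin n ⊕ Option (Fin n) → ℝ) :=
  {w | vanish p (zp w) (m + 1) ∧ ∑ i, z i * zp w i = 1 ∧ bp w = 0}

theorem eval_stP_z (p : MvPolynomial (Fin n) ℝ) (m N : ℕ) {w : Fin n ⊕ Option (Fin n) → ℝ}
    (hw : bp w = 0) : MvPolynomial.eval w (stP p m N) =
      ((m.factorial : ℝ)⁻¹ * MvPolynomial.eval w (Fp m p)) := by
  rw [eval_stP, hw]
  exact sum_range_zero_pow N (fun j => (((m + j).factorial : ℝ)⁻¹ *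
    MvPolynomial.eval w (Fp (m + j) p)))

theorem eval_pderiv_none_stP_z (p : MvPolynomial (Fin n) ℝ) (m N : ℕ)
    {w : Fin n ⊕ Option (Fin n) → ℝ} (hw : bp w = 0) :
    MvPolynomial.eval w (MvPolynomial.pderiv (Sum.inr none) (stP p m (N + 1))) =
      (((m + 1).factorial : ℝ)⁻¹ * MvPolynomial.eval w (Fp (m + 1) p)) := by
  rw [eval_pderiv_none_stP, hw, Finset.sum_range_succ', Finset.sum_range_succ']
  simp only [Nat.cast_add, Nat.cast_one, add_tsub_cancel_right, ne_eq, Nat.add_eq_zero_iff, one_ne_zero, and_false, not_false_eq_true, zero_pow, mul_zero, zero_mul, Finset.sum_const_zero, zero_add, tsub_self, pow_zero, mul_one, one_mul, CharP.cast_eq_zero, zero_tsub, add_zero]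

/-- the positivity hypothesis of the local lemmas -/
theorem StratAt.hpos (hp : IsHyperbolic p e) {z : Fin n → ℝ} (hz : z ∈ bdT p e) {m : ℕ}
    (hS : StratAt p e z (m + 1)) {u : Fin n → ℝ} (hu : u ∈ dirL p e z (m + 1)) (N : ℕ)
    {A : Type} [Fintype A] {c : A → (Fin n ⊕ Option (Fin n) → ℝ) → ℝ}
    {L : A → Module.End ℝ (MvPolynomial (Fin n) ℝ)}
    (h2 : ∀ p w, MvPolynomial.eval w (Fp m p) = ∑ a, c a w * MvPolynomial.eval (zp w) (L a p))
    (h3 : ∀ a i p, L a (MvPolynomial.pderiv i p) = MvPolynomial.pderiv i (L a p))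
    (y : Fin n → ℝ) (t : ℝ) (hyt : y ≠ 0 ∨ t ≠ 0)
    (hy : ∀ a, ∑ i, MvPolynomial.eval z (MvPolynomial.pderiv i (L a p)) * y i = 0)
    (hyz : ∑ i, z i * y i = 0) :
    0 < - (1 / 2) * ∑ a, ((m.factorial : ℝ)⁻¹ * c a (wp z 0 u)) * ∑ i, ∑ j,
        MvPolynomial.eval z (MvPolynomial.pderiv i (MvPolynomial.pderiv j (L a p))) * y i * y j -
        t * ∑ i, MvPolynomial.eval (wp z 0 u)
          (MvPolynomial.pderiv (Sum.inl i) (stP p (m + 1) (N + 1))) * y i -
        t ^ 2 * MvPolynomial.eval (wp z 0 u)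
          (MvPolynomial.pderiv (Sum.inr none) (stP p (m + 1) (N + 1))) := by
  have hyL : y ∈ Lin (part p z (m + 1)) := by
    intro v
    have e1 := eval_DL_pow_DL p z y v m
    have e2 := eval_Fp m (DL y p) (wp z 0 v)
    rw [zp_wp, np_wp, e1, h2] at e2
    have e3 : ∑ a, c a (wp z 0 v) * MvPolynomial.eval (zp (wp z 0 v)) (L a (DL y p)) = 0 := by
      refine Finset.sum_eq_zero fun a _ => ?_
      rw [comm_DL (h3 a), zp_wp, eval_DL, dd_eq, hy a, mul_zero]
    rw [e3] at e2
    exact (mul_eq_zero.1 e2.symm).resolve_left (by positivity)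
  have h := hS.pos hp hz hu hyL hyz hyt
  have q1 : ∑ a, ((m.factorial : ℝ)⁻¹ * c a (wp z 0 u)) * ∑ i, ∑ j,
        MvPolynomial.eval z (MvPolynomial.pderiv i (MvPolynomial.pderiv j (L a p))) * y i * y j =
      (m.factorial : ℝ)⁻¹ * MvPolynomial.eval z ((DL u ^ m) (DL y (DL y p))) := by
    have e2 := eval_Fp m (DL y (DL y p)) (wp z 0 u)
    rw [zp_wp, np_wp, h2] at e2
    rw [← e2, Finset.mul_sum]
    refine Finset.sum_congr rfl fun a _ => ?_
    rw [comm_DL (h3 a), comm_DL (h3 a), zp_wp, ← dd2_eq_DL, dd2_eq, mul_assoc]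
  have q2 : ∑ i, MvPolynomial.eval (wp z 0 u)
      (MvPolynomial.pderiv (Sum.inl i) (stP p (m + 1) (N + 1))) * y i =
      ((m + 1).factorial : ℝ)⁻¹ * MvPolynomial.eval z ((DL u ^ (m + 1)) (DL y p)) := by
    rw [DL_eq y p, map_sum, map_sum, Finset.mul_sum]
    refine Finset.sum_congr rfl fun i _ => ?_
    rw [pderiv_inl_stP, eval_stP_z _ _ _ rfl, eval_Fp, zp_wp, np_wp, map_smul,
      MvPolynomial.smul_eval]
    ring
  have q3 : MvPolynomial.eval (wp z 0 u)
      (MvPolynomial.pderiv (Sum.inr none) (stP p (m + 1) (N + 1))) =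
      ((m + 2).factorial : ℝ)⁻¹ * MvPolynomial.eval z ((DL u ^ (m + 2)) p) := by
    rw [eval_pderiv_none_stP_z _ _ _ rfl, eval_Fp, zp_wp, np_wp]
  rw [q1, q2, q3]
  exact h

/-- the linear polynomial `∑ aᵢ Xᵢ - c` -/
noncomputable def linP (a : Fin n → ℝ) (c : ℝ) : MvPolynomial (Fin n) ℝ :=
  ∑ i, MvPolynomial.C (a i) * MvPolynomial.X i - MvPolynomial.C c

theorem eval_linP (a x : Fin n → ℝ) (c : ℝ) :
    MvPolynomial.eval x (linP a c) = ∑ i, a i * x i - c := by
  simp only [linP, map_sub, map_sum, map_mul, MvPolynomial.eval_C, MvPolynomial.eval_X]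

theorem eval_pderiv_linP (a x : Fin n → ℝ) (c : ℝ) (i : Fin n) :
    MvPolynomial.eval x (MvPolynomial.pderiv i (linP a c)) = a i := by
  simp only [linP, map_sub, map_sum, MvPolynomial.pderiv_C_mul, MvPolynomial.pderiv_X,
    MvPolynomial.pderiv_C, sub_zero, map_mul, MvPolynomial.eval_C]
  rw [Finset.sum_eq_single i]
  · simp
  · intro j _ hj
    rw [Pi.single_eq_of_ne hj]; simp
  · simp only [Finset.mem_univ, not_true_eq_false, Pi.single_eq_same, map_one, mul_one, IsEmpty.forall_iff]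

/-- the polynomial `∑ Xᵢ² - 1` -/
noncomputable def sphP (n : ℕ) : MvPolynomial (Fin n) ℝ :=
  ∑ i, MvPolynomial.X i ^ 2 - 1

theorem eval_sphP (x : Fin n → ℝ) :
    MvPolynomial.eval x (sphP n) = ∑ i, x i ^ 2 - 1 := by
  simp only [sphP, map_sub, map_sum, map_pow, MvPolynomial.eval_X, map_one]

theorem eval_pderiv_sphP (x : Fin n → ℝ) (i : Fin n) :
    MvPolynomial.eval x (MvPolynomial.pderiv i (sphP n)) = 2 * x i := by
  simp only [sphP, map_sub, map_sum, MvPolynomial.pderiv_pow, MvPolynomial.pderiv_X,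
    MvPolynomial.pderiv_one, sub_zero, map_mul]
  rw [Finset.sum_eq_single i]
  · simp only [Nat.cast_ofNat, MvPolynomial.eval_ofNat, Nat.add_one_sub_one, pow_one, MvPolynomial.eval_X, Pi.single_eq_same, map_one, mul_one]
  · intro j _ hj
    rw [Pi.single_eq_of_ne hj]; simp only [Nat.cast_ofNat, MvPolynomial.eval_ofNat, Nat.add_one_sub_one, pow_one, MvPolynomial.eval_X, map_zero, mul_zero]
  · simp only [Finset.mem_univ, not_true_eq_false, Nat.cast_ofNat, MvPolynomial.eval_ofNat, Nat.add_one_sub_one, pow_one, MvPolynomial.eval_X, Pi.single_eq_same, map_one, mul_one, mul_eq_zero, OfNat.ofNat_ne_zero, false_or, IsEmpty.forall_iff]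

theorem stT_facts {d : ℕ} (hd : p.IsHomogeneous d) {z : Fin n → ℝ} {m N : ℕ} (hN : d ≤ N)
    {A : Type} [Fintype A] {c : A → (Fin n ⊕ Option (Fin n) → ℝ) → ℝ}
    {L : A → Module.End ℝ (MvPolynomial (Fin n) ℝ)}
    (h2 : ∀ p w, MvPolynomial.eval w (Fp m p) = ∑ a, c a w * MvPolynomial.eval (zp w) (L a p))
    (h3 : ∀ a i p, L a (MvPolynomial.pderiv i p) = MvPolynomial.pderiv i (L a p))
    {w : Fin n ⊕ Option (Fin n) → ℝ} (hw : w ∈ stT p z m N) :
    (∑ i, MvPolynomial.eval w (MvPolynomial.pderiv (Sum.inr (some i)) (stP p (m + 1) N)) * np w i =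
      bp w * MvPolynomial.eval w (MvPolynomial.pderiv (Sum.inr none) (stP p (m + 1) N))) ∧
    ∀ i, MvPolynomial.eval w (MvPolynomial.pderiv (Sum.inr (some i)) (stP p (m + 1) N)) =
      ∑ a, ((m.factorial : ℝ)⁻¹ * c a w) * MvPolynomial.eval (zp w)
        (MvPolynomial.pderiv i (L a p)) +
      bp w * MvPolynomial.eval w (MvPolynomial.pderiv (Sum.inl i) (stP p (m + 1) N)) := by
  constructor
  · rw [stP_hE, hw.2.2.2.1, mul_zero, zero_add]
  · intro i
    rw [stP_hX hd m hN, h2, Finset.mul_sum]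
    congr 1
    refine Finset.sum_congr rfl fun a _ => ?_
    rw [h3]; ring

theorem loc_diag (hp : IsHyperbolic p e) {d : ℕ} (hd : p.IsHomogeneous d) {z : Fin n → ℝ}
    (hz : z ∈ bdT p e) {m : ℕ}
    (hS : StratAt p e z (m + 1)) {u : Fin n → ℝ} (hu : u ∈ dirL p e z (m + 1)) {N : ℕ}
    (hN : d ≤ N + 1) :
    ∃ U ∈ 𝓝 (wp z 0 u), ∃ V ∈ 𝓝 (wp z 0 u), SosOn (U ∩ stT p z m (N + 1)) (V ∩ stT p z m (N + 1))
      (stratKer (stP p (m + 1) (N + 1))) := by
  obtain ⟨A, hA, c, L, h1, h2, h3, h4⟩ := exists_gc n m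
  let bL := Module.finBasis ℝ (Lin (part p z (m + 1)))
  refine strat_diag (A := A) (B := Unit)
    (C := Option (Fin (Module.finrank ℝ (Lin (part p z (m + 1))))))
    (fun a => L a p) (fun a w => (m.factorial : ℝ)⁻¹ * c a w)
    (fun a => continuous_const.mul (h1 a)) (fun _ => linP z 1)
    (fun k => match k with
      | none => sphP n
      | some j => linP ((bL j : Lin (part p z (m + 1))) : Fin n → ℝ) 0)
    (stP p (m + 1) (N + 1)) rfl (fun w hw => hw.2.2.1) (fun w hw => hw.2.2.2.1)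
    (fun w hw a => h4 p _ hw.1 a) (fun w hw _ => ?_) (fun w hw k => ?_)
    (fun w hw => (stT_facts hd hN h2 h3 hw).1) (fun w hw => (stT_facts hd hN h2 h3 hw).2)
    (fun y t hyt e1 e2 => ?_) (fun y hy e1 e2 => ?_)
  · rw [eval_linP, hw.2.1, sub_self]
  · rcases k with _ | j
    · show MvPolynomial.eval (np w) (sphP n) = 0
      rw [eval_sphP, hw.2.2.2.2.1, sub_self]
    · show MvPolynomial.eval (np w) (linP _ 0) = 0
      rw [eval_linP, sub_zero, ← hw.2.2.2.2.2 _ (bL j).2]
      exact Finset.sum_congr rfl fun i _ => mul_comm _ _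
  · refine hS.hpos hp hz hu N h2 h3 y t hyt e1 ?_
    have := e2 ()
    simp only [eval_pderiv_linP] at this
    exact this
  · -- negativity on the directions
    obtain ⟨m', rfl⟩ : ∃ m', m = m' + 1 := ⟨m - 1, by have := hS.two_le; omega⟩
    have k1 : dd (part p z (m' + 1 + 1)) u y = 0 := by
      rw [dd_eq, ← e1]
      refine Finset.sum_congr rfl fun i _ => ?_
      rw [pderiv_some_stP, eval_stP_zero _ _ _ rfl, zp_wp, np_wp, part_pderiv]
    have k2 : ∑ i, u i * y i = 0 := by
      have := e2 none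
      simp only [eval_pderiv_sphP, np_wp] at this
      have h5 : ∑ i, 2 * u i * y i = 2 * ∑ i, u i * y i := by
        rw [Finset.mul_sum]
        refine Finset.sum_congr rfl fun i _ => ?_
        ring
      rw [h5] at this
      linarith only [this]
    have k3 : ∀ l ∈ Lin (part p z (m' + 1 + 1)), ∑ i, y i * l i = 0 := by
      let φ : Lin (part p z (m' + 1 + 1)) →ₗ[ℝ] ℝ :=
        { toFun := fun l => ∑ i, y i * (l : Fin n → ℝ) i
          map_add' := by
            intro a b
            simp only [Submodule.coe_add, Pi.add_apply, mul_add, Finset.sum_add_distrib]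
          map_smul' := by
            intro r a
            simp only [Submodule.coe_smul, Pi.smul_apply, smul_eq_mul, RingHom.id_apply,
              Finset.mul_sum]
            refine Finset.sum_congr rfl fun i _ => ?_
            ring }
      have hφ : φ = 0 := by
        refine bL.ext fun j => ?_
        have := e2 (some j)
        simp only [eval_pderiv_linP] at this
        show ∑ i, y i * ((bL j : Lin (part p z (m' + 1 + 1))) : Fin n → ℝ) i = 0
        rw [← this]
        exact Finset.sum_congr rfl fun i _ => mul_comm _ _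
      intro l hl
      have := LinearMap.congr_fun hφ ⟨l, hl⟩
      exact this
    have k4 := hS.neg hp hu y hy k1 k3 k2
    rw [dd2_eq] at k4
    refine lt_of_eq_of_lt ?_ k4
    refine Finset.sum_congr rfl fun i _ => Finset.sum_congr rfl fun j _ => ?_
    rw [pderiv_some_stP, pderiv_some_stP, eval_stP_zero _ _ _ rfl, zp_wp, np_wp, part_pderiv,
      part_pderiv]

theorem loc_off (hp : IsHyperbolic p e) {d : ℕ} (hd : p.IsHomogeneous d) {z : Fin n → ℝ}
    (hz : z ∈ bdT p e) {m : ℕ}
    (hS : StratAt p e z (m + 1)) {u : Fin n → ℝ} (hu : u ∈ dirL p e z (m + 1)) {N : ℕ}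
    (hN : d ≤ N + 1) {u' : Fin n → ℝ} (hu' : u' ∈ dirL p e z (m + 1)) (hne : u' ≠ u) :
    ∃ U ∈ 𝓝 (wp z 0 u), ∃ V ∈ 𝓝 (wp z 0 u'), SosOn (U ∩ stT p z m (N + 1))
      (V ∩ stT p z m (N + 1)) (stratKer (stP p (m + 1) (N + 1))) := by
  obtain ⟨A, hA, c, L, h1, h2, h3, h4⟩ := exists_gc n m
  refine strat_off (A := A) (B := Unit)
    (fun a => L a p) (fun a w => (m.factorial : ℝ)⁻¹ * c a w)
    (fun a => continuous_const.mul (h1 a)) (fun _ => linP z 1)
    (stP p (m + 1) (N + 1)) (w0 := wp z 0 u) (w1 := wp z 0 u') rfl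
    (fun w hw => hw.2.2.1)
    (fun w hw a => h4 p _ hw.1 a) (fun w hw _ => ?_) (fun w hw a => h4 p _ hw.1 a)
    (fun w hw _ => ?_)
    (fun w hw => (stT_facts hd hN h2 h3 hw).1) (fun w hw => (stT_facts hd hN h2 h3 hw).2)
    (fun y t hyt e1 e2 => ?_) (Or.inl ?_)
  · rw [eval_linP, hw.2.1, sub_self]
  · rw [eval_linP, hw.2.1, sub_self]
  · refine hS.hpos hp hz hu N h2 h3 y t hyt e1 ?_
    have := e2 ()
    simp only [eval_pderiv_linP] at this
    exact this
  · have k1 := hS.off hp hu hu' hne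
    rw [dd_eq] at k1
    refine lt_of_lt_of_eq k1 ?_
    refine Finset.sum_congr rfl fun i _ => ?_
    rw [pderiv_some_stP, eval_stP_zero _ _ _ rfl, zp_wp, np_wp, np_wp, part_pderiv]

theorem loc_zero (hp : IsHyperbolic p e) {d : ℕ} (hd : p.IsHomogeneous d) {z : Fin n → ℝ}
    (hz : z ∈ bdT p e) {m : ℕ}
    (hS : StratAt p e z (m + 1)) {u : Fin n → ℝ} (hu : u ∈ dirL p e z (m + 1)) {N : ℕ}
    (hN : d ≤ N + 1) (u' : Fin n → ℝ) :
    ∃ U ∈ 𝓝 (wp z 0 u), ∃ V ∈ 𝓝 (wp z 0 u'), SosOn (U ∩ stT p z m (N + 1))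
      (V ∩ stT0 p z m) (stratKer (stP p (m + 1) (N + 1))) := by
  obtain ⟨A, hA, c, L, h1, h2, h3, h4⟩ := exists_gc n m
  refine strat_off (A := A) (B := Unit)
    (fun a => L a p) (fun a w => (m.factorial : ℝ)⁻¹ * c a w)
    (fun a => continuous_const.mul (h1 a)) (fun _ => linP z 1)
    (stP p (m + 1) (N + 1)) (w0 := wp z 0 u) (w1 := wp z 0 u') rfl
    (fun w hw => hw.2.2.ge)
    (fun w hw a => h4 p _ hw.1 a) (fun w hw _ => ?_) (fun w hw a => h4 p _ hw.1 a)
    (fun w hw _ => ?_)
    (fun w hw => (stT_facts hd hN h2 h3 hw).1) (fun w hw => (stT_facts hd hN h2 h3 hw).2)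
    (fun y t hyt e1 e2 => ?_) (Or.inr fun w hw => hw.2.2)
  · rw [eval_linP, hw.2.1, sub_self]
  · rw [eval_linP, hw.2.1, sub_self]
  · refine hS.hpos hp hz hu N h2 h3 y t hyt e1 ?_
    have := e2 ()
    simp only [eval_pderiv_linP] at this
    exact this

end Vale.Agent.P256
end

section

/-! Directions of boundary points near a clean stratum. -/

namespace Vale.Agent.P256

open Filter Topology

variable {n : ℕ} {p : MvPolynomial (Fin n) ℝ} {e : Fin n → ℝ}

theorem prod_coeff_nonneg (s : Multiset ℝ) (hs : ∀ r ∈ s, r ≤ 0) (j : ℕ) :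
    0 ≤ ((s.map fun r => Polynomial.X - Polynomial.C r).prod).coeff j := by
  induction s using Multiset.induction_on generalizing j with
  | empty =>
    simp only [Multiset.map_zero, Multiset.prod_zero, Polynomial.coeff_one]
    split_ifs <;> norm_num
  | cons a s ih =>
    rw [Multiset.map_cons, Multiset.prod_cons, sub_mul, Polynomial.coeff_sub,
      Polynomial.coeff_C_mul]
    have ha : a ≤ 0 := hs a (Multiset.mem_cons_self _ _)
    have ih' := fun j => ih (fun r hr => hs r (Multiset.mem_cons_of_mem hr)) j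
    rcases j with _ | j
    · rw [Polynomial.coeff_X_mul_zero]
      have := mul_nonneg (neg_nonneg.2 ha) (ih' 0)
      linarith
    · rw [Polynomial.coeff_X_mul]
      have := mul_nonneg (neg_nonneg.2 ha) (ih' (j + 1))
      have := ih' j
      linarith

theorem K_DL_nonneg (hp : IsHyperbolic p e) {x : Fin n → ℝ} (hx : x ∈ hypCone p e) (j : ℕ) :
    0 ≤ MvPolynomial.eval x ((DL e ^ j) p) := by
  obtain ⟨d, hd⟩ := hp.1
  rw [eval_DL_pow, ← coeff_line]
  refine mul_nonneg (by positivity) ?_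
  have h1 := hp.splits x
  have h2 := (line_leading hd x e hp.2.1.ne').2
  rw [h1.eq_prod_roots, h2, Polynomial.coeff_C_mul]
  refine mul_nonneg hp.2.1.le (prod_coeff_nonneg _ (fun r hr => ?_) j)
  by_contra hlt
  push Not at hlt
  have h3 := (mem_hypCone_iff hd x).1 hx r hlt
  apply h3
  have h4 := (Polynomial.mem_roots'.1 hr).2
  rw [Polynomial.IsRoot, eval_line] at h4
  exact h4

theorem mem_K_of_DL (hp : IsHyperbolic p e) {x : Fin n → ℝ} {d : ℕ} (hd : p.IsHomogeneous d)
    (h : ∀ j ≤ d, 0 ≤ MvPolynomial.eval x ((DL e ^ j) p)) : x ∈ hypCone p e := by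
  rw [mem_hypCone_iff hd]
  intro t ht
  rw [← eval_line, Polynomial.eval_eq_sum_range' (n := d + 1)
    (lt_of_le_of_lt (line_top hd _ _).1 (by omega)), Finset.sum_range_succ, (line_top hd x e).2]
  have h1 : 0 ≤ ∑ k ∈ Finset.range d, (line p x e).coeff k * t ^ k := by
    refine Finset.sum_nonneg fun k hk => mul_nonneg ?_ (by positivity)
    have h2 := h k (Finset.mem_range.1 hk).le
    rw [eval_DL_pow, ← coeff_line] at h2
    exact nonneg_of_mul_nonneg_right h2 (by positivity)
  have h3 : 0 < MvPolynomial.eval e p * t ^ d := mul_pos hp.2.1 (by positivity)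
  linarith

theorem part_DL_pow (p : MvPolynomial (Fin n) ℝ) (z v : Fin n → ℝ) (k j : ℕ) :
    part ((DL v ^ j) p) z k = (DL v ^ j) (part p z (k + j)) := by
  induction j generalizing p k with
  | zero => rfl
  | succ j ih =>
    rw [pow_succ]
    show part ((DL v ^ j) (DL v p)) z k = (DL v ^ j) (DL v (part p z (k + (j + 1))))
    rw [ih, part_DL, add_assoc]

theorem homog_DL_pow {d : ℕ} (hd : p.IsHomogeneous d) (v : Fin n → ℝ) (j : ℕ) :
    ((DL v ^ j) p).IsHomogeneous (d - j) := by
  induction j generalizing p d with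
  | zero => exact hd
  | succ j ih =>
    rw [pow_succ]
    show ((DL v ^ j) (DL v p)).IsHomogeneous (d - (j + 1))
    have h1 := ih (p := DL v p) (d := d - 1) (by rw [DL_apply]; exact homog_dirD hd v)
    have e1 : d - 1 - j = d - (j + 1) := by omega
    rwa [e1] at h1

/-- unit vectors orthogonal to the lineality space -/
def unitN (q : MvPolynomial (Fin n) ℝ) : Set (Fin n → ℝ) :=
  {v | ∑ i, v i ^ 2 = 1 ∧ ∀ l ∈ Lin q, ∑ i, v i * l i = 0}

theorem isCompact_unitN (q : MvPolynomial (Fin n) ℝ) : IsCompact (unitN q) := by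
  refine isCompact_sphere2.of_isClosed_subset ?_ (fun _ hu => hu.1)
  have h1 : IsClosed {u : Fin n → ℝ | ∑ i, u i ^ 2 = 1} :=
    isClosed_eq (by fun_prop) continuous_const
  have h2 : IsClosed (⋂ l ∈ Lin q, {v : Fin n → ℝ | ∑ i, v i * l i = 0}) :=
    isClosed_biInter fun l _ => isClosed_eq (by fun_prop) continuous_const
  have h3 : unitN q = {u : Fin n → ℝ | ∑ i, u i ^ 2 = 1} ∩
      ⋂ l ∈ Lin q, {v : Fin n → ℝ | ∑ i, v i * l i = 0} := by
    ext v
    simp only [unitN, Set.mem_ofPred_eq, Set.mem_inter_iff, Set.mem_iInter]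
  rw [h3]
  exact h1.inter h2

theorem isCompact_dirL (hp : IsHyperbolic p e) {z : Fin n → ℝ} {m : ℕ}
    (hm : vanish p z m) (he : 0 < MvPolynomial.eval e (part p z m)) :
    IsCompact (dirL p e z m) := by
  have hq := part_hyp hp hm he
  refine (isCompact_unitN (part p z m)).of_isClosed_subset ?_ (fun _ hu => hu.2.2)
  have h3 : dirL p e z m = hypCone (part p z m) e ∩
      ({u : Fin n → ℝ | MvPolynomial.eval u (part p z m) = 0} ∩ unitN (part p z m)) := rfl
  rw [h3]
  exact (isClosed_K hq).inter ((isClosed_eq (continuous_eval _) continuous_const).inter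
    (isCompact_unitN _).isClosed)

theorem near_dirs (hp : IsHyperbolic p e) {z : Fin n → ℝ} {m : ℕ}
    (hm : vanish p z (m + 1)) (he : 0 < MvPolynomial.eval e (part p z (m + 1)))
    {O : Set (Fin n ⊕ Option (Fin n) → ℝ)}
    (hO : ∀ u ∈ dirL p e z (m + 1), O ∈ 𝓝 (wp z 0 u)) :
    ∀ᶠ q : (Fin n → ℝ) × ℝ in 𝓝 (z, 0), ∀ v ∈ unitN (part p z (m + 1)), 0 < q.2 →
      vanish p q.1 (m + 1) → q.1 + q.2 • v ∈ hypCone p e →
      MvPolynomial.eval (q.1 + q.2 • v) p = 0 → wp q.1 q.2 v ∈ O := by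
  obtain ⟨d, hd⟩ := hp.1
  have hq := part_hyp hp hm he
  have hqd := part_homog p z (m + 1)
  apply (isCompact_unitN (part p z (m + 1))).eventually_forall_of_forall_eventually
  intro u hu
  have hwc : Continuous (fun r : ((Fin n → ℝ) × ℝ) × (Fin n → ℝ) => wp r.1.1 r.1.2 r.2) :=
    wp_cont (continuous_fst.comp continuous_fst) (continuous_snd.comp continuous_fst)
      continuous_snd
  by_cases h1 : u ∈ hypCone (part p z (m + 1)) e
  · by_cases h2 : MvPolynomial.eval u (part p z (m + 1)) = 0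
    · have h3 := (hwc.tendsto ((z, 0), u)).eventually (hO u ⟨h1, h2, hu⟩)
      filter_upwards [h3] with r hr _ _ _ _
      exact hr
    · have h4 : ∀ᶠ r : ((Fin n → ℝ) × ℝ) × (Fin n → ℝ) in 𝓝 ((z, 0), u),
          MvPolynomial.eval (wp r.1.1 r.1.2 r.2) (stP p (m + 1) d) ≠ 0 := by
        apply (((MvPolynomial.continuous_eval _).comp hwc).tendsto ((z, 0), u)).eventually_ne
        show MvPolynomial.eval (wp z 0 u) (stP p (m + 1) d) ≠ 0
        rw [eval_stP_zero _ _ _ rfl]
        exact h2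
      filter_upwards [h4] with r hr hb hv _ h0
      exfalso
      apply hr
      have h5 := eval_mul_stP hd (le_refl d) (w := wp r.1.1 r.1.2 r.2) hv
      rw [zp_wp, bp_wp, np_wp, h0] at h5
      exact (mul_eq_zero.1 h5.symm).resolve_left (by (clear * - hb; positivity))
  · -- some derivative is negative
    obtain ⟨j, hj, hneg⟩ : ∃ j ≤ m + 1,
        MvPolynomial.eval u ((DL e ^ j) (part p z (m + 1))) < 0 := by
      by_contra hcon
      push Not at hcon
      exact h1 (mem_K_of_DL hq hqd hcon)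
    have h4 : ∀ᶠ r : ((Fin n → ℝ) × ℝ) × (Fin n → ℝ) in 𝓝 ((z, 0), u),
        MvPolynomial.eval (wp r.1.1 r.1.2 r.2) (stP ((DL e ^ j) p) (m + 1 - j) d) < 0 := by
      apply (((MvPolynomial.continuous_eval _).comp hwc).tendsto ((z, 0), u)).eventually_lt_const
      show MvPolynomial.eval (wp z 0 u) (stP ((DL e ^ j) p) (m + 1 - j) d) < 0
      rw [eval_stP_zero _ _ _ rfl, zp_wp, np_wp, part_DL_pow, Nat.sub_add_cancel hj]
      exact hneg
    filter_upwards [h4] with r hr hb hv hK _
    exfalso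
    have h5 := eval_mul_stP (homog_DL_pow hd e j) (N := d) (Nat.sub_le _ _) (m := m + 1 - j)
      (w := wp r.1.1 r.1.2 r.2) (vanish.DL_pow e j (by rw [Nat.sub_add_cancel hj]; exact hv))
    rw [zp_wp, bp_wp, np_wp] at h5
    have h6 := K_DL_nonneg hp hK j
    rw [h5] at h6
    have h7 := mul_neg_of_pos_of_neg (pow_pos hb (m + 1 - j)) hr
    linarith only [h6, h7]

end Vale.Agent.P256
end

section

/-! The slack kernel near a clean stratum. -/

namespace Vale.Agent.P256

open Filter Topology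

variable {n : ℕ} {p : MvPolynomial (Fin n) ℝ} {e : Fin n → ℝ}

theorem sqrt_sum_pos {v : Fin n → ℝ} (hv : v ≠ 0) : 0 < Real.sqrt (∑ i, v i ^ 2) := by
  refine Real.sqrt_pos.2 (lt_of_le_of_ne (Finset.sum_nonneg fun i _ => sq_nonneg _) fun h => ?_)
  exact hv (sum_sq_eq_zero h.symm)

/-- boundary points near a clean stratum, in the chart `∑ zᵢxᵢ = 1` -/
theorem near_param (hp : IsHyperbolic p e) {z : Fin n → ℝ} (hz : z ∈ bdT p e) {m : ℕ}
    (hS : StratAt p e z (m + 1)) {d N : ℕ} (hd : p.IsHomogeneous d) (hN : d ≤ N)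
    {O O' : Set (Fin n ⊕ Option (Fin n) → ℝ)}
    (hO : ∀ u ∈ dirL p e z (m + 1), O ∈ 𝓝 (wp z 0 u)) (hO' : O' ∈ 𝓝 (wp z 0 0)) :
    ∀ᶠ x in 𝓝 z, x ∈ hypCone p e → MvPolynomial.eval x p = 0 → ∑ i, z i * x i = 1 →
      ∃ w : Fin n ⊕ Option (Fin n) → ℝ, x = zp w + bp w • np w ∧
        ((w ∈ stT p z m N ∧ 0 < bp w ∧ w ∈ O) ∨ (w ∈ stT0 p z m ∧ w ∈ O')) := by
  have h1 := near_dirs hp hS.hm hS.he hO
  rw [nhds_prod_eq] at h1
  obtain ⟨pa, hpa, pb, hpb, hab⟩ := eventually_prod_iff.1 h1
  have h2 : ∀ᶠ y in 𝓝 z, wp y 0 0 ∈ O' := by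
    have hc : Continuous (fun y : Fin n → ℝ => wp y 0 0) :=
      wp_cont continuous_id continuous_const continuous_const
    exact (hc.tendsto z).eventually hO'
  have h3 : ∀ᶠ q : (Fin n → ℝ) × (Fin n → ℝ) in 𝓝 (z, z),
      pb (Real.sqrt (∑ i, (q.1 i - q.2 i) ^ 2)) := by
    have hc : Continuous (fun q : (Fin n → ℝ) × (Fin n → ℝ) =>
        Real.sqrt (∑ i, (q.1 i - q.2 i) ^ 2)) := by fun_prop
    have h4 := hc.tendsto (z, z)
    simp only [sub_self, ne_eq, OfNat.ofNat_ne_zero, not_false_eq_true, zero_pow,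
      Finset.sum_const_zero, Real.sqrt_zero] at h4
    exact h4.eventually hpb
  rw [nhds_prod_eq] at h3
  obtain ⟨pc, hpc, pd, hpd, hcd⟩ := eventually_prod_iff.1 h3
  have h4 := hS.clean {y | pa y ∧ wp y 0 0 ∈ O' ∧ pd y} (hpa.and (h2.and hpd))
  filter_upwards [h4, hpc] with x hx hxc hxK hx0 hx1
  obtain ⟨y, ⟨hya, hyO, hyd⟩, hyL, hyv⟩ := hx
  have hy1 : ∑ i, z i * y i = 1 := by
    have h5 := hyL z (Lin_self hp hS.hm)
    have h6 : ∑ i, (y i - x i) * z i = ∑ i, z i * y i - ∑ i, z i * x i := by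
      rw [← Finset.sum_sub_distrib]
      refine Finset.sum_congr rfl fun i _ => ?_
      ring
    rw [h6, hx1] at h5
    linarith only [h5]
  by_cases hxy : x = y
  · refine ⟨wp y 0 0, ?_, Or.inr ⟨⟨hyv, hy1, rfl⟩, hyO⟩⟩
    rw [zp_wp, bp_wp, np_wp, smul_zero, add_zero, hxy]
  · have hne : x - y ≠ 0 := sub_ne_zero.2 hxy
    set b := Real.sqrt (∑ i, (x i - y i) ^ 2) with hb
    have hb0 : 0 < b := sqrt_sum_pos hne
    have hb2 : b ^ 2 = ∑ i, (x i - y i) ^ 2 :=
      Real.sq_sqrt (Finset.sum_nonneg fun i _ => sq_nonneg _)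
    set v : Fin n → ℝ := b⁻¹ • (x - y) with hv
    have hvb : y + b • v = x := by
      rw [hv, smul_smul, mul_inv_cancel₀ hb0.ne', one_smul]; abel
    have hvN : v ∈ unitN (part p z (m + 1)) := by
      constructor
      · have : ∀ i, v i ^ 2 = (b ^ 2)⁻¹ * (x i - y i) ^ 2 := by
          intro i
          rw [hv]
          simp only [Pi.smul_apply, Pi.sub_apply, smul_eq_mul]
          rw [mul_pow, inv_pow]
        simp_rw [this]
        rw [← Finset.mul_sum, ← hb2, inv_mul_cancel₀ (by (clear * - hb0; positivity))]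
      · intro l hl
        have h5 := hyL l hl
        have h6 : ∑ i, v i * l i = - (b⁻¹ * ∑ i, (y i - x i) * l i) := by
          rw [Finset.mul_sum, ← Finset.sum_neg_distrib]
          refine Finset.sum_congr rfl fun i _ => ?_
          rw [hv]
          simp only [Pi.smul_apply, Pi.sub_apply, smul_eq_mul]
          ring
        rw [h6, h5, mul_zero, neg_zero]
    have h5 := hab hya (hcd hxc hyd) v hvN hb0 hyv (by rw [hvb]; exact hxK) (by rw [hvb]; exact hx0)
    have h6 := eval_mul_stP hd hN (w := wp y b v) hyv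
    rw [zp_wp, bp_wp, np_wp, hvb, hx0] at h6
    refine ⟨wp y b v, by rw [zp_wp, bp_wp, np_wp, hvb], Or.inl ⟨⟨hyv, hy1, hb0.le, ?_, hvN⟩, hb0, h5⟩⟩
    exact (mul_eq_zero.1 h6.symm).resolve_left (by (clear * - hb0; positivity))

/-- the kernel in terms of the parameters -/
theorem dd_eq_stratKer {d : ℕ} (hd : p.IsHomogeneous d) {m N : ℕ} (hN : d ≤ N)
    {l x : Fin n ⊕ Option (Fin n) → ℝ} (hl : vanish p (zp l) (m + 1))
    (h0 : MvPolynomial.eval (zp l + bp l • np l) p = 0) :
    dd p (zp l + bp l • np l) (zp x + bp x • np x) =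
      bp l ^ m * stratKer (stP p (m + 1) N) l x := by
  have e1 : dd p (zp l + bp l • np l) (zp x + bp x • np x) =
      dd p (zp l + bp l • np l) ((zp x + bp x • np x) - (zp l + bp l • np l)) := by
    rw [dd_sub, dd_self hd, h0, mul_zero, sub_zero]
  rw [e1, dd_eq, stratKer, Finset.mul_sum]
  refine Finset.sum_congr rfl fun i _ => ?_
  rw [eval_mul_pderiv_stP hd hN hl]
  simp only [Pi.sub_apply, Pi.add_apply, Pi.smul_apply, smul_eq_mul]
  ring

theorem dd_smul_smul {d : ℕ} (hd : p.IsHomogeneous d) (a b : ℝ) (y x : Fin n → ℝ) :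
    dd p (a • y) (b • x) = a ^ (d - 1) * dd p y x * b := by
  rw [dd_smul, dd_smul_left hd]; ring

/-- smoothness off the stratum -/
theorem near_smooth_dirs (hp : IsHyperbolic p e) {z : Fin n → ℝ} {m : ℕ}
    (hS : StratAt p e z (m + 1)) (N : ℕ) :
    ∀ u ∈ dirL p e z (m + 1), {w | 0 < ∑ i, MvPolynomial.eval w
      (MvPolynomial.pderiv (Sum.inr (some i)) (stP p (m + 1) N)) * e i} ∈ 𝓝 (wp z 0 u) := by
  intro u hu
  have hc : Continuous (fun w : Fin n ⊕ Option (Fin n) → ℝ => ∑ i, MvPolynomial.eval w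
      (MvPolynomial.pderiv (Sum.inr (some i)) (stP p (m + 1) N)) * e i) :=
    continuous_finsetSum _ fun i _ => (MvPolynomial.continuous_eval _).mul continuous_const
  refine (isOpen_lt continuous_const hc).mem_nhds ?_
  show 0 < ∑ i, MvPolynomial.eval (wp z 0 u)
      (MvPolynomial.pderiv (Sum.inr (some i)) (stP p (m + 1) N)) * e i
  have h1 := hS.sm u hu.1 hu.2.1 (dirL_not_mem hu)
  rw [dd_eq] at h1
  refine lt_of_lt_of_eq h1 (Finset.sum_congr rfl fun i _ => ?_)
  rw [pderiv_some_stP, eval_stP_zero _ _ _ rfl, zp_wp, np_wp, part_pderiv]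

theorem dd_e_param {d : ℕ} (hd : p.IsHomogeneous d) {m N : ℕ} (hN : d ≤ N)
    {l : Fin n ⊕ Option (Fin n) → ℝ} (hl : vanish p (zp l) (m + 1)) :
    dd p (zp l + bp l • np l) e = bp l ^ m * ∑ i, MvPolynomial.eval l
      (MvPolynomial.pderiv (Sum.inr (some i)) (stP p (m + 1) N)) * e i := by
  rw [dd_eq, Finset.mul_sum]
  refine Finset.sum_congr rfl fun i _ => ?_
  rw [eval_mul_pderiv_stP hd hN hl]
  ring

theorem near_strat (hp : IsHyperbolic p e) {z : Fin n → ℝ} (hz : z ∈ bdT p e) {m : ℕ}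
    (hS : StratAt p e z (m + 1)) :
    ∃ U ∈ 𝓝 z, SosOn (U ∩ {z' | z' ∈ bdT p e ∧ 0 < dd p z' e}) (U ∩ bdT p e)
      (fun z' x => dd p z' x) := by
  obtain ⟨d, hd⟩ := hp.1
  have hm1 : 1 ≤ m := by have := hS.two_le; omega
  set P := stP p (m + 1) (d + 1) with hP
  have hD : IsCompact ((fun u => wp z 0 u) '' dirL p e z (m + 1)) :=
    (isCompact_dirL hp hS.hm hS.he).image (wp_cont continuous_const continuous_const continuous_id)
  have hD0 : IsCompact ({wp z 0 0} : Set (Fin n ⊕ Option (Fin n) → ℝ)) := isCompact_singleton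
  obtain ⟨W1, hW1, W1', hW1', hs1⟩ := SosOn.of_local (S := stT p z m (d + 1))
    (T := stT p z m (d + 1)) (h := stratKer P) hD hD (by
      rintro _ ⟨u, hu, rfl⟩ _ ⟨u', hu', rfl⟩
      by_cases h : u' = u
      · subst h
        exact loc_diag hp hd hz hS hu' (by omega)
      · exact loc_off hp hd hz hS hu (by omega) hu' h)
  obtain ⟨W2, hW2, W2', hW2', hs2⟩ := SosOn.of_local (S := stT p z m (d + 1))
    (T := stT0 p z m) (h := stratKer P) hD hD0 (by
      rintro _ ⟨u, hu, rfl⟩ _ hx
      rw [Set.mem_singleton_iff] at hx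
      subst hx
      exact loc_zero hp hd hz hS hu (by omega) 0)
  have hO : ∀ u ∈ dirL p e z (m + 1), W1 ∩ W1' ∩ W2 ∩ {w | 0 < ∑ i, MvPolynomial.eval w
      (MvPolynomial.pderiv (Sum.inr (some i)) P) * e i} ∈ 𝓝 (wp z 0 u) := by
    intro u hu
    have hmem : wp z 0 u ∈ (fun u => wp z 0 u) '' dirL p e z (m + 1) := ⟨u, hu, rfl⟩
    exact inter_mem (inter_mem (inter_mem (nhds_le_nhdsSet hmem hW1)
      (nhds_le_nhdsSet hmem hW1')) (nhds_le_nhdsSet hmem hW2))
      (near_smooth_dirs hp hS _ u hu)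
  have hO' : W2' ∈ 𝓝 (wp z 0 0) := nhds_le_nhdsSet (Set.mem_singleton _) hW2'
  have hpar := near_param hp hz hS hd (N := d + 1) (by omega) hO hO'
  -- the chart
  set r : (Fin n → ℝ) → ℝ := fun x => ∑ i, z i * x i with hr
  have hrz : r z = 1 := by
    simp only [hr]
    rw [← hz.2.2]
    exact Finset.sum_congr rfl fun i _ => (sq _).symm
  have hrc : Continuous r := by fun_prop
  have hchart : Tendsto (fun x => (r x)⁻¹ • x) (𝓝 z) (𝓝 z) := by
    have h1 : Tendsto (fun x => (r x)⁻¹ • x) (𝓝 z) (𝓝 ((r z)⁻¹ • z)) :=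
      ((hrc.tendsto z).inv₀ (by rw [hrz]; exact one_ne_zero)).smul tendsto_id
    rwa [hrz, inv_one, one_smul] at h1
  have hrpos : ∀ᶠ x in 𝓝 z, 0 < r x := (hrc.tendsto z).eventually_const_lt (by rw [hrz]; exact one_pos)
  have hev := (hchart.eventually hpar).and hrpos
  obtain ⟨U, hU, hUm⟩ := hev.exists_mem
  -- parameters
  have hex : ∀ x ∈ U ∩ bdT p e, ∃ w : Fin n ⊕ Option (Fin n) → ℝ,
      x = r x • (zp w + bp w • np w) ∧ ((w ∈ stT p z m (d + 1) ∧ 0 < bp w ∧
        w ∈ W1 ∩ W1' ∩ W2 ∩ {w | 0 < ∑ i, MvPolynomial.eval w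
          (MvPolynomial.pderiv (Sum.inr (some i)) P) * e i}) ∨ (w ∈ stT0 p z m ∧ w ∈ W2')) := by
    rintro x ⟨hxU, hxK, hx0, hx1⟩
    obtain ⟨h1, h2⟩ := hUm x hxU
    obtain ⟨w, hw1, hw2⟩ := h1 (K_smul hp hxK (inv_pos.2 h2).le)
      (by rw [eval_smul' hd, hx0, mul_zero]) (by
        have : ∑ i, z i * ((r x)⁻¹ • x) i = (r x)⁻¹ * r x := by
          simp only [hr, Finset.mul_sum]
          refine Finset.sum_congr rfl fun i _ => ?_
          simp only [Pi.smul_apply, smul_eq_mul]
          ring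
        rw [this, inv_mul_cancel₀ h2.ne'])
    refine ⟨w, ?_, hw2⟩
    rw [← hw1, smul_smul, mul_inv_cancel₀ h2.ne', one_smul]
  choose! W hWx hW using hex
  have hWl : ∀ x ∈ U ∩ {z' | z' ∈ bdT p e ∧ 0 < dd p z' e}, W x ∈ stT p z m (d + 1) ∧
      0 < bp (W x) ∧ W x ∈ W1 ∩ W1' ∩ W2 ∩ {w | 0 < ∑ i, MvPolynomial.eval w
          (MvPolynomial.pderiv (Sum.inr (some i)) P) * e i} := by
    rintro x ⟨hxU, hxb, hxe⟩
    rcases hW x ⟨hxU, hxb⟩ with h | ⟨h1, _⟩
    · exact h
    · exfalso
      have h2 := hWx x ⟨hxU, hxb⟩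
      rw [h1.2.2, zero_smul, add_zero] at h2
      have h3 : dd p (zp (W x)) e = 0 := by
        have h4 : vanish (DL e p) (zp (W x)) 1 := vanish.DL (h1.1.mono (by omega)) e
        have h5 := h4.eval
        rwa [eval_DL] at h5
      rw [h2, dd_smul_left hd, h3, mul_zero] at hxe
      exact lt_irrefl _ hxe
  -- formula for the kernel
  have hker : ∀ l ∈ U ∩ {z' | z' ∈ bdT p e ∧ 0 < dd p z' e}, ∀ x ∈ U ∩ bdT p e,
      dd p l x = (r l ^ (d - 1) * bp (W l) ^ m) * stratKer P (W l) (W x) * r x := by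
    intro l hl x hx
    have h1 := hWl l hl
    have h2 : MvPolynomial.eval (zp (W l) + bp (W l) • np (W l)) p = 0 := by
      rw [eval_mul_stP hd (N := d + 1) (by omega) h1.1.1, h1.1.2.2.2.1, mul_zero]
    have h3 := dd_eq_stratKer hd (N := d + 1) (by omega) (x := W x) h1.1.1 h2
    have h4 : dd p l x = dd p (r l • (zp (W l) + bp (W l) • np (W l)))
        (r x • (zp (W x) + bp (W x) • np (W x))) := by
      rw [← hWx l ⟨hl.1, hl.2.1⟩, ← hWx x hx]
    rw [h4, dd_smul_smul hd, h3]
    ring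
  have hrU : ∀ x ∈ U, 0 ≤ r x := fun x hx => (hUm x hx).2.le
  -- split the right set
  refine ⟨U, hU, ?_⟩
  have k1 : SosOn (U ∩ {z' | z' ∈ bdT p e ∧ 0 < dd p z' e})
      {x | x ∈ U ∩ bdT p e ∧ W x ∈ stT p z m (d + 1) ∧ W x ∈ W1'} (fun z' x => dd p z' x) := by
    have h1 := (hs1.comp W W).mono (S' := U ∩ {z' | z' ∈ bdT p e ∧ 0 < dd p z' e})
      (T' := {x | x ∈ U ∩ bdT p e ∧ W x ∈ stT p z m (d + 1) ∧ W x ∈ W1'})
      (fun l hl => ⟨(hWl l hl).2.2.1.1.1, (hWl l hl).1⟩) (fun x hx => ⟨hx.2.2, hx.2.1⟩)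
    refine (((SosOn.left (a := fun l => r l ^ (d - 1) * bp (W l) ^ m) (fun l hl => ?_)).mul h1).mul
      (SosOn.right (f := r) (fun x hx => hrU x hx.1.1))).congr (fun l hl x hx => ?_)
    · exact mul_nonneg (pow_nonneg (hrU l hl.1) _) (pow_nonneg (hWl l hl).2.1.le _)
    · exact hker l hl x hx.1
  have k2 : SosOn (U ∩ {z' | z' ∈ bdT p e ∧ 0 < dd p z' e})
      {x | x ∈ U ∩ bdT p e ∧ W x ∈ stT0 p z m ∧ W x ∈ W2'} (fun z' x => dd p z' x) := by
    have h1 := (hs2.comp W W).mono (S' := U ∩ {z' | z' ∈ bdT p e ∧ 0 < dd p z' e})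
      (T' := {x | x ∈ U ∩ bdT p e ∧ W x ∈ stT0 p z m ∧ W x ∈ W2'})
      (fun l hl => ⟨(hWl l hl).2.2.1.2, (hWl l hl).1⟩) (fun x hx => ⟨hx.2.2, hx.2.1⟩)
    refine (((SosOn.left (a := fun l => r l ^ (d - 1) * bp (W l) ^ m) (fun l hl => ?_)).mul h1).mul
      (SosOn.right (f := r) (fun x hx => hrU x hx.1.1))).congr (fun l hl x hx => ?_)
    · exact mul_nonneg (pow_nonneg (hrU l hl.1) _) (pow_nonneg (hWl l hl).2.1.le _)
    · exact hker l hl x hx.1
  refine (k1.union_right k2).mono subset_rfl ?_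
  intro x hx
  rcases hW x hx with h | h
  · exact Or.inl ⟨hx, h.1, h.2.2.1.1.2⟩
  · exact Or.inr ⟨hx, h⟩

end Vale.Agent.P256
end

section

/-! A slack factorization gives a semidefinite lift. -/

namespace Vale.Agent.P256

open Matrix

/-- normal form of SOS kernels: one common vector of functions of `x` -/
theorem Sos.normal {L X : Type*} {h : L → X → ℝ} (H : Sos h) :
    ∃ (N m : ℕ) (α : L → Fin m → Fin N → ℝ) (F : X → Fin N → ℝ),
      ∀ l x, h l x = ∑ j, (∑ i, α l j i * F x i) ^ 2 := by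
  classical
  obtain ⟨m, g, hg, hh⟩ := H
  choose n a f hf using hg
  set I := (Σ j : Fin m, Fin (n j)) with hI
  set e := Fintype.equivFin I with he
  refine ⟨Fintype.card I, m,
    fun l j k => if (e.symm k).1 = j then a (e.symm k).1 (e.symm k).2 l else 0,
    fun x k => f (e.symm k).1 (e.symm k).2 x, fun l x => ?_⟩
  rw [hh]
  refine Finset.sum_congr rfl fun j _ => ?_
  congr 1
  rw [hf]
  have h1 : ∑ k : Fin (Fintype.card I),
      (if (e.symm k).1 = j then a (e.symm k).1 (e.symm k).2 l else 0) *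
        f (e.symm k).1 (e.symm k).2 x =
      ∑ i : I, (if i.1 = j then a i.1 i.2 l else 0) * f i.1 i.2 x :=
    Equiv.sum_comp e.symm (fun i : I => (if i.1 = j then a i.1 i.2 l else 0) * f i.1 i.2 x)
  rw [h1, Fintype.sum_sigma]
  rw [Finset.sum_eq_single j]
  · simp only [↓reduceIte]
  · intro b _ hb
    simp only [hb, ↓reduceIte, zero_mul, Finset.sum_const_zero]
  · intro hj; exact absurd (Finset.mem_univ j) hj

/-- the linear functional `M ↦ Σ_j α_jᵀ M α_j` -/
noncomputable def quadFun {N m : ℕ} (α : Fin m → Fin N → ℝ) :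
    Matrix (Fin N) (Fin N) ℝ →ₗ[ℝ] ℝ where
  toFun M := ∑ j, ∑ i, ∑ k, α j i * M i k * α j k
  map_add' M M' := by
    simp only [Matrix.add_apply, ← Finset.sum_add_distrib]
    refine Finset.sum_congr rfl fun j _ => Finset.sum_congr rfl fun i _ =>
      Finset.sum_congr rfl fun k _ => ?_
    ring
  map_smul' c M := by
    simp only [Matrix.smul_apply, smul_eq_mul, RingHom.id_apply, Finset.mul_sum]
    refine Finset.sum_congr rfl fun j _ => Finset.sum_congr rfl fun i _ =>
      Finset.sum_congr rfl fun k _ => ?_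
    ring

theorem quadFun_apply {N m : ℕ} (α : Fin m → Fin N → ℝ) (M : Matrix (Fin N) (Fin N) ℝ) :
    quadFun α M = ∑ j, ∑ i, ∑ k, α j i * M i k * α j k := rfl

theorem quadFun_nonneg {N m : ℕ} (α : Fin m → Fin N → ℝ) {M : Matrix (Fin N) (Fin N) ℝ}
    (hM : M.PosSemidef) : 0 ≤ quadFun α M := by
  rw [quadFun_apply]
  refine Finset.sum_nonneg fun j _ => ?_
  have h := hM.dotProduct_mulVec_nonneg (α j)
  have e : star (α j) ⬝ᵥ (M *ᵥ (α j)) = ∑ i, ∑ k, α j i * M i k * α j k := by
    simp only [dotProduct, Matrix.mulVec, Finset.mul_sum]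
    refine Finset.sum_congr rfl fun i _ => Finset.sum_congr rfl fun k _ => ?_
    simp only [Pi.star_apply, star_trivial]
    ring
  rw [← e]; exact h

theorem quadFun_vecMulVec {N m : ℕ} (α : Fin m → Fin N → ℝ) (v : Fin N → ℝ) :
    quadFun α (vecMulVec v v) = ∑ j, (∑ i, α j i * v i) ^ 2 := by
  rw [quadFun_apply]
  refine Finset.sum_congr rfl fun j _ => ?_
  rw [sq, Finset.sum_mul_sum]
  refine Finset.sum_congr rfl fun i _ => Finset.sum_congr rfl fun k _ => ?_
  rw [vecMulVec_apply]; ring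

end Vale.Agent.P256
end

section

/-! Closure properties of conic spectrahedral shadows. -/

namespace Vale.Agent.P256

open Matrix

variable {n : ℕ}

theorem psd_fromBlocks {ι κ : Type*} [Fintype ι] [Fintype κ] {A : Matrix ι ι ℝ}
    {D : Matrix κ κ ℝ} : (fromBlocks A 0 0 D).PosSemidef ↔ A.PosSemidef ∧ D.PosSemidef := by
  constructor
  · intro h
    refine ⟨?_, ?_⟩
    · have := h.submatrix (Sum.inl : ι → ι ⊕ κ)
      exact this
    · have := h.submatrix (Sum.inr : κ → ι ⊕ κ)
      exact this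
  · rintro ⟨hA, hD⟩
    rw [posSemidef_iff_dotProduct_mulVec] at hA hD ⊢
    refine ⟨hA.1.fromBlocks (by simp) hD.1, fun x => ?_⟩
    have h1 := hA.2 (x ∘ Sum.inl)
    have h2 := hD.2 (x ∘ Sum.inr)
    have h3 : star x ⬝ᵥ fromBlocks A 0 0 D *ᵥ x =
        star (x ∘ Sum.inl) ⬝ᵥ A *ᵥ (x ∘ Sum.inl) + star (x ∘ Sum.inr) ⬝ᵥ D *ᵥ (x ∘ Sum.inr) := by
      rw [fromBlocks_mulVec]
      simp only [dotProduct, Fintype.sum_sum_type, Sum.elim_inl, Sum.elim_inr, zero_mulVec,
        add_zero, zero_add, Pi.star_apply, Function.comp]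
    rw [h3]
    exact add_nonneg h1 h2

/-- conic spectrahedral shadows, with arbitrary finite index types -/
def CShad (S : Set (Fin n → ℝ)) : Prop :=
  ∃ (ι κ : Type) (_ : Fintype ι) (_ : Fintype κ) (A : Fin n → Matrix ι ι ℝ)
    (B : κ → Matrix ι ι ℝ), (∀ i, (A i).IsSymm) ∧ (∀ j, (B j).IsSymm) ∧
    S = {x | ∃ u : κ → ℝ, (∑ i, x i • A i + ∑ j, u j • B j).PosSemidef}

theorem CShad.shadow {S : Set (Fin n → ℝ)} (h : CShad S) : IsSpectrahedralShadow S := by
  obtain ⟨ι, κ, hι, hκ, A, B, hA, hB, hS⟩ := h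
  let f := Fintype.equivFin ι
  let g := Fintype.equivFin κ
  refine ⟨Fintype.card ι, Fintype.card κ, 0, fun i => (A i).submatrix f.symm f.symm,
    fun j => (B (g.symm j)).submatrix f.symm f.symm, Matrix.isSymm_zero, fun i => (hA i).submatrix _,
    fun j => (hB _).submatrix _, ?_⟩
  rw [hS]
  ext x
  simp only [Set.mem_ofPred_eq]
  have key : ∀ u : κ → ℝ, (0 + ∑ i, x i • (A i).submatrix f.symm f.symm +
      ∑ j, u (g.symm j) • (B (g.symm j)).submatrix f.symm f.symm) =
      (∑ i, x i • A i + ∑ j, u j • B j).submatrix f.symm f.symm := by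
    intro u
    ext a b
    simp only [Matrix.add_apply, Matrix.zero_apply, Matrix.sum_apply, Matrix.smul_apply,
      Matrix.submatrix_apply, zero_add]
    congr 1
    exact Equiv.sum_comp g.symm (fun j => u j • B j (f.symm a) (f.symm b))
  constructor
  · rintro ⟨u, hu⟩
    refine ⟨fun j => u (g.symm j), ?_⟩
    rw [key]
    exact hu.submatrix _
  · rintro ⟨u, hu⟩
    refine ⟨fun j => u (g j), ?_⟩
    have h1 := key (fun j => u (g j))
    simp only [Equiv.apply_symm_apply] at h1
    rw [h1] at hu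
    exact (posSemidef_submatrix_equiv f.symm).1 hu

theorem symm_blocks {ι κ : Type*} {A : Matrix ι ι ℝ} {D : Matrix κ κ ℝ} (hA : A.IsSymm)
    (hD : D.IsSymm) : (fromBlocks A 0 0 D).IsSymm :=
  hA.fromBlocks (by simp) hD

theorem sum_blocks {σ ι κ : Type*} [Fintype σ] (c : σ → ℝ) (A : σ → Matrix ι ι ℝ)
    (D : σ → Matrix κ κ ℝ) : ∑ s, c s • fromBlocks (A s) 0 0 (D s) =
      fromBlocks (∑ s, c s • A s) 0 0 (∑ s, c s • D s) := by
  ext a b
  rcases a with a | a <;> rcases b with b | b <;>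
    simp [Matrix.sum_apply, Matrix.smul_apply]

theorem CShad.inter {S T : Set (Fin n → ℝ)} (hS : CShad S) (hT : CShad T) : CShad (S ∩ T) := by
  obtain ⟨ι, κ, hι, hκ, A, B, hA, hB, rfl⟩ := hS
  obtain ⟨ι', κ', hι', hκ', A', B', hA', hB', rfl⟩ := hT
  refine ⟨ι ⊕ ι', κ ⊕ κ', inferInstance, inferInstance, fun i => fromBlocks (A i) 0 0 (A' i),
    Sum.elim (fun j => fromBlocks (B j) 0 0 0) (fun j => fromBlocks 0 0 0 (B' j)),
    fun i => symm_blocks (hA i) (hA' i), ?_, ?_⟩
  · rintro (j | j)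
    · exact symm_blocks (hB j) isSymm_zero
    · exact symm_blocks isSymm_zero (hB' j)
  · ext x
    have key : ∀ u : κ ⊕ κ' → ℝ, ∑ i, x i • fromBlocks (A i) 0 0 (A' i) +
        ∑ j, u j • Sum.elim (fun j => fromBlocks (B j) 0 0 0)
          (fun j => fromBlocks 0 0 0 (B' j)) j =
        fromBlocks (∑ i, x i • A i + ∑ j, u (Sum.inl j) • B j) 0 0
          (∑ i, x i • A' i + ∑ j, u (Sum.inr j) • B' j) := by
      intro u
      rw [Fintype.sum_sum_type]
      simp only [Sum.elim_inl, Sum.elim_inr]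
      rw [sum_blocks, sum_blocks, sum_blocks, fromBlocks_add, fromBlocks_add]
      simp only [smul_zero, Finset.sum_const_zero, add_zero, zero_add]
    simp only [Set.mem_inter_iff, Set.mem_ofPred_eq]
    constructor
    · rintro ⟨⟨u, hu⟩, ⟨u', hu'⟩⟩
      refine ⟨Sum.elim u u', ?_⟩
      rw [key]
      exact psd_fromBlocks.2 ⟨hu, hu'⟩
    · rintro ⟨u, hu⟩
      rw [key] at hu
      obtain ⟨h1, h2⟩ := psd_fromBlocks.1 hu
      exact ⟨⟨_, h1⟩, ⟨_, h2⟩⟩

open Pointwise in
theorem CShad.add {S T : Set (Fin n → ℝ)} (hS : CShad S) (hT : CShad T) : CShad (S + T) := by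
  obtain ⟨ι, κ, hι, hκ, A, B, hA, hB, rfl⟩ := hS
  obtain ⟨ι', κ', hι', hκ', A', B', hA', hB', rfl⟩ := hT
  refine ⟨ι ⊕ ι', Fin n ⊕ (κ ⊕ κ'), inferInstance, inferInstance,
    fun i => fromBlocks 0 0 0 (A' i),
    Sum.elim (fun i => fromBlocks (A i) 0 0 (-A' i))
      (Sum.elim (fun j => fromBlocks (B j) 0 0 0) (fun j => fromBlocks 0 0 0 (B' j))),
    fun i => symm_blocks isSymm_zero (hA' i), ?_, ?_⟩
  · rintro (j | (j | j))
    · exact symm_blocks (hA j) (hA' j).neg
    · exact symm_blocks (hB j) isSymm_zero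
    · exact symm_blocks isSymm_zero (hB' j)
  · ext x
    have key : ∀ u : Fin n ⊕ (κ ⊕ κ') → ℝ, ∑ i, x i • fromBlocks (0 : Matrix ι ι ℝ) 0 0 (A' i) +
        ∑ j, u j • Sum.elim (fun i => fromBlocks (A i) 0 0 (-A' i))
          (Sum.elim (fun j => fromBlocks (B j) 0 0 0) (fun j => fromBlocks 0 0 0 (B' j))) j =
        fromBlocks (∑ i, u (Sum.inl i) • A i + ∑ j, u (Sum.inr (Sum.inl j)) • B j) 0 0
          (∑ i, (x i - u (Sum.inl i)) • A' i + ∑ j, u (Sum.inr (Sum.inr j)) • B' j) := by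
      intro u
      rw [Fintype.sum_sum_type, Fintype.sum_sum_type]
      simp only [Sum.elim_inl, Sum.elim_inr]
      rw [sum_blocks, sum_blocks, sum_blocks, sum_blocks, fromBlocks_add, fromBlocks_add,
        fromBlocks_add]
      simp only [smul_zero, Finset.sum_const_zero, add_zero, zero_add, sub_smul, smul_neg,
        Finset.sum_sub_distrib, Finset.sum_neg_distrib]
      congr 1
      abel
    simp only [Set.mem_add, Set.mem_ofPred_eq]
    constructor
    · rintro ⟨y, ⟨u, hu⟩, y', ⟨u', hu'⟩, rfl⟩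
      refine ⟨Sum.elim y (Sum.elim u u'), ?_⟩
      rw [key]
      refine psd_fromBlocks.2 ⟨hu, ?_⟩
      simpa only [Pi.add_apply, Sum.elim_inl, add_sub_cancel_left, Sum.elim_inr] using hu'
    · rintro ⟨u, hu⟩
      rw [key] at hu
      obtain ⟨h1, h2⟩ := psd_fromBlocks.1 hu
      refine ⟨fun i => u (Sum.inl i), ⟨_, h1⟩, fun i => x i - u (Sum.inl i), ⟨_, h2⟩, ?_⟩
      funext i
      simp

theorem CShad.poly {r : ℕ} (f : Fin r → Fin n → ℝ) :
    CShad {x : Fin n → ℝ | ∀ j, 0 ≤ ∑ i, f j i * x i} := by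
  refine ⟨Fin r, Fin 0, inferInstance, inferInstance, fun i => diagonal (fun j => f j i),
    fun _ => 0, fun i => isSymm_diagonal _, fun _ => isSymm_zero, ?_⟩
  ext x
  have key : ∀ u : Fin 0 → ℝ, ∑ i, x i • diagonal (fun j => f j i) +
      ∑ j : Fin 0, u j • (0 : Matrix (Fin r) (Fin r) ℝ) =
      diagonal (fun j => ∑ i, f j i * x i) := by
    intro u
    ext a b
    simp only [Matrix.add_apply, Matrix.sum_apply, Matrix.smul_apply, Matrix.zero_apply,
      smul_zero, Finset.sum_const_zero, add_zero, diagonal_apply]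
    by_cases h : a = b
    · simp only [h, ↓reduceIte, smul_eq_mul, mul_comm]
    · simp [h]
  simp only [Set.mem_ofPred_eq]
  constructor
  · intro h
    refine ⟨0, ?_⟩
    rw [key]
    exact posSemidef_diagonal_iff.2 h
  · rintro ⟨u, hu⟩
    rw [key] at hu
    exact posSemidef_diagonal_iff.1 hu

theorem CShad.zero : CShad ({0} : Set (Fin n → ℝ)) := by
  have h := CShad.poly (n := n) (r := n + n)
    (fun j => Fin.addCases (fun k => Pi.single k 1) (fun k => -Pi.single k 1) j)
  convert h using 1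
  ext x
  simp only [Set.mem_singleton_iff, Set.mem_ofPred_eq]
  constructor
  · rintro rfl
    intro j
    simp only [Pi.zero_apply, mul_zero, Finset.sum_const_zero, Std.le_refl]
  · intro hx
    funext k
    have h1 := hx (Fin.castAdd n k)
    have h2 := hx (Fin.natAdd n k)
    simp only [Fin.addCases_left, Fin.addCases_right] at h1 h2
    have e1 : ∑ i, (Pi.single k (1 : ℝ) : Fin n → ℝ) i * x i = x k := by
      rw [Finset.sum_eq_single k]
      · simp
      · intro j _ hj; simp [hj]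
      · intro h; exact absurd (Finset.mem_univ k) h
    have e2 : ∑ i, (-Pi.single k (1 : ℝ) : Fin n → ℝ) i * x i = - x k := by
      rw [← e1, ← Finset.sum_neg_distrib]
      refine Finset.sum_congr rfl fun i _ => ?_
      simp
    rw [e1] at h1
    rw [e2] at h2
    simp only [Pi.zero_apply]
    linarith only [h1, h2]

open Pointwise in
theorem CShad.sum {σ : Type*} (t : Finset σ) {E : σ → Set (Fin n → ℝ)}
    (h : ∀ s ∈ t, CShad (E s)) : CShad (∑ s ∈ t, E s) := by
  classical
  induction t using Finset.induction_on with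
  | empty => rw [Finset.sum_empty]; exact CShad.zero
  | insert a t ha ih =>
    rw [Finset.sum_insert ha]
    exact (h a (Finset.mem_insert_self _ _)).add (ih (fun s hs => h s (Finset.mem_insert_of_mem hs)))

/-- linear lifts -/
theorem CShad.lift {N : ℕ} (W : Submodule ℝ ((Fin n → ℝ) × Matrix (Fin N) (Fin N) ℝ))
    (hW : ∀ z ∈ W, z.2.IsSymm) :
    CShad {x | ∃ M : Matrix (Fin N) (Fin N) ℝ, (x, M) ∈ W ∧ M.PosSemidef} := by
  classical
  let b := Module.finBasis ℝ W
  refine ⟨Fin N ⊕ (Fin n ⊕ Fin n), Fin (Module.finrank ℝ W), inferInstance, inferInstance,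
    fun i => fromBlocks 0 0 0 (diagonal (Sum.elim (Pi.single i 1) (-Pi.single i 1))),
    fun j => fromBlocks (b j : (Fin n → ℝ) × Matrix (Fin N) (Fin N) ℝ).2 0 0
      (diagonal (Sum.elim (-(b j : (Fin n → ℝ) × Matrix (Fin N) (Fin N) ℝ).1)
        (b j : (Fin n → ℝ) × Matrix (Fin N) (Fin N) ℝ).1)),
    fun i => symm_blocks isSymm_zero (isSymm_diagonal _),
    fun j => symm_blocks (hW _ (b j).2) (isSymm_diagonal _), ?_⟩
  ext x
  have key : ∀ u : Fin (Module.finrank ℝ W) → ℝ,
      ∑ i, x i • fromBlocks (0 : Matrix (Fin N) (Fin N) ℝ) 0 0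
        (diagonal (Sum.elim (Pi.single i 1) (-Pi.single i 1) : Fin n ⊕ Fin n → ℝ)) +
      ∑ j, u j • fromBlocks (b j : (Fin n → ℝ) × Matrix (Fin N) (Fin N) ℝ).2 0 0
      (diagonal (Sum.elim (-(b j : (Fin n → ℝ) × Matrix (Fin N) (Fin N) ℝ).1)
        (b j : (Fin n → ℝ) × Matrix (Fin N) (Fin N) ℝ).1)) =
      fromBlocks (∑ j, u j • (b j : (Fin n → ℝ) × Matrix (Fin N) (Fin N) ℝ).2) 0 0
        (diagonal (Sum.elim (x - ∑ j, u j • (b j : (Fin n → ℝ) × Matrix (Fin N) (Fin N) ℝ).1)
          (∑ j, u j • (b j : (Fin n → ℝ) × Matrix (Fin N) (Fin N) ℝ).1 - x))) := by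
    intro u
    rw [sum_blocks, sum_blocks, fromBlocks_add]
    simp only [smul_zero, Finset.sum_const_zero, zero_add, add_zero]
    congr 1
    ext a c
    simp only [Matrix.add_apply, Matrix.sum_apply, Matrix.smul_apply, diagonal_apply]
    by_cases h : a = c
    · subst h
      simp only [if_true, smul_eq_mul]
      rcases a with a | a
      · simp only [Sum.elim_inl, Pi.sub_apply, Finset.sum_apply, Pi.smul_apply, Pi.neg_apply,
          smul_eq_mul, mul_neg, Finset.sum_neg_distrib]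
        rw [Finset.sum_eq_single a]
        · simp only [Pi.single_eq_same, mul_one]; ring
        · intro j _ hj; simp [Ne.symm hj]
        · intro h; exact absurd (Finset.mem_univ a) h
      · simp only [Sum.elim_inr, Pi.neg_apply, mul_neg, Finset.sum_neg_distrib, Pi.sub_apply, Finset.sum_apply, Pi.smul_apply, smul_eq_mul]
        rw [Finset.sum_eq_single a]
        · simp only [Pi.single_eq_same, mul_one]; ring
        · intro j _ hj; simp [Ne.symm hj]
        · intro h; exact absurd (Finset.mem_univ a) h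
    · simp only [h, ↓reduceIte, smul_eq_mul, mul_zero, Finset.sum_const_zero, add_zero]
  have hrepr : ∀ u : Fin (Module.finrank ℝ W) → ℝ,
      ((∑ j, u j • (b j : (Fin n → ℝ) × Matrix (Fin N) (Fin N) ℝ).1,
        ∑ j, u j • (b j : (Fin n → ℝ) × Matrix (Fin N) (Fin N) ℝ).2) :
        (Fin n → ℝ) × Matrix (Fin N) (Fin N) ℝ) =
      ∑ j, u j • (b j : (Fin n → ℝ) × Matrix (Fin N) (Fin N) ℝ) := by
    intro u
    rw [Prod.ext_iff]
    exact ⟨by simp only [Prod.fst_sum, Prod.smul_fst], by simp only [Prod.snd_sum, Prod.smul_snd]⟩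
  simp only [Set.mem_ofPred_eq]
  constructor
  · rintro ⟨M, hM, hMp⟩
    refine ⟨fun j => b.repr ⟨_, hM⟩ j, ?_⟩
    have h2 := b.sum_repr ⟨_, hM⟩
    have h3 : ((∑ j, b.repr ⟨_, hM⟩ j • b j : W) : (Fin n → ℝ) × Matrix (Fin N) (Fin N) ℝ) =
        (x, M) := congrArg (Subtype.val) h2
    have h4 : ∑ j, b.repr ⟨_, hM⟩ j • (b j : (Fin n → ℝ) × Matrix (Fin N) (Fin N) ℝ) =
        (x, M) := by
      refine Eq.trans ?_ h3
      rw [AddSubmonoidClass.coe_finsetSum]
      rfl
    rw [← hrepr, Prod.ext_iff] at h4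
    obtain ⟨g1, g2⟩ := h4
    dsimp only at g1 g2
    rw [key]
    refine psd_fromBlocks.2 ⟨?_, ?_⟩
    · rw [g2]; exact hMp
    · rw [g1]
      refine posSemidef_diagonal_iff.2 ?_
      rintro (a | a) <;> simp
  · rintro ⟨u, hu⟩
    rw [key] at hu
    obtain ⟨h1, h2⟩ := psd_fromBlocks.1 hu
    have h3 := posSemidef_diagonal_iff.1 h2
    have h4 : ∑ j, u j • (b j : (Fin n → ℝ) × Matrix (Fin N) (Fin N) ℝ).1 = x := by
      funext i
      have a1 := h3 (Sum.inl i)
      have a2 := h3 (Sum.inr i)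
      simp only [Sum.elim_inl, Sum.elim_inr, Pi.sub_apply] at a1 a2
      linarith
    refine ⟨_, ?_, h1⟩
    rw [← h4, hrepr]
    exact Submodule.sum_mem _ fun k _ => Submodule.smul_mem _ _ (b k).2

end Vale.Agent.P256
end

section

/-! Localisation: near-diagonal SOS decompositions of the slack kernel are enough. -/

namespace Vale.Agent.P256

open Filter Topology Matrix

variable {n : ℕ} {p : MvPolynomial (Fin n) ℝ} {e : Fin n → ℝ}

theorem local_cone {L : Type*} {Y : Set L} {ψ : L → Fin n → ℝ} {T : Set (Fin n → ℝ)}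
    (hs : SosOn Y T (fun l x => ∑ i, ψ l i * x i)) :
    ∃ C : Set (Fin n → ℝ), CShad C ∧ T ⊆ C ∧ (∀ x ∈ C, ∀ l ∈ Y, 0 ≤ ∑ i, ψ l i * x i) ∧
      (∀ x ∈ C, ∀ y ∈ C, x + y ∈ C) ∧ (∀ c : ℝ, 0 ≤ c → ∀ x ∈ C, c • x ∈ C) ∧ 0 ∈ C := by
  classical
  obtain ⟨h', hsos, hh'⟩ := hs
  obtain ⟨N, m, α, F, hN⟩ := hsos.normal
  let W : Submodule ℝ ((Fin n → ℝ) × Matrix (Fin N) (Fin N) ℝ) :=
    { carrier := {z | z.2.IsSymm ∧ ∀ l ∈ Y, ∑ i, ψ l i * z.1 i = quadFun (α l) z.2}
      add_mem' := by
        rintro z z' ⟨h1, h2⟩ ⟨h1', h2'⟩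
        refine ⟨h1.add h1', fun l hl => ?_⟩
        rw [Prod.snd_add, map_add, ← h2 l hl, ← h2' l hl, ← Finset.sum_add_distrib]
        refine Finset.sum_congr rfl fun i _ => ?_
        rw [Prod.fst_add, Pi.add_apply]; ring
      zero_mem' := by
        refine ⟨?_, fun l _ => ?_⟩
        · exact Matrix.isSymm_zero
        · simp only [Prod.fst_zero, Pi.zero_apply, mul_zero, Finset.sum_const_zero, Prod.snd_zero, map_zero]
      smul_mem' := by
        rintro c z ⟨h1, h2⟩
        refine ⟨h1.smul c, fun l hl => ?_⟩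
        rw [Prod.smul_snd, map_smul, ← h2 l hl, smul_eq_mul, Finset.mul_sum]
        refine Finset.sum_congr rfl fun i _ => ?_
        rw [Prod.smul_fst, Pi.smul_apply, smul_eq_mul]; ring }
  have hW : ∀ z : (Fin n → ℝ) × Matrix (Fin N) (Fin N) ℝ,
      z ∈ W ↔ z.2.IsSymm ∧ ∀ l ∈ Y, ∑ i, ψ l i * z.1 i = quadFun (α l) z.2 := fun z => Iff.rfl
  refine ⟨{x | ∃ M : Matrix (Fin N) (Fin N) ℝ, (x, M) ∈ W ∧ M.PosSemidef},
    CShad.lift W (fun z hz => ((hW z).1 hz).1), ?_, ?_, ?_, ?_, ?_⟩
  · intro x hx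
    refine ⟨vecMulVec (F x) (F x), (hW _).2 ⟨?_, fun l hl => ?_⟩, ?_⟩
    · ext i j
      simp [vecMulVec_apply, mul_comm]
    · have h2 := hh' l hl x hx
      rw [quadFun_vecMulVec, ← hN]
      exact h2
    · have h1 : (vecMulVec (F x) (star (F x))).PosSemidef :=
        Matrix.posSemidef_vecMulVec_self_star _
      rwa [star_trivial] at h1
  · rintro x ⟨M, hM, hMp⟩ l hl
    rw [((hW _).1 hM).2 l hl]
    exact quadFun_nonneg _ hMp
  · rintro x ⟨M, hM, hMp⟩ y ⟨M', hM', hMp'⟩
    exact ⟨M + M', Submodule.add_mem W hM hM', hMp.add hMp'⟩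
  · rintro c hc x ⟨M, hM, hMp⟩
    exact ⟨c • M, Submodule.smul_mem W c hM, hMp.smul hc⟩
  · exact ⟨0, Submodule.zero_mem W, Matrix.PosSemidef.zero⟩

/-- polyhedral cones shrinking to a ray -/
theorem exists_poly_cone {z : Fin n → ℝ} (hz : ∑ i, z i ^ 2 = 1) {U : Set (Fin n → ℝ)}
    (hU : U ∈ 𝓝 z) : ∃ P : Set (Fin n → ℝ), CShad P ∧ P ∈ 𝓝 z ∧
      (∀ x ∈ P, ∀ y ∈ P, x + y ∈ P) ∧ (∀ c : ℝ, 0 ≤ c → ∀ x ∈ P, c • x ∈ P) ∧ 0 ∈ P ∧
      ∀ x ∈ P, ∑ i, x i ^ 2 = 1 → x ∈ U := by
  obtain ⟨δ, hδ, hball⟩ := Metric.mem_nhds_iff.1 hU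
  set ε : ℝ := min 1 (δ / (2 * (n + 1))) with hε
  have hεpos : 0 < ε := by (clear * - hδ; positivity)
  have hε1 : ε ≤ 1 := min_le_left _ _
  have hεδ : ε * (n + 1) < δ := by
    have h1 : ε ≤ δ / (2 * (n + 1)) := min_le_right _ _
    have h2 : ε * (n + 1) ≤ δ / (2 * (n + 1)) * (n + 1) :=
      mul_le_mul_of_nonneg_right h1 (by positivity)
    have h3 : δ / (2 * (n + 1)) * (n + 1) = δ / 2 := by field_simp
    linarith only [hδ, h2, h3]
  set r : (Fin n → ℝ) → ℝ := fun x => ∑ i, z i * x i with hr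
  set f : Fin (n + n) → Fin n → ℝ := fun j => Fin.addCases
    (fun k i => ε * z i - (if i = k then 1 else 0) + z k * z i)
    (fun k i => ε * z i + (if i = k then 1 else 0) - z k * z i) j with hf
  have hsum : ∀ (k : Fin n) (x : Fin n → ℝ), ∑ i, (if i = k then (1 : ℝ) else 0) * x i = x k := by
    intro k x
    simp only [ite_mul, one_mul, zero_mul, Finset.sum_ite_eq', Finset.mem_univ, ↓reduceIte]
  have f1 : ∀ k x, ∑ i, f (Fin.castAdd n k) i * x i = ε * r x - x k + z k * r x := by
    intro k x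
    simp only [hf, Fin.addCases_left, hr, Finset.mul_sum]
    rw [← hsum k x]
    rw [← Finset.sum_sub_distrib, ← Finset.sum_add_distrib]
    refine Finset.sum_congr rfl fun i _ => ?_
    ring
  have f2 : ∀ k x, ∑ i, f (Fin.natAdd n k) i * x i = ε * r x + x k - z k * r x := by
    intro k x
    simp only [hf, Fin.addCases_right, hr, Finset.mul_sum]
    rw [← hsum k x]
    rw [← Finset.sum_add_distrib, ← Finset.sum_sub_distrib]
    refine Finset.sum_congr rfl fun i _ => ?_
    ring
  set P : Set (Fin n → ℝ) := {x | ∀ j, 0 ≤ ∑ i, f j i * x i} with hP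
  have hPiff : ∀ x, x ∈ P ↔ ∀ k, |x k - z k * r x| ≤ ε * r x := by
    intro x
    constructor
    · intro hx k
      have a1 := hx (Fin.castAdd n k)
      have a2 := hx (Fin.natAdd n k)
      rw [f1] at a1
      rw [f2] at a2
      rw [abs_le]
      constructor <;> linarith only [a1, a2]
    · intro hx j
      refine Fin.addCases (fun k => ?_) (fun k => ?_) j
      · rw [f1]
        have := (abs_le.1 (hx k)).2
        linarith only [this]
      · rw [f2]
        have := (abs_le.1 (hx k)).1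
        linarith only [this]
  refine ⟨P, CShad.poly f, ?_, ?_, ?_, ?_, ?_⟩
  · have hrc : Continuous r := by fun_prop
    have hrz : r z = 1 := by
      simp only [hr]
      rw [← hz]
      exact Finset.sum_congr rfl fun i _ => (sq _).symm
    have hopen : IsOpen (⋂ k, {x : Fin n → ℝ | |x k - z k * r x| < ε * r x}) :=
      isOpen_iInter_of_finite fun k => isOpen_lt (by fun_prop) (by fun_prop)
    refine mem_of_superset (hopen.mem_nhds ?_) ?_
    · rw [Set.mem_iInter]
      intro k
      show |z k - z k * r z| < ε * r z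
      rw [hrz]
      simpa using hεpos
    · intro x hx
      rw [hPiff]
      intro k
      exact (Set.mem_iInter.1 hx k).le
  · intro x hx y hy j
    have := add_nonneg (hx j) (hy j)
    rw [← Finset.sum_add_distrib] at this
    refine le_of_le_of_eq this (Finset.sum_congr rfl fun i _ => ?_)
    rw [Pi.add_apply]; ring
  · intro c hc x hx j
    have := mul_nonneg hc (hx j)
    rw [Finset.mul_sum] at this
    refine le_of_le_of_eq this (Finset.sum_congr rfl fun i _ => ?_)
    simp only [Pi.smul_apply, smul_eq_mul]; ring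
  · intro j
    simp only [Pi.zero_apply, mul_zero, Finset.sum_const_zero, Std.le_refl]
  · intro x hx hx1
    apply hball
    rw [hPiff] at hx
    have hr0 : 0 ≤ r x := by
      obtain ⟨i, hi⟩ : ∃ i : Fin n, z i ^ 2 ≠ 0 := by
        by_contra hcon
        push Not at hcon
        simp only [hcon, Finset.sum_const_zero, zero_ne_one] at hz
      have := (abs_nonneg _).trans (hx i)
      exact (mul_nonneg_iff_of_pos_left hεpos).1 this
    have hid : ∑ i, (x i - z i * r x) ^ 2 = 1 - r x ^ 2 := by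
      have h1 : ∀ i, (x i - z i * r x) ^ 2 = x i ^ 2 - 2 * r x * (z i * x i) +
          r x ^ 2 * z i ^ 2 := fun i => by ring
      simp_rw [h1]
      rw [Finset.sum_add_distrib, Finset.sum_sub_distrib, ← Finset.mul_sum, ← Finset.mul_sum,
        hx1, hz]
      have : ∑ i, z i * x i = r x := rfl
      rw [this]
      ring
    have hr1 : r x ≤ 1 := by
      have : 0 ≤ ∑ i, (x i - z i * r x) ^ 2 := by (clear * -; positivity)
      rw [hid] at this
      nlinarith only [this]
    have hle : ∑ i : Fin n, (x i - z i * r x) ^ 2 ≤ ∑ _i : Fin n, ε ^ 2 := by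
      refine Finset.sum_le_sum fun i _ => ?_
      rw [← sq_abs]
      have h1 := hx i
      have h2 : |x i - z i * r x| ≤ ε := h1.trans (by nlinarith only [hεpos, hr1])
      exact pow_le_pow_left₀ (abs_nonneg _) h2 2
    rw [hid, Finset.sum_const, Finset.card_univ, Fintype.card_fin, nsmul_eq_mul] at hle
    have hr2 : 1 - r x ≤ n * ε := by
      have h1 : (n : ℝ) * ε ^ 2 ≤ n * ε := by
        refine mul_le_mul_of_nonneg_left ?_ (by (clear * -; positivity))
        nlinarith only [hεpos, hε1]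
      nlinarith only [hle, h1, hr0, hr1]
    rw [Metric.mem_ball, dist_pi_lt_iff hδ]
    intro i
    rw [Real.dist_eq]
    have hzi : |z i| ≤ 1 := by
      have h1 : z i ^ 2 ≤ 1 := by
        rw [← hz]
        exact Finset.single_le_sum (f := fun i => z i ^ 2) (fun j _ => sq_nonneg _)
          (Finset.mem_univ i)
      rw [abs_le]
      constructor <;> nlinarith only [h1]
    have h1 : |x i - z i| ≤ |x i - z i * r x| + |z i| * (1 - r x) := by
      have h2 : x i - z i = (x i - z i * r x) + (-(z i) * (1 - r x)) := by ring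
      rw [h2]
      refine (abs_add_le _ _).trans ?_
      rw [abs_mul, abs_neg, abs_of_nonneg (by linarith only [hr1] : 0 ≤ 1 - r x)]
    have h3 := hx i
    have h4 : |z i| * (1 - r x) ≤ 1 * (1 - r x) := mul_le_mul_of_nonneg_right hzi (by linarith only [hr1])
    have h5 : ε * r x ≤ ε := by nlinarith only [hεpos, hr1]
    have h6 : ε * (n + 1) = n * ε + ε := by ring
    linarith only [hεδ, hr2, h1, h3, h4, h5]

end Vale.Agent.P256
end

section

/-! Density of smooth boundary points and the localisation principle without finiteness. -/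

namespace Vale.Agent.P256

open Filter Topology Matrix

variable {n : ℕ} {p : MvPolynomial (Fin n) ℝ} {e : Fin n → ℝ}

theorem cut_out_dense (hp : IsHyperbolic p e) (hn : 3 ≤ n) (h0 : MvPolynomial.eval 0 p = 0)
    (hdense : ∀ y ∈ bdT p e, ∀ U ∈ 𝓝 y, ∃ y' ∈ U ∩ bdT p e, 0 < dd p y' e)
    {P : Set (Fin n → ℝ)}
    (hPa : ∀ x ∈ P, ∀ y ∈ P, x + y ∈ P) (hPs : ∀ c : ℝ, 0 ≤ c → ∀ x ∈ P, c • x ∈ P)
    {z0 : Fin n → ℝ} (hz0 : z0 ∈ hypCone p e) (hPn : P ∈ 𝓝 z0)
    {x : Fin n → ℝ} (hxP : x ∈ P) (hx : x ∉ hypCone p e) :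
    ∃ z ∈ bdT p e, z ∈ P ∧ 0 < dd p z e ∧ dd p z x < 0 := by
  classical
  obtain ⟨d, hd⟩ := hp.1
  -- a base point in the open cone, interior to `P`
  obtain ⟨a, hao, haP⟩ : ∃ a, InOpen p e a ∧ P ∈ 𝓝 a := by
    have h1 : Tendsto (fun ε : ℝ => z0 + ε • e) (𝓝[>] 0) (𝓝 z0) := by
      have : Continuous (fun ε : ℝ => z0 + ε • e) := by fun_prop
      have h2 := (this.tendsto 0).mono_left (nhdsWithin_le_nhds (s := Set.Ioi (0 : ℝ)))
      simpa using h2
    have h2 := h1.eventually (eventually_mem_nhds_iff.2 hPn)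
    obtain ⟨ε, hε1, hε2⟩ := (h2.and self_mem_nhdsWithin).exists
    exact ⟨z0 + ε • e, K_add_open hp hz0 ((e_inOpen hp).smul hp hε2), hε1⟩
  -- avoid the line through `x`
  obtain ⟨w, hwo, hwP, hwx⟩ : ∃ w, InOpen p e w ∧ P ∈ 𝓝 w ∧ w ∉ Submodule.span ℝ {x} := by
    by_cases ha : a ∈ Submodule.span ℝ {x}
    · obtain ⟨v, hv⟩ := exists_not_mem_span2 hn x x
      rw [Set.pair_eq_singleton] at hv
      have h1 : Tendsto (fun t : ℝ => a + t • v) (𝓝[>] 0) (𝓝 a) := by
        have : Continuous (fun t : ℝ => a + t • v) := by fun_prop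
        have h2 := (this.tendsto 0).mono_left (nhdsWithin_le_nhds (s := Set.Ioi (0 : ℝ)))
        simpa using h2
      have h2 := h1.eventually (eventually_mem_nhds_iff.2 haP)
      have h3 := h1.eventually ((isOpen_inOpen hp).mem_nhds hao)
      obtain ⟨t, ⟨ht1, ht2⟩, ht3⟩ := ((h2.and h3).and self_mem_nhdsWithin).exists
      refine ⟨a + t • v, ht2, ht1, fun h => hv ?_⟩
      have h4 := Submodule.smul_mem _ t⁻¹ (Submodule.sub_mem _ h ha)
      have ht0 : (t : ℝ) ≠ 0 := ne_of_gt ht3
      rwa [add_sub_cancel_left, smul_smul, inv_mul_cancel₀ ht0, one_smul] at h4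
    · exact ⟨a, hao, haP, ha⟩
  obtain ⟨s, hs1, hs2⟩ := exists_min hp x hwo (neg_open_not_mem hp h0 hwo)
  have hs0 : 0 < s := by
    by_contra hle
    push Not at hle
    apply hx
    have h1 : x = x + s • w + (-s) • w := by rw [neg_smul]; abel
    rw [h1]
    exact K_add hp hs1 (K_smul hp (hwo.mem hp) (by linarith only [hle]))
  have hy0 : x + s • w ≠ 0 := by
    intro h
    apply hwx
    rw [mem_span1]
    refine ⟨-s⁻¹, ?_⟩
    have h1 : s • w = -x := by rw [eq_neg_iff_add_eq_zero, add_comm]; exact h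
    have h2 : w = s⁻¹ • (s • w) := by rw [smul_smul, inv_mul_cancel₀ hs0.ne', one_smul]
    rw [h2, h1, smul_neg, neg_smul]
  obtain ⟨c, hc, y, hy, hxy⟩ := normalize_bdT hp hs1 hs2 hy0
  have hyP : P ∈ 𝓝 y := by
    have h1 : Tendsto (fun y' : Fin n → ℝ => s⁻¹ • (c • y' - x)) (𝓝 y) (𝓝 w) := by
      have h2 : Continuous (fun y' : Fin n → ℝ => s⁻¹ • (c • y' - x)) := by fun_prop
      have h3 := h2.tendsto y
      have h4 : s⁻¹ • (c • y - x) = w := by
        rw [← hxy, add_sub_cancel_left, smul_smul, inv_mul_cancel₀ hs0.ne', one_smul]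
      rwa [h4] at h3
    filter_upwards [h1 hwP] with y' hy'
    have h2 := hPs c⁻¹ (by (clear * - hc; positivity)) _ (hPa x hxP _ (hPs s hs0.le _ hy'))
    rwa [smul_smul, mul_inv_cancel₀ hs0.ne', one_smul, add_sub_cancel, smul_smul,
      inv_mul_cancel₀ hc.ne', one_smul] at h2
  -- bounds for supporting functionals
  obtain ⟨δ, hδ, hδw⟩ := hwo.sub_e
  have hb : ∀ i : Fin n, ∃ δ : ℝ, 0 < δ ∧ ∀ t : ℝ, |t| ≤ δ →
      InOpen p e (e + t • (Pi.single i (1 : ℝ))) := fun i => exists_e_add hp _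
  choose δi hδi hδi' using hb
  have hlim : ∀ᶠ z in 𝓝 y, ∑ i, |y i - z i| / δi i < c⁻¹ * s * δ := by
    have h1 : Continuous (fun z : Fin n → ℝ => ∑ i, |y i - z i| / δi i) := by fun_prop
    have h2 := h1.tendsto y
    simp only [sub_self, abs_zero, zero_div, Finset.sum_const_zero] at h2
    exact h2.eventually_lt_const (by (clear * - hc hs0 hδ; positivity))
  obtain ⟨z, ⟨⟨hz1, hz2⟩, hzb⟩, hze⟩ := hdense y hy _ (inter_mem hyP hlim)
  refine ⟨z, hzb, hz1, hze, ?_⟩
  by_contra hneg
  push Not at hneg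
  -- normalised functional
  have hK : ∀ v, v ∈ hypCone p e → 0 ≤ dd p z v := fun v hv => K_dd_nonneg hp hzb.1 hzb.2.1 hv
  have hE : ∀ i : Fin n, |dd p z (Pi.single i (1 : ℝ))| ≤ dd p z e / δi i := by
    intro i
    have h1 := hK _ ((hδi' i (δi i) (by rw [abs_of_pos (hδi i)])).mem hp)
    have h2 := hK _ ((hδi' i (-δi i) (by rw [abs_neg, abs_of_pos (hδi i)])).mem hp)
    rw [dd_add, dd_smul] at h1 h2
    rw [abs_le, le_div_iff₀ (hδi i), ← neg_div, div_le_iff₀ (hδi i)]
    constructor <;> linarith only [h1, h2]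
  have hsum : dd p z (y - z) = ∑ i, (y i - z i) * dd p z (Pi.single i (1 : ℝ)) := by
    have h1 : ∀ i : Fin n, dd p z (Pi.single i (1 : ℝ)) =
        MvPolynomial.eval z (MvPolynomial.pderiv i p) := by
      intro i
      rw [← eval_DL, DL_single]
    simp only [h1]
    rfl
  have h1 : dd p z (y - z) ≤ dd p z e * ∑ i, |y i - z i| / δi i := by
    rw [hsum, Finset.mul_sum]
    refine Finset.sum_le_sum fun i _ => ?_
    calc (y i - z i) * dd p z (Pi.single i (1 : ℝ))
        ≤ |(y i - z i) * dd p z (Pi.single i (1 : ℝ))| := le_abs_self _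
      _ = |y i - z i| * |dd p z (Pi.single i (1 : ℝ))| := abs_mul _ _
      _ ≤ |y i - z i| * (dd p z e / δi i) :=
        mul_le_mul_of_nonneg_left (hE i) (abs_nonneg _)
      _ = dd p z e * (|y i - z i| / δi i) := by ring
  have h2 : dd p z (y - z) = c⁻¹ * (dd p z x + s * dd p z w) := by
    have e1 : dd p z z = 0 := by rw [dd_euler hd, hzb.2.1, mul_zero]
    rw [dd_sub, e1, sub_zero]
    have e2 : y = c⁻¹ • (x + s • w) := by
      rw [hxy, smul_smul, inv_mul_cancel₀ hc.ne', one_smul]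
    rw [e2, dd_smul, dd_add, dd_smul]
  have h3 : δ * dd p z e ≤ dd p z w := by
    have := hK _ (hδw.mem hp)
    rw [dd_sub, dd_smul] at this
    linarith only [this]
  have h4 : dd p z e * ∑ i, |y i - z i| / δi i < dd p z e * (c⁻¹ * s * δ) :=
    mul_lt_mul_of_pos_left hz2 hze
  have hci : 0 < c⁻¹ := inv_pos.2 hc
  have h5 : c⁻¹ * (s * (δ * dd p z e)) ≤ c⁻¹ * (dd p z x + s * dd p z w) := by
    refine mul_le_mul_of_nonneg_left ?_ hci.le
    have := mul_le_mul_of_nonneg_left h3 hs0.le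
    linarith only [hneg, this]
  have h6 : c⁻¹ * (s * (δ * dd p z e)) = dd p z e * (c⁻¹ * s * δ) := by ring
  linarith only [h1, h2, h4, h5]

open Pointwise in
theorem localize_dense (hp : IsHyperbolic p e) (hn : 3 ≤ n)
    (hpt : ∀ x, x ∈ hypCone p e → -x ∈ hypCone p e → x = 0)
    (h0 : MvPolynomial.eval 0 p = 0)
    (hdense : ∀ y ∈ bdT p e, ∀ U ∈ 𝓝 y, ∃ y' ∈ U ∩ bdT p e, 0 < dd p y' e)
    (hloc : ∀ z0 ∈ bdT p e, ∃ U ∈ 𝓝 z0, SosOn (U ∩ {z' | z' ∈ bdT p e ∧ 0 < dd p z' e})
      (U ∩ bdT p e) (fun z' x => dd p z' x)) : IsSpectrahedralShadow (hypCone p e) := by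
  classical
  choose! U hU hs using hloc
  have hP : ∀ z ∈ bdT p e, ∃ P : Set (Fin n → ℝ), CShad P ∧ P ∈ 𝓝 z ∧
      (∀ x ∈ P, ∀ y ∈ P, x + y ∈ P) ∧ (∀ c : ℝ, 0 ≤ c → ∀ x ∈ P, c • x ∈ P) ∧ 0 ∈ P ∧
      ∀ x ∈ P, ∑ i, x i ^ 2 = 1 → x ∈ U z := fun z hz => exists_poly_cone hz.2.2 (hU z hz)
  choose! P hP1 hP2 hP3 hP4 hP5 hP6 using hP
  have hC : ∀ z ∈ bdT p e, ∃ C : Set (Fin n → ℝ), CShad C ∧ U z ∩ bdT p e ⊆ C ∧
      (∀ x ∈ C, ∀ l ∈ U z ∩ {z' | z' ∈ bdT p e ∧ 0 < dd p z' e}, 0 ≤ dd p l x) ∧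
      (∀ x ∈ C, ∀ y ∈ C, x + y ∈ C) ∧ (∀ c : ℝ, 0 ≤ c → ∀ x ∈ C, c • x ∈ C) ∧ 0 ∈ C := by
    intro z hz
    have h1 := hs z hz
    obtain ⟨C, c1, c2, c3, c4⟩ := local_cone (ψ := fun l i => MvPolynomial.eval l
      (MvPolynomial.pderiv i p)) (h1.congr (fun l _ x _ => (dd_eq p l x).symm))
    exact ⟨C, c1, c2, fun x hx l hl => by rw [dd_eq]; exact c3 x hx l hl, c4⟩
  choose! C hC1 hC2 hC3 hC4 hC5 hC6 using hC
  obtain ⟨t, hcov⟩ := (isCompact_bdT hp).elim_nhds_subcover' (fun z hz => P z)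
    (fun z hz => hP2 z hz)
  -- pieces
  set E : (bdT p e) → Set (Fin n → ℝ) := fun z => P z ∩ C z with hE
  have hEadd : ∀ z : bdT p e, ∀ x ∈ E z, ∀ y ∈ E z, x + y ∈ E z := fun z x hx y hy =>
    ⟨hP3 z z.2 x hx.1 y hy.1, hC4 z z.2 x hx.2 y hy.2⟩
  have hEsmul : ∀ z : bdT p e, ∀ c : ℝ, 0 ≤ c → ∀ x ∈ E z, c • x ∈ E z := fun z c hc x hx =>
    ⟨hP4 z z.2 c hc x hx.1, hC5 z z.2 c hc x hx.2⟩
  have hE0 : ∀ z : bdT p e, (0 : Fin n → ℝ) ∈ E z := fun z => ⟨hP5 z z.2, hC6 z z.2⟩
  have hEK : ∀ z : bdT p e, E z ⊆ hypCone p e := by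
    intro z x hx
    by_contra hxK
    obtain ⟨y, hy, hyP, hy1, hy2⟩ := cut_out_dense hp hn h0 hdense (hP3 z z.2) (hP4 z z.2) z.2.1
      (hP2 z z.2) hx.1 hxK
    have h1 := hC3 z z.2 x hx.2 y ⟨hP6 z z.2 y hyP hy.2.2, hy, hy1⟩
    linarith only [hy2, h1]
  have hmain : hypCone p e = ∑ z ∈ t, E z := by
    ext x
    rw [Set.mem_finsetSum]
    constructor
    · intro hx
      obtain ⟨m, c, y, hc, hy, hxy⟩ := gen_bdT hp (by omega) hpt hx
      have hz : ∀ k, ∃ z ∈ t, y k ∈ E z := by
        intro k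
        have h1 := hcov (hy k)
        rw [Set.mem_iUnion₂] at h1
        obtain ⟨z, hz, hyz⟩ := h1
        exact ⟨z, hz, hyz, hC2 z z.2 ⟨hP6 z z.2 _ hyz (hy k).2.2, hy k⟩⟩
      choose ζ hζ hζE using hz
      refine ⟨fun z => ∑ k ∈ Finset.univ.filter (fun k => ζ k = z), c k • y k, ?_, ?_⟩
      · intro z hz
        have : ∀ s : Finset (Fin m), (∀ k ∈ s, ζ k = z) → ∑ k ∈ s, c k • y k ∈ E z := by
          intro s
          induction s using Finset.induction_on with
          | empty => intro _; simpa using hE0 z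
          | insert a s ha ih =>
            intro hs'
            rw [Finset.sum_insert ha]
            refine hEadd z _ (hEsmul z _ (hc a) _ ?_) _
              (ih (fun k hk => hs' k (Finset.mem_insert_of_mem hk)))
            have := hζE a
            rwa [hs' a (Finset.mem_insert_self _ _)] at this
        exact this _ (fun k hk => (Finset.mem_filter.1 hk).2)
      · rw [hxy]
        exact Finset.sum_fiberwise_of_maps_to (fun k _ => hζ k) _
    · rintro ⟨g, hg, rfl⟩
      have : ∀ s : Finset (bdT p e), s ⊆ t → ∑ z ∈ s, g z ∈ hypCone p e := by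
        intro s
        induction s using Finset.induction_on with
        | empty => intro _; simpa using K_zero hp
        | insert a s ha ih =>
          intro hs'
          rw [Finset.sum_insert ha]
          exact K_add hp (hEK a (hg (hs' (Finset.mem_insert_self _ _))))
            (ih (fun k hk => hs' (Finset.mem_insert_of_mem hk)))
      exact this t subset_rfl
  rw [hmain]
  exact (CShad.sum t (fun z _ => (hP1 z z.2).inter (hC1 z z.2))).shadow

/-- a vector orthogonal to `L` outside a given line -/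
theorem exists_perp {L : Submodule ℝ (Fin n → ℝ)} (hL : Module.finrank ℝ L + 2 ≤ n)
    (a : Fin n → ℝ) : ∃ v : Fin n → ℝ, (∀ l ∈ L, ∑ i, v i * l i = 0) ∧
      v ∉ Submodule.span ℝ {a} := by
  let T : (Fin n → ℝ) →ₗ[ℝ] (L →ₗ[ℝ] ℝ) :=
    { toFun := fun v =>
        { toFun := fun l => ∑ i, v i * (l : Fin n → ℝ) i
          map_add' := by
            intro a b
            simp only [Submodule.coe_add, Pi.add_apply, mul_add, Finset.sum_add_distrib]
          map_smul' := by
            intro r a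
            simp only [Submodule.coe_smul, Pi.smul_apply, smul_eq_mul, RingHom.id_apply,
              Finset.mul_sum]
            refine Finset.sum_congr rfl fun i _ => ?_
            ring }
      map_add' := by
        intro a b
        ext l
        simp only [Pi.add_apply, add_mul, Finset.sum_add_distrib, LinearMap.coe_mk, AddHom.coe_mk, LinearMap.add_apply]
      map_smul' := by
        intro r a
        ext l
        simp only [LinearMap.coe_mk, AddHom.coe_mk, Pi.smul_apply, smul_eq_mul, RingHom.id_apply,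
          LinearMap.smul_apply, Finset.mul_sum]
        refine Finset.sum_congr rfl fun i _ => ?_
        ring }
  have h1 := LinearMap.finrank_range_add_finrank_ker T
  rw [Module.finrank_fin_fun] at h1
  have h2 : Module.finrank ℝ (LinearMap.range T) ≤ Module.finrank ℝ (L →ₗ[ℝ] ℝ) :=
    Submodule.finrank_le _
  have h3 : Module.finrank ℝ (L →ₗ[ℝ] ℝ) = Module.finrank ℝ L := Subspace.dual_finrank_eq
  by_contra hcon
  push Not at hcon
  have h4 : LinearMap.ker T ≤ Submodule.span ℝ {a} := by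
    intro v hv
    apply hcon
    intro l hl
    have := LinearMap.congr_fun (LinearMap.mem_ker.1 hv) ⟨l, hl⟩
    exact this
  have h5 := Submodule.finrank_mono h4
  have h6 : Module.finrank ℝ (Submodule.span ℝ ({a} : Set (Fin n → ℝ))) ≤ 1 := by
    refine (finrank_span_le_card _).trans ?_
    simp
  omega

/-- smooth boundary points are dense near a point of a stratum -/
theorem dense_aux (hp : IsHyperbolic p e) (h0 : MvPolynomial.eval 0 p = 0) {z : Fin n → ℝ}
    (hz : z ∈ bdT p e) {L : Submodule ℝ (Fin n → ℝ)} (hL : Module.finrank ℝ L + 2 ≤ n)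
    (hA : ∀ U ∈ 𝓝 z, ∀ᶠ x in 𝓝 z, ∃ y ∈ U, (∀ l ∈ L, ∑ i, (y i - x i) * l i = 0) ∧
      y ∈ hypCone p e ∧ MvPolynomial.eval y p = 0)
    (hB : ∃ U ∈ 𝓝 z, ∀ x ∈ U, ∀ x' ∈ U, x ∈ hypCone p e → x' ∈ hypCone p e →
      MvPolynomial.eval x p = 0 → MvPolynomial.eval x' p = 0 → dd p x e = 0 → dd p x' e = 0 →
      (∀ l ∈ L, ∑ i, (x i - x' i) * l i = 0) → x = x')
    {U : Set (Fin n → ℝ)} (hU : U ∈ 𝓝 z) : ∃ y ∈ U ∩ bdT p e, 0 < dd p y e := by
  classical
  obtain ⟨d, hd⟩ := hp.1
  obtain ⟨U0, hU0, hB⟩ := hB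
  by_contra hcon
  push Not at hcon
  -- all boundary points near `z` are singular
  set nrm : (Fin n → ℝ) → ℝ := fun x => Real.sqrt (∑ i, x i ^ 2) with hnrm
  have hnz : nrm z = 1 := by simp only [hnrm]; rw [hz.2.2, Real.sqrt_one]
  have hnc : Continuous nrm := by fun_prop
  have hn1 : Tendsto (fun x => (nrm x)⁻¹ • x) (𝓝 z) (𝓝 z) := by
    have h1 : Tendsto (fun x => (nrm x)⁻¹ • x) (𝓝 z) (𝓝 ((nrm z)⁻¹ • z)) :=
      ((hnc.tendsto z).inv₀ (by rw [hnz]; exact one_ne_zero)).smul tendsto_id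
    rwa [hnz, inv_one, one_smul] at h1
  have hev : ∀ᶠ x in 𝓝 z, (nrm x)⁻¹ • x ∈ U ∧ 0 < nrm x ∧ x ∈ U0 :=
    (hn1.eventually hU).and (((hnc.tendsto z).eventually_const_lt (by rw [hnz]; exact one_pos)).and
      hU0)
  obtain ⟨r, hr, hball⟩ := Metric.mem_nhds_iff.1 hev
  have hsing : ∀ x ∈ Metric.ball z r, x ∈ hypCone p e → MvPolynomial.eval x p = 0 →
      dd p x e = 0 := by
    intro x hx hxK hx0
    obtain ⟨h1, h2, _⟩ := hball hx
    have h3 : (nrm x)⁻¹ • x ∈ bdT p e := by
      refine ⟨K_smul hp hxK (inv_pos.2 h2).le, by rw [eval_smul' hd, hx0, mul_zero], ?_⟩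
      have h4 : ∀ i, ((nrm x)⁻¹ • x) i ^ 2 = (nrm x ^ 2)⁻¹ * x i ^ 2 := by
        intro i
        simp only [Pi.smul_apply, smul_eq_mul]
        rw [mul_pow, inv_pow]
      simp_rw [h4]
      rw [← Finset.mul_sum]
      have h5 : nrm x ^ 2 = ∑ i, x i ^ 2 :=
        Real.sq_sqrt (Finset.sum_nonneg fun i _ => sq_nonneg _)
      rw [← h5, inv_mul_cancel₀ (by (clear * - h2; positivity))]
    have h4 := hcon _ ⟨h1, h3⟩
    have h5 := K_dd_nonneg hp hxK hx0 ((e_inOpen hp).mem hp)
    rw [dd_smul_left hd] at h4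
    have h6 : 0 < (nrm x)⁻¹ ^ (d - 1) := by (clear * - h2; positivity)
    by_contra hne
    have h7 : 0 < dd p x e := lt_of_le_of_ne h5 (Ne.symm hne)
    have := mul_pos h6 h7
    linarith only [h4, this]
  -- the interior point
  have hev2 := hA _ (Metric.ball_mem_nhds z hr)
  have h1 : Tendsto (fun ε : ℝ => z + ε • e) (𝓝[>] 0) (𝓝 z) := by
    have : Continuous (fun ε : ℝ => z + ε • e) := by fun_prop
    have h2 := (this.tendsto 0).mono_left (nhdsWithin_le_nhds (s := Set.Ioi (0 : ℝ)))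
    simpa only [zero_smul, add_zero] using h2
  obtain ⟨ε, ⟨hε1, hε2⟩, hε3⟩ := (((h1.eventually hev2).and
    (h1.eventually (Metric.ball_mem_nhds z hr))).and self_mem_nhdsWithin).exists
  set a := z + ε • e with ha
  have hao : InOpen p e a := K_add_open hp hz.1 ((e_inOpen hp).smul hp hε3)
  obtain ⟨y, hyr, hyL, hyK, hy0⟩ := hε1
  obtain ⟨v, hvL, hva⟩ := exists_perp hL (a - y)
  -- an exterior point
  have hext : ∀ δ : ℝ, 0 < δ → y - δ • (a - y) ∉ hypCone p e := by
    intro δ hδ hmem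
    have h2 := K_add_open hp hmem (hao.smul hp hδ)
    have h3 : y - δ • (a - y) + δ • a = (1 + δ) • y := by
      rw [smul_sub, add_smul, one_smul]; abel
    rw [h3] at h2
    have h4 := h2 0 le_rfl
    rw [zero_smul, add_zero, eval_smul' hd, hy0, mul_zero] at h4
    exact h4 rfl
  obtain ⟨δ, hδ, hδr⟩ : ∃ δ : ℝ, 0 < δ ∧ y - δ • (a - y) ∈ Metric.ball z r := by
    have h2 : Tendsto (fun δ : ℝ => y - δ • (a - y)) (𝓝[>] 0) (𝓝 y) := by
      have : Continuous (fun δ : ℝ => y - δ • (a - y)) := by fun_prop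
      have h2 := (this.tendsto 0).mono_left (nhdsWithin_le_nhds (s := Set.Ioi (0 : ℝ)))
      simpa only [zero_smul, sub_zero] using h2
    obtain ⟨δ, h3, h4⟩ := ((h2.eventually (Metric.isOpen_ball.mem_nhds hyr)).and
      self_mem_nhdsWithin).exists
    exact ⟨δ, h4, h3⟩
  obtain ⟨η, hη, hηK, hηr⟩ : ∃ η : ℝ, 0 < η ∧ y - δ • (a - y) + η • v ∉ hypCone p e ∧
      y - δ • (a - y) + η • v ∈ Metric.ball z r := by
    have h2 : Tendsto (fun η : ℝ => y - δ • (a - y) + η • v) (𝓝[>] 0)
        (𝓝 (y - δ • (a - y))) := by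
      have : Continuous (fun η : ℝ => y - δ • (a - y) + η • v) := by fun_prop
      have h2 := (this.tendsto 0).mono_left (nhdsWithin_le_nhds (s := Set.Ioi (0 : ℝ)))
      simpa only [zero_smul, add_zero] using h2
    have h3 := h2.eventually ((isClosed_K hp).isOpen_compl.mem_nhds (hext δ hδ))
    have h4 := h2.eventually (Metric.isOpen_ball.mem_nhds hδr)
    obtain ⟨η, ⟨h5, h6⟩, h7⟩ := ((h3.and h4).and self_mem_nhdsWithin).exists
    exact ⟨η, h7, h5, h6⟩
  set c := y - δ • (a - y) + η • v with hc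
  obtain ⟨s, hs1, hs2⟩ := exists_min hp c hao (neg_open_not_mem hp h0 hao)
  have hs0 : 0 < s := by
    by_contra hle
    push Not at hle
    apply hηK
    have h1 : c = c + s • a + (-s) • a := by rw [neg_smul]; abel
    rw [h1]
    exact K_add hp hs1 (K_smul hp (hao.mem hp) (by linarith only [hle]))
  have h1s : 0 < 1 + s := by linarith only [hs0]
  set x := (1 + s)⁻¹ • (c + s • a) with hx
  have hxr : x ∈ Metric.ball z r := by
    have h2 : x = (1 + s)⁻¹ • c + ((1 + s)⁻¹ * s) • a := by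
      rw [hx, smul_add, smul_smul]
    rw [h2]
    refine (convex_ball z r) hηr hε2 (by (clear * - hs0; positivity)) (by (clear * - hs0; positivity)) ?_
    (clear * - hs0; field_simp)
  have hxK : x ∈ hypCone p e := K_smul hp hs1 (inv_pos.2 h1s).le
  have hx0 : MvPolynomial.eval x p = 0 := by rw [hx, eval_smul' hd, hs2, mul_zero]
  have hxy : x - y = ((1 + s)⁻¹ * (s - δ)) • (a - y) + ((1 + s)⁻¹ * η) • v := by
    have h2 : (1 + s) • (x - y) = (s - δ) • (a - y) + η • v := by
      rw [smul_sub, hx, smul_smul, mul_inv_cancel₀ h1s.ne', one_smul, hc]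
      simp only [smul_sub, add_smul, sub_smul, one_smul]
      abel
    have h3 : x - y = (1 + s)⁻¹ • ((1 + s) • (x - y)) := by
      rw [smul_smul, inv_mul_cancel₀ h1s.ne', one_smul]
    rw [h3, h2, smul_add, smul_smul, smul_smul]
  have hperp : ∀ l ∈ L, ∑ i, (x i - y i) * l i = 0 := by
    intro l hl
    have h2 : ∀ i, (x i - y i) * l i = -((1 + s)⁻¹ * (s - δ)) * ((y i - a i) * l i) +
        ((1 + s)⁻¹ * η) * (v i * l i) := by
      intro i
      have h3 := congrFun hxy i
      simp only [Pi.sub_apply, Pi.add_apply, Pi.smul_apply, smul_eq_mul] at h3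
      rw [h3]; ring
    simp_rw [h2]
    rw [Finset.sum_add_distrib, ← Finset.mul_sum, ← Finset.mul_sum, hyL l hl, hvL l hl]
    ring
  have heq := hB x (hball hxr).2.2 y (hball hyr).2.2 hxK hyK hx0 hy0 (hsing x hxr hxK hx0)
    (hsing y hyr hyK hy0) hperp
  apply hva
  rw [heq, sub_self] at hxy
  rw [mem_span1]
  refine ⟨-(((1 + s)⁻¹ * η)⁻¹ * ((1 + s)⁻¹ * (s - δ))), ?_⟩
  have h2 : ((1 + s)⁻¹ * η) • v = -(((1 + s)⁻¹ * (s - δ)) • (a - y)) := by
    rw [eq_neg_iff_add_eq_zero, add_comm]; exact hxy.symm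
  have h3 : v = ((1 + s)⁻¹ * η)⁻¹ • (((1 + s)⁻¹ * η) • v) := by
    rw [smul_smul, inv_mul_cancel₀ (by (clear * - hs0 hη; positivity)), one_smul]
  rw [h3, h2, smul_neg, smul_smul, neg_smul]

end Vale.Agent.P256
end

section

/-! Gluing of the local SOS lemmas. -/

namespace Vale.Agent.P256

open Filter Topology MvPolynomial

variable {n : ℕ}

/-- the cartesian point with polar coordinates `(b,u)` around `z` -/
def cart (z : Fin n → ℝ) (w : ℝ × (Fin n → ℝ)) : Fin n → ℝ := z + w.1 • w.2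

/-- polar coordinates around `z` as a pair -/
noncomputable def pol (z x : Fin n → ℝ) : ℝ × (Fin n → ℝ) :=
  (polar z x none, fun i => polar z x (some i))

theorem pol_eq {z : Fin n → ℝ} {b : ℝ} (hb : 0 < b) {u : Fin n → ℝ} (hu : ∑ i, u i ^ 2 = 1)
    {x : Fin n → ℝ} (hx : x = z + b • u) : pol z x = (b, u) := by
  obtain ⟨h1, h2⟩ := polar_eq hb hu hx
  unfold pol
  rw [h1, funext h2]

/-- the polar constraint set over a set `S` -/
def polS (z : Fin n → ℝ) (S : Set (Fin n → ℝ)) : Set (ℝ × (Fin n → ℝ)) :=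
  {w | 0 < w.1 ∧ ∑ i, w.2 i ^ 2 = 1 ∧ cart z w ∈ S}

theorem box_nhds (z u0 : Fin n → ℝ) {ρ : ℝ} (hρ : 0 < ρ) (p : MvPolynomial (Fin n) ℝ)
    {S : Set (Fin n → ℝ)} (hS : S ⊆ sphZ p) :
    ∃ U ∈ 𝓝 ((0 : ℝ), u0), ∀ w ∈ U ∩ polS z S, cart z w ∈ coneNbhd p z u0 ρ := by
  refine ⟨{w : ℝ × (Fin n → ℝ) | w.1 < ρ ∧ ∀ i, |w.2 i - u0 i| < ρ}, ?_, ?_⟩
  · have h1 : IsOpen {w : ℝ × (Fin n → ℝ) | w.1 < ρ ∧ ∀ i, |w.2 i - u0 i| < ρ} := by
      have : {w : ℝ × (Fin n → ℝ) | w.1 < ρ ∧ ∀ i, |w.2 i - u0 i| < ρ} =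
          {w | w.1 < ρ} ∩ ⋂ i, {w : ℝ × (Fin n → ℝ) | |w.2 i - u0 i| < ρ} := by
        ext w; simp only [Set.mem_ofPred_eq, Set.mem_inter_iff, Set.mem_iInter]
      rw [this]
      refine (isOpen_lt continuous_fst continuous_const).inter
        (isOpen_iInter_of_finite fun i => isOpen_lt (by fun_prop) continuous_const)
    exact h1.mem_nhds ⟨hρ, fun i => by simpa using hρ⟩
  · rintro w ⟨⟨h1, h2⟩, h3, h4, h5⟩
    exact ⟨hS h5, w.1, w.2, h3, h1, h4, h2, rfl⟩

theorem bdT_sub_sphZ (p : MvPolynomial (Fin n) ℝ) (e : Fin n → ℝ) : bdT p e ⊆ sphZ p :=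
  fun _ hx => ⟨hx.2.1, hx.2.2⟩

end Vale.Agent.P256
end

section

/-! Hyperbolic facts about a flat segment joining two conical points. -/

namespace Vale.Agent.P256

open Filter Topology

variable {n : ℕ} {p : MvPolynomial (Fin n) ℝ} {e : Fin n → ℝ}

/-- local data at a singular boundary point -/
structure SingAt (p : MvPolynomial (Fin n) ℝ) (e z : Fin n → ℝ) (m : ℕ) : Prop where
  two_le : 2 ≤ m
  hm : ∀ k < m, part p z k = 0
  he : 0 < MvPolynomial.eval e (part p z m)
  sm : ∀ v ∈ hypCone (part p z m) e, MvPolynomial.eval v (part p z m) = 0 →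
    v ∉ Submodule.span ℝ {z} → 0 < dd (part p z m) v e

/-- the localization hypothesis at a point -/
def LocHyp (p : MvPolynomial (Fin n) ℝ) (e z : Fin n → ℝ) : Prop :=
  ∀ v ∈ hypCone (localization p z) e, MvPolynomial.eval v (localization p z) = 0 →
        v ∉ Submodule.span ℝ {z} → IsSmoothPoint (localization p z) v

theorem singAt_of (hp : IsHyperbolic p e) {z : Fin n → ℝ} (hzK : z ∈ hypCone p e)
    (hz0 : MvPolynomial.eval z p = 0) (hs : dd p z e = 0) (hloc : LocHyp p e z) :
    ∃ m, SingAt p e z m := by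
  obtain ⟨d, hd⟩ := hp.1
  obtain ⟨m, hm, he⟩ := exists_mult hp hzK
  have hp0 : part p z m ≠ 0 := by
    intro h
    rw [h, map_zero] at he
    exact lt_irrefl _ he
  rw [LocHyp, localization_eq hm hp0] at hloc
  have hm2 : 2 ≤ m := by
    by_contra hlt
    push Not at hlt
    have hcase : m = 0 ∨ m = 1 := by omega
    rcases hcase with h | h
    · subst h
      rw [← coeff_line, Polynomial.coeff_zero_eq_eval_zero, eval_line, zero_smul, add_zero,
        hz0] at he
      exact lt_irrefl _ he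
    · subst h
      have h2 := Polynomial.coeff_derivative (line p z e) 0
      rw [Polynomial.coeff_zero_eq_eval_zero, eval_derivative_line, zero_smul, add_zero, hs,
        coeff_line] at h2
      simp only [zero_add, Nat.cast_zero, mul_one] at h2
      rw [← h2] at he
      exact lt_irrefl _ he
  have hq := part_hyp hp hm he
  exact ⟨m, hm2, hm, he, fun v hv hv0 hvz => dd_e_pos hq hv hv0 (hloc v hv hv0 hvz)⟩

theorem K_part_add (hp : IsHyperbolic p e) {z : Fin n → ℝ} {m : ℕ}
    (hm : ∀ k < m, part p z k = 0) {x : Fin n → ℝ}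
    (hx : x ∈ hypCone (part p z m) e) (c : ℝ) : x + c • z ∈ hypCone (part p z m) e := by
  rw [mem_hypCone_iff (part_homog p z m)] at hx ⊢
  intro t ht
  have h3 := hx t ht
  have h4 : x + c • z + t • e = (x + t • e) + c • z := by abel
  rw [h4, part_lineality hp.1 hm]
  exact h3

/-- `p` vanishes on the plane spanned by two points of a face -/
theorem plane_zero (hp : IsHyperbolic p e) {x1 x2 : Fin n → ℝ} (h1 : x1 ∈ hypCone p e)
    (h2 : x2 ∈ hypCone p e) (h20 : MvPolynomial.eval x2 p = 0)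
    (h : MvPolynomial.eval (x1 + x2) p = 0) (a b : ℝ) :
    MvPolynomial.eval (a • x1 + b • x2) p = 0 := by
  obtain ⟨d, hd⟩ := hp.1
  have hl : line p x1 x2 = 0 := by
    refine Polynomial.eq_zero_of_infinite_isRoot _ ?_
    refine Set.Infinite.mono ?_ (Set.Icc_infinite (zero_lt_one' ℝ))
    intro t ht
    show (line p x1 x2).eval t = 0
    rw [eval_line]
    have k1 := K_eval_nonneg hp (K_add hp h1 (K_smul hp h2 ht.1))
    have k2 := K_mono hp (K_add hp h1 (K_smul hp h2 ht.1))
      (K_smul hp h2 (c := 1 - t) (by linarith [ht.2]))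
    have k3 : x1 + t • x2 + (1 - t) • x2 = x1 + x2 := by
      rw [sub_smul, one_smul]; abel
    rw [k3, h] at k2
    linarith only [k1, k2]
  by_cases ha : a = 0
  · rw [ha, zero_smul, zero_add, eval_smul' hd, h20, mul_zero]
  · have h3 : a • x1 + b • x2 = a • (x1 + (b / a) • x2) := by
      rw [smul_add, smul_smul, mul_div_cancel₀ _ ha]
    rw [h3, eval_smul' hd, ← eval_line, hl, Polynomial.eval_zero, mul_zero]

/-- a functional nonnegative on `K` vanishing at a smooth boundary point is a multiple of the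
gradient -/
theorem grad_prop (hp : IsHyperbolic p e) {z : Fin n → ℝ} (hzK : z ∈ hypCone p e)
    (hz0 : MvPolynomial.eval z p = 0) (hs : 0 < dd p z e) (φ : (Fin n → ℝ) →ₗ[ℝ] ℝ)
    (hφ : ∀ x ∈ hypCone p e, 0 ≤ φ x) (hφz : φ z = 0) (v : Fin n → ℝ) :
    dd p z e * φ v = dd p z v * φ e := by
  have hm : ∀ k < 1, part p z k = 0 := by
    intro k hk
    have : k = 0 := by omega
    subst this
    have h1 : part p z 0 = MvPolynomial.C (MvPolynomial.coeff 0 (translate p z)) :=
      MvPolynomial.homogeneousComponent_zero _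
    have h2 : MvPolynomial.eval z (part p z 0) = 0 := by
      rw [← coeff_line, Polynomial.coeff_zero_eq_eval_zero, eval_line, zero_smul, add_zero, hz0]
    rw [h1, MvPolynomial.eval_C] at h2
    rw [h1, h2, map_zero]
  have hlin : ∀ w, MvPolynomial.eval w (part p z 1) = dd p z w := by
    intro w
    have h2 := Polynomial.coeff_derivative (line p z w) 0
    rw [Polynomial.coeff_zero_eq_eval_zero, eval_derivative_line, zero_smul, add_zero,
      coeff_line] at h2
    simpa using h2.symm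
  have he : 0 < MvPolynomial.eval e (part p z 1) := by rw [hlin]; exact hs
  have hker : ∀ w, dd p z w = 0 → 0 ≤ φ w := by
    intro w hw
    have hge : ∀ δ : ℝ, 0 < δ → 0 ≤ φ w + δ * φ e := by
      intro δ hδ
      have hop : InOpen (part p z 1) e (w + δ • e) := by
        intro t ht
        rw [hlin, dd_add, dd_add, dd_smul, dd_smul, hw]
        have : 0 < δ * dd p z e := by (clear * - hδ hs; positivity)
        have : 0 ≤ t * dd p z e := by (clear * - ht hs; positivity)
        linarith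
      obtain ⟨b₀, hb₀, hb⟩ := eventually_inOpen_of_part hp hzK hm he hop
      have h1 := hφ _ ((hb (b₀ / 2) (by linarith only [hb₀]) (by linarith)).mem hp)
      rw [map_add, map_smul, map_add, map_smul, hφz, smul_eq_mul, smul_eq_mul] at h1
      have h2 : 0 < b₀ / 2 := by linarith only [hb₀]
      by_contra hneg
      have := mul_neg_of_pos_of_neg h2 (not_le.1 hneg)
      linarith only [h1, this]
    have hlim : Tendsto (fun δ : ℝ => φ w + δ * φ e) (𝓝[>] 0) (𝓝 (φ w + 0 * φ e)) := by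
      have : Continuous (fun δ : ℝ => φ w + δ * φ e) := by fun_prop
      exact (this.tendsto 0).mono_left nhdsWithin_le_nhds
    rw [zero_mul, add_zero] at hlim
    refine ge_of_tendsto hlim ?_
    filter_upwards [self_mem_nhdsWithin] with δ hδ using hge δ hδ
  have hker0 : ∀ w, dd p z w = 0 → φ w = 0 := by
    intro w hw
    have h1 := hker w hw
    have h2 := hker (-w) (by rw [dd_neg, hw, neg_zero])
    rw [map_neg] at h2
    linarith
  have h3 := hker0 (dd p z e • v - dd p z v • e) (by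
    rw [dd_sub, dd_smul, dd_smul]; ring)
  rw [map_sub, map_smul, map_smul, smul_eq_mul, smul_eq_mul] at h3
  linarith

/-- what is needed on a flat segment joining two singular points -/
structure Seg (p : MvPolynomial (Fin n) ℝ) (e x1 x2 : Fin n → ℝ) (m1 m2 : ℕ)
    (ν : Fin n → ℝ) : Prop where
  m1two : 2 ≤ m1
  m2two : 2 ≤ m2
  hm1 : ∀ k < m1, part p x1 k = 0
  hm2 : ∀ k < m2, part p x2 k = 0
  he1 : 0 < MvPolynomial.eval e (part p x1 m1)
  he2 : 0 < MvPolynomial.eval e (part p x2 m2)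
  K1 : x1 ∈ hypCone p e
  K2 : x2 ∈ hypCone p e
  ne : x2 ∉ Submodule.span ℝ {x1}
  zero : ∀ a b : ℝ, MvPolynomial.eval (a • x1 + b • x2) p = 0
  smooth : ∀ a b : ℝ, 0 < a → 0 < b → 0 < dd p (a • x1 + b • x2) e
  grad : ∀ a b : ℝ, 0 < a → 0 < b → ∀ v : Fin n → ℝ,
    dd p (a • x1 + b • x2) v = dd p (a • x1 + b • x2) e * ∑ i, ν i * v i
  s1 : 0 < dd (part p x1 m1) x2 e
  s2 : 0 < dd (part p x2 m2) x1 e
  neg1 : ∀ v : Fin n → ℝ, v ≠ 0 → ∑ i, ν i * v i = 0 → ∑ i, x1 i * v i = 0 →
    ∑ i, x2 i * v i = 0 → dd2 (part p x1 m1) x2 v < 0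
  neg2 : ∀ v : Fin n → ℝ, v ≠ 0 → ∑ i, ν i * v i = 0 → ∑ i, x1 i * v i = 0 →
    ∑ i, x2 i * v i = 0 → dd2 (part p x2 m2) x1 v < 0

/-- the part of the analysis at one end -/
theorem seg_end (hp : IsHyperbolic p e) {x1 x2 : Fin n → ℝ} {m : ℕ} {ν : Fin n → ℝ}
    (h1 : x1 ∈ hypCone p e) (h2 : x2 ∈ hypCone p e) (hS : SingAt p e x1 m)
    (h12 : x2 ∉ Submodule.span ℝ {x1})
    (hzero : ∀ a b : ℝ, MvPolynomial.eval (a • x1 + b • x2) p = 0)
    (hgrad : ∀ a b : ℝ, 0 < a → 0 < b → ∀ v : Fin n → ℝ,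
      dd p (a • x1 + b • x2) v = dd p (a • x1 + b • x2) e * ∑ i, ν i * v i) :
    0 < dd (part p x1 m) x2 e ∧
    ∀ v : Fin n → ℝ, v ≠ 0 → ∑ i, ν i * v i = 0 → ∑ i, x1 i * v i = 0 →
      ∑ i, x2 i * v i = 0 → dd2 (part p x1 m) x2 v < 0 := by
  have hq := part_hyp hp hS.hm hS.he
  have hqd := part_homog p x1 m
  have k2 := K_sub_part hp h1 hS.hm hS.he h2
  have k0 : MvPolynomial.eval x2 (part p x1 m) = 0 := by
    have h3 := tendsto_blow hS.hm x2
    refine tendsto_nhds_unique h3 ?_
    have h4 : (fun b : ℝ => (b ^ m)⁻¹ * MvPolynomial.eval (x1 + b • x2) p) = fun _ => 0 := by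
      funext b
      have := hzero 1 b
      rw [one_smul] at this
      rw [this, mul_zero]
    rw [h4]
    exact tendsto_const_nhds
  have hs := hS.sm x2 k2 k0 h12
  refine ⟨hs, fun v hv hν e1 e2 => ?_⟩
  have hm1 : 1 ≤ m := by have := hS.two_le; omega
  -- gradient of the tangent cone polynomial
  have hg : dd (part p x1 m) x2 v = 0 := by
    have hb : ∀ b : ℝ, 0 < b → blD p x1 m v b x2 = 0 := by
      intro b hb
      have h3 := dd_expand_m hm1 hS.hm b x2 v
      have h4 := hgrad 1 b one_pos hb v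
      rw [one_smul, hν, mul_zero] at h4
      rw [h4] at h3
      exact (mul_eq_zero.1 h3.symm).resolve_left (by (clear * - hb; positivity))
    have hc : Tendsto (fun b : ℝ => blD p x1 m v b x2) (𝓝[>] 0) (𝓝 (blD p x1 m v 0 x2)) := by
      have h5 := (continuous_blD p x1 m v).comp (Continuous.prodMk continuous_id
        (continuous_const (y := x2)))
      exact (h5.tendsto 0).mono_left nhdsWithin_le_nhds
    rw [blD_zero] at hc
    refine tendsto_nhds_unique hc ?_
    refine tendsto_const_nhds.congr' ?_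
    filter_upwards [self_mem_nhdsWithin] with b hb' using (hb b hb').symm
  have hc := curvature hq k2 k0 hs hg
  refine lt_of_le_of_ne hc.1 fun h4 => ?_
  obtain ⟨a, b, hab⟩ := tangent_rigid hq hS.two_le hqd
    (fun v hv hv0 hvz => smooth_of_dd_pos (hS.sm v hv hv0 hvz).ne') k2 h12 (hc.2 h4)
  have e3 : ∑ i, v i ^ 2 = a * ∑ i, x1 i * v i + b * ∑ i, x2 i * v i := by
    rw [Finset.mul_sum, Finset.mul_sum, ← Finset.sum_add_distrib]
    refine Finset.sum_congr rfl fun i _ => ?_
    have : v i = a * x1 i + b * x2 i := by rw [hab]; simp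
    rw [sq]
    nth_rewrite 1 [this]
    ring
  rw [e1, e2, mul_zero, mul_zero, add_zero] at e3
  apply hv
  funext i
  have := (Finset.sum_eq_zero_iff_of_nonneg (fun i _ => sq_nonneg (v i))).1 e3 i
    (Finset.mem_univ i)
  simpa using this

theorem plane_zero' (hd : ∃ d, p.IsHomogeneous d) {z v : Fin n → ℝ}
    (h : ∀ t : ℝ, MvPolynomial.eval (z + t • v) p = 0) (a b : ℝ) :
    MvPolynomial.eval (a • z + b • v) p = 0 := by
  obtain ⟨d, hd⟩ := hd
  have hne : ∀ a : ℝ, a ≠ 0 → MvPolynomial.eval (b • v + a • z) p = 0 := by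
    intro a ha
    have h3 : b • v + a • z = a • (z + (b / a) • v) := by
      rw [smul_add, smul_smul, mul_div_cancel₀ _ ha, add_comm]
    rw [h3, eval_smul' hd, h, mul_zero]
  have hl : line p (b • v) z = 0 := by
    refine Polynomial.eq_zero_of_infinite_isRoot _ ?_
    refine Set.Infinite.mono ?_ (Set.Ioi_infinite (0 : ℝ))
    intro t ht
    show (line p (b • v) z).eval t = 0
    rw [eval_line]
    exact hne t (ne_of_gt ht)
  rw [add_comm, ← eval_line, hl, Polynomial.eval_zero]

theorem ray_end (hp : IsHyperbolic p e) {z v : Fin n → ℝ} (hzK : z ∈ hypCone p e)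
    (hline : ∀ t : ℝ, MvPolynomial.eval (z + t • v) p = 0) (hv : v ∉ hypCone p e) {t1 : ℝ}
    (ht1 : 0 < t1) (h1 : z + t1 • v ∈ hypCone p e) :
    ∃ t2 : ℝ, t1 ≤ t2 ∧ z + t2 • v ∈ hypCone p e ∧ dd p (z + t2 • v) e = 0 := by
  have hconv : ∀ t T : ℝ, 0 ≤ t → t ≤ T → z + T • v ∈ hypCone p e → z + t • v ∈ hypCone p e := by
    intro t T ht htT hT
    rcases eq_or_lt_of_le (ht.trans htT) with h0 | h0
    · have : t = T := by linarith only [ht, h0, htT]
      rw [this]; exact hT
    have h2 : z + t • v = (1 - t / T) • z + (t / T) • (z + T • v) := by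
      rw [smul_add, smul_smul, div_mul_cancel₀ _ h0.ne', sub_smul, one_smul]
      abel
    rw [h2]
    have h3 : t / T ≤ 1 := (div_le_one h0).2 htT
    exact K_add hp (K_smul hp hzK (by linarith only [h3])) (K_smul hp hT (by (clear * - ht h0; positivity)))
  obtain ⟨T0, hT0, hT0K⟩ : ∃ T0 : ℝ, 0 < T0 ∧ z + T0 • v ∉ hypCone p e := by
    by_contra hcon
    push Not at hcon
    exact hv (dir_mem hp (u := z) (fun t ht => hcon t ht))
  set A : Set ℝ := {t | 0 ≤ t ∧ z + t • v ∈ hypCone p e} with hA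
  have hAbdd : BddAbove A := by
    refine ⟨T0, ?_⟩
    rintro t ⟨ht, htK⟩
    by_contra hlt
    exact hT0K (hconv T0 t hT0.le (not_le.1 hlt).le htK)
  have hAcl : IsClosed A := by
    refine isClosed_Ici.inter ((isClosed_K hp).preimage ?_)
    fun_prop
  have h1A : t1 ∈ A := ⟨ht1.le, h1⟩
  have hmem : sSup A ∈ A := hAcl.csSup_mem ⟨t1, h1A⟩ hAbdd
  refine ⟨sSup A, le_csSup hAbdd h1A, hmem.2, ?_⟩
  by_contra hne
  have hpos : 0 < dd p (z + sSup A • v) e := lt_of_le_of_ne
    (K_dd_nonneg hp hmem.2 (hline _) ((e_inOpen hp).mem hp)) (Ne.symm hne)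
  obtain ⟨t0, ht0, h2⟩ := line_in_K hp hmem.2 hpos (v := v) (by
    intro t
    rw [add_assoc, ← add_smul]
    exact hline _)
  have h3 := h2 t0 (by rw [abs_of_pos ht0])
  rw [add_assoc, ← add_smul] at h3
  have h4 : sSup A + t0 ∈ A := ⟨by have := hmem.1; linarith, h3⟩
  have := le_csSup hAbdd h4
  linarith

/-- far enough in the direction `-z` one leaves the cone -/
theorem exists_sub_not_mem (hp : IsHyperbolic p e) {z : Fin n → ℝ} (hz : -z ∉ hypCone p e)
    (v : Fin n → ℝ) : ∃ c₀ : ℝ, 0 < c₀ ∧ ∀ c : ℝ, c₀ ≤ c → v - c • z ∉ hypCone p e := by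
  have hopen : {w : Fin n → ℝ | w ∉ hypCone p e} ∈ 𝓝 (-z) :=
    (isClosed_K hp).isOpen_compl.mem_nhds hz
  have ht : Tendsto (fun c : ℝ => c⁻¹ • v - z) atTop (𝓝 (-z)) := by
    have h1 : Tendsto (fun c : ℝ => c⁻¹ • v - z) atTop (𝓝 ((0 : ℝ) • v - z)) :=
      (tendsto_inv_atTop_zero.smul_const v).sub_const z
    simpa only [zero_smul, zero_sub] using h1
  obtain ⟨c₀, hc₀⟩ := (ht.eventually hopen).exists_forall_of_atTop
  refine ⟨max c₀ 1, by positivity, fun c hc hmem => ?_⟩
  have hcpos : 0 < c := lt_of_lt_of_le one_pos ((le_max_right _ _).trans hc)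
  apply hc₀ c ((le_max_left _ _).trans hc)
  have h2 := K_smul hp hmem (c := c⁻¹) (by positivity)
  rwa [smul_sub, smul_smul, inv_mul_cancel₀ hcpos.ne', one_smul] at h2

theorem smooth_case (hp : IsHyperbolic p e)
    (hpt : ∀ x, x ∈ hypCone p e → -x ∈ hypCone p e → x = 0) {z : Fin n → ℝ}
    (hz : z ∈ bdT p e) (hs : 0 < dd p z e) :
    (∀ v : Fin n → ℝ, v ≠ 0 → dd p z v = 0 → ∑ i, z i * v i = 0 → dd2 p z v < 0) ∨
    ∃ (y1 y2 : Fin n → ℝ) (α β : ℝ), y1 ∈ hypCone p e ∧ y2 ∈ hypCone p e ∧ y1 ≠ 0 ∧ y2 ≠ 0 ∧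
      y2 ∉ Submodule.span ℝ {y1} ∧ MvPolynomial.eval y1 p = 0 ∧ MvPolynomial.eval y2 p = 0 ∧
      dd p y1 e = 0 ∧ dd p y2 e = 0 ∧ MvPolynomial.eval (y1 + y2) p = 0 ∧ 0 < α ∧ 0 < β ∧
      z = α • y1 + β • y2 := by
  by_cases hall : ∀ v : Fin n → ℝ, v ≠ 0 → dd p z v = 0 → ∑ i, z i * v i = 0 → dd2 p z v < 0
  · exact Or.inl hall
  right
  push Not at hall
  obtain ⟨v, hv, hv1, hv2, hv3⟩ := hall
  obtain ⟨hzK, hz0, hz1⟩ := hz
  have hzne : z ≠ 0 := by
    rintro rfl
    simp only [Pi.zero_apply, ne_eq, OfNat.ofNat_ne_zero, not_false_eq_true, zero_pow, Finset.sum_const_zero, zero_ne_one] at hz1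
  have hvz : v ∉ Submodule.span ℝ {z} := by
    rw [mem_span1]
    rintro ⟨c, rfl⟩
    have h1 : ∑ i, z i * (c • z) i = c := by
      have : ∀ i, z i * (c • z) i = c * z i ^ 2 := by
        intro i
        simp only [Pi.smul_apply, smul_eq_mul]
        ring
      simp_rw [this]
      rw [← Finset.mul_sum, hz1, mul_one]
    rw [hv2] at h1
    exact hv (by rw [← h1, zero_smul])
  have hc := curvature hp hzK hz0 hs hv1
  have hline := hc.2 (le_antisymm hc.1 hv3)
  have hplane := plane_zero' hp.1 hline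
  obtain ⟨t₀, ht₀, hK⟩ := line_in_K hp hzK hs hline
  have hzneg : -z ∉ hypCone p e := fun h => hzne (hpt z hzK h)
  obtain ⟨c1, hc1, hc1'⟩ := exists_sub_not_mem hp hzneg v
  obtain ⟨c2, hc2, hc2'⟩ := exists_sub_not_mem hp hzneg (-v)
  set c := max c1 c2 with hcd
  have hcpos : 0 < c := lt_of_lt_of_le hc1 (le_max_left _ _)
  -- one side
  have side : ∀ w : Fin n → ℝ, (∀ a b : ℝ, MvPolynomial.eval (a • z + b • w) p = 0) →
      (∀ t : ℝ, |t| ≤ t₀ → z + t • w ∈ hypCone p e) → w - c • z ∉ hypCone p e →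
      ∃ t2 : ℝ, 0 < t2 ∧ z + t2 • (w - c • z) ∈ hypCone p e ∧
        dd p (z + t2 • (w - c • z)) e = 0 := by
    intro w hpl hKw hnot
    have hl : ∀ t : ℝ, MvPolynomial.eval (z + t • (w - c • z)) p = 0 := by
      intro t
      have : z + t • (w - c • z) = (1 - t * c) • z + t • w := by
        rw [smul_sub, smul_smul, sub_smul, one_smul]; abel
      rw [this]
      exact hpl _ _
    set t1 := min (1 / (2 * c)) (t₀ / 2) with ht1d
    have ht1 : 0 < t1 := by (clear * - hc1 ht₀; positivity)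
    have htc : t1 * c ≤ 1 / 2 := by
      have h1 : t1 ≤ 1 / (2 * c) := min_le_left _ _
      have h2 := mul_le_mul_of_nonneg_right h1 hcpos.le
      have h3 : 1 / (2 * c) * c = 1 / 2 := by (clear * - hcpos; field_simp)
      linarith only [h2, h3]
    have hden : 0 < 1 - t1 * c := by linarith only [htc]
    have hmem : z + t1 • (w - c • z) ∈ hypCone p e := by
      have h1 : z + t1 • (w - c • z) = (1 - t1 * c) • (z + (t1 / (1 - t1 * c)) • w) := by
        rw [smul_add, smul_smul, mul_div_cancel₀ _ hden.ne', smul_sub, smul_smul, sub_smul,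
          one_smul]
        abel
      rw [h1]
      refine K_smul hp (hKw _ ?_) hden.le
      rw [abs_of_pos (by (clear * - hc1 ht₀ hden; positivity)), div_le_iff₀ hden]
      have h2 : t1 ≤ t₀ / 2 := min_le_right _ _
      nlinarith only [h2, ht₀, htc]
    obtain ⟨t2, h2, h3, h4⟩ := ray_end hp hzK hl hnot ht1 hmem
    exact ⟨t2, lt_of_lt_of_le ht1 h2, h3, h4⟩
  obtain ⟨t2, ht2, hy1K, hy1s⟩ := side v hplane hK (hc1' c (le_max_left _ _))
  obtain ⟨t3, ht3, hy2K, hy2s⟩ := side (-v) (by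
      intro a b
      have := hplane a (-b)
      rwa [neg_smul, ← smul_neg] at this) (by
      intro t ht
      have := hK (-t) (by rwa [abs_neg])
      rwa [neg_smul, ← smul_neg] at this) (hc2' c (le_max_right _ _))
  set y1 := z + t2 • (v - c • z) with hy1
  set y2 := z + t3 • (-v - c • z) with hy2
  have e1 : y1 = (1 - t2 * c) • z + t2 • v := by
    rw [hy1, smul_sub, smul_smul, sub_smul, one_smul]; abel
  have e2 : y2 = (1 - t3 * c) • z + (-t3) • v := by
    rw [hy2, smul_sub, smul_smul, sub_smul, one_smul, smul_neg, neg_smul]; abel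
  have hvy : ∀ k l : ℝ, l ≠ 0 → k • z + l • v = 0 → False := by
    intro k l hl h0
    apply hvz
    rw [mem_span1]
    refine ⟨-(l⁻¹ * k), ?_⟩
    have h1 : l • v = -(k • z) := by
      rw [eq_neg_iff_add_eq_zero, add_comm]; exact h0
    have h2 : v = l⁻¹ • (l • v) := by rw [smul_smul, inv_mul_cancel₀ hl, one_smul]
    rw [h2, h1, smul_neg, smul_smul, neg_smul]
  have hy1ne : y1 ≠ 0 := by
    intro h0
    rw [e1] at h0
    exact hvy _ _ ht2.ne' h0
  have hy2ne : y2 ≠ 0 := by
    intro h0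
    rw [e2] at h0
    exact hvy _ _ (neg_ne_zero.2 ht3.ne') h0
  set s := t2 + t3 - 2 * c * t2 * t3 with hsd
  have hcomb : t3 • y1 + t2 • y2 = s • z := by
    rw [e1, e2]
    simp only [smul_add, smul_smul, hsd]
    have : t3 * (1 - t2 * c) + t2 * (1 - t3 * c) = t2 + t3 - 2 * c * t2 * t3 := by ring
    rw [← this, add_smul]
    have h5 : t2 * -t3 = -(t3 * t2) := by ring
    rw [h5, neg_smul]
    abel
  have hspos : 0 < s := by
    by_contra hle
    rw [not_lt] at hle
    have h1 : -(t3 • y1) ∈ hypCone p e := by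
      have h2 : -(t3 • y1) = t2 • y2 + (-s) • z := by
        rw [neg_smul, ← hcomb]; abel
      rw [h2]
      exact K_add hp (K_smul hp hy2K ht2.le) (K_smul hp hzK (by linarith only [hle]))
    have h3 := hpt _ (K_smul hp hy1K ht3.le) h1
    exact hy1ne ((smul_eq_zero.1 h3).resolve_left ht3.ne')
  refine ⟨y1, y2, t3 / s, t2 / s, hy1K, hy2K, hy1ne, hy2ne, ?_, ?_, ?_, hy1s, hy2s, ?_,
    by (clear * - ht3 hspos; positivity), by (clear * - ht2 hspos; positivity), ?_⟩
  · rw [mem_span1]
    rintro ⟨k, hk⟩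
    rw [e1, e2] at hk
    have h1 : ((1 - t3 * c) - k * (1 - t2 * c)) • z + (-t3 - k * t2) • v = 0 := by
      rw [smul_add, smul_smul, smul_smul] at hk
      rw [sub_smul, sub_smul (-t3)]
      have : (1 - t3 * c) • z + -t3 • v - ((k * (1 - t2 * c)) • z + (k * t2) • v) = 0 :=
        sub_eq_zero.2 hk
      rw [← this]; abel
    by_cases h2 : -t3 - k * t2 = 0
    · rw [h2, zero_smul, add_zero] at h1
      have h3 := (smul_eq_zero.1 h1).resolve_right hzne
      have hk' : k = -t3 / t2 := by field_simp; linarith only [h2]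
      have h4 : t2 * ((1 - t3 * c) - k * (1 - t2 * c)) = s := by
        rw [hk', hsd]; field_simp; ring
      rw [h3, mul_zero] at h4
      linarith only [hspos, h4]
    · exact hvy _ _ h2 h1
  · rw [e1]; exact hplane _ _
  · rw [e2]; exact hplane _ _
  · have : y1 + y2 = ((1 - t2 * c) + (1 - t3 * c)) • z + (t2 + -t3) • v := by
      rw [e1, e2, add_smul, add_smul]; abel
    rw [this]; exact hplane _ _
  · have : z = s⁻¹ • (s • z) := by rw [smul_smul, inv_mul_cancel₀ hspos.ne', one_smul]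
    rw [this, ← hcomb, smul_add, smul_smul, smul_smul, div_eq_inv_mul, div_eq_inv_mul]

theorem conic_case (hp : IsHyperbolic p e)
    (hpt : ∀ x, x ∈ hypCone p e → -x ∈ hypCone p e → x = 0) {z : Fin n → ℝ}
    (hz : z ∈ bdT p e) {m : ℕ} (hS : SingAt p e z m) {u : Fin n → ℝ} (hu : u ∈ dirS p e z m) :
    MvPolynomial.eval u (part p z (m + 1)) < 0 ∨
    ∃ (x2 : Fin n → ℝ) (a b : ℝ), x2 ∈ hypCone p e ∧ x2 ≠ 0 ∧ x2 ∉ Submodule.span ℝ {z} ∧
      MvPolynomial.eval x2 p = 0 ∧ dd p x2 e = 0 ∧ MvPolynomial.eval (z + x2) p = 0 ∧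
      0 < b ∧ u = a • z + b • x2 := by
  obtain ⟨hzK, hz0, hz1⟩ := hz
  have hzne : z ≠ 0 := by
    rintro rfl
    simp only [Pi.zero_apply, ne_eq, OfNat.ofNat_ne_zero, not_false_eq_true, zero_pow, Finset.sum_const_zero, zero_ne_one] at hz1
  have huz : u ∉ Submodule.span ℝ {z} := by
    rw [mem_span1]
    rintro ⟨c, rfl⟩
    have h1 : ∑ i, z i * (c • z) i = c := by
      have : ∀ i, z i * (c • z) i = c * z i ^ 2 := by
        intro i
        simp only [Pi.smul_apply, smul_eq_mul]
        ring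
      simp_rw [this]
      rw [← Finset.mul_sum, hz1, mul_one]
    rw [hu.2.2.2] at h1
    have h2 := hu.2.2.1
    rw [← h1] at h2
    simp only [Pi.smul_apply, smul_eq_mul, zero_mul, ne_eq, OfNat.ofNat_ne_zero, not_false_eq_true, zero_pow, Finset.sum_const_zero, zero_ne_one] at h2
  have hsm := hS.sm u hu.1 hu.2.1 huz
  obtain ⟨m', rfl⟩ : ∃ m', m = m' + 1 := ⟨m - 1, by have := hS.two_le; omega⟩
  have h1 := conic_rigidity hp hzK hS.hm hu.2.1 hsm
  rcases lt_or_eq_of_le h1.1 with h2 | h2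
  · exact Or.inl h2
  right
  have hline := h1.2 h2
  have hplane := plane_zero' hp.1 hline
  obtain ⟨t₀, ht₀, hK⟩ := conic_line_in_K hp hzK hS.hm hS.he hu.1 hsm hline
  have hzneg : -z ∉ hypCone p e := fun h => hzne (hpt z hzK h)
  obtain ⟨c, hc, hc'⟩ := exists_sub_not_mem hp hzneg u
  have hl : ∀ t : ℝ, MvPolynomial.eval (z + t • (u - c • z)) p = 0 := by
    intro t
    have : z + t • (u - c • z) = (1 - t * c) • z + t • u := by
      rw [smul_sub, smul_smul, sub_smul, one_smul]; abel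
    rw [this]
    exact hplane _ _
  set t1 := min (1 / (2 * c)) (t₀ / 4) with ht1d
  have ht1 : 0 < t1 := by (clear * - hc ht₀; positivity)
  have htc : t1 * c ≤ 1 / 2 := by
    have h1 : t1 ≤ 1 / (2 * c) := min_le_left _ _
    have h2 := mul_le_mul_of_nonneg_right h1 hc.le
    have h3 : 1 / (2 * c) * c = 1 / 2 := by (clear * - hc; field_simp)
    linarith only [h2, h3]
  have hden : 0 < 1 - t1 * c := by linarith only [htc]
  have hmem : z + t1 • (u - c • z) ∈ hypCone p e := by
    have h1 : z + t1 • (u - c • z) = (1 - t1 * c) • (z + (t1 / (1 - t1 * c)) • u) := by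
      rw [smul_add, smul_smul, mul_div_cancel₀ _ hden.ne', smul_sub, smul_smul, sub_smul,
        one_smul]
      abel
    rw [h1]
    refine K_smul hp (hK _ (by (clear * - hc ht₀ hden; positivity)) ?_) hden.le
    rw [div_lt_iff₀ hden]
    have h2 : t1 ≤ t₀ / 4 := min_le_right _ _
    nlinarith only [h2, ht₀, htc]
  obtain ⟨t2, h3, h4, h5⟩ := ray_end hp hzK hl (hc' c le_rfl) ht1 hmem
  have ht2 : 0 < t2 := lt_of_lt_of_le ht1 h3
  have e1 : z + t2 • (u - c • z) = (1 - t2 * c) • z + t2 • u := by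
    rw [smul_sub, smul_smul, sub_smul, one_smul]; abel
  have e2 : u = (-(t2⁻¹ * (1 - t2 * c))) • z + t2⁻¹ • (z + t2 • (u - c • z)) := by
    rw [e1, smul_add, smul_smul, smul_smul, inv_mul_cancel₀ ht2.ne', one_smul, neg_smul]
    abel
  refine ⟨z + t2 • (u - c • z), -(t2⁻¹ * (1 - t2 * c)), t2⁻¹, h4, ?_, ?_, hl t2, h5, ?_,
    by (clear * - ht2; positivity), e2⟩
  · intro h0
    apply huz
    rw [mem_span1, e2, h0]
    exact ⟨_, by rw [smul_zero, add_zero]⟩
  · intro h0
    apply huz
    rw [mem_span1] at h0 ⊢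
    obtain ⟨k, hk⟩ := h0
    refine ⟨-(t2⁻¹ * (1 - t2 * c)) + t2⁻¹ * k, ?_⟩
    rw [add_smul, mul_smul t2⁻¹ k, ← hk]
    exact e2
  · have : z + (z + t2 • (u - c • z)) = (1 + (1 - t2 * c)) • z + t2 • u := by
      rw [e1, add_smul, one_smul]; abel
    rw [this]; exact hplane _ _

end Vale.Agent.P256
end

section

/-! The local SOS lemma on a segment joining two conical points. -/

namespace Vale.Agent.P256

open Filter Topology

section Seg

variable {κ : Type*} [Fintype κ]

/-- value of a bilinear form -/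
def bil (m : κ → κ → ℝ) (x y : κ → ℝ) : ℝ := ∑ i, ∑ j, m i j * x i * y j

/-- the point `(s, 0)` -/
def pt (s : ℝ) : Option κ → ℝ := fun o => o.elim s (fun _ => 0)

/-- gradient in the `ξ` directions of `ν(ξ) - Σ nᵢⱼ(w) ξᵢ ξⱼ` -/
def sGrad (nn : κ → κ → (Option κ → ℝ) → ℝ) (dn : κ → κ → Option κ → (Option κ → ℝ) → ℝ)
    (ν : κ → ℝ) (i : κ) (w : Option κ → ℝ) : ℝ :=
  ν i - ∑ j, (nn i j w + nn j i w) * w (some j) -
    ∑ k, ∑ l, dn k l (some i) w * w (some k) * w (some l)

/-- derivative in the `s` direction -/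
def sGs (dn : κ → κ → Option κ → (Option κ → ℝ) → ℝ) (w : Option κ → ℝ) : ℝ :=
  - ∑ k, ∑ l, dn k l none w * w (some k) * w (some l)

/-- minus the radial derivative -/
def sPhi (nn : κ → κ → (Option κ → ℝ) → ℝ) (dn : κ → κ → Option κ → (Option κ → ℝ) → ℝ)
    (ν : κ → ℝ) (w : Option κ → ℝ) : ℝ :=
  - ∑ i, sGrad nn dn ν i w * w (some i)

/-- the normalised slack kernel near a segment -/
def segKer (nn : κ → κ → (Option κ → ℝ) → ℝ) (dn : κ → κ → Option κ → (Option κ → ℝ) → ℝ)
    (ν : κ → ℝ) (w' w : Option κ → ℝ) : ℝ :=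
  (1 - w none) * (w' none) ^ 2 * (sPhi nn dn ν w' - (1 - w' none) * sGs dn w') +
  w none * (1 - w' none) ^ 2 * (sPhi nn dn ν w' + w' none * sGs dn w') +
  w none * (1 - w none) * ∑ i, sGrad nn dn ν i w' * w (some i)

/-- the leading form of the slack kernel near a segment -/
def lead (N N' : ℝ → κ → κ → ℝ) (s' s : ℝ) (x' x : κ → ℝ) : ℝ :=
  (s - s') ^ 2 * (bil (N s') x' x' - (s + s' - 1) * bil (N' s') x' x') +
  s * (1 - s) * (bil (N s) x x + bil (N s') x' x' - bil (N s') x' x - bil (N s') x x' -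
    (s - s') * bil (N' s') x' x')

/-- the vector of kernels controlling the slack kernel near a segment -/
noncomputable def segVec : κ ⊕ κ → (Option κ → ℝ) → (Option κ → ℝ) → ℝ
  | .inl i => fun w' w => Real.sqrt (w none * (1 - w none)) * (w (some i) - w' (some i))
  | .inr i => fun w' w => (w none - w' none) * w' (some i)

omit [Fintype κ] in
theorem segVec_FR (i : κ ⊕ κ) : FR (segVec i) := by
  rcases i with i | i
  · exact (FR.right (fun w : Option κ → ℝ => Real.sqrt (w none * (1 - w none)))).mul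
      ((FR.right (fun w : Option κ → ℝ => w (some i))).sub
        (FR.left (fun w : Option κ → ℝ => w (some i))))
  · exact ((FR.right (fun w : Option κ → ℝ => w none)).sub
        (FR.left (fun w : Option κ → ℝ => w none))).mul
        (FR.left (fun w : Option κ → ℝ => w (some i)))

/-- the one-term of the double sum giving the slack kernel -/
noncomputable def segTerm (nn : κ → κ → (Option κ → ℝ) → ℝ)
    (dn : κ → κ → Option κ → (Option κ → ℝ) → ℝ)
    (P : κ → κ → Option κ → (Option κ → ℝ) → (Option κ → ℝ) → ℝ)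
    (R : κ → κ → Option κ → Option κ → (Option κ → ℝ) → (Option κ → ℝ) → ℝ)
    (i j : κ) (w' w : Option κ → ℝ) : ℝ :=
  nn i j w * (segVec (.inl i) w' w * segVec (.inl j) w' w) +
  Real.sqrt (w none * (1 - w none)) * P i j none w' w *
    (segVec (.inr i) w' w * segVec (.inl j) w' w + segVec (.inl i) w' w * segVec (.inr j) w' w) +
  ∑ k, P i j (some k) w' w * w' (some i) * (segVec (.inl k) w' w * segVec (.inl j) w' w) +
  ∑ k, P i j (some k) w' w * w' (some j) * (segVec (.inl k) w' w * segVec (.inl i) w' w) +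
  w none * (1 - w none) * R i j none none w' w *
    (segVec (.inr i) w' w * segVec (.inr j) w' w) +
  ∑ k, Real.sqrt (w none * (1 - w none)) * (R i j none (some k) w' w + R i j (some k) none w' w) *
    w' (some i) * (segVec (.inl k) w' w * segVec (.inr j) w' w) +
  ∑ k, ∑ l, R i j (some k) (some l) w' w * w' (some i) * w' (some j) *
    (segVec (.inl k) w' w * segVec (.inl l) w' w) +
  (nn i j w' + ∑ k, dn i j (some k) w' * w' (some k) -
    (w none + w' none - 1) * dn i j none w') *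
    (segVec (.inr i) w' w * segVec (.inr j) w' w)

theorem segTerm_eq {nn : κ → κ → (Option κ → ℝ) → ℝ}
    {dn : κ → κ → Option κ → (Option κ → ℝ) → ℝ}
    {P : κ → κ → Option κ → (Option κ → ℝ) → (Option κ → ℝ) → ℝ}
    {R : κ → κ → Option κ → Option κ → (Option κ → ℝ) → (Option κ → ℝ) → ℝ}
    (i j : κ) {w' w : Option κ → ℝ} (h01 : 0 ≤ w none * (1 - w none))
    (hP : nn i j w - nn i j w' = ∑ o, P i j o w' w * (w o - w' o))
    (hR : nn i j w = nn i j w' + ∑ o, dn i j o w' * (w o - w' o) +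
      ∑ o, ∑ o', R i j o o' w' w * (w o - w' o) * (w o' - w' o')) :
    segTerm nn dn P R i j w' w =
      (w none - w' none) ^ 2 * ((nn i j w' + ∑ k, dn i j (some k) w' * w' (some k) -
        (w none + w' none - 1) * dn i j none w') * (w' (some i) * w' (some j))) +
      w none * (1 - w none) * (nn i j w * (w (some i) * w (some j)) +
        nn i j w' * (w' (some i) * w' (some j)) - nn i j w' * (w' (some i) * w (some j)) -
        nn i j w' * (w (some i) * w' (some j)) -
        (∑ k, dn i j (some k) w' * (w (some k) - w' (some k)) +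
          dn i j none w' * (w none - w' none)) * (w' (some i) * w' (some j))) := by
  have hμ : Real.sqrt (w none * (1 - w none)) ^ 2 = w none * (1 - w none) := Real.sq_sqrt h01
  set μ := Real.sqrt (w none * (1 - w none)) with hμd
  set t := w none - w' none with ht
  rw [Fintype.sum_option] at hP
  rw [Fintype.sum_option, Fintype.sum_option] at hR
  have hR2 : ∑ k : κ, ∑ o', R i j (some k) o' w' w * (w (some k) - w' (some k)) *
      (w o' - w' o') = t * ∑ k, R i j (some k) none w' w * (w (some k) - w' (some k)) +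
      ∑ k, ∑ l, R i j (some k) (some l) w' w * (w (some k) - w' (some k)) *
        (w (some l) - w' (some l)) := by
    rw [Finset.mul_sum, ← Finset.sum_add_distrib]
    refine Finset.sum_congr rfl fun k _ => ?_
    rw [Fintype.sum_option]
    ring
  have hR3 : ∑ o', R i j none o' w' w * (w none - w' none) *
      (w o' - w' o') = R i j none none w' w * t * t + t * ∑ k, R i j none (some k) w' w *
        (w (some k) - w' (some k)) := by
    rw [Fintype.sum_option, Finset.mul_sum]
    congr 1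
    refine Finset.sum_congr rfl fun k _ => ?_
    ring
  rw [hR2, hR3] at hR
  set SP := ∑ k : κ, P i j (some k) w' w * (w (some k) - w' (some k)) with hSP
  set S1 := ∑ k : κ, R i j (some k) none w' w * (w (some k) - w' (some k)) with hS1
  set S2 := ∑ k : κ, R i j none (some k) w' w * (w (some k) - w' (some k)) with hS2
  set S3 := ∑ k : κ, ∑ l, R i j (some k) (some l) w' w * (w (some k) - w' (some k)) *
        (w (some l) - w' (some l)) with hS3
  set Sd := ∑ k : κ, dn i j (some k) w' * (w (some k) - w' (some k)) with hSd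
  have a : ∀ k, segVec (Sum.inl k) w' w = μ * (w (some k) - w' (some k)) := fun k => rfl
  have b : ∀ k, segVec (Sum.inr k) w' w = t * w' (some k) := fun k => rfl
  have e1 : ∑ k, P i j (some k) w' w * w' (some i) *
      (segVec (.inl k) w' w * segVec (.inl j) w' w) =
      μ ^ 2 * SP * (w' (some i) * (w (some j) - w' (some j))) := by
    rw [hSP, Finset.mul_sum, Finset.sum_mul]
    refine Finset.sum_congr rfl fun k _ => ?_
    rw [a, a]; ring
  have e2 : ∑ k, P i j (some k) w' w * w' (some j) *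
      (segVec (.inl k) w' w * segVec (.inl i) w' w) =
      μ ^ 2 * SP * (w' (some j) * (w (some i) - w' (some i))) := by
    rw [hSP, Finset.mul_sum, Finset.sum_mul]
    refine Finset.sum_congr rfl fun k _ => ?_
    rw [a, a]; ring
  have e3 : ∑ k, μ * (R i j none (some k) w' w + R i j (some k) none w' w) *
      w' (some i) * (segVec (.inl k) w' w * segVec (.inr j) w' w) =
      μ ^ 2 * t * (S1 + S2) * (w' (some i) * w' (some j)) := by
    rw [hS1, hS2, ← Finset.sum_add_distrib, Finset.mul_sum, Finset.sum_mul]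
    refine Finset.sum_congr rfl fun k _ => ?_
    rw [a, b]; ring
  have e4 : ∑ k, ∑ l, R i j (some k) (some l) w' w * w' (some i) * w' (some j) *
      (segVec (.inl k) w' w * segVec (.inl l) w' w) =
      μ ^ 2 * S3 * (w' (some i) * w' (some j)) := by
    rw [hS3, Finset.mul_sum, Finset.sum_mul]
    refine Finset.sum_congr rfl fun k _ => ?_
    rw [Finset.mul_sum, Finset.sum_mul]
    refine Finset.sum_congr rfl fun l _ => ?_
    rw [a, a]; ring
  rw [segTerm, e1, e2, e3, e4, a, a, b, b]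
  simp only [hμ]
  have k1 : nn i j w - nn i j w' = P i j none w' w * t + SP := hP
  have k2 : nn i j w = nn i j w' + (dn i j none w' * t + Sd) +
      (R i j none none w' w * t * t + t * S2 + (t * S1 + S3)) := hR
  have k3 : μ * μ = w none * (1 - w none) := by rw [← hμ]; ring
  -- collect
  have hw : ∀ k : κ, w (some k) = w' (some k) + (w (some k) - w' (some k)) := fun k => by ring
  generalize hdi : w (some i) - w' (some i) = di at *
  generalize hdj : w (some j) - w' (some j) = dj at *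
  have hwi : w (some i) = w' (some i) + di := by linarith only [hdi]
  have hwj : w (some j) = w' (some j) + dj := by linarith only [hdj]
  rw [hwi, hwj]
  have g1 : nn i j w * (μ * di * (μ * dj)) = (w none * (1 - w none)) * (nn i j w * (di * dj)) := by
    rw [← k3]; ring
  have g2 : μ * P i j none w' w * (t * w' (some i) * (μ * dj) + μ * di * (t * w' (some j))) =
      (w none * (1 - w none)) * (P i j none w' w * t * (w' (some i) * dj + di * w' (some j))) := by
    rw [← k3]; ring
  rw [g1, g2]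
  have g3 : P i j none w' w * t = nn i j w - nn i j w' - SP := by linarith only [hP]
  have g4 : R i j none none w' w * (t * t) = nn i j w - nn i j w' -
      (dn i j none w' * t + Sd) - (t * S2 + (t * S1 + S3)) := by linarith only [hR]
  have g5 : w none * (1 - w none) * R i j none none w' w * (t * w' (some i) * (t * w' (some j))) =
      w none * (1 - w none) * ((R i j none none w' w * (t * t)) * (w' (some i) * w' (some j))) := by
    ring
  rw [g5, g3, g4]
  ring

theorem segKer_eq {nn : κ → κ → (Option κ → ℝ) → ℝ}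
    {dn : κ → κ → Option κ → (Option κ → ℝ) → ℝ} {ν : κ → ℝ}
    {P : κ → κ → Option κ → (Option κ → ℝ) → (Option κ → ℝ) → ℝ}
    {R : κ → κ → Option κ → Option κ → (Option κ → ℝ) → (Option κ → ℝ) → ℝ}
    {w' w : Option κ → ℝ} (h01 : 0 ≤ w none * (1 - w none))
    (hP : ∀ i j, nn i j w - nn i j w' = ∑ o, P i j o w' w * (w o - w' o))
    (hR : ∀ i j, nn i j w = nn i j w' + ∑ o, dn i j o w' * (w o - w' o) +
      ∑ o, ∑ o', R i j o o' w' w * (w o - w' o) * (w o' - w' o'))
    (hw : ∑ i, ν i * w (some i) = ∑ i, ∑ j, nn i j w * w (some i) * w (some j))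
    (hw' : ∑ i, ν i * w' (some i) = ∑ i, ∑ j, nn i j w' * w' (some i) * w' (some j)) :
    segKer nn dn ν w' w = ∑ i, ∑ j, segTerm nn dn P R i j w' w := by
  simp only [segTerm_eq _ _ h01 (hP _ _) (hR _ _)]
  -- gradient pairing
  have hgrad : ∀ x : κ → ℝ, ∑ i, sGrad nn dn ν i w' * x i = ∑ i, ν i * x i -
      ∑ i, ∑ j, nn i j w' * (x i * w' (some j)) - ∑ i, ∑ j, nn i j w' * (w' (some i) * x j) -
      ∑ k, ∑ l, (∑ i, dn k l (some i) w' * x i) * (w' (some k) * w' (some l)) := by
    intro x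
    have h1 : ∀ i, sGrad nn dn ν i w' * x i = ν i * x i -
        ∑ j, nn i j w' * (x i * w' (some j)) - ∑ j, nn j i w' * (w' (some j) * x i) -
        ∑ k, ∑ l, (dn k l (some i) w' * x i) * (w' (some k) * w' (some l)) := by
      intro i
      rw [sGrad, sub_mul, sub_mul, Finset.sum_mul, Finset.sum_mul]
      have a1 : ∑ j, (nn i j w' + nn j i w') * w' (some j) * x i =
          ∑ j, nn i j w' * (x i * w' (some j)) + ∑ j, nn j i w' * (w' (some j) * x i) := by
        rw [← Finset.sum_add_distrib]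
        refine Finset.sum_congr rfl fun j _ => ?_
        ring
      have a2 : ∑ k, (∑ l, dn k l (some i) w' * w' (some k) * w' (some l)) * x i =
          ∑ k, ∑ l, (dn k l (some i) w' * x i) * (w' (some k) * w' (some l)) := by
        refine Finset.sum_congr rfl fun k _ => ?_
        rw [Finset.sum_mul]
        refine Finset.sum_congr rfl fun l _ => ?_
        ring
      rw [a1, a2]; ring
    rw [Finset.sum_congr rfl (fun i _ => h1 i), Finset.sum_sub_distrib, Finset.sum_sub_distrib,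
      Finset.sum_sub_distrib]
    have b1 : ∑ i, ∑ j, nn j i w' * (w' (some j) * x i) =
        ∑ i, ∑ j, nn i j w' * (w' (some i) * x j) := Finset.sum_comm
    have b2 : ∑ i, ∑ k, ∑ l, (dn k l (some i) w' * x i) * (w' (some k) * w' (some l)) =
        ∑ k, ∑ l, (∑ i, dn k l (some i) w' * x i) * (w' (some k) * w' (some l)) := by
      rw [Finset.sum_comm]
      refine Finset.sum_congr rfl fun k _ => ?_
      rw [Finset.sum_comm]
      refine Finset.sum_congr rfl fun l _ => ?_
      rw [Finset.sum_mul]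
    rw [b1, b2]
  set s := w none with hs
  set s' := w' none with hs'
  set G := ∑ i, ∑ j, nn i j w * (w (some i) * w (some j)) with hG
  set G' := ∑ i, ∑ j, nn i j w' * (w' (some i) * w' (some j)) with hG'
  set G1 := ∑ i, ∑ j, nn i j w' * (w' (some i) * w (some j)) with hG1
  set G2 := ∑ i, ∑ j, nn i j w' * (w (some i) * w' (some j)) with hG2
  set E1 := ∑ k, ∑ l, (∑ i, dn k l (some i) w' * w' (some i)) * (w' (some k) * w' (some l))
    with hE1
  set E2 := ∑ k, ∑ l, (∑ i, dn k l (some i) w' * w (some i)) * (w' (some k) * w' (some l))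
    with hE2
  set E0 := ∑ k, ∑ l, dn k l none w' * (w' (some k) * w' (some l)) with hE0
  have hw1 : ∑ i, ν i * w (some i) = G := by
    rw [hw, hG]
    refine Finset.sum_congr rfl fun i _ => Finset.sum_congr rfl fun j _ => ?_
    ring
  have hw1' : ∑ i, ν i * w' (some i) = G' := by
    rw [hw', hG']
    refine Finset.sum_congr rfl fun i _ => Finset.sum_congr rfl fun j _ => ?_
    ring
  have hphi : sPhi nn dn ν w' = G' + E1 := by
    rw [sPhi, hgrad (fun i => w' (some i)), hw1']
    rw [← hG', ← hE1]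
    ring
  have hgs : sGs dn w' = - E0 := by
    rw [sGs, hE0]
    congr 1
    refine Finset.sum_congr rfl fun i _ => Finset.sum_congr rfl fun j _ => ?_
    ring
  have hgx : ∑ i, sGrad nn dn ν i w' * w (some i) = G - G2 - G1 - E2 := by
    rw [hgrad (fun i => w (some i)), hw1]
  rw [segKer, hphi, hgs, hgx]
  -- the right-hand side
  have hrhs : ∑ i, ∑ j, ((s - s') ^ 2 * ((nn i j w' + ∑ k, dn i j (some k) w' * w' (some k) -
        (s + s' - 1) * dn i j none w') * (w' (some i) * w' (some j))) +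
      s * (1 - s) * (nn i j w * (w (some i) * w (some j)) +
        nn i j w' * (w' (some i) * w' (some j)) - nn i j w' * (w' (some i) * w (some j)) -
        nn i j w' * (w (some i) * w' (some j)) -
        (∑ k, dn i j (some k) w' * (w (some k) - w' (some k)) +
          dn i j none w' * (s - s')) * (w' (some i) * w' (some j)))) =
      (s - s') ^ 2 * (G' + E1 - (s + s' - 1) * E0) +
      s * (1 - s) * (G + G' - G1 - G2 - ((E2 - E1) + (s - s') * E0)) := by
    have c1 : ∀ i j, (s - s') ^ 2 * ((nn i j w' + ∑ k, dn i j (some k) w' * w' (some k) -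
        (s + s' - 1) * dn i j none w') * (w' (some i) * w' (some j))) +
      s * (1 - s) * (nn i j w * (w (some i) * w (some j)) +
        nn i j w' * (w' (some i) * w' (some j)) - nn i j w' * (w' (some i) * w (some j)) -
        nn i j w' * (w (some i) * w' (some j)) -
        (∑ k, dn i j (some k) w' * (w (some k) - w' (some k)) +
          dn i j none w' * (s - s')) * (w' (some i) * w' (some j))) =
        (s - s') ^ 2 * (nn i j w' * (w' (some i) * w' (some j))) +
        (s - s') ^ 2 * ((∑ k, dn i j (some k) w' * w' (some k)) * (w' (some i) * w' (some j))) -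
        (s - s') ^ 2 * (s + s' - 1) * (dn i j none w' * (w' (some i) * w' (some j))) +
        (s * (1 - s) * (nn i j w * (w (some i) * w (some j))) +
        s * (1 - s) * (nn i j w' * (w' (some i) * w' (some j))) -
        s * (1 - s) * (nn i j w' * (w' (some i) * w (some j))) -
        s * (1 - s) * (nn i j w' * (w (some i) * w' (some j))) -
        s * (1 - s) * ((∑ k, dn i j (some k) w' * w (some k)) * (w' (some i) * w' (some j))) +
        s * (1 - s) * ((∑ k, dn i j (some k) w' * w' (some k)) * (w' (some i) * w' (some j))) -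
        s * (1 - s) * (s - s') * (dn i j none w' * (w' (some i) * w' (some j)))) := by
      intro i j
      have : ∑ k, dn i j (some k) w' * (w (some k) - w' (some k)) =
          ∑ k, dn i j (some k) w' * w (some k) - ∑ k, dn i j (some k) w' * w' (some k) := by
        rw [← Finset.sum_sub_distrib]
        refine Finset.sum_congr rfl fun k _ => ?_
        ring
      rw [this]; ring
    simp only [c1, Finset.sum_add_distrib, Finset.sum_sub_distrib, ← Finset.mul_sum]
    rw [← hG, ← hG', ← hG1, ← hG2, ← hE1, ← hE2, ← hE0]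
    ring
  rw [hrhs]
  ring

section Quad

variable {D : Set (Option κ → ℝ)}

/-- the points `(s,0)` of `D` -/
def zset (D : Set (Option κ → ℝ)) : Set (Option κ → ℝ) := {w | w ∈ D ∧ ∀ i, w (some i) = 0}

omit [Fintype κ] in
theorem CK.s_right : CK D D (fun (_ : Option κ → ℝ) (w : Option κ → ℝ) => w none) :=
  CK.right (fun _ _ => (continuous_apply none).continuousAt)

omit [Fintype κ] in
theorem CK.s_left : CK D D (fun (w' : Option κ → ℝ) (_ : Option κ → ℝ) => w' none) :=
  CK.left (fun _ _ => (continuous_apply none).continuousAt)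

omit [Fintype κ] in
theorem CK.x_left (i : κ) : CK D D (fun (w' : Option κ → ℝ) (_ : Option κ → ℝ) => w' (some i)) :=
  CK.left (fun _ _ => (continuous_apply (some i)).continuousAt)

omit [Fintype κ] in
theorem CK.x_right (i : κ) : CK D D (fun (_ : Option κ → ℝ) (w : Option κ → ℝ) => w (some i)) :=
  CK.right (fun _ _ => (continuous_apply (some i)).continuousAt)

omit [Fintype κ] in
theorem CK.mu : CK D D (fun (_ : Option κ → ℝ) (w : Option κ → ℝ) =>
    Real.sqrt (w none * (1 - w none))) :=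
  CK.right (fun _ _ => by
    apply Continuous.continuousAt
    fun_prop)

omit [Fintype κ] in
theorem CK.mu2 : CK D D (fun (_ : Option κ → ℝ) (w : Option κ → ℝ) =>
    w none * (1 - w none)) :=
  CK.right (fun _ _ => by
    apply Continuous.continuousAt
    fun_prop)

theorem segTerm_quad [DecidableEq κ] {nn : κ → κ → (Option κ → ℝ) → ℝ}
    {dn : κ → κ → Option κ → (Option κ → ℝ) → ℝ}
    {P : κ → κ → Option κ → (Option κ → ℝ) → (Option κ → ℝ) → ℝ}
    {R : κ → κ → Option κ → Option κ → (Option κ → ℝ) → (Option κ → ℝ) → ℝ}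
    (hn : ∀ i j, ∀ w ∈ D, ContinuousAt (nn i j) w)
    (hd : ∀ i j o, ∀ w ∈ D, ContinuousAt (dn i j o) w)
    (hP : ∀ i j o, CK D D (P i j o)) (hR : ∀ i j o o', CK D D (R i j o o')) (i j : κ) :
    QuadK D D (zset D) (zset D) segVec (segTerm nn dn P R i j)
      (fun w' w y => nn i j w * (y (.inl i) * y (.inl j)) +
        Real.sqrt (w none * (1 - w none)) * P i j none w' w *
          (y (.inr i) * y (.inl j) + y (.inl i) * y (.inr j)) +
        w none * (1 - w none) * R i j none none w' w * (y (.inr i) * y (.inr j)) +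
        (nn i j w' - (w none + w' none - 1) * dn i j none w') * (y (.inr i) * y (.inr j))) := by
  have hb : ∀ k : κ ⊕ κ, LinK D D (zset D) (zset D) segVec (segVec k)
      (fun _ _ y => y k) := fun k => LinK.basic k
  have q1 := ((hb (.inl i)).mul (hb (.inl j))).smul (m := fun _ w => nn i j w)
    (CK.right (hn i j))
  have q2 := (((hb (.inr i)).mul (hb (.inl j))).add ((hb (.inl i)).mul (hb (.inr j)))).smul
    (m := fun w' w => Real.sqrt (w none * (1 - w none)) * P i j none w' w)
    (CK.mu.mul (hP i j none))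
  have q3 := QuadK.sum (D := D) (E := D) (Z := zset D) (Y := zset D) (v := segVec)
    (Finset.univ : Finset κ) (fun k _ => ((hb (.inl k)).mul (hb (.inl j))).smul
      (m := fun w' w => P i j (some k) w' w * w' (some i)) ((hP i j (some k)).mul (CK.x_left i)))
  have q4 := QuadK.sum (D := D) (E := D) (Z := zset D) (Y := zset D) (v := segVec)
    (Finset.univ : Finset κ) (fun k _ => ((hb (.inl k)).mul (hb (.inl i))).smul
      (m := fun w' w => P i j (some k) w' w * w' (some j)) ((hP i j (some k)).mul (CK.x_left j)))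
  have q5 := ((hb (.inr i)).mul (hb (.inr j))).smul
    (m := fun w' w => w none * (1 - w none) * R i j none none w' w)
    (CK.mu2.mul (hR i j none none))
  have q6 := QuadK.sum (D := D) (E := D) (Z := zset D) (Y := zset D) (v := segVec)
    (Finset.univ : Finset κ) (fun k _ => ((hb (.inl k)).mul (hb (.inr j))).smul
      (m := fun w' w => Real.sqrt (w none * (1 - w none)) *
        (R i j none (some k) w' w + R i j (some k) none w' w) * w' (some i))
        ((CK.mu.mul ((hR i j none (some k)).add (hR i j (some k) none))).mul (CK.x_left i)))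
  have q7 := QuadK.sum (D := D) (E := D) (Z := zset D) (Y := zset D) (v := segVec)
    (Finset.univ : Finset κ) (fun k _ => QuadK.sum (Finset.univ : Finset κ)
      (fun l _ => ((hb (.inl k)).mul (hb (.inl l))).smul
      (m := fun w' w => R i j (some k) (some l) w' w * w' (some i) * w' (some j))
        (((hR i j (some k) (some l)).mul (CK.x_left i)).mul (CK.x_left j))))
  have q8 := ((hb (.inr i)).mul (hb (.inr j))).smul
    (m := fun w' w => nn i j w' + ∑ k, dn i j (some k) w' * w' (some k) -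
      (w none + w' none - 1) * dn i j none w')
    (((CK.left (hn i j)).add (CK.sum _ (fun k _ => (CK.left (hd i j (some k))).mul
      (CK.x_left k)))).sub (((CK.s_right.add CK.s_left).sub (CK.const 1)).mul
        (CK.left (hd i j none))))
  refine (((((((q1.add q2).add q3).add q4).add q5).add q6).add q7).add q8).congr
    (fun w' _ w _ => rfl) ?_
  rintro w' ⟨_, hw'⟩ w ⟨_, hw⟩ y
  simp only [hw', mul_zero, zero_mul, Finset.sum_const_zero, add_zero]

theorem seg_path {s0' s0 : ℝ} (h0' : s0' ∈ Set.Icc (0 : ℝ) 1) (h0 : s0 ∈ Set.Icc (0 : ℝ) 1) :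
    ∃ φ ψ : ℝ → ℝ, Continuous φ ∧ Continuous ψ ∧ φ 0 = s0' ∧ ψ 0 = s0 ∧
      ∀ θ ∈ Set.Ioo (0 : ℝ) 1, φ θ ∈ Set.Ioo (0 : ℝ) 1 ∧ ψ θ ∈ Set.Ioo (0 : ℝ) 1 ∧
        φ θ ≠ ψ θ := by
  have key : ∀ (a b α : ℝ), a ∈ Set.Icc (0 : ℝ) 1 → b ∈ Set.Icc (0 : ℝ) 1 → a ≤ b →
      ∀ θ ∈ Set.Ioo (0 : ℝ) 1, (1 - θ) * a + θ * (1 / 3) ∈ Set.Ioo (0 : ℝ) 1 ∧
      (1 - θ) * b + θ * (2 / 3) ∈ Set.Ioo (0 : ℝ) 1 ∧
      (1 - θ) * a + θ * (1 / 3) < (1 - θ) * b + θ * (2 / 3) := by
    rintro a b _ ⟨ha1, ha2⟩ ⟨hb1, hb2⟩ hab θ ⟨h1, h2⟩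
    refine ⟨⟨?_, ?_⟩, ⟨?_, ?_⟩, ?_⟩ <;> nlinarith only [h1, ha1, h2, ha2, hab, hb1, hb2]
  rcases le_total s0' s0 with h | h
  · refine ⟨fun θ => (1 - θ) * s0' + θ * (1 / 3), fun θ => (1 - θ) * s0 + θ * (2 / 3),
      by fun_prop, by fun_prop, by simp, by simp, fun θ hθ => ?_⟩
    obtain ⟨a1, a2, a3⟩ := key s0' s0 0 h0' h0 h θ hθ
    exact ⟨a1, a2, a3.ne⟩
  · refine ⟨fun θ => (1 - θ) * s0' + θ * (2 / 3), fun θ => (1 - θ) * s0 + θ * (1 / 3),
      by fun_prop, by fun_prop, by simp, by simp, fun θ hθ => ?_⟩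
    obtain ⟨a1, a2, a3⟩ := key s0 s0' 0 h0 h0' h θ hθ
    exact ⟨a2, a1, a3.ne'⟩

omit [Fintype κ] in
theorem pt_cont : Continuous (fun s : ℝ => (pt s : Option κ → ℝ)) := by
  refine continuous_pi (fun o => ?_)
  rcases o with _ | i
  · exact continuous_id
  · exact continuous_const

theorem lead_term {n n' d p r μ s s' xi xj xi' xj' : ℝ} (h1 : n - n' = p * (s - s'))
    (h2 : n = n' + d * (s - s') + r * (s - s') * (s - s')) (hμ : μ ^ 2 = s * (1 - s)) :
    n * (μ * (xi - xi') * (μ * (xj - xj'))) +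
      μ * p * ((s - s') * xi' * (μ * (xj - xj')) + μ * (xi - xi') * ((s - s') * xj')) +
      s * (1 - s) * r * ((s - s') * xi' * ((s - s') * xj')) +
      (n' - (s + s' - 1) * d) * ((s - s') * xi' * ((s - s') * xj')) =
    (s - s') ^ 2 * (n' * xi' * xj' - (s + s' - 1) * (d * xi' * xj')) +
      s * (1 - s) * (n * xi * xj + n' * xi' * xj' - n' * xi' * xj - n' * xi * xj' -
        (s - s') * (d * xi' * xj')) := by
  have e1 : n * (μ * (xi - xi') * (μ * (xj - xj'))) =
      μ ^ 2 * (n * ((xi - xi') * (xj - xj'))) := by ring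
  have e2 : μ * p * ((s - s') * xi' * (μ * (xj - xj')) + μ * (xi - xi') * ((s - s') * xj')) =
      μ ^ 2 * ((p * (s - s')) * (xi' * (xj - xj') + (xi - xi') * xj')) := by ring
  have e3 : s * (1 - s) * r * ((s - s') * xi' * ((s - s') * xj')) =
      s * (1 - s) * ((r * (s - s') * (s - s')) * (xi' * xj')) := by ring
  have h3 : r * (s - s') * (s - s') = n - n' - d * (s - s') := by linarith only [h2]
  rw [e1, e2, e3, hμ, ← h1, h3]
  ring

/-- **Segment lemma.** -/
theorem seg_local {A : Type*} [Fintype A] [DecidableEq κ] {D T : Set (Option κ → ℝ)}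
    {nn : κ → κ → (Option κ → ℝ) → ℝ} {dn : κ → κ → Option κ → (Option κ → ℝ) → ℝ}
    {ν : κ → ℝ} (kc : A → κ → ℝ) (hT2 : ∀ i j, T2 D (nn i j) (dn i j)) (hTD : T ⊆ D)
    (hT01 : ∀ w ∈ T, 0 ≤ w none ∧ w none ≤ 1)
    (hTν : ∀ w ∈ T, ∑ i, ν i * w (some i) = ∑ i, ∑ j, nn i j w * w (some i) * w (some j))
    (hTk : ∀ w ∈ T, ∀ a, ∑ i, kc a i * w (some i) = 0)
    (hD : ∀ s ∈ Set.Icc (0 : ℝ) 1, pt s ∈ D) {c : ℝ} (hc : 0 < c)
    (hpos : ∀ s' ∈ Set.Ioo (0 : ℝ) 1, ∀ s ∈ Set.Ioo (0 : ℝ) 1, ∀ x' x : κ → ℝ,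
      ∑ i, ν i * x' i = 0 → ∑ i, ν i * x i = 0 → (∀ a, ∑ i, kc a i * x' i = 0) →
      (∀ a, ∑ i, kc a i * x i = 0) →
      c * (s * (1 - s) * ∑ i, (x i - x' i) ^ 2 + (s - s') ^ 2 * ∑ i, x' i ^ 2) ≤
        lead (fun s i j => nn i j (pt s)) (fun s i j => dn i j none (pt s)) s' s x' x)
    {s0' s0 : ℝ} (h0' : s0' ∈ Set.Icc (0 : ℝ) 1) (h0 : s0 ∈ Set.Icc (0 : ℝ) 1) :
    ∃ U ∈ 𝓝 (pt s0' : Option κ → ℝ), ∃ V ∈ 𝓝 (pt s0 : Option κ → ℝ),
      SosOn (U ∩ T) (V ∩ T) (segKer nn dn ν) := by
  classical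
  choose P hP eP using fun i j => (hT2 i j).first
  choose R hR eR using fun i j => (hT2 i j).tay
  have hn : ∀ i j, ∀ w ∈ D, ContinuousAt (nn i j) w := fun i j => (hT2 i j).cont
  have hd : ∀ i j o, ∀ w ∈ D, ContinuousAt (dn i j o) w := fun i j => (hT2 i j).dcont
  -- the form `h`
  have Qh := QuadK.sum (D := D) (E := D) (Z := zset D) (Y := zset D) (v := segVec)
    (Finset.univ : Finset κ) (fun i _ => QuadK.sum (Finset.univ : Finset κ)
      (fun j _ => segTerm_quad hn hd hP hR i j))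
  set Ch : (Option κ → ℝ) → (Option κ → ℝ) → (κ ⊕ κ → ℝ) → ℝ := fun w' w y =>
    ∑ i, ∑ j, (nn i j w * (y (.inl i) * y (.inl j)) +
        Real.sqrt (w none * (1 - w none)) * P i j none w' w *
          (y (.inr i) * y (.inl j) + y (.inl i) * y (.inr j)) +
        w none * (1 - w none) * R i j none none w' w * (y (.inr i) * y (.inr j)) +
        (nn i j w' - (w none + w' none - 1) * dn i j none w') * (y (.inr i) * y (.inr j)))
    with hCh
  have hzpt : ∀ s ∈ Set.Icc (0 : ℝ) 1, (pt s : Option κ → ℝ) ∈ zset D :=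
    fun s hs => ⟨hD s hs, fun i => rfl⟩
  -- values of the form at interior points
  have hval : ∀ s' ∈ Set.Ioo (0 : ℝ) 1, ∀ s ∈ Set.Ioo (0 : ℝ) 1, s' ≠ s → ∀ y : κ ⊕ κ → ℝ,
      ∑ i, ν i * y (.inl i) = 0 → ∑ i, ν i * y (.inr i) = 0 →
      (∀ a, ∑ i, kc a i * y (.inl i) = 0) → (∀ a, ∑ i, kc a i * y (.inr i) = 0) →
      c * (∑ i, y (.inl i) ^ 2 + ∑ i, y (.inr i) ^ 2) ≤ Ch (pt s') (pt s) y := by
    intro s' hs' s hs hne y hy1 hy2 hy3 hy4
    have hss : 0 < s * (1 - s) := mul_pos hs.1 (by linarith [hs.2])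
    set μ := Real.sqrt (s * (1 - s)) with hμ
    have hμ0 : 0 < μ := Real.sqrt_pos.2 hss
    have hμ2 : μ ^ 2 = s * (1 - s) := Real.sq_sqrt hss.le
    have ht : s - s' ≠ 0 := sub_ne_zero.2 (Ne.symm hne)
    set x' : κ → ℝ := fun i => y (.inr i) / (s - s') with hx'
    set x : κ → ℝ := fun i => x' i + y (.inl i) / μ with hx
    have e1 : ∀ i, y (.inl i) = μ * (x i - x' i) := by
      intro i; simp only [hx]; field_simp; ring
    have e2 : ∀ i, y (.inr i) = (s - s') * x' i := by
      intro i; simp only [hx']; (clear * - ht; field_simp)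
    have hlin : ∀ k : κ → ℝ, ∑ i, k i * y (.inl i) = 0 → ∑ i, k i * y (.inr i) = 0 →
        ∑ i, k i * x' i = 0 ∧ ∑ i, k i * x i = 0 := by
      intro k h1 h2
      have h3 : ∑ i, k i * x' i = (∑ i, k i * y (.inr i)) / (s - s') := by
        rw [Finset.sum_div]
        refine Finset.sum_congr rfl fun i _ => ?_
        simp only [hx']; ring
      have h4 : ∑ i, k i * x i = ∑ i, k i * x' i + (∑ i, k i * y (.inl i)) / μ := by
        rw [Finset.sum_div, ← Finset.sum_add_distrib]
        refine Finset.sum_congr rfl fun i _ => ?_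
        simp only [hx]; ring
      rw [h4, h3, h1, h2]; simp
    have h5 := hpos s' hs' s hs x' x (hlin ν hy1 hy2).1 (hlin ν hy1 hy2).2
      (fun a => (hlin (kc a) (hy3 a) (hy4 a)).1) (fun a => (hlin (kc a) (hy3 a) (hy4 a)).2)
    have h6 : ∑ i, y (.inl i) ^ 2 + ∑ i, y (.inr i) ^ 2 =
        s * (1 - s) * ∑ i, (x i - x' i) ^ 2 + (s - s') ^ 2 * ∑ i, x' i ^ 2 := by
      rw [Finset.mul_sum, Finset.mul_sum, ← hμ2]
      congr 1
      · refine Finset.sum_congr rfl fun i _ => ?_
        rw [e1]; ring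
      · refine Finset.sum_congr rfl fun i _ => ?_
        rw [e2]; ring
    rw [h6]
    refine h5.trans (le_of_eq ?_)
    have hsI : s ∈ Set.Icc (0 : ℝ) 1 := ⟨hs.1.le, hs.2.le⟩
    have hsI' : s' ∈ Set.Icc (0 : ℝ) 1 := ⟨hs'.1.le, hs'.2.le⟩
    have k1 : ∀ i j, nn i j (pt s) - nn i j (pt s') = P i j none (pt s') (pt s) * (s - s') := by
      intro i j
      rw [eP i j _ (hD s' hsI') _ (hD s hsI), Fintype.sum_option]
      simp only [pt, Option.elim_none, Option.elim_some, sub_self, mul_zero, Finset.sum_const_zero, add_zero]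
    have k2 : ∀ i j, nn i j (pt s) = nn i j (pt s') + dn i j none (pt s') * (s - s') +
        R i j none none (pt s') (pt s) * (s - s') * (s - s') := by
      intro i j
      have := eR i j _ (hD s' hsI') _ (hD s hsI)
      rw [this, Fintype.sum_option, Fintype.sum_option, Fintype.sum_option]
      simp only [pt, Option.elim_none, Option.elim_some, sub_self, mul_zero, Finset.sum_const_zero, add_zero, zero_mul]
    have k3 : Ch (pt s') (pt s) y = ∑ i, ∑ j, ((s - s') ^ 2 * (nn i j (pt s') * x' i * x' j -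
        (s + s' - 1) * (dn i j none (pt s') * x' i * x' j)) +
        s * (1 - s) * (nn i j (pt s) * x i * x j + nn i j (pt s') * x' i * x' j -
        nn i j (pt s') * x' i * x j - nn i j (pt s') * x i * x' j -
        (s - s') * (dn i j none (pt s') * x' i * x' j))) := by
      rw [hCh]
      refine Finset.sum_congr rfl fun i _ => Finset.sum_congr rfl fun j _ => ?_
      rw [← lead_term (k1 i j) (k2 i j) hμ2, e1, e1, e2, e2]
      rfl
    rw [k3, lead]
    simp only [bil, Finset.sum_add_distrib, Finset.sum_sub_distrib, ← Finset.mul_sum]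
  -- the value at the limit point
  have hlow : ∀ y : κ ⊕ κ → ℝ,
      ∑ i, ν i * y (.inl i) = 0 → ∑ i, ν i * y (.inr i) = 0 →
      (∀ a, ∑ i, kc a i * y (.inl i) = 0) → (∀ a, ∑ i, kc a i * y (.inr i) = 0) →
      c * (∑ i, y (.inl i) ^ 2 + ∑ i, y (.inr i) ^ 2) ≤ Ch (pt s0') (pt s0) y := by
    intro y hy1 hy2 hy3 hy4
    obtain ⟨φ, ψ, hφ, hψ, hφ0, hψ0, hpath⟩ := seg_path h0' h0
    have hev : ∀ᶠ θ : ℝ in 𝓝[>] 0, θ ∈ Set.Ioo (0 : ℝ) 1 := Ioo_mem_nhdsGT one_pos
    have t1 : Tendsto (fun θ => (pt (φ θ) : Option κ → ℝ)) (𝓝[>] 0) (𝓝 (pt s0')) := by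
      have := ((pt_cont (κ := κ)).comp hφ).tendsto 0
      simp only [Function.comp, hφ0] at this
      exact this.mono_left nhdsWithin_le_nhds
    have t2 : Tendsto (fun θ => (pt (ψ θ) : Option κ → ℝ)) (𝓝[>] 0) (𝓝 (pt s0)) := by
      have := ((pt_cont (κ := κ)).comp hψ).tendsto 0
      simp only [Function.comp, hψ0] at this
      exact this.mono_left nhdsWithin_le_nhds
    have hlim := Qh.tendsto (hD s0' h0') (hD s0 h0) (hzpt s0' h0') (hzpt s0 h0) t1 t2
      (hev.mono fun θ hθ => hzpt _ (Set.Ioo_subset_Icc_self (hpath θ hθ).1))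
      (hev.mono fun θ hθ => hzpt _ (Set.Ioo_subset_Icc_self (hpath θ hθ).2.1)) y
    refine ge_of_tendsto hlim (hev.mono fun θ hθ => ?_)
    obtain ⟨a1, a2, a3⟩ := hpath θ hθ
    exact hval _ a1 _ a2 a3 y hy1 hy2 hy3 hy4
  -- constraint kernels
  set B : (κ ⊕ κ → ℝ) → ℝ := fun y => ∑ a, ((∑ i, kc a i * y (.inl i)) ^ 2 +
    (∑ i, kc a i * y (.inr i)) ^ 2) + ((∑ i, ν i * y (.inl i)) ^ 2 +
    (∑ i, ν i * y (.inr i)) ^ 2) with hB
  obtain ⟨hcont, hhom⟩ := Qh.form (hzpt s0' h0') (hzpt s0 h0)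
  obtain ⟨K, hK, hKpos⟩ := finsler (q := Ch (pt s0') (pt s0)) (B := B) hcont (by fun_prop) hhom
    (by
      intro t y
      have h1 : ∀ (k : κ → ℝ) (f : κ → κ ⊕ κ), ∑ i, k i * (t • y) (f i) =
          t * ∑ i, k i * y (f i) := by
        intro k f
        rw [Finset.mul_sum]
        refine Finset.sum_congr rfl fun i _ => ?_
        simp only [Pi.smul_apply, smul_eq_mul]; ring
      simp only [hB, h1 _ Sum.inl, h1 _ Sum.inr, mul_pow, ← mul_add, ← Finset.mul_sum])
    (by intro y; simp only [hB]; (clear * -; positivity))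
    (by
      intro y hy hBy
      simp only [hB] at hBy
      have b1 : 0 ≤ ∑ a, ((∑ i, kc a i * y (.inl i)) ^ 2 + (∑ i, kc a i * y (.inr i)) ^ 2) := by
        (clear * -; positivity)
      have b2 := sq_nonneg (∑ i, ν i * y (.inl i))
      have b3 := sq_nonneg (∑ i, ν i * y (.inr i))
      have b4 : ∑ a, ((∑ i, kc a i * y (.inl i)) ^ 2 + (∑ i, kc a i * y (.inr i)) ^ 2) = 0 := by
        linarith only [b1, hBy, b2, b3]
      have b5 := (Finset.sum_eq_zero_iff_of_nonneg (fun a _ => by (clear * -; positivity))).1 b4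
      have b6 : ∀ a, ∑ i, kc a i * y (.inl i) = 0 ∧ ∑ i, kc a i * y (.inr i) = 0 := by
        intro a
        have := b5 a (Finset.mem_univ a)
        have c1 := sq_nonneg (∑ i, kc a i * y (.inl i))
        have c2 := sq_nonneg (∑ i, kc a i * y (.inr i))
        exact ⟨pow_eq_zero_iff (two_ne_zero) |>.1 (by linarith only [c1, this, c2]),
          pow_eq_zero_iff (two_ne_zero) |>.1 (by linarith only [c2, this, c1])⟩
      have b7 := hlow y (pow_eq_zero_iff (two_ne_zero) |>.1 (by linarith only [b2, hBy, b1, b3]))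
        (pow_eq_zero_iff (two_ne_zero) |>.1 (by linarith only [b3, hBy, b1, b2])) (fun a => (b6 a).1)
        (fun a => (b6 a).2)
      refine lt_of_lt_of_le (mul_pos hc ?_) b7
      obtain ⟨i, hi⟩ := Function.ne_iff.1 hy
      have hi' : 0 < y i ^ 2 := by
        have : y i ≠ 0 := by simpa using hi
        (clear * - this; positivity)
      have n1 : 0 ≤ ∑ i, y (.inl i) ^ 2 := by (clear * -; positivity)
      have n2 : 0 ≤ ∑ i, y (.inr i) ^ 2 := by (clear * -; positivity)
      rcases i with i | i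
      · have := Finset.single_le_sum (f := fun i => y (.inl i) ^ 2) (fun j _ => sq_nonneg _)
          (Finset.mem_univ i)
        linarith only [n2, hi', this]
      · have := Finset.single_le_sum (f := fun i => y (.inr i) ^ 2) (fun j _ => sq_nonneg _)
          (Finset.mem_univ i)
        linarith only [n1, hi', this])
  have hb : ∀ k : κ ⊕ κ, LinK D D (zset D) (zset D) segVec (segVec k)
      (fun _ _ y => y k) := fun k => LinK.basic k
  have hlin : ∀ (k : κ → ℝ) (f : κ → κ ⊕ κ), LinK D D (zset D) (zset D) segVec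
      (fun w' w => ∑ i, k i * segVec (f i) w' w) (fun _ _ y => ∑ i, k i * y (f i)) := by
    intro k f
    exact LinK.sum _ (fun i _ => (hb (f i)).smul (CK.const (k i)))
  -- the small linear forms
  have hsa : LinK D D (zset D) (zset D) segVec
      (fun w' w => ∑ i, ∑ j, (Real.sqrt (w none * (1 - w none)) * P i j none w' w *
        w' (some i) * segVec (.inr j) w' w + ∑ k, P i j (some k) w' w * w' (some i) *
        w' (some j) * segVec (.inl k) w' w + nn i j w * w' (some i) * segVec (.inl j) w' w +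
        nn i j w * w (some j) * segVec (.inl i) w' w)) (fun _ _ _ => 0) := by
    have h1 := LinK.sum (D := D) (E := D) (Z := zset D) (Y := zset D) (v := segVec)
      (Finset.univ : Finset κ) (fun i _ => LinK.sum (Finset.univ : Finset κ) (fun j _ =>
      ((((hb (.inr j)).smul (m := fun w' w => Real.sqrt (w none * (1 - w none)) *
        P i j none w' w * w' (some i)) ((CK.mu.mul (hP i j none)).mul (CK.x_left i))).add
      (LinK.sum (Finset.univ : Finset κ) (fun k _ => (hb (.inl k)).smul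
        (m := fun w' w => P i j (some k) w' w * w' (some i) * w' (some j))
        (((hP i j (some k)).mul (CK.x_left i)).mul (CK.x_left j))))).add
      ((hb (.inl j)).smul (m := fun w' w => nn i j w * w' (some i))
        ((CK.right (hn i j)).mul (CK.x_left i)))).add
      ((hb (.inl i)).smul (m := fun w' w => nn i j w * w (some j))
        ((CK.right (hn i j)).mul (CK.x_right j)))))
    refine h1.congr (fun _ _ _ _ => rfl) ?_
    rintro w' ⟨_, hw'⟩ w ⟨_, hw⟩ y
    simp only [hw', hw, mul_zero, zero_mul, Finset.sum_const_zero, add_zero]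
  have hsb : LinK D D (zset D) (zset D) segVec
      (fun w' w => ∑ i, ∑ j, (nn i j w' * w' (some i) * segVec (.inr j) w' w))
      (fun _ _ _ => 0) := by
    have h1 := LinK.sum (D := D) (E := D) (Z := zset D) (Y := zset D) (v := segVec)
      (Finset.univ : Finset κ) (fun i _ => LinK.sum (Finset.univ : Finset κ) (fun j _ =>
      ((hb (.inr j)).smul (m := fun w' w => nn i j w' * w' (some i))
        ((CK.left (hn i j)).mul (CK.x_left i)))))
    refine h1.congr (fun _ _ _ _ => rfl) ?_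
    rintro w' ⟨_, hw'⟩ w ⟨_, hw⟩ y
    simp only [hw', mul_zero, zero_mul, Finset.sum_const_zero]
  have Qc := QuadK.sum (D := D) (E := D) (Z := zset D) (Y := zset D) (v := segVec)
      (Finset.univ : Finset A) (fun a _ => (hlin (kc a) Sum.inl).sq.add (hlin (kc a) Sum.inr).sq)
  have Qt := Qh.add ((Qc.add (((hlin ν Sum.inl).sq.add (hlin ν Sum.inr).sq).add
    ((hsa.sq.add hsb.sq).smul (CK.const (-1))))).smul (CK.const K))
  obtain ⟨U, hU, V, hV, hs⟩ := Qt.sos segVec_FR (hD s0' h0') (hD s0 h0) (hzpt s0' h0')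
    (hzpt s0 h0) (by
      intro y hy
      have h1 := hKpos y hy
      simp only [hB] at h1
      have h2 : Ch (pt s0') (pt s0) y + K * (∑ a, ((∑ i, kc a i * y (.inl i)) ^ 2 +
        (∑ i, kc a i * y (.inr i)) ^ 2) + ((∑ i, ν i * y (.inl i)) ^ 2 +
        (∑ i, ν i * y (.inr i)) ^ 2 + -1 * ((0 : ℝ) ^ 2 + 0 ^ 2))) =
        Ch (pt s0') (pt s0) y + K * (∑ a, ((∑ i, kc a i * y (.inl i)) ^ 2 +
        (∑ i, kc a i * y (.inr i)) ^ 2) + ((∑ i, ν i * y (.inl i)) ^ 2 +
        (∑ i, ν i * y (.inr i)) ^ 2)) := by ring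
      show 0 < Ch (pt s0') (pt s0) y + K * (∑ a, ((∑ i, kc a i * y (.inl i)) ^ 2 +
        (∑ i, kc a i * y (.inr i)) ^ 2) + ((∑ i, ν i * y (.inl i)) ^ 2 +
        (∑ i, ν i * y (.inr i)) ^ 2 + -1 * ((0 : ℝ) ^ 2 + 0 ^ 2)))
      rw [h2]; exact h1)
  refine ⟨U, hU, V, hV, (hs.mono (Set.inter_subset_inter_right _ hTD)
    (Set.inter_subset_inter_right _ hTD)).congr ?_⟩
  rintro w' ⟨_, hw'⟩ w ⟨_, hw⟩
  have h01 : 0 ≤ w none * (1 - w none) :=
    mul_nonneg (hT01 w hw).1 (by linarith [(hT01 w hw).2])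
  rw [segKer_eq h01 (fun i j => eP i j w' (hTD hw') w (hTD hw))
    (fun i j => eR i j w' (hTD hw') w (hTD hw)) (hTν w hw) (hTν w' hw')]
  set μ := Real.sqrt (w none * (1 - w none)) with hμ
  have a : ∀ k, segVec (Sum.inl k) w' w = μ * (w (some k) - w' (some k)) := fun k => rfl
  have b : ∀ k, segVec (Sum.inr k) w' w = (w none - w' none) * w' (some k) := fun k => rfl
  have z1 : ∀ k : κ → ℝ, ∑ i, k i * segVec (Sum.inl i) w' w =
      μ * (∑ i, k i * w (some i) - ∑ i, k i * w' (some i)) := by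
    intro k
    rw [← Finset.sum_sub_distrib, Finset.mul_sum]
    refine Finset.sum_congr rfl fun i _ => ?_
    rw [a]; ring
  have z2 : ∀ k : κ → ℝ, ∑ i, k i * segVec (Sum.inr i) w' w =
      (w none - w' none) * ∑ i, k i * w' (some i) := by
    intro k
    rw [Finset.mul_sum]
    refine Finset.sum_congr rfl fun i _ => ?_
    rw [b]; ring
  have z3 : ∑ a', ((∑ i, kc a' i * segVec (Sum.inl i) w' w) ^ 2 +
      (∑ i, kc a' i * segVec (Sum.inr i) w' w) ^ 2) = 0 := by
    refine Finset.sum_eq_zero fun a' _ => ?_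
    rw [z1, z2, hTk w hw, hTk w' hw']
    ring
  have z4 : ∑ i, ∑ j, (μ * P i j none w' w *
        w' (some i) * segVec (.inr j) w' w + ∑ k, P i j (some k) w' w * w' (some i) *
        w' (some j) * segVec (.inl k) w' w + nn i j w * w' (some i) * segVec (.inl j) w' w +
        nn i j w * w (some j) * segVec (.inl i) w' w) =
        ∑ i, ν i * segVec (Sum.inl i) w' w := by
    rw [z1, hTν w hw, hTν w' hw', ← Finset.sum_sub_distrib, Finset.mul_sum]
    refine Finset.sum_congr rfl fun i _ => ?_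
    rw [← Finset.sum_sub_distrib, Finset.mul_sum]
    refine Finset.sum_congr rfl fun j _ => ?_
    have h1 := eP i j w' (hTD hw') w (hTD hw)
    rw [Fintype.sum_option] at h1
    have h2 : ∑ k, P i j (some k) w' w * w' (some i) * w' (some j) * segVec (.inl k) w' w =
        μ * (w' (some i) * w' (some j)) *
          ∑ k, P i j (some k) w' w * (w (some k) - w' (some k)) := by
      rw [Finset.mul_sum]
      refine Finset.sum_congr rfl fun k _ => ?_
      rw [a]; ring
    have h3 : ∑ k, P i j (some k) w' w * (w (some k) - w' (some k)) =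
        nn i j w - nn i j w' - P i j none w' w * (w none - w' none) := by linarith only [h1]
    rw [h2, h3, a, a, b]
    ring
  have z5 : ∑ i, ∑ j, (nn i j w' * w' (some i) * segVec (.inr j) w' w) =
      ∑ i, ν i * segVec (Sum.inr i) w' w := by
    rw [z2, hTν w' hw', Finset.mul_sum]
    refine Finset.sum_congr rfl fun i _ => ?_
    rw [Finset.mul_sum]
    refine Finset.sum_congr rfl fun j _ => ?_
    rw [b]; ring
  simp only [z3, z4, z5]
  ring

end Quad

end Seg

end Vale.Agent.P256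
end

section

/-! Partial fractions with nonnegative residues. -/

namespace Vale.Agent.P256

open Polynomial Filter Topology ComplexConjugate

/-- `N / Λ` maps the upper half plane to the closed lower half plane -/
def PickNeg (N Λ : ℝ[X]) : Prop :=
  ∀ z : ℂ, 0 < z.im → (aeval z N * conj (aeval z Λ)).im ≤ 0

theorem aeval_real (f : ℝ[X]) (a : ℝ) : aeval (a : ℂ) f = ((f.eval a : ℝ) : ℂ) := by
  have := Polynomial.aeval_algebraMap_apply ℂ a f
  simpa using this

theorem nonpos_of_pos_mul {a b : ℝ} (ha : 0 < a) (h : a * b ≤ 0) : b ≤ 0 := by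
  by_contra hb
  have := mul_pos ha (not_le.1 hb)
  linarith

theorem pick_local {a : ℝ} {k l : ℕ} {N1 Λ1 : ℝ[X]}
    (h : PickNeg ((X - C a) ^ l * N1) ((X - C a) ^ k * Λ1)) {ω : ℂ} (hω : 0 < ω.im) :
    (ω ^ l * conj ω ^ k).im * (N1.eval a * Λ1.eval a) ≤ 0 := by
  have hcont : ∀ f : ℝ[X], Tendsto (fun ρ : ℝ => aeval ((a : ℂ) + ρ * ω) f) (𝓝[>] 0)
      (𝓝 ((f.eval a : ℝ) : ℂ)) := by
    intro f
    have h1 : Continuous (fun ρ : ℝ => aeval ((a : ℂ) + ρ * ω) f) := by
      have : Continuous (fun z : ℂ => aeval z f) := by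
        simpa [aeval_def] using (Polynomial.continuous_eval₂ f (algebraMap ℝ ℂ))
      exact this.comp (by fun_prop)
    have h2 := h1.tendsto 0
    have h3 : aeval ((a : ℂ) + ((0 : ℝ) : ℂ) * ω) f = ((f.eval a : ℝ) : ℂ) := by
      rw [Complex.ofReal_zero, zero_mul, add_zero]
      exact aeval_real f a
    rw [h3] at h2
    exact h2.mono_left nhdsWithin_le_nhds
  have hlim : Tendsto (fun ρ : ℝ => (ω ^ l * conj ω ^ k * (aeval ((a : ℂ) + ρ * ω) N1 *
      conj (aeval ((a : ℂ) + ρ * ω) Λ1))).im) (𝓝[>] 0)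
      (𝓝 ((ω ^ l * conj ω ^ k * (((N1.eval a : ℝ) : ℂ) * conj ((Λ1.eval a : ℝ) : ℂ))).im)) :=
    (Complex.continuous_im.tendsto _).comp (((hcont N1).mul
      ((Complex.continuous_conj.tendsto _).comp (hcont Λ1))).const_mul _)
  have hle : ∀ᶠ ρ : ℝ in 𝓝[>] 0, (ω ^ l * conj ω ^ k * (aeval ((a : ℂ) + ρ * ω) N1 *
      conj (aeval ((a : ℂ) + ρ * ω) Λ1))).im ≤ 0 := by
    filter_upwards [self_mem_nhdsWithin] with ρ hρ
    have hρ' : 0 < ρ := hρ
    have him : 0 < ((a : ℂ) + ρ * ω).im := by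
      simp only [Complex.add_im, Complex.ofReal_im, Complex.mul_im, Complex.ofReal_re, zero_mul, add_zero, zero_add]; positivity
    have := h _ him
    have e1 : aeval ((a : ℂ) + ρ * ω) ((X - C a) ^ l * N1) *
        conj (aeval ((a : ℂ) + ρ * ω) ((X - C a) ^ k * Λ1)) =
        ((ρ ^ (l + k) : ℝ) : ℂ) * (ω ^ l * conj ω ^ k * (aeval ((a : ℂ) + ρ * ω) N1 *
      conj (aeval ((a : ℂ) + ρ * ω) Λ1))) := by
      have e2 : aeval ((a : ℂ) + ρ * ω) (X - C a) = ρ * ω := by
        rw [map_sub, aeval_X, aeval_C]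
        simp
      simp only [map_mul, map_pow, e2, Complex.conj_ofReal]
      push_cast
      ring
    rw [e1, Complex.im_ofReal_mul] at this
    exact nonpos_of_pos_mul (pow_pos hρ' _) this
  have := le_of_tendsto hlim hle
  rw [Complex.conj_ofReal, ← Complex.ofReal_mul, Complex.mul_im] at this
  simpa only [Complex.mul_im, ge_iff_le, Complex.mul_re, Complex.ofReal_mul, Complex.ofReal_re,     Complex.ofReal_im, mul_zero, zero_mul, add_zero, sub_zero, zero_add] using this

theorem pick_dvd {a : ℝ} {N Λ : ℝ[X]} (h : PickNeg N Λ) (hΛ : Λ ≠ 0) :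
    (X - C a) ^ (rootMultiplicity a Λ - 1) ∣ N := by
  by_cases hN : N = 0
  · rw [hN]; exact dvd_zero _
  obtain ⟨Λ1, hΛ1, hΛd⟩ := exists_eq_pow_rootMultiplicity_mul_and_not_dvd Λ hΛ a
  obtain ⟨N1, hN1, hNd⟩ := exists_eq_pow_rootMultiplicity_mul_and_not_dvd N hN a
  set k := rootMultiplicity a Λ with hk
  set l := rootMultiplicity a N with hl
  have hNa : N1.eval a ≠ 0 := fun h0 => hNd (dvd_iff_isRoot.2 h0)
  have hΛa : Λ1.eval a ≠ 0 := fun h0 => hΛd (dvd_iff_isRoot.2 h0)
  by_cases hkl : k - 1 ≤ l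
  · rw [hN1]
    exact (pow_dvd_pow _ hkl).mul_right _
  exfalso
  obtain ⟨j, hj⟩ : ∃ j, k = l + j := ⟨k - l, by omega⟩
  have hj2 : 2 ≤ j := by omega
  rw [hN1, hΛ1] at h
  have hjR : (2 : ℝ) ≤ j := by exact_mod_cast hj2
  have key : ∀ θ : ℝ, 0 < θ → θ < Real.pi →
      Real.sin (j * θ) * (N1.eval a * Λ1.eval a) ≥ 0 := by
    intro θ h1 h2
    have h3 := pick_local h (ω := Complex.exp (θ * Complex.I)) (by
      rw [Complex.exp_ofReal_mul_I_im]
      exact Real.sin_pos_of_pos_of_lt_pi h1 h2)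
    have h4 : Complex.exp (θ * Complex.I) ^ l * conj (Complex.exp (θ * Complex.I)) ^ k =
        Complex.exp (((-(j * θ) : ℝ) : ℂ) * Complex.I) := by
      rw [← Complex.exp_conj, hj, ← Complex.exp_nat_mul, ← Complex.exp_nat_mul, ← Complex.exp_add]
      congr 1
      simp only [map_mul, Complex.conj_ofReal, Complex.conj_I]
      push_cast
      ring
    rw [h4, Complex.exp_ofReal_mul_I_im, Real.sin_neg] at h3
    linarith only [h3]
  have hpi := Real.pi_pos
  have hjpos : (0 : ℝ) < j := by linarith only [hjR]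
  have k1 := key (Real.pi / (2 * j)) (by (clear * - hj2; positivity)) (by
    rw [div_lt_iff₀ (by (clear * - hj2; positivity))]; nlinarith only [hpi, hjR])
  have k2 := key (3 * Real.pi / (2 * j)) (by (clear * - hj2; positivity)) (by
    rw [div_lt_iff₀ (by (clear * - hj2; positivity))]; nlinarith only [hpi, hjR])
  have s1 : Real.sin (j * (Real.pi / (2 * j))) = 1 := by
    rw [show (j : ℝ) * (Real.pi / (2 * j)) = Real.pi / 2 by (clear * - hj2; field_simp)]
    exact Real.sin_pi_div_two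
  have s2 : Real.sin (j * (3 * Real.pi / (2 * j))) = -1 := by
    rw [show (j : ℝ) * (3 * Real.pi / (2 * j)) = Real.pi / 2 + Real.pi by field_simp; ring]
    rw [Real.sin_add_pi, Real.sin_pi_div_two]
  rw [s1] at k1
  rw [s2] at k2
  have : N1.eval a * Λ1.eval a = 0 := by linarith only [k1, k2]
  exact (mul_ne_zero hNa hΛa) this

theorem pick_res {a : ℝ} {N Λ1 : ℝ[X]} (h : PickNeg N ((X - C a) * Λ1)) :
    0 ≤ N.eval a * Λ1.eval a := by
  have h1 : PickNeg ((X - C a) ^ 0 * N) ((X - C a) ^ 1 * Λ1) := by simpa using h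
  have h2 := pick_local h1 (ω := Complex.I) (by simp)
  simpa only [ge_iff_le, pow_zero, Complex.conj_I, pow_one, mul_neg, one_mul, Complex.neg_im, Complex.I_im,     neg_mul, Left.neg_nonpos_iff] using h2

theorem PickNeg.of_mul {G N Λ : ℝ[X]} (h : PickNeg (G * N) (G * Λ))
    (hG : ∀ z : ℂ, 0 < z.im → aeval z G ≠ 0) : PickNeg N Λ := by
  intro z hz
  have h1 := h z hz
  have e : aeval z (G * N) * conj (aeval z (G * Λ)) =
      ((Complex.normSq (aeval z G) : ℝ) : ℂ) * (aeval z N * conj (aeval z Λ)) := by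
    rw [← Complex.mul_conj, map_mul, map_mul, map_mul]
    ring
  rw [e, Complex.im_ofReal_mul] at h1
  exact nonpos_of_pos_mul (Complex.normSq_pos.2 (hG z hz)) h1

/-- the value of a quadratic form -/
def qf {ι : Type*} [Fintype ι] (m : ι → ι → ℝ) (h : ι → ℝ) : ℝ := ∑ i, ∑ j, m i j * h i * h j

/-- a polynomial-valued quadratic form -/
noncomputable def qp {ι : Type*} [Fintype ι] (m : ι → ι → ℝ[X]) (h : ι → ℝ) : ℝ[X] :=
  ∑ i, ∑ j, C (h i * h j) * m i j

theorem eval_qp {ι : Type*} [Fintype ι] (m : ι → ι → ℝ[X]) (h : ι → ℝ) (u : ℝ) :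
    (qp m h).eval u = qf (fun i j => (m i j).eval u) h := by
  simp only [qp, eval_finsetSum, eval_mul, eval_C, qf]
  refine Finset.sum_congr rfl fun i _ => Finset.sum_congr rfl fun j _ => ?_
  ring

theorem coeff_qp {ι : Type*} [Fintype ι] (m : ι → ι → ℝ[X]) (h : ι → ℝ) (k : ℕ) :
    (qp m h).coeff k = qf (fun i j => (m i j).coeff k) h := by
  simp only [qp, qf, finsetSum_coeff, coeff_C_mul]
  refine Finset.sum_congr rfl fun i _ => Finset.sum_congr rfl fun j _ => ?_
  ring

theorem qf_smul {ι : Type*} [Fintype ι] (m : ι → ι → ℝ) (h : ι → ℝ) (c : ℝ) :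
    qf (fun i j => c * m i j) h = c * qf m h := by
  simp only [qf, Finset.mul_sum]
  refine Finset.sum_congr rfl fun i _ => Finset.sum_congr rfl fun j _ => ?_
  ring

theorem pf {ι : Type*} [Fintype ι] {Λ : ℝ[X]} {Nm : ι → ι → ℝ[X]} {W : Set (ι → ℝ)}
    (hΛ : Λ.Splits) (hΛ0 : Λ ≠ 0) (hr : ∀ a ∈ Λ.roots, a ≤ 0)
    (hpick : ∀ h ∈ W, PickNeg (qp Nm h) Λ)
    (hdeg : ∀ h ∈ W, (qp Nm h).natDegree ≤ Λ.natDegree) :
    ∃ (S : Finset ℝ) (κ c0 : ι → ι → ℝ) (c : ℝ → ι → ι → ℝ), (∀ a ∈ S, a < 0) ∧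
      (∀ a ∈ S, ∀ h ∈ W, 0 ≤ qf (c a) h) ∧ ∀ h ∈ W, ∀ u : ℝ, 0 < u →
        (qp Nm h).eval u / Λ.eval u = qf κ h + qf c0 h * u⁻¹ +
          ∑ a ∈ S, qf (c a) h * (u - a)⁻¹ := by
  classical
  set S0 := Λ.roots.toFinset with hS0
  set lc := Λ.leadingCoeff with hlc
  have hlc0 : lc ≠ 0 := leadingCoeff_ne_zero.2 hΛ0
  set G0 : ℝ[X] := ∏ a ∈ S0, (X - C a) ^ (rootMultiplicity a Λ - 1) with hG0
  set nod : ℝ[X] := ∏ a ∈ S0, (X - C a) with hnod
  have hG0m : G0.Monic := monic_prod_of_monic _ _ (fun a _ => (monic_X_sub_C a).pow _)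
  have hnodm : nod.Monic := monic_prod_of_monic _ _ (fun a _ => monic_X_sub_C a)
  have hΛe : Λ = G0 * (C lc * nod) := by
    have h1 := hΛ.eq_prod_roots
    rw [Finset.prod_multiset_map_count] at h1
    have h2 : G0 * nod = ∏ a ∈ Λ.roots.toFinset, (X - C a) ^ Multiset.count a Λ.roots := by
      rw [hG0, hnod, ← Finset.prod_mul_distrib]
      refine Finset.prod_congr rfl fun a ha => ?_
      rw [← pow_succ, count_roots]
      congr 1
      have : 0 < rootMultiplicity a Λ := by
        rw [← count_roots]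
        exact Multiset.count_pos.2 (Multiset.mem_toFinset.1 ha)
      omega
    rw [← h2] at h1
    rw [h1]; ring
  have hnoddeg : nod.natDegree = S0.card := by
    rw [hnod, natDegree_prod_of_monic _ _ (fun a _ => monic_X_sub_C a)]
    simp
  -- non-vanishing
  have hΛz : ∀ z : ℂ, 0 < z.im → aeval z Λ ≠ 0 := by
    intro z hz h0
    have := Splits.real_roots hΛ hΛ0 z h0
    linarith only [hz, this]
  have hGz : ∀ z : ℂ, 0 < z.im → aeval z G0 ≠ 0 := by
    intro z hz h0
    apply hΛz z hz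
    rw [hΛe, map_mul, h0, zero_mul]
  set Nb : ι → ι → ℝ[X] := fun i j => Nm i j /ₘ G0 with hNb
  have hfac : ∀ h ∈ W, qp Nm h = G0 * qp Nb h := by
    intro h hh
    have hdvd : G0 ∣ qp Nm h := by
      rw [hG0]
      refine Finset.prod_dvd_of_coprime ?_ ?_
      · intro a _ b _ hab
        exact IsCoprime.pow (pairwise_coprime_X_sub_C (s := fun x : ℝ => x)
          Function.injective_id hab)
      · intro a ha
        exact pick_dvd (hpick h hh) hΛ0
    have hR : qp Nm h = qp (fun i j => Nm i j %ₘ G0) h + G0 * qp Nb h := by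
      simp only [qp, Finset.mul_sum, ← Finset.sum_add_distrib]
      refine Finset.sum_congr rfl fun i _ => Finset.sum_congr rfl fun j _ => ?_
      conv_lhs => rw [← modByMonic_add_div (Nm i j) G0]
      ring
    have h0 : qp (fun i j => Nm i j %ₘ G0) h = 0 := by
      refine eq_zero_of_dvd_of_degree_lt (p := G0) ?_ ?_
      · have : qp (fun i j => Nm i j %ₘ G0) h = qp Nm h - G0 * qp Nb h := by rw [hR]; ring
        rw [this]
        exact dvd_sub hdvd (dvd_mul_right _ _)
      · have hG1 : G0 ≠ 0 := hG0m.ne_zero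
        rw [degree_eq_natDegree hG1, degree_lt_iff_coeff_zero]
        intro m hm
        rw [coeff_qp]
        have hc : ∀ i j, (Nm i j %ₘ G0).coeff m = 0 := by
          intro i j
          have := degree_modByMonic_lt (Nm i j) hG0m
          rw [degree_eq_natDegree hG1, degree_lt_iff_coeff_zero] at this
          exact this m hm
        simp only [qf, hc, zero_mul, Finset.sum_const_zero]
    rw [hR, h0, zero_add]
  -- degree of `Nb`
  have hNbdeg : ∀ h ∈ W, ∀ m, S0.card < m → (qp Nb h).coeff m = 0 := by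
    intro h hh m hm
    by_cases h0 : qp Nb h = 0
    · rw [h0, coeff_zero]
    refine coeff_eq_zero_of_natDegree_lt (lt_of_le_of_lt ?_ hm)
    have h1 := hdeg h hh
    rw [hfac h hh, hG0m.natDegree_mul' h0, hΛe, hG0m.natDegree_mul' (by
      intro h2
      rcases mul_eq_zero.1 h2 with h3 | h3
      · exact hlc0 (C_eq_zero.1 h3)
      · exact hnodm.ne_zero h3), natDegree_C_mul hlc0, hnoddeg] at h1
    omega
  have hsign : ∀ a ∈ S0, ∀ h ∈ W, 0 ≤ lc⁻¹ * Lagrange.nodalWeight S0 id a *
      (qp Nb h).eval a := by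
    intro a ha h hh
    have h1 : PickNeg (qp Nb h) (C lc * nod) := by
      refine PickNeg.of_mul (G := G0) ?_ hGz
      rw [← hfac h hh, ← hΛe]
      exact hpick h hh
    have h2 : C lc * nod = (X - C a) * (C lc * ∏ b ∈ S0.erase a, (X - C b)) := by
      rw [hnod, ← Finset.mul_prod_erase S0 _ ha]
      ring
    rw [h2] at h1
    have h3 := pick_res h1
    rw [eval_mul, eval_C, eval_prod] at h3
    have h4 : Lagrange.nodalWeight S0 id a = (∏ b ∈ S0.erase a, eval a (X - C b))⁻¹ := by
      rw [Lagrange.nodalWeight, ← Finset.prod_inv_distrib]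
      refine Finset.prod_congr rfl fun b _ => ?_
      simp
    rw [h4]
    have h5 : lc⁻¹ * (∏ b ∈ S0.erase a, eval a (X - C b))⁻¹ * (qp Nb h).eval a =
        ((qp Nb h).eval a * (lc * ∏ b ∈ S0.erase a, eval a (X - C b))) *
          ((lc * ∏ b ∈ S0.erase a, eval a (X - C b))⁻¹) ^ 2 := by
      by_cases h6 : lc * ∏ b ∈ S0.erase a, eval a (X - C b) = 0
      · rcases mul_eq_zero.1 h6 with h7 | h7
        · exact absurd h7 hlc0
        · rw [h7]; simp
      · have h7 : ∏ b ∈ S0.erase a, eval a (X - C b) ≠ 0 := right_ne_zero_of_mul h6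
        (clear * - h7 hlc0; field_simp)
    rw [h5]
    (clear * - h3; positivity)
  refine ⟨S0.erase 0, fun i j => lc⁻¹ * (Nb i j).coeff S0.card,
    fun i j => if (0 : ℝ) ∈ S0 then (lc⁻¹ * Lagrange.nodalWeight S0 id 0) * (Nb i j).eval 0 else 0,
    fun a i j => (lc⁻¹ * Lagrange.nodalWeight S0 id a) * (Nb i j).eval a, ?_, ?_, ?_⟩
  · intro a ha
    have h1 := Finset.ne_of_mem_erase ha
    have h2 := hr a (Multiset.mem_toFinset.1 (Finset.mem_of_mem_erase ha))
    exact lt_of_le_of_ne h2 h1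
  · intro a ha h hh
    rw [qf_smul, ← eval_qp]
    exact hsign a (Finset.mem_of_mem_erase ha) h hh
  · intro h hh u hu
    have hune : ∀ a ∈ S0, u ≠ id a := by
      intro a ha h0
      have h2 := hr a (Multiset.mem_toFinset.1 ha)
      simp only [id] at h0
      linarith only [hu, h0, h2]
    have hnodu : nod.eval u ≠ 0 := by
      rw [hnod, eval_prod]
      refine Finset.prod_ne_zero_iff.2 fun a ha => ?_
      rw [eval_sub, eval_X, eval_C]
      exact sub_ne_zero.2 (hune a ha)
    have hG0u : G0.eval u ≠ 0 := by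
      rw [hG0, eval_prod]
      refine Finset.prod_ne_zero_iff.2 fun a ha => ?_
      rw [eval_pow, eval_sub, eval_X, eval_C]
      exact pow_ne_zero _ (sub_ne_zero.2 (hune a ha))
    set Q := qp Nb h with hQ
    have hnodal : Lagrange.nodal S0 (id : ℝ → ℝ) = nod := by
      rw [Lagrange.nodal, hnod]
      rfl
    have hP : (Q - C (Q.coeff S0.card) * nod).degree < (S0.card : WithBot ℕ) := by
      rw [degree_lt_iff_coeff_zero]
      intro m hm
      rw [coeff_sub, coeff_C_mul]
      rcases eq_or_lt_of_le hm with h1 | h1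
      · rw [← h1]
        have h2 : nod.coeff S0.card = 1 := by
          rw [← hnoddeg]; exact hnodm.coeff_natDegree
        rw [h2]; ring
      · rw [hNbdeg h hh m h1, coeff_eq_zero_of_natDegree_lt (p := nod) (n := m) (by rw [hnoddeg]; exact h1)]
        ring
    have hI := Lagrange.eq_interpolate (s := S0) (v := (id : ℝ → ℝ))
      (Function.injective_id.injOn) hP
    have hE := congrArg (eval u) hI
    rw [Lagrange.eval_interpolate_not_at_node _ hune, hnodal, eval_sub, eval_mul, eval_C] at hE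
    have hval : ∀ a ∈ S0, eval (id a) (Q - C (Q.coeff S0.card) * nod) = Q.eval a := by
      intro a ha
      have : nod.eval a = 0 := by
        rw [hnod, eval_prod]
        exact Finset.prod_eq_zero ha (by simp)
      simp [this]
    have hsum : ∑ i ∈ S0, Lagrange.nodalWeight S0 id i * (u - id i)⁻¹ *
        eval (id i) (Q - C (Q.coeff S0.card) * nod) =
        ∑ i ∈ S0, Lagrange.nodalWeight S0 id i * (u - i)⁻¹ * Q.eval i := by
      refine Finset.sum_congr rfl fun a ha => ?_
      rw [hval a ha]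
      rfl
    rw [hsum] at hE
    have h1 : (qp Nm h).eval u / Λ.eval u = lc⁻¹ * (Q.coeff S0.card +
        ∑ i ∈ S0, Lagrange.nodalWeight S0 id i * (u - i)⁻¹ * Q.eval i) := by
      rw [hfac h hh, hΛe, eval_mul, eval_mul, eval_mul, eval_C, ← hQ]
      have h2 : Q.eval u = nod.eval u * (Q.coeff S0.card +
        ∑ i ∈ S0, Lagrange.nodalWeight S0 id i * (u - i)⁻¹ * Q.eval i) := by
        linarith only [hE]
      rw [h2]
      (clear * - hG0u hnodu hlc0; field_simp)
    rw [h1, mul_add]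
    have h3 : qf (fun i j => lc⁻¹ * (Nb i j).coeff S0.card) h = lc⁻¹ * Q.coeff S0.card := by
      rw [qf_smul, hQ, coeff_qp]
    rw [h3, add_assoc]
    congr 1
    have h4 : ∀ a, qf (fun i j => (lc⁻¹ * Lagrange.nodalWeight S0 id a) * (Nb i j).eval a) h =
        lc⁻¹ * Lagrange.nodalWeight S0 id a * Q.eval a := by
      intro a
      rw [qf_smul, hQ, eval_qp]
    simp only [h4]
    by_cases h0 : (0 : ℝ) ∈ S0
    · simp only [h0, if_true]
      rw [h4 0, ← Finset.add_sum_erase S0 _ h0, mul_add, Finset.mul_sum]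
      congr 1
      · rw [sub_zero]; ring
      · refine Finset.sum_congr rfl fun a _ => ?_
        ring
    · simp only [h0, if_false]
      rw [Finset.erase_eq_of_notMem h0, Finset.mul_sum]
      have h5 : qf (fun (_ _ : ι) => (0 : ℝ)) h = 0 := by simp only [qf, zero_mul, Finset.sum_const_zero]
      rw [h5, zero_mul, zero_add]
      refine Finset.sum_congr rfl fun a _ => ?_
      ring

end Vale.Agent.P256
end

section

/-! The Pick property of the second fundamental form along a segment. -/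

namespace Vale.Agent.P256

open Polynomial Filter Topology ComplexConjugate

variable {n : ℕ} {p : MvPolynomial (Fin n) ℝ} {e : Fin n → ℝ}

theorem dirD_mul_C (p : MvPolynomial (Fin n) ℝ) (a : ℝ) (v : Fin n → ℝ) :
    dirD (p * MvPolynomial.C a) v = dirD p v * MvPolynomial.C a := by
  simp only [dirD, Finset.sum_mul]
  refine Finset.sum_congr rfl fun i _ => ?_
  rw [mul_comm p, MvPolynomial.pderiv_C_mul]
  ring

/-- algebraic Taylor expansion modulo `ε³` -/
theorem taylor_alg {A : Type*} [CommRing A] [Algebra ℝ A] (p : MvPolynomial (Fin n) ℝ)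
    (y : Fin n → A) (h e : Fin n → ℝ) (c : A) :
    ∃ R : A[X], MvPolynomial.aeval (fun i => C (y i) + X * C (algebraMap ℝ A (h i)) +
        X ^ 2 * C (c * algebraMap ℝ A (e i))) p =
      C (MvPolynomial.aeval y p) + X * C (MvPolynomial.aeval y (dirD p h)) +
        X ^ 2 * C (algebraMap ℝ A (1 / 2) * MvPolynomial.aeval y (dirD (dirD p h) h) +
          c * MvPolynomial.aeval y (dirD p e)) + X ^ 3 * R := by
  induction p using MvPolynomial.induction_on with
  | C a =>
    refine ⟨0, ?_⟩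
    simp only [X_mul_C, map_mul, MvPolynomial.algHom_C, Polynomial.algebraMap_apply, dirD_C, map_zero, mul_zero, add_zero, one_div, dirD_zero]
  | add p q hp hq =>
    obtain ⟨R, hR⟩ := hp
    obtain ⟨R', hR'⟩ := hq
    refine ⟨R + R', ?_⟩
    simp only [map_add, hR, hR', dirD_add]
    simp only [mul_add, C_add]
    ring
  | mul_X p k hp =>
    obtain ⟨R, hR⟩ := hp
    set a := MvPolynomial.aeval y (dirD p h) with ha
    set P := MvPolynomial.aeval y p with hP
    set b := algebraMap ℝ A (1 / 2) * MvPolynomial.aeval y (dirD (dirD p h) h) +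
          c * MvPolynomial.aeval y (dirD p e) with hb
    set hk := algebraMap ℝ A (h k) with hhk
    set g := c * algebraMap ℝ A (e k) with hg
    have h1 : MvPolynomial.aeval y (dirD (p * MvPolynomial.X k) h) = a * y k + P * hk := by
      rw [dirD_mul_X, map_add, map_mul, map_mul, MvPolynomial.aeval_X, MvPolynomial.aeval_C]
    have h2 : MvPolynomial.aeval y (dirD (p * MvPolynomial.X k) e) =
        MvPolynomial.aeval y (dirD p e) * y k + P * algebraMap ℝ A (e k) := by
      rw [dirD_mul_X, map_add, map_mul, map_mul, MvPolynomial.aeval_X, MvPolynomial.aeval_C]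
    have h3 : MvPolynomial.aeval y (dirD (dirD (p * MvPolynomial.X k) h) h) =
        MvPolynomial.aeval y (dirD (dirD p h) h) * y k + 2 * (a * hk) := by
      rw [dirD_mul_X, dirD_add, dirD_mul_X, dirD_mul_C, map_add, map_add, map_mul, map_mul,
        MvPolynomial.aeval_X, MvPolynomial.aeval_C]
      ring
    have h12 : algebraMap ℝ A (1 / 2) * (2 * (a * hk)) = a * hk := by
      have : algebraMap ℝ A (1 / 2) * 2 = 1 := by
        have h4 : (2 : A) = algebraMap ℝ A 2 := (map_ofNat (algebraMap ℝ A) 2).symm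
        rw [h4, ← map_mul]; norm_num
      rw [← mul_assoc, this, one_mul]
    refine ⟨C (a * g + b * hk) + R * C (y k) + X * (C (b * g) + R * C hk) + X ^ 2 * (R * C g), ?_⟩
    have h0 : MvPolynomial.aeval y (p * MvPolynomial.X k) = P * y k := by
      rw [map_mul, MvPolynomial.aeval_X]
    rw [h0, h1, h2, h3, map_mul, hR, MvPolynomial.aeval_X, ← hhk, ← hg]
    have h5 : algebraMap ℝ A (1 / 2) * (MvPolynomial.aeval y (dirD (dirD p h) h) * y k +
        2 * (a * hk)) + c * (MvPolynomial.aeval y (dirD p e) * y k + P * algebraMap ℝ A (e k)) =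
        b * y k + a * hk + P * g := by
      rw [mul_add, h12, hb, hg]; ring
    rw [h5]
    clear_value g hk a b P
    simp only [C_add, C_mul]
    ring

theorem continuous_aeval_evalC (R : ℝ[X][X]) (z : ℂ) :
    Continuous (fun ε : ℝ => aeval z (R.eval (C ε))) := by
  have : (fun ε : ℝ => aeval z (R.eval (C ε))) = fun ε : ℝ =>
      ∑ k ∈ Finset.range (R.natDegree + 1), aeval z (R.coeff k) * (ε : ℂ) ^ k := by
    funext ε
    rw [eval_eq_sum_range, map_sum]
    refine Finset.sum_congr rfl fun k _ => ?_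
    rw [map_mul, map_pow, aeval_C]
    rfl
  rw [this]
  fun_prop

theorem splits_smul {f : ℝ[X]} (hf : f.Splits) (a : ℝ) : (C a * f).Splits :=
  (Splits.C a).mul hf

theorem aeval_evalC (p : MvPolynomial (Fin n) ℝ) (g : Fin n → ℝ[X][X]) (ε : ℝ) :
    (MvPolynomial.aeval g p).eval (C ε) = MvPolynomial.aeval (fun i => (g i).eval (C ε)) p := by
  induction p using MvPolynomial.induction_on with
  | C a => simp only [MvPolynomial.algHom_C, Polynomial.algebraMap_apply, algebraMap_eq, eval_C]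
  | add p q hp hq => simp only [map_add, eval_add, hp, hq]
  | mul_X p i hp => simp only [map_mul, eval_mul, hp, MvPolynomial.aeval_X]

/-- the two-parameter splitting property -/
theorem splits_seg (hp : IsHyperbolic p e) {x1 x2 h : Fin n → ℝ} (hx1 : x1 ∈ hypCone p e)
    (h0 : line p x2 x1 = 0) (h1 : line (dirD p h) x2 x1 = 0) (τ : ℝ) {r : ℝ} (hr : 0 ≤ r) :
    (C (1 / 2) * line (dirD (dirD p h) h) x2 x1 +
      (C τ + C r * X) * line (dirD p e) x2 x1).Splits := by
  set G := C (1 / 2) * line (dirD (dirD p h) h) x2 x1 +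
      (C τ + C r * X) * line (dirD p e) x2 x1 with hG
  obtain ⟨R, hR⟩ := taylor_alg p (fun i => (C (x2 i) + X * C (x1 i) : ℝ[X])) h e (C τ + C r * X)
  have hR' : MvPolynomial.aeval (fun i => C ((C (x2 i) + X * C (x1 i) : ℝ[X])) +
      X * C (algebraMap ℝ ℝ[X] (h i)) + X ^ 2 * C ((C τ + C r * X) * algebraMap ℝ ℝ[X] (e i))) p =
      X ^ 2 * (C G + X * R) := by
    rw [hR]
    have e0 : MvPolynomial.aeval (fun i => (C (x2 i) + X * C (x1 i) : ℝ[X])) p = 0 := h0
    have e1 : MvPolynomial.aeval (fun i => (C (x2 i) + X * C (x1 i) : ℝ[X])) (dirD p h) = 0 := h1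
    rw [e0, e1]
    have e2 : algebraMap ℝ ℝ[X] (1 / 2) * MvPolynomial.aeval
        (fun i => (C (x2 i) + X * C (x1 i) : ℝ[X])) (dirD (dirD p h) h) + (C τ + C r * X) *
        MvPolynomial.aeval (fun i => (C (x2 i) + X * C (x1 i) : ℝ[X])) (dirD p e) = G := rfl
    rw [e2]
    simp only [C_0, mul_zero, add_zero, zero_add]
    ring
  set F : ℝ → ℝ[X] := fun ε => (C G + X * R).eval (C ε) with hF
  have hline : ∀ ε : ℝ, line p (x2 + ε • h + (ε ^ 2 * τ) • e) (x1 + (ε ^ 2 * r) • e) =
      C (ε ^ 2) * F ε := by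
    intro ε
    have e1 : (X ^ 2 * (C G + X * R)).eval (C ε) = C (ε ^ 2) * F ε := by
      rw [eval_mul, eval_pow, eval_X, hF, C_pow]
    rw [← e1, ← hR', aeval_evalC, line]
    congr 2
    funext i
    simp only [Pi.add_apply, Pi.smul_apply, smul_eq_mul, map_add, map_mul, map_pow, X_mul_C, algebraMap_eq, eval_add, eval_C, eval_mul, eval_X, eval_pow]
    ring
  have hsp : ∀ᶠ ε in 𝓝[>] (0 : ℝ), (F ε).Splits := by
    filter_upwards [self_mem_nhdsWithin] with ε hε
    have hε' : (0 : ℝ) < ε := hε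
    have hm : x1 + (ε ^ 2 * r) • e ∈ hypCone p e :=
      K_add hp hx1 (K_smul hp ((e_inOpen hp).mem hp) (by (clear * - hε' hr; positivity)))
    have h2 := splits_smul (splits_line_dir hp hm (x2 + ε • h + (ε ^ 2 * τ) • e)) ((ε ^ 2)⁻¹)
    rw [hline, ← mul_assoc, ← C_mul, inv_mul_cancel₀ (by positivity), C_1, one_mul] at h2
    exact h2
  refine splits_of_tendsto hsp fun z => ?_
  have hc := (continuous_aeval_evalC (C G + X * R) z).tendsto 0
  have e3 : aeval z ((C G + X * R).eval (C (0 : ℝ))) = aeval z G := by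
    rw [eval_add, eval_C, eval_mul, eval_X, C_0, zero_mul, add_zero]
  rw [e3] at hc
  exact hc.mono_left nhdsWithin_le_nhds

/-- the Pick property of the second fundamental form along a segment -/
theorem pick_of_seg (hp : IsHyperbolic p e) {x1 x2 h : Fin n → ℝ} (hx1 : x1 ∈ hypCone p e)
    (h0 : line p x2 x1 = 0) (h1 : line (dirD p h) x2 x1 = 0)
    (hΛ : line (dirD p e) x2 x1 ≠ 0)
    (hdeg : (C (-(1 / 2)) * line (dirD (dirD p h) h) x2 x1).natDegree ≤
      (line (dirD p e) x2 x1).natDegree) :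
    PickNeg (C (-(1 / 2)) * line (dirD (dirD p h) h) x2 x1) (line (dirD p e) x2 x1) := by
  set Λ := line (dirD p e) x2 x1 with hΛd
  set N := C (-(1 / 2)) * line (dirD (dirD p h) h) x2 x1 with hN
  intro z hz
  by_contra hlt
  rw [not_le] at hlt
  have hΛz : aeval z Λ ≠ 0 := by
    intro h2; rw [h2] at hlt; simp at hlt
  set ζ := aeval z N / aeval z Λ with hζ
  have hns : 0 < Complex.normSq (aeval z Λ) := Complex.normSq_pos.2 hΛz
  have hζ1 : aeval z N * conj (aeval z Λ) = ((Complex.normSq (aeval z Λ) : ℝ) : ℂ) * ζ := by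
    rw [← Complex.mul_conj, hζ]
    field_simp
  rw [hζ1, Complex.im_ofReal_mul] at hlt
  have hζim : 0 < ζ.im := by
    by_contra h2
    have := mul_nonpos_of_nonneg_of_nonpos hns.le (not_lt.1 h2)
    linarith only [hlt, this]
  set r := ζ.im / z.im with hr
  have hrpos : 0 < r := div_pos hζim hz
  set τ := ζ.re - r * z.re with hτ
  have h3 := splits_seg hp hx1 h0 h1 τ hrpos.le
  have h4 : C (1 / 2) * line (dirD (dirD p h) h) x2 x1 + (C τ + C r * X) * Λ =
      (C τ + C r * X) * Λ - N := by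
    rw [hN, C_neg]; ring
  rw [← hΛd, h4] at h3
  have h5 : aeval z ((C τ + C r * X) * Λ - N) = 0 := by
    have h6 : aeval z (C τ + C r * X) = ζ := by
      rw [map_add, map_mul, aeval_C, aeval_C, aeval_X]
      apply Complex.ext
      · simp [hτ]
      · simp only [Complex.coe_algebraMap, hr, map_div₀, Complex.add_im, Complex.ofReal_im, Complex.mul_im, Complex.div_ofReal_re, Complex.ofReal_re, Complex.div_ofReal_im, zero_div, zero_mul, add_zero, zero_add]
        (clear * - hz hζim; field_simp)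
    rw [map_sub, map_mul, h6, hζ]
    field_simp
    ring
  have h7 : (C τ + C r * X) * Λ - N ≠ 0 := by
    intro h8
    have h9 : N = (C τ + C r * X) * Λ := (sub_eq_zero.1 h8).symm
    have h10 : (C τ + C r * X : ℝ[X]).natDegree = 1 := by
      have : (C τ + C r * X : ℝ[X]) = C r * X + C τ := add_comm _ _
      rw [this]
      exact natDegree_linear hrpos.ne'
    have h11 : (C τ + C r * X : ℝ[X]) ≠ 0 := by
      intro h12
      rw [h12] at h10
      simp at h10
    rw [h9, natDegree_mul h11 hΛ, h10] at hdeg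
    omega
  have := Splits.real_roots h3 h7 z h5
  linarith only [hz, this]

theorem splits_lam (hp : IsHyperbolic p e) {x1 x2 : Fin n → ℝ} (hx1 : x1 ∈ hypCone p e)
    (h0 : line p x2 x1 = 0) : (line (dirD p e) x2 x1).Splits := by
  have h1 : dirD p (0 : Fin n → ℝ) = 0 := by simp only [dirD, Pi.zero_apply, MvPolynomial.C_0, zero_mul, Finset.sum_const_zero]
  have h2 := splits_seg hp (h := 0) hx1 h0 (by rw [h1]; simp [line]) 1 le_rfl
  rw [h1, dirD_zero] at h2
  have h3 : line (0 : MvPolynomial (Fin n) ℝ) x2 x1 = 0 := by simp [line]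
  rw [h3] at h2
  simpa only [one_div, mul_zero, map_one, map_zero, zero_mul, add_zero, one_mul, zero_add] using h2

end Vale.Agent.P256
end

section

/-! The blow-up polynomial along a flat segment. -/

namespace Vale.Agent.P256

open Filter Topology

variable {n : ℕ} {p : MvPolynomial (Fin n) ℝ} {e : Fin n → ℝ}

/-- the parametrisation of a neighbourhood of a segment -/
noncomputable def zz (x1 x2 : Fin n → ℝ) (w : Option (Fin n) → ℝ) : Fin n → ℝ := fun j =>
  (1 - w none) * x1 j + w none * x2 j + w none * (1 - w none) * w (some j)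

theorem map_blR {A B : Type*} [CommRing A] [Algebra ℝ A] [CommRing B] [Algebra ℝ B]
    (φ : A →ₐ[ℝ] B) (p : MvPolynomial (Fin n) ℝ) (z : Fin n → ℝ) (m : ℕ) (c : A)
    (w : Fin n → A) : φ (blR p z m c w) = blR p z m (φ c) (fun i => φ (w i)) := by
  unfold blR
  rw [map_sum]
  refine Finset.sum_congr rfl fun k _ => ?_
  rw [map_mul, map_pow, ← MvPolynomial.comp_aeval_apply]

/-- restriction to `ξ = 0` -/
noncomputable def sOnly (f : MvPolynomial (Option (Fin n)) ℝ) :
    MvPolynomial (Option (Fin n)) ℝ :=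
  MvPolynomial.aeval (fun o => Option.elim o (MvPolynomial.X none) (fun _ => 0)) f

theorem eval_sOnly (f : MvPolynomial (Option (Fin n)) ℝ) (w : Option (Fin n) → ℝ) :
    MvPolynomial.eval w (sOnly f) = MvPolynomial.eval (pt (w none)) f := by
  unfold sOnly
  induction f using MvPolynomial.induction_on with
  | C a => simp
  | add p q hp hq => simp only [map_add, hp, hq]
  | mul_X p i hp =>
    rw [map_mul, map_mul, hp, map_mul, MvPolynomial.aeval_X, MvPolynomial.eval_X]
    rcases i with _ | i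
    · simp [pt]
    · simp [pt]

/-- the univariate polynomial `s ↦ f (s, 0)` -/
noncomputable def uniP (f : MvPolynomial (Option (Fin n)) ℝ) : Polynomial ℝ :=
  MvPolynomial.aeval (fun o => Option.elim o Polynomial.X (fun _ => 0)) f

theorem eval_uniP (f : MvPolynomial (Option (Fin n)) ℝ) (s : ℝ) :
    (uniP f).eval s = MvPolynomial.eval (pt s) f := by
  unfold uniP
  induction f using MvPolynomial.induction_on with
  | C a => simp
  | add p q hp hq => simp only [map_add, Polynomial.eval_add, hp, hq]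
  | mul_X p i hp =>
    rw [map_mul, map_mul, Polynomial.eval_mul, hp, MvPolynomial.aeval_X, MvPolynomial.eval_X]
    rcases i with _ | i
    · simp [pt]
    · simp [pt]

theorem eval_pt_eq_zero {f : MvPolynomial (Option (Fin n)) ℝ}
    (h : ∀ s ∈ Set.Ioo (0 : ℝ) 1, MvPolynomial.eval (pt s) f = 0) (s : ℝ) :
    MvPolynomial.eval (pt s) f = 0 := by
  have hl : uniP f = 0 := by
    refine Polynomial.eq_zero_of_infinite_isRoot _ ?_
    refine Set.Infinite.mono ?_ (Set.Ioo_infinite (zero_lt_one' ℝ))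
    intro t ht
    show (uniP f).eval t = 0
    rw [eval_uniP]
    exact h t ht
  rw [← eval_uniP, hl, Polynomial.eval_zero]

theorem decomp1 (f : MvPolynomial (Option (Fin n)) ℝ) :
    ∃ g : Fin n → MvPolynomial (Option (Fin n)) ℝ,
      f = sOnly f + ∑ i, MvPolynomial.X (some i) * g i := by
  induction f using MvPolynomial.induction_on with
  | C a => exact ⟨fun _ => 0, by simp only [sOnly, MvPolynomial.aeval_eq_bind₁, MvPolynomial.algHom_C, MvPolynomial.algebraMap_eq, mul_zero, Finset.sum_const_zero, add_zero]⟩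
  | add p q hp hq =>
    obtain ⟨g, hg⟩ := hp
    obtain ⟨g', hg'⟩ := hq
    refine ⟨fun i => g i + g' i, ?_⟩
    have h1 : sOnly (p + q) = sOnly p + sOnly q := by simp [sOnly]
    have h2 : ∑ i : Fin n, (MvPolynomial.X (some i) : MvPolynomial (Option (Fin n)) ℝ) *
        (g i + g' i) = ∑ i, MvPolynomial.X (some i) * g i + ∑ i, MvPolynomial.X (some i) * g' i := by
      rw [← Finset.sum_add_distrib]
      exact Finset.sum_congr rfl fun i _ => mul_add _ _ _
    rw [h1, h2]
    nth_rewrite 1 [hg, hg']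
    ring
  | mul_X p o hp =>
    obtain ⟨g, hg⟩ := hp
    rcases o with _ | k
    · refine ⟨fun i => g i * MvPolynomial.X none, ?_⟩
      have h1 : sOnly (p * MvPolynomial.X none) = sOnly p * MvPolynomial.X none := by
        simp [sOnly]
      rw [h1]
      nth_rewrite 1 [hg]
      rw [add_mul, Finset.sum_mul]
      congr 1
      exact Finset.sum_congr rfl fun i _ => by ring
    · refine ⟨fun i => if i = k then p else 0, ?_⟩
      have h1 : sOnly (p * MvPolynomial.X (some k)) = 0 := by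
        simp [sOnly]
      rw [h1, zero_add]
      simp only [mul_comm, ite_mul, zero_mul, Finset.sum_ite_eq', Finset.mem_univ, ↓reduceIte]

/-- second order expansion along a line -/
theorem taylor_line (p : MvPolynomial (Fin n) ℝ) (z h : Fin n → ℝ) :
    ∃ R : ℝ → ℝ, Continuous R ∧ R 0 = 1 / 2 * dd2 p z h ∧
      ∀ t : ℝ, MvPolynomial.eval (z + t • h) p = MvPolynomial.eval z p + t * dd p z h +
        t ^ 2 * R t := by
  set f := line p z h with hf
  refine ⟨fun t => f.divX.divX.eval t, Polynomial.continuous _, ?_, fun t => ?_⟩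
  · show f.divX.divX.eval 0 = _
    rw [← Polynomial.coeff_zero_eq_eval_zero, Polynomial.coeff_divX, Polynomial.coeff_divX]
    have h1 := Polynomial.coeff_derivative (Polynomial.derivative f) 0
    have h2 := Polynomial.coeff_derivative f 1
    rw [Polynomial.coeff_zero_eq_eval_zero, hf, eval_derivative2_line, zero_smul, add_zero,
      ← dd2_eq_eval, zero_add, h2] at h1
    simp only [Nat.cast_one, Nat.cast_zero, zero_add, mul_one] at h1
    rw [h1]
    norm_num
    ring
  · have h1 := Polynomial.divX_mul_X_add f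
    have h2 := Polynomial.divX_mul_X_add f.divX
    have h3 : f.coeff 0 = MvPolynomial.eval z p := by
      rw [Polynomial.coeff_zero_eq_eval_zero, hf, eval_line, zero_smul, add_zero]
    have h4 : f.divX.coeff 0 = dd p z h := by
      rw [Polynomial.coeff_divX]
      have h5 := Polynomial.coeff_derivative f 0
      rw [Polynomial.coeff_zero_eq_eval_zero, hf, eval_derivative_line, zero_smul, add_zero] at h5
      simpa using h5.symm
    have e1 : f.eval t = f.divX.eval t * t + f.coeff 0 := by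
      conv_lhs => rw [← h1]
      simp
    have e2 : f.divX.eval t = f.divX.divX.eval t * t + f.divX.coeff 0 := by
      conv_lhs => rw [← h2]
      simp
    rw [← eval_line, ← hf, e1, e2, h3, h4]
    ring

theorem coeff_compare {a0 a1 b0 b1 : ℝ} {a2 b2 : ℝ → ℝ} (ha : Continuous a2) (hb : Continuous b2)
    (h : ∀ t : ℝ, a0 + t * a1 + t ^ 2 * a2 t = b0 + t * b1 + t ^ 2 * b2 t) :
    a0 = b0 ∧ a1 = b1 ∧ a2 0 = b2 0 := by
  have h0 : a0 = b0 := by simpa using h 0
  have hne : (𝓝[≠] (0 : ℝ)).NeBot := inferInstance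
  have h1 : a1 = b1 := by
    have l1 : Tendsto (fun t => a1 + t * a2 t) (𝓝[≠] 0) (𝓝 (a1 + 0 * a2 0)) := by
      have : Continuous (fun t => a1 + t * a2 t) := by fun_prop
      exact (this.tendsto 0).mono_left nhdsWithin_le_nhds
    have l2 : Tendsto (fun t => b1 + t * b2 t) (𝓝[≠] 0) (𝓝 (b1 + 0 * b2 0)) := by
      have : Continuous (fun t => b1 + t * b2 t) := by fun_prop
      exact (this.tendsto 0).mono_left nhdsWithin_le_nhds
    rw [zero_mul, add_zero] at l1 l2
    refine tendsto_nhds_unique l1 (l2.congr' ?_)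
    filter_upwards [self_mem_nhdsWithin] with t ht
    have ht' : t ≠ 0 := ht
    have := h t
    have h3 : t * (b1 + t * b2 t) = t * (a1 + t * a2 t) := by linarith only [h0, this]
    exact mul_left_cancel₀ ht' h3
  refine ⟨h0, h1, ?_⟩
  have l1 : Tendsto a2 (𝓝[≠] 0) (𝓝 (a2 0)) := (ha.tendsto 0).mono_left nhdsWithin_le_nhds
  have l2 : Tendsto b2 (𝓝[≠] 0) (𝓝 (b2 0)) := (hb.tendsto 0).mono_left nhdsWithin_le_nhds
  refine tendsto_nhds_unique l1 (l2.congr' ?_)
  filter_upwards [self_mem_nhdsWithin] with t ht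
  have ht' : t ≠ 0 := ht
  have := h t
  have h3 : t ^ 2 * b2 t = t ^ 2 * a2 t := by rw [h0, h1] at this; linarith only [this]
  exact mul_left_cancel₀ (pow_ne_zero 2 ht') h3

theorem aeval_real_eq (q : MvPolynomial (Fin n) ℝ) (v : Fin n → ℝ) :
    MvPolynomial.aeval v q = MvPolynomial.eval v q := rfl

/-- the blow-up polynomial -/
theorem blow_seg (hd : ∃ d, p.IsHomogeneous d) {x1 x2 : Fin n → ℝ} {m1 m2 : ℕ}
    (hm1 : ∀ k < m1, part p x1 k = 0) (hm2 : ∀ k < m2, part p x2 k = 0) :
    ∃ Q : MvPolynomial (Option (Fin n)) ℝ,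
      (∀ w, MvPolynomial.eval (zz x1 x2 w) p =
        w none ^ m1 * (1 - w none) ^ m2 * MvPolynomial.eval w Q) ∧
      (∀ w, w none = 0 → MvPolynomial.eval w Q =
        MvPolynomial.eval (x2 + fun i => w (some i)) (part p x1 m1)) ∧
      (∀ w, w none = 1 → MvPolynomial.eval w Q =
        MvPolynomial.eval (x1 + fun i => w (some i)) (part p x2 m2)) := by
  set X0 : MvPolynomial (Option (Fin n)) ℝ := MvPolynomial.X none with hX0
  set g : Fin n → MvPolynomial (Option (Fin n)) ℝ := fun j => (1 - X0) * MvPolynomial.C (x1 j) +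
    X0 * MvPolynomial.C (x2 j) + X0 * (1 - X0) * MvPolynomial.X (some j) with hg
  set F := MvPolynomial.aeval g p with hF
  have hFe : ∀ w, MvPolynomial.eval w F = MvPolynomial.eval (zz x1 x2 w) p := by
    intro w
    have h1 := MvPolynomial.comp_aeval_apply (φ := (MvPolynomial.aeval w : MvPolynomial
      (Option (Fin n)) ℝ →ₐ[ℝ] ℝ)) (f := g) p
    have h2 : (fun i => MvPolynomial.aeval w (g i)) = zz x1 x2 w := by
      funext j
      simp only [hg, hX0, MvPolynomial.aeval_eq_eval, map_add, map_mul, map_sub, map_one, MvPolynomial.eval_X, MvPolynomial.eval_C, zz]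
    rw [h2] at h1
    exact h1
  set w1 : Fin n → MvPolynomial (Option (Fin n)) ℝ := fun j =>
    MvPolynomial.C (x2 j - x1 j) + (1 - X0) * MvPolynomial.X (some j) with hw1
  set w2 : Fin n → MvPolynomial (Option (Fin n)) ℝ := fun j =>
    MvPolynomial.C (x1 j - x2 j) + X0 * MvPolynomial.X (some j) with hw2
  have hF1 : F = X0 ^ m1 * blR p x1 m1 X0 w1 := by
    rw [← aeval_expand_m hm1, hF]
    congr 2
    funext j
    simp only [hg, hw1, MvPolynomial.algebraMap_eq, MvPolynomial.C_sub]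
    ring
  have hF2 : F = (1 - X0) ^ m2 * blR p x2 m2 (1 - X0) w2 := by
    rw [← aeval_expand_m hm2, hF]
    congr 2
    funext j
    simp only [hg, hw2, MvPolynomial.algebraMap_eq, MvPolynomial.C_sub]
    ring
  have hcop : IsCoprime (X0 ^ m1) ((1 - X0) ^ m2) := by
    apply IsCoprime.pow
    exact ⟨1, 1, by ring⟩
  have hdvd : X0 ^ m1 ∣ blR p x2 m2 (1 - X0) w2 := by
    refine hcop.dvd_of_dvd_mul_left ?_
    rw [← hF2, hF1]
    exact dvd_mul_right _ _
  obtain ⟨Q, hQ⟩ := hdvd
  have hX0ne : X0 ≠ 0 := MvPolynomial.X_ne_zero none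
  have hQ1 : blR p x1 m1 X0 w1 = (1 - X0) ^ m2 * Q := by
    have h1 : X0 ^ m1 * blR p x1 m1 X0 w1 = X0 ^ m1 * ((1 - X0) ^ m2 * Q) := by
      rw [← hF1, hF2, hQ]; ring
    exact mul_left_cancel₀ (pow_ne_zero _ hX0ne) h1
  have hX0e : ∀ w : Option (Fin n) → ℝ, MvPolynomial.eval w X0 = w none := by
    intro w; simp [hX0]
  have hbl : ∀ (z : Fin n → ℝ) (m : ℕ) (c : MvPolynomial (Option (Fin n)) ℝ)
      (v : Fin n → MvPolynomial (Option (Fin n)) ℝ) (w : Option (Fin n) → ℝ),
      MvPolynomial.eval w (blR p z m c v) =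
        blR p z m (MvPolynomial.eval w c) (fun i => MvPolynomial.eval w (v i)) := by
    intro z m c v w
    exact map_blR (MvPolynomial.aeval w : MvPolynomial (Option (Fin n)) ℝ →ₐ[ℝ] ℝ) p z m c v
  refine ⟨Q, fun w => ?_, fun w hw => ?_, fun w hw => ?_⟩
  · rw [← hFe, hF2, hQ, map_mul, map_mul, map_pow, map_pow, map_sub, map_one, hX0e]
    ring
  · have h1 := congrArg (MvPolynomial.eval w) hQ1
    rw [hbl, map_mul, map_pow, map_sub, map_one, hX0e, hw, blR_zero, sub_zero, one_pow,
      one_mul] at h1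
    refine h1.symm.trans ?_
    have h2 : (fun i => MvPolynomial.eval w (w1 i)) = (x2 + fun i => w (some i)) +
        (-1 : ℝ) • x1 := by
      funext j
      simp [hw1, hX0, hw]
      ring
    rw [h2, aeval_real_eq, part_lineality hd hm1]
  · have h1 := congrArg (MvPolynomial.eval w) hQ
    rw [hbl, map_mul, map_pow, map_sub, map_one, hX0e, hw, sub_self, blR_zero, one_pow,
      one_mul] at h1
    refine h1.symm.trans ?_
    have h2 : (fun i => MvPolynomial.eval w (w2 i)) = (x1 + fun i => w (some i)) +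
        (-1 : ℝ) • x2 := by
      funext j
      simp only [hw2, MvPolynomial.C_sub, hX0, map_add, map_sub, MvPolynomial.eval_C, map_mul, MvPolynomial.eval_X, hw, one_mul, neg_smul, one_smul, Pi.add_apply, Pi.neg_apply]
      ring
    rw [h2, aeval_real_eq, part_lineality hd hm2]

theorem dd2_smul (p : MvPolynomial (Fin n) ℝ) (z : Fin n → ℝ) (c : ℝ) (v : Fin n → ℝ) :
    dd2 p z (c • v) = c ^ 2 * dd2 p z v := by
  simp only [dd2, Finset.mul_sum]
  refine Finset.sum_congr rfl fun i _ => Finset.sum_congr rfl fun j _ => ?_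
  simp only [Pi.smul_apply, smul_eq_mul]
  ring

/-- the point `(s, t h)` -/
def wl (s : ℝ) (h : Fin n → ℝ) (t : ℝ) : Option (Fin n) → ℝ := fun o => o.elim s (fun i => t * h i)

/-- properties of the blow-up polynomial `λ(s) ν(ξ) + Σ qᵢⱼ ξᵢ ξⱼ` -/
structure SegPoly (p : MvPolynomial (Fin n) ℝ) (e x1 x2 : Fin n → ℝ) (m1 m2 : ℕ)
    (ν : Fin n → ℝ) (lam : MvPolynomial (Option (Fin n)) ℝ)
    (q : Fin n → Fin n → MvPolynomial (Option (Fin n)) ℝ) : Prop where
  dep : ∀ w, MvPolynomial.eval w lam = MvPolynomial.eval (pt (w none)) lam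
  F : ∀ w, MvPolynomial.eval (zz x1 x2 w) p = w none ^ m1 * (1 - w none) ^ m2 *
    (MvPolynomial.eval w lam * ∑ i, ν i * w (some i) +
      ∑ i, ∑ j, MvPolynomial.eval w (q i j) * w (some i) * w (some j))
  pos : ∀ s ∈ Set.Icc (0 : ℝ) 1, 0 < MvPolynomial.eval (pt s) lam
  int_lam : ∀ s ∈ Set.Ioo (0 : ℝ) 1, s ^ m1 * (1 - s) ^ m2 * MvPolynomial.eval (pt s) lam =
    s * (1 - s) * dd p ((1 - s) • x1 + s • x2) e
  int_q : ∀ s ∈ Set.Ioo (0 : ℝ) 1, ∀ h : Fin n → ℝ, s ^ m1 * (1 - s) ^ m2 *
    qf (fun i j => MvPolynomial.eval (pt s) (q i j)) h =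
      (s * (1 - s)) ^ 2 * (1 / 2 * dd2 p ((1 - s) • x1 + s • x2) h)
  end0 : ∀ h : Fin n → ℝ, qf (fun i j => MvPolynomial.eval (pt 0) (q i j)) h =
    1 / 2 * dd2 (part p x1 m1) x2 h
  end1 : ∀ h : Fin n → ℝ, qf (fun i j => MvPolynomial.eval (pt 1) (q i j)) h =
    1 / 2 * dd2 (part p x2 m2) x1 h

theorem seg_poly (hp : IsHyperbolic p e) {x1 x2 : Fin n → ℝ} {m1 m2 : ℕ} {ν : Fin n → ℝ}
    (hS : Seg p e x1 x2 m1 m2 ν) :
    ∃ lam q, SegPoly p e x1 x2 m1 m2 ν lam q := by
  obtain ⟨Q, hQ, hQ0, hQ1⟩ := blow_seg hp.1 hS.hm1 hS.hm2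
  obtain ⟨g, hg⟩ := decomp1 Q
  choose g2 hg2 using fun i => decomp1 (g i)
  -- expansion of Q
  have hexp : ∀ w, MvPolynomial.eval w Q = MvPolynomial.eval (pt (w none)) Q +
      ∑ i, w (some i) * MvPolynomial.eval (pt (w none)) (g i) +
      ∑ i, ∑ j, MvPolynomial.eval w (g2 i j) * w (some i) * w (some j) := by
    intro w
    have h1 : MvPolynomial.eval w Q = MvPolynomial.eval (pt (w none)) Q +
        ∑ i, w (some i) * MvPolynomial.eval w (g i) := by
      conv_lhs => rw [hg]
      rw [map_add, eval_sOnly, map_sum]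
      congr 1
      refine Finset.sum_congr rfl fun i _ => ?_
      rw [map_mul, MvPolynomial.eval_X]
    have h2 : ∀ i, MvPolynomial.eval w (g i) = MvPolynomial.eval (pt (w none)) (g i) +
        ∑ j, w (some j) * MvPolynomial.eval w (g2 i j) := by
      intro i
      conv_lhs => rw [hg2 i]
      rw [map_add, eval_sOnly, map_sum]
      congr 1
      refine Finset.sum_congr rfl fun j _ => ?_
      rw [map_mul, MvPolynomial.eval_X]
    rw [h1, add_assoc, ← Finset.sum_add_distrib]
    congr 1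
    refine Finset.sum_congr rfl fun i _ => ?_
    rw [h2, mul_add, Finset.mul_sum]
    congr 1
    refine Finset.sum_congr rfl fun j _ => ?_
    ring
  set L : Fin n → ℝ → ℝ := fun i s => MvPolynomial.eval (pt s) (g i) with hL
  have hwl0 : ∀ s h t, wl (n := n) s h t none = s := fun _ _ _ => rfl
  have hwl1 : ∀ s h t i, wl (n := n) s h t (some i) = t * h i := fun _ _ _ _ => rfl
  have hwlc : ∀ s h, Continuous (fun t => wl (n := n) s h t) := by
    intro s h
    refine continuous_pi fun o => ?_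
    rcases o with _ | i
    · exact continuous_const
    · exact continuous_id.mul continuous_const
  have hwl00 : ∀ s h, wl (n := n) s h 0 = pt s := by
    intro s h
    funext o
    rcases o with _ | i
    · rfl
    · simp [wl, pt]
  set A2 : ℝ → (Fin n → ℝ) → ℝ → ℝ := fun s h t =>
    ∑ i, ∑ j, MvPolynomial.eval (wl s h t) (g2 i j) * h i * h j with hA2
  have hA2c : ∀ s h, Continuous (A2 s h) := by
    intro s h
    refine continuous_finsetSum _ fun i _ => continuous_finsetSum _ fun j _ => ?_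
    exact (((MvPolynomial.continuous_eval (g2 i j)).comp (hwlc s h)).mul
      continuous_const).mul continuous_const
  have hA20 : ∀ s h, A2 s h 0 = qf (fun i j => MvPolynomial.eval (pt s) (g2 i j)) h := by
    intro s h
    simp only [hA2, hwl00, qf]
  have hQl : ∀ s h t, MvPolynomial.eval (wl s h t) Q = MvPolynomial.eval (pt s) Q +
      t * (∑ i, h i * L i s) + t ^ 2 * A2 s h t := by
    intro s h t
    rw [hexp, hwl0]
    simp only [hwl1, hA2, Finset.mul_sum]
    congr 1
    · congr 1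
      refine Finset.sum_congr rfl fun i _ => ?_
      simp only [hL]; ring
    · refine Finset.sum_congr rfl fun i _ => Finset.sum_congr rfl fun j _ => ?_
      ring
  have hzl : ∀ s h t, zz x1 x2 (wl s h t) = ((1 - s) • x1 + s • x2) + t • ((s * (1 - s)) • h) := by
    intro s h t
    funext j
    simp only [zz, hwl0, hwl1, Pi.add_apply, Pi.smul_apply, smul_eq_mul]
    ring
  -- interior values
  have hint : ∀ s ∈ Set.Ioo (0 : ℝ) 1, ∀ h : Fin n → ℝ,
      s ^ m1 * (1 - s) ^ m2 * MvPolynomial.eval (pt s) Q = 0 ∧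
      s ^ m1 * (1 - s) ^ m2 * (∑ i, h i * L i s) =
        s * (1 - s) * dd p ((1 - s) • x1 + s • x2) h ∧
      s ^ m1 * (1 - s) ^ m2 * qf (fun i j => MvPolynomial.eval (pt s) (g2 i j)) h =
        (s * (1 - s)) ^ 2 * (1 / 2 * dd2 p ((1 - s) • x1 + s • x2) h) := by
    intro s hs h
    obtain ⟨R, hRc, hR0, hR⟩ := taylor_line p ((1 - s) • x1 + s • x2) ((s * (1 - s)) • h)
    have h0 : MvPolynomial.eval ((1 - s) • x1 + s • x2) p = 0 := hS.zero _ _
    have hcmp := coeff_compare (a0 := s ^ m1 * (1 - s) ^ m2 * MvPolynomial.eval (pt s) Q)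
      (a1 := s ^ m1 * (1 - s) ^ m2 * (∑ i, h i * L i s))
      (a2 := fun t => s ^ m1 * (1 - s) ^ m2 * A2 s h t)
      (b0 := MvPolynomial.eval ((1 - s) • x1 + s • x2) p)
      (b1 := dd p ((1 - s) • x1 + s • x2) ((s * (1 - s)) • h)) (b2 := R)
      (continuous_const.mul (hA2c s h)) hRc (by
        intro t
        rw [← hR t, ← hzl, hQ, hwl0, hQl]
        ring)
    obtain ⟨c0, c1, c2⟩ := hcmp
    refine ⟨by rw [c0, h0], ?_, ?_⟩
    · rw [c1, dd_smul]
    · rw [hR0, dd2_smul, hA20] at c2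
      rw [c2]; ring
  have hPne : ∀ s ∈ Set.Ioo (0 : ℝ) 1, s ^ m1 * (1 - s) ^ m2 ≠ 0 := by
    intro s hs
    have h1 : (0 : ℝ) < s := hs.1
    have h2 : (0 : ℝ) < 1 - s := by linarith [hs.2]
    (clear * - h1 h2; positivity)
  have hQz : ∀ s, MvPolynomial.eval (pt s) Q = 0 := eval_pt_eq_zero (fun s hs =>
    (mul_eq_zero.1 (hint s hs 0).1).resolve_left (hPne s hs))
  set lam : MvPolynomial (Option (Fin n)) ℝ := ∑ i, MvPolynomial.C (e i) * sOnly (g i) with hlam
  have hlame : ∀ w, MvPolynomial.eval w lam = ∑ i, e i * L i (w none) := by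
    intro w
    rw [hlam, map_sum]
    refine Finset.sum_congr rfl fun i _ => ?_
    rw [map_mul, MvPolynomial.eval_C, eval_sOnly]
  have hptn : ∀ s : ℝ, (pt s : Option (Fin n) → ℝ) none = s := fun _ => rfl
  -- `ν e = 1`
  have hνe : ∑ i, ν i * e i = 1 := by
    have h1 := hS.grad 1 1 one_pos one_pos e
    have h2 := hS.smooth 1 1 one_pos one_pos
    field_simp at h1
    exact h1.symm
  have hLν : ∀ i s, L i s = MvPolynomial.eval (pt s) lam * ν i := by
    intro i s
    have h1 := eval_pt_eq_zero (f := g i - lam * MvPolynomial.C (ν i)) (fun s hs => by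
      rw [map_sub, map_mul, MvPolynomial.eval_C, hlame, hptn]
      have a1 := (hint s hs (Pi.single i 1)).2.1
      have a2 := (hint s hs e).2.1
      have a3 : ∑ j, (Pi.single i 1 : Fin n → ℝ) j * L j s = L i s := by
        rw [Finset.sum_eq_single i]
        · simp
        · intro j _ hj; simp [hj]
        · intro h; exact absurd (Finset.mem_univ i) h
      have hs1 : (0 : ℝ) < 1 - s := by linarith only [hs.2]
      have a4 := hS.grad (1 - s) s hs1 hs.1 (Pi.single i 1)
      have a5 : ∑ j, ν j * (Pi.single i 1 : Fin n → ℝ) j = ν i := by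
        rw [Finset.sum_eq_single i]
        · simp
        · intro j _ hj; simp [hj]
        · intro h; exact absurd (Finset.mem_univ i) h
      rw [a3] at a1
      rw [a5] at a4
      rw [a4] at a1
      have a6 : s ^ m1 * (1 - s) ^ m2 * (MvPolynomial.eval (pt s) (g i) -
          (∑ i, e i * L i s) * ν i) = 0 := by
        have : MvPolynomial.eval (pt s) (g i) = L i s := rfl
        rw [this, mul_sub, a1]
        linear_combination (-(ν i)) * a2
      exact (mul_eq_zero.1 a6).resolve_left (hPne s hs)) s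
    rw [map_sub, map_mul, MvPolynomial.eval_C] at h1
    simp only [hL]
    linarith only [h1]
  -- ends
  have hend : ∀ (s : ℝ) (q : MvPolynomial (Fin n) ℝ) (y : Fin n → ℝ),
      (∀ w, w none = s → MvPolynomial.eval w Q = MvPolynomial.eval (y + fun i => w (some i)) q) →
      ∀ h : Fin n → ℝ, (∑ i, h i * L i s) = dd q y h ∧
        qf (fun i j => MvPolynomial.eval (pt s) (g2 i j)) h = 1 / 2 * dd2 q y h := by
    intro s q y hq h
    obtain ⟨R, hRc, hR0, hR⟩ := taylor_line q y h
    have hcmp := coeff_compare (a0 := MvPolynomial.eval (pt s) Q)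
      (a1 := (∑ i, h i * L i s)) (a2 := A2 s h) (b0 := MvPolynomial.eval y q)
      (b1 := dd q y h) (b2 := R) (hA2c s h) hRc (by
        intro t
        rw [← hR t, ← hQl, hq _ (hwl0 s h t)]
        rfl)
    obtain ⟨_, c1, c2⟩ := hcmp
    exact ⟨c1, by rw [← hA20, c2, hR0]⟩
  refine ⟨lam, g2, ⟨fun w => by rw [hlame, hlame, hptn], fun w => ?_, fun s hs => ?_,
    fun s hs => ?_, fun s hs h => (hint s hs h).2.2, fun h => (hend 0 _ _ hQ0 h).2,
    fun h => (hend 1 _ _ hQ1 h).2⟩⟩
  · rw [hQ, hexp, hQz, zero_add]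
    congr 2
    rw [Finset.mul_sum]
    refine Finset.sum_congr rfl fun i _ => ?_
    have := hLν i (w none)
    simp only [hL] at this
    rw [this, hlame w, hlame (pt (w none)), hptn]
    ring
  · rw [hlame, hptn]
    rcases eq_or_lt_of_le hs.1 with h0 | h0
    · rw [← h0, (hend 0 _ _ hQ0 e).1]
      exact hS.s1
    rcases eq_or_lt_of_le hs.2 with h1 | h1
    · rw [h1, (hend 1 _ _ hQ1 e).1]
      exact hS.s2
    have h2 : (0 : ℝ) < 1 - s := by linarith
    have h3 := (hint s ⟨h0, h1⟩ e).2.1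
    have h4 := hS.smooth (1 - s) s h2 h0
    have h5 : 0 < s ^ m1 * (1 - s) ^ m2 := by (clear * - h0 h1; positivity)
    have h6 : 0 < s ^ m1 * (1 - s) ^ m2 * ∑ i, e i * L i s := by
      rw [h3]; (clear * - h0 h1 h4; positivity)
    exact (mul_pos_iff_of_pos_left h5).1 h6
  · rw [hlame, hptn]
    exact (hint s hs e).2.1

end Vale.Agent.P256
end

section

/-! Positivity of the leading form along a segment. -/

namespace Vale.Agent.P256

open Filter Topology

variable {n : ℕ} {p : MvPolynomial (Fin n) ℝ} {e : Fin n → ℝ}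

theorem hasDerivAt_eval_comp {σ : Type*} [Fintype σ] [DecidableEq σ] (f : MvPolynomial σ ℝ)
    {γ : ℝ → σ → ℝ} {γ' : σ → ℝ} {t0 : ℝ} (h : ∀ i, HasDerivAt (fun t => γ t i) (γ' i) t0) :
    HasDerivAt (fun t => MvPolynomial.eval (γ t) f)
      (∑ i, γ' i * MvPolynomial.eval (γ t0) (MvPolynomial.pderiv i f)) t0 := by
  induction f using MvPolynomial.induction_on with
  | C a => simpa only [MvPolynomial.eval_C, MvPolynomial.derivation_C, map_zero, mul_zero, Finset.sum_const_zero] using     hasDerivAt_const t0 a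
  | add p q hp hq =>
    have h1 := hp.add hq
    refine (h1.congr_deriv ?_).congr_of_eventuallyEq (Eventually.of_forall fun t => ?_)
    · rw [← Finset.sum_add_distrib]
      refine Finset.sum_congr rfl fun i _ => ?_
      rw [map_add, map_add]; ring
    · simp
  | mul_X p k hp =>
    have h1 := hp.mul (h k)
    refine (h1.congr_deriv ?_).congr_of_eventuallyEq (Eventually.of_forall fun t => ?_)
    · rw [Finset.sum_mul]
      have h2 : ∀ i, γ' i * MvPolynomial.eval (γ t0)
          (MvPolynomial.pderiv i (p * MvPolynomial.X k)) =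
          γ' i * MvPolynomial.eval (γ t0) (MvPolynomial.pderiv i p) * γ t0 k +
          (if i = k then MvPolynomial.eval (γ t0) p * γ' k else 0) := by
        intro i
        rw [Derivation.leibniz, MvPolynomial.pderiv_X]
        by_cases hik : i = k
        · subst hik
          simp
          ring
        · have : (Pi.single i (1 : MvPolynomial σ ℝ) : σ → MvPolynomial σ ℝ) k = 0 :=
            Pi.single_eq_of_ne (Ne.symm hik) _
          simp only [ne_eq, Ne.symm hik, not_false_eq_true, Pi.single_eq_of_ne, smul_eq_mul, mul_zero, zero_add, map_mul, MvPolynomial.eval_X, hik, ↓reduceIte, add_zero]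
          ring
      rw [Finset.sum_congr rfl (fun i _ => h2 i), Finset.sum_add_distrib]
      simp only [Finset.sum_ite_eq', Finset.mem_univ, ↓reduceIte]
    · simp only [map_mul, MvPolynomial.eval_X, Pi.mul_apply]

theorem hasDerivAt_eval_pt (f : MvPolynomial (Option (Fin n)) ℝ) (s : ℝ) :
    HasDerivAt (fun s => MvPolynomial.eval (pt s) f)
      (MvPolynomial.eval (pt s) (MvPolynomial.pderiv none f)) s := by
  have h1 := hasDerivAt_eval_comp f (γ := fun s => (pt s : Option (Fin n) → ℝ))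
    (γ' := fun o => o.elim 1 (fun _ => 0)) (t0 := s) (by
      intro o
      rcases o with _ | i
      · exact hasDerivAt_id s
      · exact hasDerivAt_const s (0 : ℝ))
  refine h1.congr_deriv ?_
  rw [Fintype.sum_option]
  simp only [Option.elim_none, one_mul, Option.elim_some, zero_mul, Finset.sum_const_zero, add_zero]

/-- `nᵢⱼ` -/
noncomputable def snn (lam : MvPolynomial (Option (Fin n)) ℝ)
    (q : Fin n → Fin n → MvPolynomial (Option (Fin n)) ℝ) (i j : Fin n)
    (w : Option (Fin n) → ℝ) : ℝ :=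
  MvPolynomial.eval w (-q i j) * (MvPolynomial.eval w lam)⁻¹

/-- the partial derivatives of `nᵢⱼ` -/
noncomputable def sdn (lam : MvPolynomial (Option (Fin n)) ℝ)
    (q : Fin n → Fin n → MvPolynomial (Option (Fin n)) ℝ) (i j : Fin n) (o : Option (Fin n))
    (w : Option (Fin n) → ℝ) : ℝ :=
  (MvPolynomial.eval w lam)⁻¹ * MvPolynomial.eval w (MvPolynomial.pderiv o (-q i j)) +
    MvPolynomial.eval w (-q i j) * (-((MvPolynomial.eval w lam)⁻¹ * (MvPolynomial.eval w lam)⁻¹ *
      MvPolynomial.eval w (MvPolynomial.pderiv o lam)))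

theorem snn_T2 (lam : MvPolynomial (Option (Fin n)) ℝ)
    (q : Fin n → Fin n → MvPolynomial (Option (Fin n)) ℝ) (i j : Fin n) :
    T2 {w | MvPolynomial.eval w lam ≠ 0} (snn lam q i j) (sdn lam q i j) :=
  (T2.poly (-q i j)).mul ((T2.poly lam).inv (fun _ hw => hw))

theorem hasDerivAt_snn {lam : MvPolynomial (Option (Fin n)) ℝ}
    (q : Fin n → Fin n → MvPolynomial (Option (Fin n)) ℝ) (i j : Fin n) {s : ℝ}
    (hs : MvPolynomial.eval (pt s) lam ≠ 0) :
    HasDerivAt (fun s => snn lam q i j (pt s)) (sdn lam q i j none (pt s)) s := by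
  have h1 := (hasDerivAt_eval_pt (-q i j) s).mul ((hasDerivAt_eval_pt lam s).inv hs)
  refine h1.congr_deriv ?_
  simp only [sdn, Pi.inv_apply]
  field_simp

theorem qf_eq_bil (m : Fin n → Fin n → ℝ) (h : Fin n → ℝ) : qf m h = bil m h h := rfl

theorem bil_polar (m : Fin n → Fin n → ℝ) (x y : Fin n → ℝ) :
    bil m x y + bil m y x = qf m (x + y) - qf m x - qf m y := by
  simp only [bil, qf, ← Finset.sum_add_distrib, ← Finset.sum_sub_distrib]
  refine Finset.sum_congr rfl fun i _ => Finset.sum_congr rfl fun j _ => ?_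
  simp only [Pi.add_apply]
  ring

theorem qf_comb (m : Fin n → Fin n → ℝ) (x y : Fin n → ℝ) (a b : ℝ) :
    qf m (a • x - b • y) = a ^ 2 * qf m x + b ^ 2 * qf m y -
      a * b * (qf m (x + y) - qf m x - qf m y) := by
  simp only [qf, Finset.mul_sum, ← Finset.sum_add_distrib, ← Finset.sum_sub_distrib]
  refine Finset.sum_congr rfl fun i _ => Finset.sum_congr rfl fun j _ => ?_
  simp only [Pi.add_apply, Pi.sub_apply, Pi.smul_apply, smul_eq_mul]
  ring

/-- the derivative of `s (1 - s) / (A (1 - s) + B s)` -/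
theorem hasDerivAt_rr {A B s : ℝ} (h : A * (1 - s) + B * s ≠ 0) :
    HasDerivAt (fun s => s * (1 - s) / (A * (1 - s) + B * s))
      (((1 - 2 * s) * (A * (1 - s) + B * s) - s * (1 - s) * (B - A)) /
        (A * (1 - s) + B * s) ^ 2) s := by
  have h1 : HasDerivAt (fun s : ℝ => s * (1 - s)) (1 - 2 * s) s := by
    have := (hasDerivAt_id s).mul ((hasDerivAt_id s).const_sub 1)
    refine this.congr_deriv ?_
    simp; ring
  have h2 : HasDerivAt (fun s : ℝ => A * (1 - s) + B * s) (B - A) s := by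
    have := (((hasDerivAt_id s).const_sub 1).const_mul A).add ((hasDerivAt_id s).const_mul B)
    refine this.congr_deriv ?_
    simp; ring
  exact h1.div h2 h

/-- the elementary identity behind positivity -/
theorem lead_rr {A B s s' C C' P : ℝ} (h : A * (1 - s) + B * s ≠ 0)
    (h' : A * (1 - s') + B * s' ≠ 0) :
    (s - s') ^ 2 * ((s' * (1 - s') / (A * (1 - s') + B * s')) * C' - (s + s' - 1) *
      ((((1 - 2 * s') * (A * (1 - s') + B * s') - s' * (1 - s') * (B - A)) /
        (A * (1 - s') + B * s') ^ 2) * C')) +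
    s * (1 - s) * ((s * (1 - s) / (A * (1 - s) + B * s)) * C +
      (s' * (1 - s') / (A * (1 - s') + B * s')) * C' -
      (s' * (1 - s') / (A * (1 - s') + B * s')) * P -
      (s - s') * ((((1 - 2 * s') * (A * (1 - s') + B * s') - s' * (1 - s') * (B - A)) /
        (A * (1 - s') + B * s') ^ 2) * C')) =
    (A * (1 - s) + B * s) * ((s * (1 - s) / (A * (1 - s) + B * s)) ^ 2 * C +
      (s' * (1 - s') / (A * (1 - s') + B * s')) ^ 2 * C' -
      (s * (1 - s) / (A * (1 - s) + B * s)) * (s' * (1 - s') / (A * (1 - s') + B * s')) * P) := by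
  have hrel : A * (1 - s) + B * s = (A * (1 - s') + B * s') + (B - A) * (s - s') := by ring
  generalize hl' : A * (1 - s') + B * s' = l' at *
  generalize hl : A * (1 - s) + B * s = l at *
  generalize B - A = D at *
  have h1 : s * (1 - s) / l * l = s * (1 - s) := div_mul_cancel₀ _ h
  have k1 : s * (1 - s) * ((s * (1 - s) / l) * C) = l * ((s * (1 - s) / l) ^ 2 * C) := by
    (clear * - h; field_simp)
  have k2 : s * (1 - s) * ((s' * (1 - s') / l') * P) =
      l * ((s * (1 - s) / l) * (s' * (1 - s') / l') * P) := by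
    (clear * - h h'; field_simp)
  have k3 : (s - s') ^ 2 * ((s' * (1 - s') / l') - (s + s' - 1) *
      (((1 - 2 * s') * l' - s' * (1 - s') * D) / l' ^ 2)) +
      s * (1 - s) * ((s' * (1 - s') / l') - (s - s') *
      (((1 - 2 * s') * l' - s' * (1 - s') * D) / l' ^ 2)) = l * (s' * (1 - s') / l') ^ 2 := by
    rw [hrel]
    field_simp
    ring
  linear_combination k1 - k2 + C' * k3

/-- the constraint space -/
def Wsp (x1 x2 ν : Fin n → ℝ) : Set (Fin n → ℝ) :=
  {h | ∑ i, ν i * h i = 0 ∧ ∑ i, x1 i * h i = 0 ∧ ∑ i, x2 i * h i = 0}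

theorem hasDerivAt_qf {m m' : Fin n → Fin n → ℝ → ℝ} {s : ℝ} (h : Fin n → ℝ)
    (H : ∀ i j, HasDerivAt (m i j) (m' i j s) s) :
    HasDerivAt (fun s => qf (fun i j => m i j s) h) (qf (fun i j => m' i j s) h) s := by
  unfold qf
  refine HasDerivAt.fun_sum fun i _ => HasDerivAt.fun_sum fun j _ => ?_
  exact ((H i j).mul_const _).mul_const _

theorem qf_snn {lam : MvPolynomial (Option (Fin n)) ℝ}
    {q : Fin n → Fin n → MvPolynomial (Option (Fin n)) ℝ} (w : Option (Fin n) → ℝ)
    (h : Fin n → ℝ) : qf (fun i j => snn lam q i j w) h =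
      -(qf (fun i j => MvPolynomial.eval w (q i j)) h) / MvPolynomial.eval w lam := by
  rw [neg_div, div_eq_mul_inv, ← neg_mul, neg_mul, mul_comm, ← neg_mul, ← qf_smul]
  congr 1
  funext i j
  simp only [snn, map_neg]
  ring

theorem seg_deg {x1 x2 : Fin n → ℝ} {m1 m2 : ℕ} {ν : Fin n → ℝ} (hS : Seg p e x1 x2 m1 m2 ν) {d : ℕ} (hd : p.IsHomogeneous d) : 2 ≤ d := by
  have h1 : (line p x1 e).coeff m1 ≠ 0 := by rw [coeff_line]; exact hS.he1.ne'
  have h2 := Polynomial.le_natDegree_of_ne_zero h1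
  have h3 := (line_top hd x1 e).1
  have := hS.m1two
  omega

theorem seg_rep (hp : IsHyperbolic p e) {x1 x2 : Fin n → ℝ} {m1 m2 : ℕ} {ν : Fin n → ℝ}
    {lam : MvPolynomial (Option (Fin n)) ℝ}
    {q : Fin n → Fin n → MvPolynomial (Option (Fin n)) ℝ}
    (hS : Seg p e x1 x2 m1 m2 ν) (hP : SegPoly p e x1 x2 m1 m2 ν lam q) :
    ∃ (S : Finset ℝ) (κ c0 : Fin n → Fin n → ℝ) (c : ℝ → Fin n → Fin n → ℝ), (∀ a ∈ S, a < 0) ∧
      (∀ a ∈ S, ∀ h ∈ Wsp x1 x2 ν, 0 ≤ qf (c a) h) ∧ ∀ h ∈ Wsp x1 x2 ν,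
      ∀ s ∈ Set.Ioo (0 : ℝ) 1, qf (fun i j => snn lam q i j (pt s)) h =
        qf κ h * (1 - s) + qf c0 h * s +
          ∑ a ∈ S, qf (c a) h * (s * (1 - s) / (1 * (1 - s) + (-a) * s)) := by
  obtain ⟨d, hd⟩ := hp.1
  have hd2 := seg_deg hS hd
  set Λ := line (dirD p e) x2 x1 with hΛ
  set Nm : Fin n → Fin n → Polynomial ℝ := fun i j => Polynomial.C (-(1 / 2)) *
    line (MvPolynomial.pderiv i (MvPolynomial.pderiv j p)) x2 x1 with hNm
  have hΛe : ∀ u, Λ.eval u = dd p (x2 + u • x1) e := by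
    intro u; rw [hΛ, eval_line, eval_dirD]
  have hNe : ∀ h u, (qp Nm h).eval u = -(1 / 2) * dd2 p (x2 + u • x1) h := by
    intro h u
    rw [eval_qp]
    simp only [hNm, Polynomial.eval_mul, Polynomial.eval_C, eval_line]
    rw [qf_smul]
    congr 1
    simp only [qf, dd2]
    refine Finset.sum_congr rfl fun i _ => Finset.sum_congr rfl fun j _ => ?_
    ring
  have hNq : ∀ h, qp Nm h = Polynomial.C (-(1 / 2)) * line (dirD (dirD p h) h) x2 x1 := by
    intro h
    refine Polynomial.funext fun u => ?_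
    rw [hNe, Polynomial.eval_mul, Polynomial.eval_C, eval_line, eval_dirD, dd2_eq_eval]
  -- the change of variables
  have hrel : ∀ s ∈ Set.Ioo (0 : ℝ) 1, ∀ h, qf (fun i j => snn lam q i j (pt s)) h =
      (1 - s) * ((qp Nm h).eval ((1 - s) / s) / Λ.eval ((1 - s) / s)) := by
    intro s hs h
    have hs0 : 0 < s := hs.1
    have hs1 : 0 < 1 - s := by linarith only [hs.2]
    have hz : (1 - s) • x1 + s • x2 = s • (x2 + ((1 - s) / s) • x1) := by
      rw [smul_add, smul_smul, mul_div_cancel₀ _ hs0.ne', add_comm]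
    have e1 := hP.int_lam s hs
    have e2 := hP.int_q s hs h
    have e3 : dd p ((1 - s) • x1 + s • x2) e = s ^ (d - 1) * Λ.eval ((1 - s) / s) := by
      rw [hz, dd_smul_left hd, hΛe]
    have e4 : dd2 p ((1 - s) • x1 + s • x2) h = s ^ (d - 1 - 1) *
        dd2 p (x2 + ((1 - s) / s) • x1) h := by
      rw [hz, dd2_eq_eval, dd_smul_left (homog_dirD hd h), dd2_eq_eval]
    rw [e3] at e1
    rw [e4] at e2
    have hΛpos : 0 < Λ.eval ((1 - s) / s) := by
      rw [hΛe]
      have := hS.smooth ((1 - s) / s) 1 (by (clear * - hs1 hs0; positivity)) one_pos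
      rwa [one_smul, add_comm] at this
    have hlpos := hP.pos s ⟨hs0.le, by linarith only [hs1]⟩
    rw [qf_snn, hNe]
    set P := s ^ m1 * (1 - s) ^ m2 with hPd
    have hPpos : 0 < P := by (clear * - hs0 hs1; positivity)
    set D2 := dd2 p (x2 + ((1 - s) / s) • x1) h with hD2
    set l := MvPolynomial.eval (pt s) lam with hl
    set Qv := qf (fun i j => MvPolynomial.eval (pt s) (q i j)) h with hQv
    have hsp : s ^ (d - 1) = s * s ^ (d - 1 - 1) := by
      rw [← pow_succ']
      congr 1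
      omega
    rw [hsp] at e1
    set σ := s ^ (d - 1 - 1) with hσ
    have hσpos : 0 < σ := by positivity
    rw [div_eq_iff hlpos.ne']
    have e5 : P * (Qv * (Λ.eval ((1 - s) / s))) =
        P * ((1 - s) * (1 / 2 * D2) * l) := by
      have : P * (Qv * (Λ.eval ((1 - s) / s))) =
        (P * Qv) * (Λ.eval ((1 - s) / s)) := by ring
      rw [this, e2]
      have h6 : P * ((1 - s) * (1 / 2 * D2) * l) = (1 - s) * (1 / 2 * D2) * (P * l) := by ring
      rw [h6, e1]
      ring
    have e6 := mul_left_cancel₀ hPpos.ne' e5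
    field_simp
    linear_combination (-2) * e6
  have hΛne : Λ ≠ 0 := by
    intro h0
    have h1 := hS.smooth 1 1 one_pos one_pos
    have h2 := hΛe 1
    rw [h0, Polynomial.eval_zero, one_smul, add_comm] at h2
    rw [one_smul, one_smul, ← h2] at h1
    exact lt_irrefl _ h1
  have hl0 : line p x2 x1 = 0 := by
    refine Polynomial.funext fun u => ?_
    rw [eval_line, Polynomial.eval_zero]
    have := hS.zero u 1
    rwa [one_smul, add_comm] at this
  have hl1 : ∀ h ∈ Wsp x1 x2 ν, line (dirD p h) x2 x1 = 0 := by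
    intro h hh
    refine Polynomial.eq_zero_of_infinite_isRoot _ ?_
    refine Set.Infinite.mono ?_ (Set.Ioi_infinite (0 : ℝ))
    intro t ht
    show (line (dirD p h) x2 x1).eval t = 0
    rw [eval_line, eval_dirD]
    have := hS.grad t 1 ht one_pos h
    rw [hh.1, mul_zero, one_smul, add_comm] at this
    exact this
  -- continuity at the ends
  have hcont : ∀ s ∈ Set.Icc (0 : ℝ) 1, ∀ h, ContinuousAt
      (fun s => qf (fun i j => snn lam q i j (pt s)) h) s := by
    intro s hs h
    exact (hasDerivAt_qf (m := fun i j s => snn lam q i j (pt s))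
      (m' := fun i j s => sdn lam q i j none (pt s)) h
      (fun i j => hasDerivAt_snn q i j (hP.pos s hs).ne')).continuousAt
  have hdeg : ∀ h ∈ Wsp x1 x2 ν, (qp Nm h).natDegree ≤ Λ.natDegree := by
    intro h hh
    by_contra hlt
    have h1 := Polynomial.abs_div_tendsto_atTop_atTop_of_degree_gt (qp Nm h) Λ
      (Polynomial.degree_lt_degree (not_le.1 hlt)) hΛne
    have h2 : Tendsto (fun u : ℝ => (1 + u)⁻¹) atTop (𝓝 0) :=
      tendsto_inv_atTop_zero.comp (tendsto_atTop_add_const_left _ _ tendsto_id)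
    have h3 : Tendsto (fun u : ℝ => |qf (fun i j => snn lam q i j (pt ((1 + u)⁻¹))) h *
        (1 - (1 + u)⁻¹)⁻¹|) atTop (𝓝 (|qf (fun i j => snn lam q i j (pt 0)) h * (1 - 0)⁻¹|)) := by
      refine Tendsto.abs (Tendsto.mul ?_ ?_)
      · exact (hcont 0 ⟨le_rfl, zero_le_one⟩ h).tendsto.comp h2
      · exact (tendsto_const_nhds.sub h2).inv₀ (by norm_num)
    refine not_tendsto_nhds_of_tendsto_atTop h1 _ (h3.congr' ?_)
    filter_upwards [eventually_gt_atTop (0 : ℝ)] with u hu
    have hs : (1 + u)⁻¹ ∈ Set.Ioo (0 : ℝ) 1 := by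
      refine ⟨by positivity, inv_lt_one_of_one_lt₀ (by linarith only [hu])⟩
    have h4 : (1 - (1 + u)⁻¹) / (1 + u)⁻¹ = u := by field_simp; ring
    have h5 : (1 - (1 + u)⁻¹) ≠ 0 := by linarith only [hs.2]
    rw [hrel _ hs, h4]
    congr 1
    rw [mul_comm (1 - (1 + u)⁻¹), mul_assoc, mul_inv_cancel₀ h5, mul_one]
  have hpick : ∀ h ∈ Wsp x1 x2 ν, PickNeg (qp Nm h) Λ := by
    intro h hh
    have hdh := hdeg h hh
    rw [hNq] at hdh ⊢
    exact pick_of_seg hp hS.K1 hl0 (hl1 h hh) hΛne hdh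
  have hroots : ∀ a ∈ Λ.roots, a ≤ 0 := by
    intro a ha
    by_contra hlt
    rw [not_le] at hlt
    have h1 := (Polynomial.mem_roots hΛne).1 ha
    have h2 := hS.smooth a 1 hlt one_pos
    rw [one_smul, add_comm, ← hΛe] at h2
    rw [Polynomial.IsRoot.def] at h1
    rw [h1] at h2
    exact lt_irrefl _ h2
  obtain ⟨S, κ, c0, c, hS0, hc, hrep⟩ := pf (splits_lam hp hS.K1 hl0) hΛne hroots hpick hdeg
  refine ⟨S, κ, c0, c, hS0, hc, fun h hh s hs => ?_⟩
  have hs0 : 0 < s := hs.1
  have hs1 : 0 < 1 - s := by linarith only [hs.2]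
  rw [hrel s hs, hrep h hh _ (by (clear * - hs1 hs0; positivity)), mul_add, mul_add, Finset.mul_sum]
  congr 1
  · congr 1
    · ring
    · (clear * - hs1 hs0; field_simp)
  · refine Finset.sum_congr rfl fun a ha => ?_
    have ha' := hS0 a ha
    have h1 : 0 < (1 - s) / s - a := by
      have : 0 < (1 - s) / s := by (clear * - hs1 hs0; positivity)
      linarith only [ha', this]
    have h2 : 1 * (1 - s) + (-a) * s = s * ((1 - s) / s - a) := by
      field_simp; ring
    rw [h2]
    (clear * - hs0 hs1; field_simp)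

theorem Wsp_add {x1 x2 ν h h' : Fin n → ℝ} (hh : h ∈ Wsp x1 x2 ν) (hh' : h' ∈ Wsp x1 x2 ν) :
    h + h' ∈ Wsp x1 x2 ν := by
  have key : ∀ k : Fin n → ℝ, ∑ i, k i * (h + h') i = ∑ i, k i * h i + ∑ i, k i * h' i := by
    intro k
    rw [← Finset.sum_add_distrib]
    exact Finset.sum_congr rfl fun i _ => by rw [Pi.add_apply]; ring
  exact ⟨by rw [key, hh.1, hh'.1, add_zero], by rw [key, hh.2.1, hh'.2.1, add_zero],
    by rw [key, hh.2.2, hh'.2.2, add_zero]⟩

theorem Wsp_comb {x1 x2 ν h h' : Fin n → ℝ} (hh : h ∈ Wsp x1 x2 ν) (hh' : h' ∈ Wsp x1 x2 ν)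
    (a b : ℝ) : a • h - b • h' ∈ Wsp x1 x2 ν := by
  have key : ∀ k : Fin n → ℝ, ∑ i, k i * (a • h - b • h') i =
      a * ∑ i, k i * h i - b * ∑ i, k i * h' i := by
    intro k
    rw [Finset.mul_sum, Finset.mul_sum, ← Finset.sum_sub_distrib]
    refine Finset.sum_congr rfl fun i _ => ?_
    simp only [Pi.sub_apply, Pi.smul_apply, smul_eq_mul]
    ring
  exact ⟨by rw [key, hh.1, hh'.1]; ring, by rw [key, hh.2.1, hh'.2.1]; ring,
    by rw [key, hh.2.2, hh'.2.2]; ring⟩

theorem qf_lower {x1 x2 ν : Fin n → ℝ} {m : Fin n → Fin n → ℝ}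
    (hpos : ∀ h ∈ Wsp x1 x2 ν, h ≠ 0 → 0 < qf m h) :
    ∃ k : ℝ, 0 < k ∧ ∀ h ∈ Wsp x1 x2 ν, k * ∑ i, h i ^ 2 ≤ qf m h := by
  set B : (Fin n → ℝ) → ℝ := fun h => (∑ i, ν i * h i) ^ 2 + (∑ i, x1 i * h i) ^ 2 +
    (∑ i, x2 i * h i) ^ 2 with hB
  have hl : ∀ (k : Fin n → ℝ) (t : ℝ) (h : Fin n → ℝ), ∑ i, k i * (t • h) i =
      t * ∑ i, k i * h i := by
    intro k t h
    rw [Finset.mul_sum]
    refine Finset.sum_congr rfl fun i _ => ?_
    simp only [Pi.smul_apply, smul_eq_mul]; ring
  have hqc : Continuous (qf m) := by unfold qf; fun_prop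
  have hqh : ∀ (t : ℝ) (w : Fin n → ℝ), qf m (t • w) = t ^ 2 * qf m w := by
    intro t w
    simp only [qf, Finset.mul_sum]
    refine Finset.sum_congr rfl fun i _ => Finset.sum_congr rfl fun j _ => ?_
    simp only [Pi.smul_apply, smul_eq_mul]; ring
  have hBh : ∀ (t : ℝ) (w : Fin n → ℝ), B (t • w) = t ^ 2 * B w := by
    intro t w
    simp only [hB, hl, mul_pow]; ring
  have hBc : Continuous B := by fun_prop
  obtain ⟨C, hC, hCpos⟩ := finsler hqc hBc hqh hBh (by intro w; simp only [hB]; (clear * -; positivity)) (by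
    intro w hw hBw
    simp only [hB] at hBw
    have a1 := sq_nonneg (∑ i, ν i * w i)
    have a2 := sq_nonneg (∑ i, x1 i * w i)
    have a3 := sq_nonneg (∑ i, x2 i * w i)
    refine hpos w ⟨?_, ?_, ?_⟩ hw
    · exact pow_eq_zero_iff (two_ne_zero) |>.1 (by linarith only [a1, hBw, a2, a3])
    · exact pow_eq_zero_iff (two_ne_zero) |>.1 (by linarith)
    · exact pow_eq_zero_iff (two_ne_zero) |>.1 (by linarith))
  obtain ⟨k, hk, hk'⟩ := quad_lower (q := fun w => qf m w + C * B w) (by fun_prop) (by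
    intro t w
    rw [hqh, hBh]; ring) hCpos
  refine ⟨k, hk, fun h hh => ?_⟩
  have h1 := hk' h
  have h2 : B h = 0 := by
    simp only [hB, hh.1, hh.2.1, hh.2.2]; ring
  rw [h2, mul_zero, add_zero] at h1
  exact h1

theorem seg_pos (hp : IsHyperbolic p e) {x1 x2 : Fin n → ℝ} {m1 m2 : ℕ} {ν : Fin n → ℝ}
    {lam : MvPolynomial (Option (Fin n)) ℝ}
    {q : Fin n → Fin n → MvPolynomial (Option (Fin n)) ℝ}
    (hS : Seg p e x1 x2 m1 m2 ν) (hP : SegPoly p e x1 x2 m1 m2 ν lam q) :
    ∃ k : ℝ, 0 < k ∧ ∀ s' ∈ Set.Ioo (0 : ℝ) 1, ∀ s ∈ Set.Ioo (0 : ℝ) 1,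
      ∀ x' ∈ Wsp x1 x2 ν, ∀ x ∈ Wsp x1 x2 ν,
      k * (s * (1 - s) * ∑ i, (x i - x' i) ^ 2 + (s - s') ^ 2 * ∑ i, x' i ^ 2) ≤
        lead (fun s i j => snn lam q i j (pt s)) (fun s i j => sdn lam q i j none (pt s))
          s' s x' x := by
  obtain ⟨S, κ, c0, c, hS0, hc, hrep⟩ := seg_rep hp hS hP
  have hder : ∀ s ∈ Set.Icc (0 : ℝ) 1, ∀ h, HasDerivAt
      (fun s => qf (fun i j => snn lam q i j (pt s)) h)
      (qf (fun i j => sdn lam q i j none (pt s)) h) s := by
    intro s hs h
    exact hasDerivAt_qf (m := fun i j s => snn lam q i j (pt s))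
      (m' := fun i j s => sdn lam q i j none (pt s)) h
      (fun i j => hasDerivAt_snn q i j (hP.pos s hs).ne')
  -- the right-hand side
  have hden : ∀ a ∈ S, ∀ s ∈ Set.Icc (0 : ℝ) 1, 0 < 1 * (1 - s) + (-a) * s := by
    intro a ha s hs
    have ha' := hS0 a ha
    rcases eq_or_lt_of_le hs.1 with h0 | h0
    · rw [← h0]; norm_num
    · have : 0 < (-a) * s := mul_pos (by linarith) h0
      have := hs.2
      linarith
  have hrder : ∀ s ∈ Set.Icc (0 : ℝ) 1, ∀ h, HasDerivAt
      (fun s => qf κ h * (1 - s) + qf c0 h * s +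
          ∑ a ∈ S, qf (c a) h * (s * (1 - s) / (1 * (1 - s) + (-a) * s)))
      (qf κ h * (-1) + qf c0 h * 1 + ∑ a ∈ S, qf (c a) h *
        (((1 - 2 * s) * (1 * (1 - s) + (-a) * s) - s * (1 - s) * ((-a) - 1)) /
          (1 * (1 - s) + (-a) * s) ^ 2)) s := by
    intro s hs h
    refine HasDerivAt.add (HasDerivAt.add ?_ ?_) ?_
    · exact ((hasDerivAt_id s).const_sub 1).const_mul _
    · exact (hasDerivAt_id s).const_mul _
    · refine HasDerivAt.fun_sum fun a ha => ?_
      exact (hasDerivAt_rr (hden a ha s hs).ne').const_mul _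
  have hrep' : ∀ h ∈ Wsp x1 x2 ν, ∀ s ∈ Set.Ioo (0 : ℝ) 1,
      qf (fun i j => sdn lam q i j none (pt s)) h = qf κ h * (-1) + qf c0 h * 1 +
        ∑ a ∈ S, qf (c a) h *
        (((1 - 2 * s) * (1 * (1 - s) + (-a) * s) - s * (1 - s) * ((-a) - 1)) /
          (1 * (1 - s) + (-a) * s) ^ 2) := by
    intro h hh s hs
    have hs' := Set.Ioo_subset_Icc_self hs
    refine (hder s hs' h).unique ((hrder s hs' h).congr_of_eventuallyEq ?_)
    filter_upwards [Ioo_mem_nhds hs.1 hs.2] with t ht using hrep h hh t ht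
  -- values at the ends
  have hκ : ∀ h ∈ Wsp x1 x2 ν, qf κ h = qf (fun i j => snn lam q i j (pt 0)) h := by
    intro h hh
    have h0 : (0 : ℝ) ∈ Set.Icc (0 : ℝ) 1 := ⟨le_rfl, zero_le_one⟩
    have l1 := ((hder 0 h0 h).continuousAt.tendsto).mono_left
      (nhdsWithin_le_nhds (s := Set.Ioi (0 : ℝ)))
    have l2 := ((hrder 0 h0 h).continuousAt.tendsto).mono_left
      (nhdsWithin_le_nhds (s := Set.Ioi (0 : ℝ)))
    have l3 := tendsto_nhds_unique (l1.congr' (by
      filter_upwards [Ioo_mem_nhdsGT (zero_lt_one' ℝ)] with t ht using hrep h hh t ht)) l2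
    rw [l3]
    simp
  have hc0 : ∀ h ∈ Wsp x1 x2 ν, qf c0 h = qf (fun i j => snn lam q i j (pt 1)) h := by
    intro h hh
    have h0 : (1 : ℝ) ∈ Set.Icc (0 : ℝ) 1 := ⟨zero_le_one, le_rfl⟩
    have l1 := ((hder 1 h0 h).continuousAt.tendsto).mono_left
      (nhdsWithin_le_nhds (s := Set.Iio (1 : ℝ)))
    have l2 := ((hrder 1 h0 h).continuousAt.tendsto).mono_left
      (nhdsWithin_le_nhds (s := Set.Iio (1 : ℝ)))
    have l3 := tendsto_nhds_unique (l1.congr' (by
      filter_upwards [Ioo_mem_nhdsLT (zero_lt_one' ℝ)] with t ht using hrep h hh t ht)) l2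
    rw [l3]
    simp
  obtain ⟨k1, hk1, hk1'⟩ := qf_lower (x1 := x1) (x2 := x2) (ν := ν) (m := κ) (by
    intro h hh hne
    rw [hκ h hh, qf_snn, hP.end0]
    have h1 := hS.neg1 h hne hh.1 hh.2.1 hh.2.2
    have h2 := hP.pos 0 ⟨le_rfl, zero_le_one⟩
    exact div_pos (by linarith only [h1]) h2)
  obtain ⟨k2, hk2, hk2'⟩ := qf_lower (x1 := x1) (x2 := x2) (ν := ν) (m := c0) (by
    intro h hh hne
    rw [hc0 h hh, qf_snn, hP.end1]
    have h1 := hS.neg2 h hne hh.1 hh.2.1 hh.2.2
    have h2 := hP.pos 1 ⟨zero_le_one, le_rfl⟩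
    exact div_pos (by linarith) h2)
  refine ⟨min k1 k2, lt_min hk1 hk2, fun s' hs' s hs x' hx' x hx => ?_⟩
  set N : ℝ → Fin n → Fin n → ℝ := fun s i j => snn lam q i j (pt s) with hN
  set N' : ℝ → Fin n → Fin n → ℝ := fun s i j => sdn lam q i j none (pt s) with hN'
  have hxx := Wsp_add hx hx'
  have hs0 : 0 < s := hs.1
  have hs1 : 0 < 1 - s := by linarith [hs.2]
  have hs0' : 0 < s' := hs'.1
  have hs1' : 0 < 1 - s' := by linarith [hs'.2]
  -- rewriting the leading form
  have e1 : lead N N' s' s x' x = (s - s') ^ 2 * (qf (N s') x' - (s + s' - 1) * qf (N' s') x') +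
      s * (1 - s) * (qf (N s) x + qf (N s') x' -
        (qf (N s') (x + x') - qf (N s') x - qf (N s') x') - (s - s') * qf (N' s') x') := by
    have h1 := bil_polar (N s') x x'
    simp only [lead]
    rw [← qf_eq_bil, ← qf_eq_bil, ← qf_eq_bil, ← h1]
    ring
  have r1 := hrep x' hx' s' hs'
  have r2 := hrep x hx s' hs'
  have r3 := hrep _ hxx s' hs'
  have r4 := hrep x hx s hs
  have r5 := hrep' x' hx' s' hs'
  have e2 : lead N N' s' s x' x = s * qf κ ((1 - s) • x - (1 - s') • x') +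
      (1 - s) * qf c0 (s • x - s' • x') + ∑ a ∈ S, (1 * (1 - s) + (-a) * s) *
        qf (c a) ((s * (1 - s) / (1 * (1 - s) + (-a) * s)) • x -
          (s' * (1 - s') / (1 * (1 - s') + (-a) * s')) • x') := by
    rw [e1]
    simp only [hN, hN']
    rw [r1, r2, r3, r4, r5, qf_comb, qf_comb]
    have e3 : ∑ a ∈ S, (1 * (1 - s) + (-a) * s) *
        qf (c a) ((s * (1 - s) / (1 * (1 - s) + (-a) * s)) • x -
          (s' * (1 - s') / (1 * (1 - s') + (-a) * s')) • x') =
        (s - s') ^ 2 * (∑ a ∈ S, qf (c a) x' * (s' * (1 - s') / (1 * (1 - s') + (-a) * s')) -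
          (s + s' - 1) * ∑ a ∈ S, qf (c a) x' *
          (((1 - 2 * s') * (1 * (1 - s') + (-a) * s') - s' * (1 - s') * ((-a) - 1)) /
          (1 * (1 - s') + (-a) * s') ^ 2)) +
        s * (1 - s) * (∑ a ∈ S, qf (c a) x * (s * (1 - s) / (1 * (1 - s) + (-a) * s)) +
          ∑ a ∈ S, qf (c a) x' * (s' * (1 - s') / (1 * (1 - s') + (-a) * s')) -
          (∑ a ∈ S, qf (c a) (x + x') * (s' * (1 - s') / (1 * (1 - s') + (-a) * s')) -
            ∑ a ∈ S, qf (c a) x * (s' * (1 - s') / (1 * (1 - s') + (-a) * s')) -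
            ∑ a ∈ S, qf (c a) x' * (s' * (1 - s') / (1 * (1 - s') + (-a) * s'))) -
          (s - s') * ∑ a ∈ S, qf (c a) x' *
          (((1 - 2 * s') * (1 * (1 - s') + (-a) * s') - s' * (1 - s') * ((-a) - 1)) /
          (1 * (1 - s') + (-a) * s') ^ 2)) := by
      simp only [Finset.mul_sum, ← Finset.sum_add_distrib, ← Finset.sum_sub_distrib]
      refine Finset.sum_congr rfl fun a ha => ?_
      rw [qf_comb]
      have := lead_rr (A := 1) (B := -a) (s := s) (s' := s') (C := qf (c a) x)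
        (C' := qf (c a) x') (P := qf (c a) (x + x') - qf (c a) x - qf (c a) x')
        (hden a ha s (Set.Ioo_subset_Icc_self hs)).ne'
        (hden a ha s' (Set.Ioo_subset_Icc_self hs')).ne'
      linear_combination (-1) * this
    rw [e3]
    ring
  rw [e2]
  have p1 := hk1' _ (Wsp_comb hx hx' (1 - s) (1 - s'))
  have p2 := hk2' _ (Wsp_comb hx hx' s s')
  have p3 : 0 ≤ ∑ a ∈ S, (1 * (1 - s) + (-a) * s) *
        qf (c a) ((s * (1 - s) / (1 * (1 - s) + (-a) * s)) • x -
          (s' * (1 - s') / (1 * (1 - s') + (-a) * s')) • x') :=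
    Finset.sum_nonneg fun a ha => mul_nonneg (hden a ha s (Set.Ioo_subset_Icc_self hs)).le
      (hc a ha _ (Wsp_comb hx hx' _ _))
  have q1 : 0 ≤ ∑ i, ((1 - s) • x - (1 - s') • x') i ^ 2 := by (clear * -; positivity)
  have q2 : 0 ≤ ∑ i, (s • x - s' • x') i ^ 2 := by (clear * -; positivity)
  have p4 := mul_le_mul_of_nonneg_right (min_le_left k1 k2) q1
  have p5 := mul_le_mul_of_nonneg_right (min_le_right k1 k2) q2
  have p6 : s * (1 - s) * ∑ i, (x i - x' i) ^ 2 + (s - s') ^ 2 * ∑ i, x' i ^ 2 =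
      s * ∑ i, ((1 - s) • x - (1 - s') • x') i ^ 2 +
      (1 - s) * ∑ i, (s • x - s' • x') i ^ 2 := by
    simp only [Finset.mul_sum, ← Finset.sum_add_distrib]
    refine Finset.sum_congr rfl fun i _ => ?_
    simp only [Pi.sub_apply, Pi.smul_apply, smul_eq_mul]
    ring
  rw [p6, mul_add]
  have p7 := mul_le_mul_of_nonneg_left (p4.trans p1) hs0.le
  have p8 := mul_le_mul_of_nonneg_left (p5.trans p2) hs1.le
  linarith only [p3, p7, p8]

end Vale.Agent.P256
end

section

/-! From the local lemma on a segment to the slack kernel. -/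

namespace Vale.Agent.P256

open Filter Topology

variable {n : ℕ} {p : MvPolynomial (Fin n) ℝ} {e : Fin n → ℝ}

/-- the constraint set in segment coordinates -/
def segT (x1 x2 ν : Fin n → ℝ) (lam : MvPolynomial (Option (Fin n)) ℝ)
    (q : Fin n → Fin n → MvPolynomial (Option (Fin n)) ℝ) : Set (Option (Fin n) → ℝ) :=
  {w | 0 ≤ w none ∧ w none ≤ 1 ∧ ∑ i, x1 i * w (some i) = 0 ∧ ∑ i, x2 i * w (some i) = 0 ∧
    ∑ i, ν i * w (some i) = ∑ i, ∑ j, snn lam q i j w * w (some i) * w (some j)}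

theorem segP_pos {x1 x2 : Fin n → ℝ} {m1 m2 : ℕ} {ν : Fin n → ℝ}
    {lam : MvPolynomial (Option (Fin n)) ℝ}
    {q : Fin n → Fin n → MvPolynomial (Option (Fin n)) ℝ}
    (hP : SegPoly p e x1 x2 m1 m2 ν lam q) {w : Option (Fin n) → ℝ} (h0 : 0 ≤ w none)
    (h1 : w none ≤ 1) : 0 < MvPolynomial.eval w lam := by
  rw [hP.dep]
  exact hP.pos _ ⟨h0, h1⟩

/-- the value of `p` in segment coordinates -/
theorem eval_zz {x1 x2 : Fin n → ℝ} {m1 m2 : ℕ} {ν : Fin n → ℝ}
    {lam : MvPolynomial (Option (Fin n)) ℝ}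
    {q : Fin n → Fin n → MvPolynomial (Option (Fin n)) ℝ}
    (hP : SegPoly p e x1 x2 m1 m2 ν lam q) {w : Option (Fin n) → ℝ}
    (hw : MvPolynomial.eval w lam ≠ 0) :
    MvPolynomial.eval (zz x1 x2 w) p = (w none ^ m1 * (1 - w none) ^ m2 *
      MvPolynomial.eval w lam) * (∑ i, ν i * w (some i) -
        ∑ i, ∑ j, snn lam q i j w * w (some i) * w (some j)) := by
  rw [hP.F]
  have h1 : ∑ i, ∑ j, MvPolynomial.eval w (q i j) * w (some i) * w (some j) =
      -(MvPolynomial.eval w lam * ∑ i, ∑ j, snn lam q i j w * w (some i) * w (some j)) := by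
    simp only [Finset.mul_sum, ← Finset.sum_neg_distrib]
    refine Finset.sum_congr rfl fun i _ => Finset.sum_congr rfl fun j _ => ?_
    simp only [snn, map_neg]
    field_simp
    try ring
  rw [h1]
  ring

/-- directional derivatives at a zero, in segment coordinates -/
theorem dd_zz {x1 x2 : Fin n → ℝ} {m1 m2 : ℕ} {ν : Fin n → ℝ}
    {lam : MvPolynomial (Option (Fin n)) ℝ}
    {q : Fin n → Fin n → MvPolynomial (Option (Fin n)) ℝ}
    (hP : SegPoly p e x1 x2 m1 m2 ν lam q) {w : Option (Fin n) → ℝ}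
    (hw : w ∈ segT x1 x2 ν lam q) (δ : Option (Fin n) → ℝ) :
    dd p (zz x1 x2 w) (fun j => δ none * (x2 j - x1 j) + (1 - 2 * w none) * δ none * w (some j) +
      w none * (1 - w none) * δ (some j)) =
    (w none ^ m1 * (1 - w none) ^ m2 * MvPolynomial.eval w lam) *
      (∑ i, ν i * δ (some i) - ∑ i, ∑ j, ((∑ o, δ o * sdn lam q i j o w) * w (some i) *
        w (some j) + snn lam q i j w * δ (some i) * w (some j) +
        snn lam q i j w * w (some i) * δ (some j))) := by
  obtain ⟨h0, h1, hx1, hx2, hν⟩ := hw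
  have hlam := (segP_pos hP h0 h1).ne'
  set γ : ℝ → Option (Fin n) → ℝ := fun t o => w o + t * δ o with hγ
  have hγ0 : γ 0 = w := by funext o; simp [hγ]
  have hγd : ∀ o, HasDerivAt (fun t => γ t o) (δ o) 0 := by
    intro o
    have := ((hasDerivAt_id (0 : ℝ)).mul_const (δ o)).const_add (w o)
    simpa [hγ] using this
  -- left-hand side
  have hL : HasDerivAt (fun t => MvPolynomial.eval (zz x1 x2 (γ t)) p)
      (dd p (zz x1 x2 w) (fun j => δ none * (x2 j - x1 j) + (1 - 2 * w none) * δ none *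
        w (some j) + w none * (1 - w none) * δ (some j))) 0 := by
    have h2 := hasDerivAt_eval_comp p (γ := fun t => zz x1 x2 (γ t))
      (γ' := fun j => δ none * (x2 j - x1 j) + (1 - 2 * w none) * δ none *
        w (some j) + w none * (1 - w none) * δ (some j)) (t0 := 0) (by
        intro j
        have a1 := hγd none
        have a2 := hγd (some j)
        have b1 := (a1.const_sub 1).mul_const (x1 j)
        have b2 := a1.mul_const (x2 j)
        have b3 := (a1.mul (a1.const_sub 1)).mul a2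
        have b4 := (b1.add b2).add b3
        refine (b4.congr_deriv ?_).congr_of_eventuallyEq (Eventually.of_forall fun t => ?_)
        · have c1 : γ 0 none = w none := by rw [hγ0]
          have c2 : γ 0 (some j) = w (some j) := by rw [hγ0]
          simp only [Pi.mul_apply, c1, c2]
          ring
        · simp only [zz, Pi.add_apply, Pi.mul_apply])
    simp only [hγ0] at h2
    exact h2
  -- right-hand side
  set G : ℝ → ℝ := fun t => ∑ i, ν i * γ t (some i) -
        ∑ i, ∑ j, snn lam q i j (γ t) * γ t (some i) * γ t (some j) with hG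
  have hG0 : G 0 = 0 := by
    simp only [hG, hγ0]
    rw [hν, sub_self]
  have hlamc : ContinuousAt (fun t => MvPolynomial.eval (γ t) lam) 0 :=
    (hasDerivAt_eval_comp lam hγd).continuousAt
  have hlam0 : MvPolynomial.eval (γ 0) lam ≠ 0 := by rw [hγ0]; exact hlam
  have hsn : ∀ i j, HasDerivAt (fun t => snn lam q i j (γ t))
      (∑ o, δ o * sdn lam q i j o w) 0 := by
    intro i j
    have c1 := hasDerivAt_eval_comp (-q i j) hγd
    have c2 := hasDerivAt_eval_comp lam hγd
    have c3 := c1.mul (c2.inv hlam0)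
    refine (c3.congr_deriv ?_).congr_of_eventuallyEq (Eventually.of_forall fun t => ?_)
    · simp only [Pi.inv_apply, hγ0, sdn]
      have c4 : ∑ o, δ o * ((MvPolynomial.eval w lam)⁻¹ *
          MvPolynomial.eval w (MvPolynomial.pderiv o (-q i j)) + MvPolynomial.eval w (-q i j) *
          -((MvPolynomial.eval w lam)⁻¹ * (MvPolynomial.eval w lam)⁻¹ *
            MvPolynomial.eval w (MvPolynomial.pderiv o lam))) =
          (MvPolynomial.eval w lam)⁻¹ *
            (∑ o, δ o * MvPolynomial.eval w (MvPolynomial.pderiv o (-q i j))) -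
          MvPolynomial.eval w (-q i j) * ((MvPolynomial.eval w lam)⁻¹ *
            (MvPolynomial.eval w lam)⁻¹) *
            (∑ o, δ o * MvPolynomial.eval w (MvPolynomial.pderiv o lam)) := by
        rw [Finset.mul_sum, Finset.mul_sum, ← Finset.sum_sub_distrib]
        refine Finset.sum_congr rfl fun o _ => ?_
        ring
      rw [c4]
      field_simp
      try ring
    · simp only [snn, Pi.mul_apply, Pi.inv_apply]
  have hGd : HasDerivAt G (∑ i, ν i * δ (some i) - ∑ i, ∑ j, ((∑ o, δ o * sdn lam q i j o w) *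
        w (some i) * w (some j) + snn lam q i j w * δ (some i) * w (some j) +
        snn lam q i j w * w (some i) * δ (some j))) 0 := by
    refine HasDerivAt.sub (HasDerivAt.fun_sum fun i _ => (hγd (some i)).const_mul _)
      (HasDerivAt.fun_sum fun i _ => HasDerivAt.fun_sum fun j _ => ?_)
    have c1 := ((hsn i j).mul (hγd (some i))).mul (hγd (some j))
    refine (c1.congr_deriv ?_).congr_of_eventuallyEq (Eventually.of_forall fun t => ?_)
    · simp only [Pi.mul_apply, hγ0]
      ring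
    · simp only [Pi.mul_apply]
  set A : ℝ → ℝ := fun t => γ t none ^ m1 * (1 - γ t none) ^ m2 * MvPolynomial.eval (γ t) lam
    with hA
  have hAc : HasDerivAt A (deriv A 0) 0 := by
    have c1 := ((hγd none).pow m1)
    have c2 := (((hγd none).const_sub 1).pow m2)
    have c3 := hasDerivAt_eval_comp lam hγd
    have c4 := (c1.mul c2).mul c3
    exact (c4.differentiableAt.congr_of_eventuallyEq
      (Eventually.of_forall fun t => rfl)).hasDerivAt
  have hR : HasDerivAt (fun t => A t * G t) (A 0 * (∑ i, ν i * δ (some i) -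
      ∑ i, ∑ j, ((∑ o, δ o * sdn lam q i j o w) *
        w (some i) * w (some j) + snn lam q i j w * δ (some i) * w (some j) +
        snn lam q i j w * w (some i) * δ (some j)))) 0 := by
    refine (hAc.mul hGd).congr_deriv ?_
    rw [hG0]
    ring
  have hEq : (fun t => MvPolynomial.eval (zz x1 x2 (γ t)) p) =ᶠ[𝓝 0] fun t => A t * G t := by
    filter_upwards [hlamc.eventually_ne hlam0] with t ht
    exact eval_zz hP ht
  have := hL.unique (hR.congr_of_eventuallyEq hEq)
  rw [this]
  simp only [hA, hγ0]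

/-- the slack kernel in segment coordinates -/
theorem seg_slack (hp : IsHyperbolic p e) {x1 x2 : Fin n → ℝ} {m1 m2 : ℕ} {ν : Fin n → ℝ}
    {lam : MvPolynomial (Option (Fin n)) ℝ}
    {q : Fin n → Fin n → MvPolynomial (Option (Fin n)) ℝ}
    (hP : SegPoly p e x1 x2 m1 m2 ν lam q) {w' : Option (Fin n) → ℝ}
    (hw' : w' ∈ segT x1 x2 ν lam q) (w : Option (Fin n) → ℝ) :
    w' none * (1 - w' none) * dd p (zz x1 x2 w') (zz x1 x2 w) =
      (w' none ^ m1 * (1 - w' none) ^ m2 * MvPolynomial.eval w' lam) *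
        segKer (snn lam q) (sdn lam q) ν w' w := by
  obtain ⟨d, hd⟩ := hp.1
  set z' := zz x1 x2 w' with hz'
  set s' := w' none with hs'
  set K := s' ^ m1 * (1 - s') ^ m2 * MvPolynomial.eval w' lam with hK
  set ξ' : Fin n → ℝ := fun i => w' (some i) with hξ'
  set ξ : Fin n → ℝ := fun i => w (some i) with hξ
  -- derivatives in the `ξ` directions
  have hgrad : ∀ η : Fin n → ℝ, s' * (1 - s') * dd p z' η =
      K * ∑ i, sGrad (snn lam q) (sdn lam q) ν i w' * η i := by
    intro η
    have h1 := dd_zz hP hw' (fun o => o.elim 0 η)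
    simp only [Option.elim_none, Option.elim_some] at h1
    have h2 : (fun j => (0 : ℝ) * (x2 j - x1 j) + (1 - 2 * w' none) * 0 * w' (some j) +
        w' none * (1 - w' none) * η j) = (s' * (1 - s')) • η := by
      funext j
      simp only [Pi.smul_apply, smul_eq_mul]
      ring
    rw [h2, dd_smul] at h1
    rw [h1, ← hs', ← hK]
    congr 1
    have h3 : ∀ i j, (∑ o : Option (Fin n), (Option.elim o 0 η) * sdn lam q i j o w') =
        ∑ k, η k * sdn lam q i j (some k) w' := by
      intro i j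
      rw [Fintype.sum_option]
      simp only [Option.elim_none, zero_mul, Option.elim_some, zero_add]
    simp only [h3]
    have h4 : ∑ i, sGrad (snn lam q) (sdn lam q) ν i w' * η i = ∑ i, ν i * η i -
        ∑ i, ∑ j, (snn lam q i j w' + snn lam q j i w') * w' (some j) * η i -
        ∑ i, (∑ k, ∑ l, sdn lam q k l (some i) w' * w' (some k) * w' (some l)) * η i := by
      simp only [sGrad, sub_mul, Finset.sum_mul, Finset.sum_sub_distrib]
    have h5 : ∑ i, ∑ j, (snn lam q i j w' + snn lam q j i w') * w' (some j) * η i =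
        ∑ i, ∑ j, (snn lam q i j w' * η i * w' (some j) +
          snn lam q i j w' * w' (some i) * η j) := by
      have a1 : ∑ i, ∑ j, (snn lam q i j w' + snn lam q j i w') * w' (some j) * η i =
          ∑ i, ∑ j, snn lam q i j w' * η i * w' (some j) +
          ∑ i, ∑ j, snn lam q j i w' * w' (some j) * η i := by
        rw [← Finset.sum_add_distrib]
        refine Finset.sum_congr rfl fun i _ => ?_
        rw [← Finset.sum_add_distrib]
        refine Finset.sum_congr rfl fun j _ => ?_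
        ring
      have a2 : ∑ i, ∑ j, snn lam q j i w' * w' (some j) * η i =
          ∑ i, ∑ j, snn lam q i j w' * w' (some i) * η j := Finset.sum_comm
      rw [a1, a2, ← Finset.sum_add_distrib]
      refine Finset.sum_congr rfl fun i _ => ?_
      rw [← Finset.sum_add_distrib]
    have h6 : ∑ i, (∑ k, ∑ l, sdn lam q k l (some i) w' * w' (some k) * w' (some l)) * η i =
        ∑ k, ∑ l, (∑ i, η i * sdn lam q k l (some i) w') * w' (some k) * w' (some l) := by
      simp only [Finset.sum_mul]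
      rw [Finset.sum_comm]
      refine Finset.sum_congr rfl fun k _ => ?_
      rw [Finset.sum_comm]
      refine Finset.sum_congr rfl fun l _ => Finset.sum_congr rfl fun i _ => ?_
      ring
    rw [h4, h5, h6, sub_sub, ← Finset.sum_add_distrib]
    congr 1
    refine Finset.sum_congr rfl fun i _ => ?_
    rw [← Finset.sum_add_distrib]
    refine Finset.sum_congr rfl fun j _ => ?_
    ring
  -- derivative in the `s` direction
  have hsdir : dd p z' x2 - dd p z' x1 + (1 - 2 * s') * dd p z' ξ' =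
      K * sGs (sdn lam q) w' := by
    have h1 := dd_zz hP hw' (fun o => o.elim 1 (fun _ => 0))
    simp only [Option.elim_none, Option.elim_some] at h1
    have h2 : (fun j => (1 : ℝ) * (x2 j - x1 j) + (1 - 2 * w' none) * 1 * w' (some j) +
        w' none * (1 - w' none) * 0) = (x2 - x1) + (1 - 2 * s') • ξ' := by
      funext j
      simp only [Pi.add_apply, Pi.sub_apply, Pi.smul_apply, smul_eq_mul, hξ']
      ring
    rw [h2, dd_add, dd_sub, dd_smul] at h1
    rw [h1, ← hs', ← hK]
    congr 1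
    have h3 : ∀ i j, (∑ o : Option (Fin n), (Option.elim o 1 (fun _ => (0 : ℝ))) *
        sdn lam q i j o w') = sdn lam q i j none w' := by
      intro i j
      rw [Fintype.sum_option]
      simp only [Option.elim_none, one_mul, Option.elim_some, zero_mul, Finset.sum_const_zero, add_zero]
    simp only [h3, mul_zero, Finset.sum_const_zero, zero_sub, zero_mul, add_zero, sGs]
  -- Euler relation
  have heul : (1 - s') * dd p z' x1 + s' * dd p z' x2 + s' * (1 - s') * dd p z' ξ' = 0 := by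
    have h1 : z' = (1 - s') • x1 + s' • x2 + (s' * (1 - s')) • ξ' := by
      funext j
      simp only [hz', zz, Pi.add_apply, Pi.smul_apply, smul_eq_mul, hξ', hs']
    have h2 : dd p z' z' = 0 := by
      rw [dd_euler hd, eval_zz hP (segP_pos hP hw'.1 hw'.2.1).ne', hw'.2.2.2.2, sub_self]
      ring
    nth_rewrite 2 [h1] at h2
    rw [dd_add, dd_add, dd_smul, dd_smul, dd_smul] at h2
    exact h2
  have e1 : s' * (1 - s') * dd p z' ξ' = - (K * sPhi (snn lam q) (sdn lam q) ν w') := by
    rw [hgrad, sPhi]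
    ring
  have e4 := hgrad ξ
  have hz : zz x1 x2 w = (1 - w none) • x1 + w none • x2 + (w none * (1 - w none)) • ξ := by
    funext j
    simp only [zz, Pi.add_apply, Pi.smul_apply, smul_eq_mul, hξ]
  rw [hz, dd_add, dd_add, dd_smul, dd_smul, dd_smul, segKer]
  simp only [← hs']
  set a := dd p z' x1
  set b := dd p z' x2
  set c := dd p z' ξ'
  set Φ := sPhi (snn lam q) (sdn lam q) ν w'
  set Gs := sGs (sdn lam q) w'
  have hX : ∑ i, sGrad (snn lam q) (sdn lam q) ν i w' * w (some i) =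
    ∑ i, sGrad (snn lam q) (sdn lam q) ν i w' * ξ i := rfl
  rw [hX]
  set X := ∑ i, sGrad (snn lam q) (sdn lam q) ν i w' * ξ i
  set s := w none
  have g1 : s' * (1 - s') * a = K * (s' ^ 2 * (Φ - (1 - s') * Gs)) := by
    linear_combination s' * (1 - s') * heul - s' ^ 2 * (1 - s') * hsdir - s' ^ 2 * e1
  have g2 : s' * (1 - s') * b = K * ((1 - s') ^ 2 * (Φ + s' * Gs)) := by
    linear_combination s' * (1 - s') * heul + s' * (1 - s') ^ 2 * hsdir - (1 - s') ^ 2 * e1
  linear_combination (1 - s) * g1 + s * g2 + s * (1 - s) * e4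

end Vale.Agent.P256
end

section

/-! Segment coordinates and the transfer of the local lemma to the slack kernel. -/

namespace Vale.Agent.P256

open Filter Topology

variable {n : ℕ} {p : MvPolynomial (Fin n) ℝ} {e : Fin n → ℝ}

/-- linear coordinates along `x1`, `x2` -/
structure Coord (x1 x2 : Fin n → ℝ) (α β : (Fin n → ℝ) →ₗ[ℝ] ℝ) : Prop where
  a1 : α x1 = 1
  a2 : α x2 = 0
  b1 : β x1 = 0
  b2 : β x2 = 1
  o1 : ∀ x : Fin n → ℝ, ∑ i, x1 i * (x - α x • x1 - β x • x2) i = 0
  o2 : ∀ x : Fin n → ℝ, ∑ i, x2 i * (x - α x • x1 - β x • x2) i = 0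

theorem exists_coord {x1 x2 : Fin n → ℝ} (hx1 : x1 ≠ 0) (h12 : x2 ∉ Submodule.span ℝ {x1}) :
    ∃ α β, Coord x1 x2 α β := by
  set g11 := ∑ i, x1 i * x1 i with hg11
  set g12 := ∑ i, x1 i * x2 i with hg12
  set g22 := ∑ i, x2 i * x2 i with hg22
  have g11pos : 0 < g11 := by
    obtain ⟨i, hi⟩ := Function.ne_iff.1 hx1
    have h1 : 0 < x1 i * x1 i := mul_self_pos.2 hi
    have h2 := Finset.single_le_sum (f := fun i => x1 i * x1 i) (fun j _ => mul_self_nonneg _)
      (Finset.mem_univ i)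
    linarith
  have hΔ : 0 < g11 * g22 - g12 ^ 2 := by
    have h1 : ∑ i, (g11 * x2 i - g12 * x1 i) ^ 2 = g11 * (g11 * g22 - g12 ^ 2) := by
      have : ∀ i, (g11 * x2 i - g12 * x1 i) ^ 2 = g11 ^ 2 * (x2 i * x2 i) -
          2 * g11 * g12 * (x1 i * x2 i) + g12 ^ 2 * (x1 i * x1 i) := fun i => by ring
      simp_rw [this]
      rw [Finset.sum_add_distrib, Finset.sum_sub_distrib, ← Finset.mul_sum, ← Finset.mul_sum,
        ← Finset.mul_sum, ← hg11, ← hg12, ← hg22]
      ring
    have h2 : 0 < ∑ i, (g11 * x2 i - g12 * x1 i) ^ 2 := by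
      refine lt_of_le_of_ne (by (clear * -; positivity)) fun h0 => ?_
      apply h12
      rw [mem_span1]
      refine ⟨g12 / g11, ?_⟩
      funext i
      have h3 := (Finset.sum_eq_zero_iff_of_nonneg (fun i _ => sq_nonneg
        (g11 * x2 i - g12 * x1 i))).1 h0.symm i (Finset.mem_univ i)
      have h4 : g11 * x2 i - g12 * x1 i = 0 := by
        exact pow_eq_zero_iff (two_ne_zero) |>.1 h3
      simp only [Pi.smul_apply, smul_eq_mul]
      field_simp
      linarith only [h4]
    rw [h1] at h2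
    exact (mul_pos_iff_of_pos_left g11pos).1 h2
  set Δ := g11 * g22 - g12 ^ 2 with hΔd
  have hlin : ∀ k : Fin n → ℝ, ∃ f : (Fin n → ℝ) →ₗ[ℝ] ℝ, ∀ x, f x = ∑ i, k i * x i := by
    intro k
    refine ⟨∑ i, k i • LinearMap.proj i, fun x => ?_⟩
    simp only [LinearMap.coe_sum, LinearMap.coe_smul, LinearMap.coe_proj, Finset.sum_apply, Pi.smul_apply, Function.eval, smul_eq_mul]
  obtain ⟨f1, hf1⟩ := hlin x1
  obtain ⟨f2, hf2⟩ := hlin x2
  have hg21 : ∑ i, x2 i * x1 i = g12 := by
    rw [hg12]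
    exact Finset.sum_congr rfl fun i _ => mul_comm _ _
  have f11 : f1 x1 = g11 := hf1 x1
  have f12 : f1 x2 = g12 := hf1 x2
  have f21 : f2 x1 = g12 := by rw [hf2, hg21]
  have f22 : f2 x2 = g22 := hf2 x2
  refine ⟨Δ⁻¹ • (g22 • f1 - g12 • f2), Δ⁻¹ • (g11 • f2 - g12 • f1), ?_, ?_, ?_, ?_, ?_, ?_⟩
  · simp only [LinearMap.smul_apply, LinearMap.sub_apply, smul_eq_mul, f11, f21]
    rw [inv_mul_eq_div, div_eq_one_iff_eq hΔ.ne']
    rw [hΔd]; ring
  · simp only [LinearMap.smul_apply, LinearMap.sub_apply, smul_eq_mul, f12, f22]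
    ring
  · simp only [LinearMap.smul_apply, LinearMap.sub_apply, smul_eq_mul, f11, f21]
    ring
  · simp only [LinearMap.smul_apply, LinearMap.sub_apply, smul_eq_mul, f12, f22]
    rw [inv_mul_eq_div, div_eq_one_iff_eq hΔ.ne']
    rw [hΔd]; ring
  · intro x
    rw [← hf1, map_sub, map_sub, map_smul, map_smul, f11, f12]
    simp only [LinearMap.smul_apply, LinearMap.sub_apply, smul_eq_mul]
    field_simp
    rw [hΔd]; ring
  · intro x
    rw [← hf2, map_sub, map_sub, map_smul, map_smul, f21, f22]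
    simp only [LinearMap.smul_apply, LinearMap.sub_apply, smul_eq_mul]
    field_simp
    rw [hΔd]; ring

/-- segment coordinates -/
noncomputable def segc (x1 x2 : Fin n → ℝ) (α β : (Fin n → ℝ) →ₗ[ℝ] ℝ) (x : Fin n → ℝ) :
    Option (Fin n) → ℝ := fun o => o.elim (β x / (α x + β x))
      (fun i => (α x + β x) / (α x * β x) * (x - α x • x1 - β x • x2) i)

theorem zz_segc (x1 x2 : Fin n → ℝ) (α β : (Fin n → ℝ) →ₗ[ℝ] ℝ) {x : Fin n → ℝ}
    (ha : 0 < α x) (hb : 0 < β x) :
    zz x1 x2 (segc x1 x2 α β x) = (α x + β x)⁻¹ • x := by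
  have h1 : 0 < α x + β x := by (clear * - ha hb; positivity)
  funext j
  simp only [zz, segc, Option.elim_none, Option.elim_some, Pi.sub_apply, Pi.smul_apply,
    smul_eq_mul]
  have h2 : 1 - β x / (α x + β x) = α x / (α x + β x) := by field_simp; ring
  rw [h2]
  field_simp
  ring

/-- points in the image of a coordinate neighbourhood -/
def segA (p : MvPolynomial (Fin n) ℝ) (x1 x2 : Fin n → ℝ) (α β : (Fin n → ℝ) →ₗ[ℝ] ℝ)
    (U : Set (Option (Fin n) → ℝ)) : Set (Fin n → ℝ) :=
  {x | 0 < α x ∧ 0 < β x ∧ MvPolynomial.eval x p = 0 ∧ segc x1 x2 α β x ∈ U}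

theorem segc_mem (hp : IsHyperbolic p e) {x1 x2 : Fin n → ℝ} {m1 m2 : ℕ} {ν : Fin n → ℝ}
    {lam : MvPolynomial (Option (Fin n)) ℝ}
    {q : Fin n → Fin n → MvPolynomial (Option (Fin n)) ℝ}
    (hP : SegPoly p e x1 x2 m1 m2 ν lam q) {α β : (Fin n → ℝ) →ₗ[ℝ] ℝ}
    (hc : Coord x1 x2 α β) {U : Set (Option (Fin n) → ℝ)} {x : Fin n → ℝ}
    (hx : x ∈ segA p x1 x2 α β U) :
    segc x1 x2 α β x ∈ segT x1 x2 ν lam q ∧ 0 < segc x1 x2 α β x none ∧
      segc x1 x2 α β x none < 1 := by
  obtain ⟨ha, hb, h0, _⟩ := hx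
  obtain ⟨d, hd⟩ := hp.1
  have h1 : 0 < α x + β x := by (clear * - ha hb; positivity)
  set w := segc x1 x2 α β x with hw
  have hwn : w none = β x / (α x + β x) := rfl
  have s0 : 0 < w none := by rw [hwn]; positivity
  have s1 : w none < 1 := by rw [hwn, div_lt_one h1]; linarith only [ha]
  have hl := segP_pos hP s0.le s1.le
  refine ⟨⟨s0.le, s1.le, ?_, ?_, ?_⟩, s0, s1⟩
  · have h2 : ∀ i, x1 i * w (some i) = (α x + β x) / (α x * β x) *
        (x1 i * (x - α x • x1 - β x • x2) i) := by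
      intro i
      simp only [hw, segc, Option.elim_some]
      ring
    simp_rw [h2]
    rw [← Finset.mul_sum, hc.o1, mul_zero]
  · have h2 : ∀ i, x2 i * w (some i) = (α x + β x) / (α x * β x) *
        (x2 i * (x - α x • x1 - β x • x2) i) := by
      intro i
      simp only [hw, segc, Option.elim_some]
      ring
    simp_rw [h2]
    rw [← Finset.mul_sum, hc.o2, mul_zero]
  · have h2 := eval_zz hP hl.ne'
    rw [hw, zz_segc x1 x2 α β ha hb, eval_smul' hd, h0, mul_zero, ← hw] at h2
    have h3 : 0 < w none ^ m1 * (1 - w none) ^ m2 * MvPolynomial.eval w lam := by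
      have : 0 < 1 - w none := by linarith only [s1]
      (clear * - s0 s1 hl; positivity)
    have h4 := (mul_eq_zero.1 h2.symm).resolve_left h3.ne'
    linarith only [h4]

theorem seg_transfer (hp : IsHyperbolic p e) {x1 x2 : Fin n → ℝ} {m1 m2 : ℕ} {ν : Fin n → ℝ}
    {lam : MvPolynomial (Option (Fin n)) ℝ}
    {q : Fin n → Fin n → MvPolynomial (Option (Fin n)) ℝ}
    (hP : SegPoly p e x1 x2 m1 m2 ν lam q) {α β : (Fin n → ℝ) →ₗ[ℝ] ℝ}
    (hc : Coord x1 x2 α β) {U V : Set (Option (Fin n) → ℝ)}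
    (hs : SosOn (U ∩ segT x1 x2 ν lam q) (V ∩ segT x1 x2 ν lam q)
      (segKer (snn lam q) (sdn lam q) ν)) :
    SosOn (segA p x1 x2 α β U) (segA p x1 x2 α β V) (fun z' x => dd p z' x) := by
  obtain ⟨d, hd⟩ := hp.1
  set φ := segc x1 x2 α β with hφ
  have k1 : SosOn (segA p x1 x2 α β U) (segA p x1 x2 α β V)
      (fun z' x => segKer (snn lam q) (sdn lam q) ν (φ z') (φ x)) := by
    refine (hs.comp φ φ).mono ?_ ?_
    · intro x hx; exact ⟨hx.2.2.2, (segc_mem hp hP hc hx).1⟩
    · intro x hx; exact ⟨hx.2.2.2, (segc_mem hp hP hc hx).1⟩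
  have k2 : SosOn (segA p x1 x2 α β U) (segA p x1 x2 α β V)
      (fun (z' : Fin n → ℝ) (_ : Fin n → ℝ) => (α z' + β z') ^ (d - 1) *
        ((φ z' none ^ m1 * (1 - φ z' none) ^ m2 * MvPolynomial.eval (φ z') lam) *
          (φ z' none * (1 - φ z' none))⁻¹)) := by
    refine SosOn.left fun z' hz' => ?_
    obtain ⟨h1, h2, h3⟩ := segc_mem hp hP hc hz'
    rw [← hφ] at h1 h2 h3
    have h4 := segP_pos hP h2.le h3.le
    have h5 : 0 < 1 - φ z' none := by linarith
    have h6 : 0 < α z' + β z' := by have := hz'.1; have := hz'.2.1; positivity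
    positivity
  have k3 : SosOn (segA p x1 x2 α β U) (segA p x1 x2 α β V)
      (fun (_ : Fin n → ℝ) (x : Fin n → ℝ) => α x + β x) := by
    refine SosOn.right fun x hx => ?_
    have := hx.1; have := hx.2.1; positivity
  refine ((k2.mul k3).mul k1).congr ?_
  intro z' hz' x hx
  obtain ⟨h1, h2, h3⟩ := segc_mem hp hP hc hz'
  rw [← hφ] at h1 h2 h3
  have h6 : 0 < α z' + β z' := by have := hz'.1; have := hz'.2.1; positivity
  have h7 : 0 < α x + β x := by have := hx.1; have := hx.2.1; positivity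
  have h5 : 0 < 1 - φ z' none := by linarith
  have e1 : z' = (α z' + β z') • zz x1 x2 (φ z') := by
    rw [hφ, zz_segc x1 x2 α β hz'.1 hz'.2.1, smul_smul, mul_inv_cancel₀ h6.ne', one_smul]
  have e2 : x = (α x + β x) • zz x1 x2 (φ x) := by
    rw [hφ, zz_segc x1 x2 α β hx.1 hx.2.1, smul_smul, mul_inv_cancel₀ h7.ne', one_smul]
  have e3 := seg_slack hp hP h1 (φ x)
  have e4 : dd p z' x = (α z' + β z') ^ (d - 1) * ((α x + β x) *
      dd p (zz x1 x2 (φ z')) (zz x1 x2 (φ x))) := by
    conv_lhs => rw [e1, e2, dd_smul_left hd, dd_smul]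
  have e5 : dd p (zz x1 x2 (φ z')) (zz x1 x2 (φ x)) =
      ((φ z' none ^ m1 * (1 - φ z' none) ^ m2 * MvPolynomial.eval (φ z') lam) *
          (φ z' none * (1 - φ z' none))⁻¹) * segKer (snn lam q) (sdn lam q) ν (φ z') (φ x) := by
    have h8 : φ z' none * (1 - φ z' none) ≠ 0 := by positivity
    rw [mul_comm _ (φ z' none * (1 - φ z' none))⁻¹, mul_assoc, ← e3, ← mul_assoc,
      inv_mul_cancel₀ h8, one_mul]
  rw [e4, e5]
  ring

/-- the local lemma at a pair of points of the segment -/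
theorem seg_sos (hp : IsHyperbolic p e) {x1 x2 : Fin n → ℝ} {m1 m2 : ℕ} {ν : Fin n → ℝ}
    (hx1 : x1 ≠ 0) (hS : Seg p e x1 x2 m1 m2 ν) :
    ∃ α β, Coord x1 x2 α β ∧ ∀ s0 ∈ Set.Icc (0 : ℝ) 1, ∀ s1 ∈ Set.Icc (0 : ℝ) 1,
      ∃ U ∈ 𝓝 (pt s0 : Option (Fin n) → ℝ), ∃ V ∈ 𝓝 (pt s1 : Option (Fin n) → ℝ),
        SosOn (segA p x1 x2 α β U) (segA p x1 x2 α β V) (fun z' x => dd p z' x) := by
  obtain ⟨lam, q, hP⟩ := seg_poly hp hS
  obtain ⟨k, hk, hpos⟩ := seg_pos hp hS hP
  obtain ⟨α, β, hc⟩ := exists_coord hx1 hS.ne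
  refine ⟨α, β, hc, fun s0 hs0 s1 hs1 => ?_⟩
  obtain ⟨U, hU, V, hV, hs⟩ := seg_local (D := {w | MvPolynomial.eval w lam ≠ 0})
    (T := segT x1 x2 ν lam q) (nn := snn lam q) (dn := sdn lam q) (ν := ν)
    (![x1, x2] : Fin 2 → Fin n → ℝ) (snn_T2 lam q)
    (fun w hw => (segP_pos hP hw.1 hw.2.1).ne')
    (fun w hw => ⟨hw.1, hw.2.1⟩) (fun w hw => hw.2.2.2.2)
    (fun w hw a => by
      fin_cases a
      · exact hw.2.2.1
      · exact hw.2.2.2.1)
    (fun s hs => (hP.pos s hs).ne') hk
    (fun s' hs' s hs x' x h1 h2 h3 h4 => hpos s' hs' s hs x' ⟨h1, h3 0, h3 1⟩ x ⟨h2, h4 0, h4 1⟩)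
    hs0 hs1
  exact ⟨U, hU, V, hV, seg_transfer hp hP hc hs⟩

theorem continuous_linear (f : (Fin n → ℝ) →ₗ[ℝ] ℝ) : Continuous f :=
  LinearMap.continuous_of_finiteDimensional f

/-- near an interior point of the segment -/
theorem segA_mem_nhds {x1 x2 : Fin n → ℝ} {α β : (Fin n → ℝ) →ₗ[ℝ] ℝ}
    (hc : Coord x1 x2 α β) {a b : ℝ} (ha : 0 < a) (hb : 0 < b)
    {U : Set (Option (Fin n) → ℝ)} (hU : U ∈ 𝓝 (pt (b / (a + b)) : Option (Fin n) → ℝ)) :
    ∃ O ∈ 𝓝 (a • x1 + b • x2), ∀ x ∈ O, MvPolynomial.eval x p = 0 → x ∈ segA p x1 x2 α β U := by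
  set z := a • x1 + b • x2 with hz
  have hαz : α z = a := by
    rw [hz, map_add, map_smul, map_smul, hc.a1, hc.a2]; simp
  have hβz : β z = b := by
    rw [hz, map_add, map_smul, map_smul, hc.b1, hc.b2]; simp
  have hαc := continuous_linear α
  have hβc := continuous_linear β
  have hcont : ContinuousAt (segc x1 x2 α β) z := by
    refine continuousAt_pi.2 fun o => ?_
    have h1 : α z + β z ≠ 0 := by rw [hαz, hβz]; positivity
    have h2 : α z * β z ≠ 0 := by rw [hαz, hβz]; positivity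
    rcases o with _ | i
    · exact ContinuousAt.div hβc.continuousAt (hαc.add hβc).continuousAt h1
    · refine ContinuousAt.mul (ContinuousAt.div (hαc.add hβc).continuousAt
        (hαc.mul hβc).continuousAt h2) ?_
      refine Continuous.continuousAt ?_
      have : Continuous (fun x : Fin n → ℝ => x - α x • x1 - β x • x2) :=
        (continuous_id.sub (hαc.smul continuous_const)).sub (hβc.smul continuous_const)
      exact (continuous_apply i).comp this
  have hval : segc x1 x2 α β z = pt (b / (a + b)) := by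
    funext o
    rcases o with _ | i
    · simp only [segc, Option.elim_none, pt, hαz, hβz]
    · have h5 : z i = a * x1 i + b * x2 i := by simp [hz]
      simp only [segc, Option.elim_some, pt, Pi.sub_apply, Pi.smul_apply, smul_eq_mul]
      rw [hαz, hβz, h5]
      ring
  have h1 : ∀ᶠ x in 𝓝 z, segc x1 x2 α β x ∈ U := hcont (by rw [hval]; exact hU)
  have h2 : ∀ᶠ x in 𝓝 z, 0 < α x := by
    refine hαc.continuousAt.eventually (lt_mem_nhds ?_)
    rw [hαz]; exact ha
  have h3 : ∀ᶠ x in 𝓝 z, 0 < β x := by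
    refine hβc.continuousAt.eventually (lt_mem_nhds ?_)
    rw [hβz]; exact hb
  exact ⟨_, h1.and (h2.and h3), fun x hx hx0 => ⟨hx.2.1, hx.2.2, hx0, hx.1⟩⟩

/-- near the endpoint `x1`, in a cone around the direction of the segment -/
theorem segA_cone {x1 x2 : Fin n → ℝ} {α β : (Fin n → ℝ) →ₗ[ℝ] ℝ}
    (hc : Coord x1 x2 α β) {u0 : Fin n → ℝ} {a b : ℝ} (hb : 0 < b) (hu : u0 = a • x1 + b • x2)
    {U : Set (Option (Fin n) → ℝ)} (hU : U ∈ 𝓝 (pt 0 : Option (Fin n) → ℝ)) :
    ∃ ρ : ℝ, 0 < ρ ∧ ∀ (t : ℝ) (u : Fin n → ℝ), 0 < t → t < ρ → (∀ i, |u i - u0 i| < ρ) →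
      MvPolynomial.eval (x1 + t • u) p = 0 → x1 + t • u ∈ segA p x1 x2 α β U := by
  have hαu : α u0 = a := by
    rw [hu, map_add, map_smul, map_smul, hc.a1, hc.a2]; simp
  have hβu : β u0 = b := by
    rw [hu, map_add, map_smul, map_smul, hc.b1, hc.b2]; simp
  have hαc := continuous_linear α
  have hβc := continuous_linear β
  -- the coordinate map in polar coordinates
  set ψ : ℝ × (Fin n → ℝ) → Option (Fin n) → ℝ := fun y o => o.elim
    (y.1 * β y.2 / (1 + y.1 * (α y.2 + β y.2)))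
    (fun i => (1 + y.1 * (α y.2 + β y.2)) / ((1 + y.1 * α y.2) * β y.2) *
      (y.2 - α y.2 • x1 - β y.2 • x2) i) with hψ
  have hα2 : Continuous (fun y : ℝ × (Fin n → ℝ) => α y.2) := hαc.comp continuous_snd
  have hβ2 : Continuous (fun y : ℝ × (Fin n → ℝ) => β y.2) := hβc.comp continuous_snd
  have hcont : ContinuousAt ψ (0, u0) := by
    refine continuousAt_pi.2 fun o => ?_
    rcases o with _ | i
    · refine ContinuousAt.div (by (clear * - hβc; fun_prop)) (by (clear * - hαc hβc; fun_prop)) ?_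
      simp
    · refine ContinuousAt.mul (ContinuousAt.div (by fun_prop) (by fun_prop) ?_) ?_
      · simp only [zero_mul, add_zero, one_mul, hβu]; exact hb.ne'
      · refine Continuous.continuousAt ?_
        have : Continuous (fun y : ℝ × (Fin n → ℝ) => y.2 - α y.2 • x1 - β y.2 • x2) :=
          (continuous_snd.sub (hα2.smul continuous_const)).sub (hβ2.smul continuous_const)
        exact (continuous_apply i).comp this
  have hval : ψ (0, u0) = pt 0 := by
    funext o
    rcases o with _ | i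
    · simp only [hψ, Pi.sub_apply, Pi.smul_apply, smul_eq_mul, Option.elim_none, zero_mul, add_zero, div_one, pt]
    · simp only [hψ, Option.elim_some, pt, hαu, hβu, Pi.sub_apply, Pi.smul_apply, smul_eq_mul]
      rw [hu]
      simp only [Pi.add_apply, Pi.smul_apply, smul_eq_mul]
      ring
  have h1 : ∀ᶠ y in 𝓝 ((0 : ℝ), u0), ψ y ∈ U := hcont (by rw [hval]; exact hU)
  have h2 : ∀ᶠ y : ℝ × (Fin n → ℝ) in 𝓝 ((0 : ℝ), u0), 0 < 1 + y.1 * α y.2 := by
    have hc1 : Continuous (fun y : ℝ × (Fin n → ℝ) => 1 + y.1 * α y.2) := by fun_prop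
    refine hc1.continuousAt.eventually (lt_mem_nhds ?_)
    simp
  have h3 : ∀ᶠ y : ℝ × (Fin n → ℝ) in 𝓝 ((0 : ℝ), u0), 0 < β y.2 := by
    refine hβ2.continuousAt.eventually (lt_mem_nhds ?_)
    simp only [hβu]; exact hb
  obtain ⟨ρ, hρ, hball⟩ := Metric.mem_nhds_iff.1 (h1.and (h2.and h3))
  refine ⟨ρ, hρ, fun t u ht htρ huρ h0 => ?_⟩
  have hmem : (t, u) ∈ Metric.ball ((0 : ℝ), u0) ρ := by
    rw [Metric.mem_ball, Prod.dist_eq]
    refine max_lt ?_ ?_
    · rw [Real.dist_eq, sub_zero, abs_of_pos ht]; exact htρ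
    · rw [dist_pi_lt_iff hρ]
      intro i
      rw [Real.dist_eq]; exact huρ i
  obtain ⟨g1, g2, g3⟩ := hball hmem
  have e1 : α (x1 + t • u) = 1 + t * α u := by
    rw [map_add, map_smul, hc.a1]; rfl
  have e2 : β (x1 + t • u) = t * β u := by
    rw [map_add, map_smul, hc.b1, zero_add]; rfl
  have g2' : 0 < 1 + t * α u := g2
  have g3' : 0 < β u := g3
  refine ⟨by rw [e1]; exact g2', by rw [e2]; (clear * - ht g3; positivity), h0, ?_⟩
  have hE : segc x1 x2 α β (x1 + t • u) = ψ (t, u) := by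
    funext o
    rcases o with _ | i
    · simp only [segc, Option.elim_none, hψ, e1, e2]
      congr 1
      ring
    · simp only [segc, Option.elim_some, hψ, e1, e2, Pi.sub_apply, Pi.add_apply, Pi.smul_apply,
        smul_eq_mul]
      field_simp
      ring
  rw [hE]
  exact g1

end Vale.Agent.P256
end

section

/-! Theorem B: pointed hyperbolicity cones with smooth tangent cones at the singular points. -/

namespace Vale.Agent.P256

open Filter Topology

variable {n : ℕ} {p : MvPolynomial (Fin n) ℝ} {e : Fin n → ℝ}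

theorem dirS_not_span {z : Fin n → ℝ} (hz1 : ∑ i, z i ^ 2 = 1) {m : ℕ} {u : Fin n → ℝ}
    (hu : u ∈ dirS p e z m) : u ∉ Submodule.span ℝ {z} := by
  rw [mem_span1]
  rintro ⟨c, rfl⟩
  have h1 : ∑ i, z i * (c • z) i = c := by
    have : ∀ i, z i * (c • z) i = c * z i ^ 2 := by
      intro i
      simp only [Pi.smul_apply, smul_eq_mul]
      ring
    simp_rw [this]
    rw [← Finset.mul_sum, hz1, mul_one]
  rw [hu.2.2.2] at h1
  have h2 := hu.2.2.1
  rw [← h1] at h2
  simp only [Pi.smul_apply, smul_eq_mul, zero_mul, ne_eq, OfNat.ofNat_ne_zero, not_false_eq_true, zero_pow, Finset.sum_const_zero, zero_ne_one] at h2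

theorem singAt_rigid (hp : IsHyperbolic p e) {z : Fin n → ℝ} {m : ℕ} (hS : SingAt p e z m)
    {u v : Fin n → ℝ} (hu : u ∈ hypCone (part p z m) e) (huz : u ∉ Submodule.span ℝ {z})
    (hv : ∀ t : ℝ, MvPolynomial.eval (u + t • v) (part p z m) = 0) :
    ∃ a b : ℝ, v = a • z + b • u :=
  tangent_rigid (part_hyp hp hS.hm hS.he) hS.two_le (part_homog p z m)
    (fun v hv hv0 hvz => smooth_of_dd_pos (hS.sm v hv hv0 hvz).ne') hu huz hv

theorem singAt_neg (hp : IsHyperbolic p e) {z : Fin n → ℝ} (hz : z ∈ bdT p e) {m : ℕ}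
    (hS : SingAt p e z m) {u : Fin n → ℝ} (hu : u ∈ dirS p e z m) (v : Fin n → ℝ) (hv : v ≠ 0)
    (h1 : dd (part p z m) u v = 0) (h2 : ∑ i, z i * v i = 0) (h3 : ∑ i, u i * v i = 0) :
    dd2 (part p z m) u v < 0 := by
  have hq := part_hyp hp hS.hm hS.he
  have huz := dirS_not_span hz.2.2 hu
  have hc := curvature hq hu.1 hu.2.1 (hS.sm u hu.1 hu.2.1 huz) h1
  apply lt_of_le_of_ne hc.1
  intro h4
  obtain ⟨a, b, hab⟩ := singAt_rigid hp hS hu.1 huz (hc.2 h4)
  have e1 : ∑ i, v i ^ 2 = a * ∑ i, z i * v i + b * ∑ i, u i * v i := by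
    rw [Finset.mul_sum, Finset.mul_sum, ← Finset.sum_add_distrib]
    apply Finset.sum_congr rfl
    intro i _
    have : v i = a * z i + b * u i := by rw [hab]; simp
    rw [sq]
    nth_rewrite 1 [this]
    ring
  rw [h2, h3, mul_zero, mul_zero, add_zero] at e1
  apply hv
  funext i
  have := (Finset.sum_eq_zero_iff_of_nonneg (fun i _ => sq_nonneg (v i))).1 e1 i
    (Finset.mem_univ i)
  simpa using this

theorem singAt_off (hp : IsHyperbolic p e) {z : Fin n → ℝ} (hz : z ∈ bdT p e) {m : ℕ}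
    (hS : SingAt p e z m) {u : Fin n → ℝ} (hu : u ∈ dirS p e z m) {u' : Fin n → ℝ}
    (hu' : u' ∈ dirS p e z m) (hne : u' ≠ u) : 0 < dd (part p z m) u u' := by
  have hq := part_hyp hp hS.hm hS.he
  have hqd := part_homog p z m
  have hz1 := hz.2.2
  have huz := dirS_not_span hz1 hu
  have hsm := hS.sm u hu.1 hu.2.1 huz
  apply lt_of_le_of_ne (K_dd_nonneg hq hu.1 hu.2.1 hu'.1)
  intro h0
  have h1 := zero_line_of_dd hq hu.1 hu.2.1 hsm hu'.1 h0.symm
  obtain ⟨a, b, hab⟩ := singAt_rigid hp hS hu.1 huz h1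
  have hui : ∀ i, u' i = a * z i + b * u i := by intro i; rw [hab]; simp
  have e1 : ∑ i, z i * u' i = a := by
    have : ∀ i, z i * u' i = a * z i ^ 2 + b * (z i * u i) := by
      intro i; rw [hui]; ring
    simp_rw [this]
    rw [Finset.sum_add_distrib, ← Finset.mul_sum, ← Finset.mul_sum, hz1, hu.2.2.2]
    ring
  rw [hu'.2.2.2] at e1
  rw [← e1] at hab hui
  have e2 : ∑ i, u' i ^ 2 = b ^ 2 := by
    have : ∀ i, u' i ^ 2 = b ^ 2 * u i ^ 2 := by
      intro i; rw [hui]; ring
    simp_rw [this]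
    rw [← Finset.mul_sum, hu.2.2.1, mul_one]
  rw [hu'.2.2.1] at e2
  have e3 : b = 1 ∨ b = -1 := by
    have : (b - 1) * (b + 1) = 0 := by linarith
    rcases mul_eq_zero.1 this with h | h
    · left; linarith
    · right; linarith
  rcases e3 with h | h
  · apply hne
    rw [hab, h, zero_smul, one_smul, zero_add]
  · have h2 : -u = u' := by rw [hab, h, zero_smul, neg_smul, one_smul, zero_add]
    have h3 := lineality_singular hq hS.two_le hqd hu.1 (by rw [h2]; exact hu'.1)
    rw [h3.2] at hsm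
    exact lt_irrefl _ hsm

theorem near_tube' (hp : IsHyperbolic p e) {z : Fin n → ℝ} (hz : z ∈ bdT p e) {m : ℕ}
    (hm : ∀ k < m, part p z k = 0) (he : 0 < MvPolynomial.eval e (part p z m))
    {S : Set (Fin n → ℝ)} (hS : S ⊆ bdT p e)
    {W : Set (ℝ × (Fin n → ℝ))} (hW : W ∈ 𝓝ˢ (({0} : Set ℝ) ×ˢ dirS p e z m)) :
    ∃ U ∈ 𝓝 z, ∀ x ∈ U ∩ S, x ≠ z → pol z x ∈ W ∩ polS z S ∧ cart z (pol z x) = x := by
  obtain ⟨W', hW'o, hsub, hW'W⟩ := mem_nhdsSet_iff_exists.1 hW
  obtain ⟨u, v, hu, hv, h0u, hDv, huv⟩ :=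
    generalized_tube_lemma isCompact_singleton (isCompact_dirS hp hm he) hW'o hsub
  have h0 : u ∈ 𝓝 (0 : ℝ) := hu.mem_nhds (h0u rfl)
  obtain ⟨β, hβ, hball⟩ := Metric.mem_nhds_iff.1 h0
  obtain ⟨U, hU, h⟩ := dir_of hp hz hm he v hv hDv β hβ
  refine ⟨U, hU, fun x hx hxz => ?_⟩
  obtain ⟨b, w, hb, hbβ, hw, hwv, hxe⟩ := h x ⟨hx.1, hS hx.2⟩ hxz
  rw [pol_eq hb hw hxe]
  refine ⟨⟨hW'W (huv ⟨hball ?_, hwv⟩), hb, hw, ?_⟩, hxe.symm⟩
  · rw [Metric.mem_ball, Real.dist_eq, sub_zero, abs_of_pos hb]; exact hbβ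
  · show z + b • w ∈ S
    rw [← hxe]; exact hx.2

end Vale.Agent.P256
end

section

/-! Theorem D: clean strata. -/

namespace Vale.Agent.P256

open Filter Topology

variable {n : ℕ} {p : MvPolynomial (Fin n) ℝ} {e : Fin n → ℝ}

/-- local hypothesis: ordinary point, or no two-dimensional face through `z` -/
def LocOr (p : MvPolynomial (Fin n) ℝ) (e z : Fin n → ℝ) : Prop :=
  LocHyp p e z ∨ ∀ y ∈ hypCone p e, y ∉ Submodule.span ℝ {z} → MvPolynomial.eval (z + y) p ≠ 0

theorem seg_smooth' (hp : IsHyperbolic p e) {x1 x2 : Fin n → ℝ}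
    (h1 : x1 ∈ hypCone p e) (h2 : x2 ∈ hypCone p e) (hx1 : x1 ≠ 0)
    (h12 : x2 ∉ Submodule.span ℝ {x1}) (h20 : MvPolynomial.eval x2 p = 0)
    (h : MvPolynomial.eval (x1 + x2) p = 0)
    (hloc : ∀ z ∈ hypCone p e, z ≠ 0 → MvPolynomial.eval z p = 0 → LocOr p e z)
    {a b : ℝ} (ha : 0 < a) (hb : 0 < b) : 0 < dd p (a • x1 + b • x2) e := by
  set z := a • x1 + b • x2 with hz
  have hzK : z ∈ hypCone p e := K_add hp (K_smul hp h1 ha.le) (K_smul hp h2 hb.le)
  have hz0 : MvPolynomial.eval z p = 0 := plane_zero hp h1 h2 h20 h a b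
  have hzne : z ≠ 0 := by
    intro h0
    apply h12
    rw [mem_span1]
    refine ⟨-(a / b), ?_⟩
    have h3 : b • x2 = -(a • x1) := by
      rw [eq_neg_iff_add_eq_zero, add_comm]; exact h0
    have h4 : x2 = b⁻¹ • (b • x2) := by
      rw [smul_smul, inv_mul_cancel₀ hb.ne', one_smul]
    rw [h4, h3, smul_neg, smul_smul, neg_smul, inv_mul_eq_div]
  have k5 : x1 ∉ Submodule.span ℝ {z} := by
    rw [mem_span1]
    rintro ⟨c, hc⟩
    have h3 : (1 - c * a) • x1 = (c * b) • x2 := by
      rw [hz, smul_add, smul_smul, smul_smul] at hc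
      rw [sub_smul, one_smul]
      nth_rewrite 1 [hc]
      abel
    by_cases hc0 : c = 0
    · rw [hc0] at hc
      apply hx1
      rw [hc, zero_smul]
    · apply h12
      rw [mem_span1]
      refine ⟨(c * b)⁻¹ * (1 - c * a), ?_⟩
      rw [mul_smul, h3, smul_smul, inv_mul_cancel₀ (by (clear * - hc0 hb; positivity)), one_smul]
  refine lt_of_le_of_ne (K_dd_nonneg hp hzK hz0 ((e_inOpen hp).mem hp)) fun hs => ?_
  rcases hloc z hzK hzne hz0 with hl | hl
  · obtain ⟨m, hS⟩ := singAt_of hp hzK hz0 hs.symm hl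
    have hq := part_hyp hp hS.hm hS.he
    have k1 := K_sub_part hp hzK hS.hm hS.he h1
    have k2 := K_sub_part hp hzK hS.hm hS.he h2
    have k3 : -x1 ∈ hypCone (part p z m) e := by
      have h3 := K_part_add hp hS.hm (K_smul hq k2 (c := b / a) (by (clear * - hb ha; positivity))) (-(1 / a))
      have h4 : (b / a) • x2 + (-(1 / a)) • z = -x1 := by
        rw [hz, smul_add, smul_smul, smul_smul, neg_mul, neg_mul, one_div,
          inv_mul_cancel₀ ha.ne', neg_smul, neg_smul, one_smul, div_eq_inv_mul]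
        abel
      rwa [h4] at h3
    have k4 := lineality_singular hq hS.two_le (part_homog p z m) k1 k3
    have k6 := hS.sm x1 k1 k4.1 k5
    rw [k4.2] at k6
    exact lt_irrefl _ k6
  · apply hl x1 h1 k5
    have : z + x1 = (a + 1) • x1 + b • x2 := by
      rw [hz, add_smul, one_smul]; abel
    rw [this]
    exact plane_zero hp h1 h2 h20 h _ _

theorem seg_of' (hp : IsHyperbolic p e)
    (hloc : ∀ z ∈ hypCone p e, z ≠ 0 → MvPolynomial.eval z p = 0 → LocOr p e z)
    {x1 x2 : Fin n → ℝ} (h1 : x1 ∈ hypCone p e) (h2 : x2 ∈ hypCone p e) (hx1 : x1 ≠ 0)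
    (hx2 : x2 ≠ 0)
    (h12 : x2 ∉ Submodule.span ℝ {x1}) (h10 : MvPolynomial.eval x1 p = 0)
    (h20 : MvPolynomial.eval x2 p = 0)
    (hs1 : dd p x1 e = 0) (hs2 : dd p x2 e = 0)
    (h : MvPolynomial.eval (x1 + x2) p = 0) :
    ∃ (m1 m2 : ℕ) (ν : Fin n → ℝ), Seg p e x1 x2 m1 m2 ν := by
  obtain ⟨d, hd⟩ := hp.1
  have h21 : x1 ∉ Submodule.span ℝ {x2} := by
    rw [mem_span1]
    rintro ⟨c, hc⟩
    have hc0 : c ≠ 0 := by
      rintro rfl
      exact hx1 (by rw [hc, zero_smul])
    apply h12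
    rw [mem_span1]
    exact ⟨c⁻¹, by rw [hc, smul_smul, inv_mul_cancel₀ hc0, one_smul]⟩
  have hl1 : LocHyp p e x1 := by
    rcases hloc x1 h1 hx1 h10 with hl | hl
    · exact hl
    · exact absurd h (hl x2 h2 h12)
  have hl2 : LocHyp p e x2 := by
    rcases hloc x2 h2 hx2 h20 with hl | hl
    · exact hl
    · exact absurd (by rw [add_comm]; exact h) (hl x1 h1 h21)
  obtain ⟨m1, hS1⟩ := singAt_of hp h1 h10 hs1 hl1
  obtain ⟨m2, hS2⟩ := singAt_of hp h2 h20 hs2 hl2
  have hzero := plane_zero hp h1 h2 h20 h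
  have hsm : ∀ a b : ℝ, 0 < a → 0 < b → 0 < dd p (a • x1 + b • x2) e := fun a b ha hb =>
    seg_smooth' hp h1 h2 hx1 h12 h20 h hloc ha hb
  have hzK : x1 + x2 ∈ hypCone p e := K_add hp h1 h2
  have hs : 0 < dd p (x1 + x2) e := by simpa using hsm 1 1 one_pos one_pos
  -- the functional
  let φ : (Fin n → ℝ) →ₗ[ℝ] ℝ :=
    { toFun := fun v => dd p (x1 + x2) v
      map_add' := fun v w => dd_add p _ v w
      map_smul' := fun c v => by rw [dd_smul]; rfl }
  have hφ : ∀ v, φ v = dd p (x1 + x2) v := fun v => rfl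
  have hφK : ∀ x ∈ hypCone p e, 0 ≤ φ x := fun x hx => K_dd_nonneg hp hzK h hx
  have hφs : φ x1 + φ x2 = 0 := by
    rw [← map_add, hφ, dd_euler hd, h, mul_zero]
  have hφ1 : φ x1 = 0 := by have := hφK x1 h1; have := hφK x2 h2; (clear hloc hx1 hx2 h12 h10 h20 hs1 hs2 h21 hl1 hl2 m1 hS1 m2 hS2 hzero hsm hs; linarith)
  have hφ2 : φ x2 = 0 := by have := hφK x1 h1; have := hφK x2 h2; linarith only [hφs, hφ1]
  set ν : Fin n → ℝ := fun i => MvPolynomial.eval (x1 + x2) (MvPolynomial.pderiv i p) /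
    dd p (x1 + x2) e with hν
  have hνv : ∀ v : Fin n → ℝ, ∑ i, ν i * v i = φ v / φ e := by
    intro v
    rw [hφ, hφ, dd, Finset.sum_div]
    refine Finset.sum_congr rfl fun i _ => ?_
    simp only [hν]
    ring
  have hgrad : ∀ a b : ℝ, 0 < a → 0 < b → ∀ v : Fin n → ℝ,
      dd p (a • x1 + b • x2) v = dd p (a • x1 + b • x2) e * ∑ i, ν i * v i := by
    intro a b ha hb v
    have hmem : a • x1 + b • x2 ∈ hypCone p e := K_add hp (K_smul hp h1 ha.le)
      (K_smul hp h2 hb.le)
    have h3 := grad_prop hp hmem (hzero a b) (hsm a b ha hb) φ hφK (by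
      rw [map_add, map_smul, map_smul, hφ1, hφ2]; simp) v
    have hφe : φ e ≠ 0 := hs.ne'
    rw [hνv]
    field_simp
    linarith only [h3]
  obtain ⟨a1, a2⟩ := seg_end hp h1 h2 hS1 h12 hzero hgrad
  obtain ⟨b1, b2⟩ := seg_end hp h2 h1 hS2 h21 (fun a b => by rw [add_comm]; exact hzero b a)
    (fun a b ha hb v => by rw [add_comm]; exact hgrad b a hb ha v)
  exact ⟨m1, m2, ν, ⟨hS1.two_le, hS2.two_le, hS1.hm, hS2.hm, hS1.he, hS2.he, h1, h2, h12, hzero,
    hsm, hgrad, a1, b1, a2, fun v hv e1 e2 e3 => b2 v hv e1 e3 e2⟩⟩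

theorem conic_diag' (hp : IsHyperbolic p e)
    (hpt : ∀ x, x ∈ hypCone p e → -x ∈ hypCone p e → x = 0)
    (hloc : ∀ z ∈ hypCone p e, z ≠ 0 → MvPolynomial.eval z p = 0 → LocOr p e z)
    {z : Fin n → ℝ} (hz : z ∈ bdT p e) (hs : dd p z e = 0) {m : ℕ} (hS : SingAt p e z m)
    {u : Fin n → ℝ} (hu : u ∈ dirS p e z m) :
    ∃ ρ : ℝ, 0 < ρ ∧ SosOn (coneNbhd p z u ρ) (coneNbhd p z u ρ) (fun z' x => dd p z' x) := by
  obtain ⟨d, hd⟩ := hp.1
  have hm1 : 1 ≤ m := le_trans (by norm_num) hS.two_le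
  have hzne : z ≠ 0 := by
    rintro rfl
    have := hz.2.2
    simp only [Pi.zero_apply, ne_eq, OfNat.ofNat_ne_zero, not_false_eq_true, zero_pow, Finset.sum_const_zero, zero_ne_one] at this
  rcases conic_case hp hpt hz hS hu with h | ⟨x2, a, b, h1, h2, h3, h4, h5, h6, hb, hue⟩
  · exact conic_sos_diag hd hz.2.2 hm1 hS.hm h (fun v hv e1 e2 e3 =>
      singAt_neg hp hz hS hu v hv e1 e2 e3)
  · obtain ⟨m1, m2, ν, hseg⟩ := seg_of' hp hloc hz.1 h1 hzne h2 h3 hz.2.1 h4 hs h5 h6
    obtain ⟨α, β, hc, hsos⟩ := seg_sos hp hzne hseg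
    obtain ⟨U, hU, V, hV, hUV⟩ := hsos 0 ⟨le_rfl, zero_le_one⟩ 0 ⟨le_rfl, zero_le_one⟩
    obtain ⟨ρ, hρ, hcone⟩ := segA_cone (p := p) hc hb hue (inter_mem hU hV)
    have hsub : ∀ x ∈ coneNbhd p z u ρ, x ∈ segA p z x2 α β (U ∩ V) := by
      rintro x ⟨hx, t, w, ht, htρ, _, hw, rfl⟩
      exact hcone t w ht htρ hw hx.1
    refine ⟨ρ, hρ, hUV.mono (fun x hx => ?_) (fun x hx => ?_)⟩
    · obtain ⟨a1, a2, a3, a4⟩ := hsub x hx
      exact ⟨a1, a2, a3, a4.1⟩
    · obtain ⟨a1, a2, a3, a4⟩ := hsub x hx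
      exact ⟨a1, a2, a3, a4.2⟩

theorem near_conic' (hp : IsHyperbolic p e)
    (hpt : ∀ x, x ∈ hypCone p e → -x ∈ hypCone p e → x = 0)
    (hloc : ∀ z ∈ hypCone p e, z ≠ 0 → MvPolynomial.eval z p = 0 → LocOr p e z)
    {z : Fin n → ℝ} (hz : z ∈ bdT p e) (hs : dd p z e = 0) {m : ℕ} (hSg : SingAt p e z m) :
    ∃ U ∈ 𝓝 z, SosOn (U ∩ {z' | z' ∈ bdT p e ∧ 0 < dd p z' e}) (U ∩ bdT p e)
      (fun z' x => dd p z' x) := by
  have hm1 : 1 ≤ m := le_trans (by norm_num) hSg.two_le
  set S : Set (Fin n → ℝ) := {z' | z' ∈ bdT p e ∧ 0 < dd p z' e} with hSd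
  have hS : S ⊆ bdT p e := fun x hx => hx.1
  have hzS : z ∉ S := by
    rintro ⟨_, h⟩
    rw [hs] at h
    exact lt_irrefl _ h
  have hpos : ∀ z' ∈ S, 0 ≤ dd p z' z := fun z' hz' =>
    K_dd_nonneg hp hz'.1.1 hz'.1.2.1 hz.1
  have hD := isCompact_dirS hp hSg.hm hSg.he
  have hA : IsCompact (({0} : Set ℝ) ×ˢ dirS p e z m) := isCompact_singleton.prod hD
  obtain ⟨W, hW, W', hW', hs'⟩ := SosOn.of_local (S := polS z S) (T := polS z (bdT p e))
    (h := fun w' w => dd p (cart z w') (cart z w)) hA hA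
    (by
      rintro ⟨b, u0⟩ ⟨hb, hu0⟩ ⟨b1, u1⟩ ⟨hb1, hu1⟩
      have hb0 : b = 0 := hb
      subst hb0
      have hb0 : b1 = 0 := hb1
      subst hb0
      have key : ∃ ρ : ℝ, 0 < ρ ∧ SosOn (coneNbhd p z u0 ρ ∩ {z' | 0 ≤ dd p z' z})
          (coneNbhd p z u1 ρ) (fun z' x => dd p z' x) := by
        by_cases h : u1 = u0
        · subst h
          obtain ⟨ρ, hρ, hs⟩ := conic_diag' hp hpt hloc hz hs hSg hu1
          exact ⟨ρ, hρ, hs.mono (fun x hx => hx.1) subset_rfl⟩
        · exact conic_sos_off hz.2.2 hm1 hSg.hm (singAt_off hp hz hSg hu0 hu1 h)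
      obtain ⟨ρ, hρ, hs⟩ := key
      obtain ⟨U, hU, hUb⟩ := box_nhds z u0 hρ p (hS.trans (bdT_sub_sphZ p e))
      obtain ⟨V, hV, hVb⟩ := box_nhds z u1 hρ p (bdT_sub_sphZ p e)
      exact ⟨U, hU, V, hV, (hs.comp (cart z) (cart z)).mono
        (fun w hw => ⟨hUb w hw, hpos _ hw.2.2.2⟩) (fun w hw => hVb w hw)⟩)
  obtain ⟨U, hU, hUW⟩ := near_tube' hp hz hSg.hm hSg.he hS hW
  obtain ⟨V, hV, hVW⟩ := near_tube' hp hz hSg.hm hSg.he (subset_rfl : bdT p e ⊆ bdT p e) hW'
  refine ⟨U ∩ V, inter_mem hU hV, ?_⟩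
  have k1 : SosOn (U ∩ V ∩ S) ((U ∩ V ∩ bdT p e) \ {z}) (fun z' x => dd p z' x) := by
    refine ((hs'.comp (pol z) (pol z)).mono (S' := U ∩ V ∩ S)
      (T' := (U ∩ V ∩ bdT p e) \ {z}) ?_ ?_).congr ?_
    · intro x hx
      exact (hUW x ⟨hx.1.1, hx.2⟩ (fun h => hzS (h ▸ hx.2))).1
    · intro x hx
      exact (hVW x ⟨hx.1.1.2, hx.1.2⟩ hx.2).1
    · intro z' hz' x hx
      rw [(hUW z' ⟨hz'.1.1, hz'.2⟩ (fun h => hzS (h ▸ hz'.2))).2,
        (hVW x ⟨hx.1.1.2, hx.1.2⟩ hx.2).2]
  have k2 : SosOn (U ∩ V ∩ S) {z} (fun z' x => dd p z' x) := by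
    refine (SosOn.left (a := fun z' => dd p z' z) (fun z' hz' => hpos z' hz'.2)).congr ?_
    intro z' _ x hx
    rw [Set.mem_singleton_iff] at hx
    rw [hx]
  refine (k1.union_right k2).mono subset_rfl ?_
  intro x hx
  by_cases h : x = z
  · exact Or.inr h
  · exact Or.inl ⟨hx, h⟩

theorem near_smooth' (hp : IsHyperbolic p e)
    (hpt : ∀ x, x ∈ hypCone p e → -x ∈ hypCone p e → x = 0)
    (hloc : ∀ z ∈ hypCone p e, z ≠ 0 → MvPolynomial.eval z p = 0 → LocOr p e z)
    {z : Fin n → ℝ} (hz : z ∈ bdT p e) (hs : 0 < dd p z e) :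
    ∃ U ∈ 𝓝 z, SosOn (U ∩ {z' | z' ∈ bdT p e ∧ 0 < dd p z' e}) (U ∩ bdT p e)
      (fun z' x => dd p z' x) := by
  obtain ⟨d, hd⟩ := hp.1
  rcases smooth_case hp hpt hz hs with h | ⟨y1, y2, a, b, h1, h2, n1, n2, h3, h4, h5, h6, h7,
    h8, ha, hb, hze⟩
  · obtain ⟨U, hU, hsos⟩ := smooth_sos hd h
    exact ⟨U, hU, hsos.mono (fun x hx => ⟨hx.1, bdT_sub_sphZ p e hx.2.1⟩)
      (fun x hx => ⟨hx.1, bdT_sub_sphZ p e hx.2⟩)⟩
  · obtain ⟨m1, m2, ν, hseg⟩ := seg_of' hp hloc h1 h2 n1 n2 h3 h4 h5 h6 h7 h8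
    obtain ⟨α, β, hc, hsos⟩ := seg_sos hp n1 hseg
    have hs0 : b / (a + b) ∈ Set.Icc (0 : ℝ) 1 :=
      ⟨by (clear * - hb ha; positivity), by rw [div_le_one (by (clear * - ha hb; positivity))]; linarith⟩
    obtain ⟨U, hU, V, hV, hUV⟩ := hsos _ hs0 _ hs0
    obtain ⟨O, hO, hmem⟩ := segA_mem_nhds (p := p) hc ha hb (inter_mem hU hV)
    rw [← hze] at hO
    refine ⟨O, hO, hUV.mono (fun x hx => ?_) (fun x hx => ?_)⟩
    · obtain ⟨a1, a2, a3, a4⟩ := hmem x hx.1 hx.2.1.2.1
      exact ⟨a1, a2, a3, a4.1⟩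
    · obtain ⟨a1, a2, a3, a4⟩ := hmem x hx.1 hx.2.2.1
      exact ⟨a1, a2, a3, a4.2⟩

/-- density of smooth points near an isolated ordinary point -/
theorem dense_conic (hp : IsHyperbolic p e) (hn : 3 ≤ n) (h0 : MvPolynomial.eval 0 p = 0)
    {z : Fin n → ℝ} (hz : z ∈ bdT p e) {m : ℕ} (hS : SingAt p e z m)
    {U : Set (Fin n → ℝ)} (hU : U ∈ 𝓝 z) : ∃ y ∈ U ∩ bdT p e, 0 < dd p y e := by
  obtain ⟨d, hd⟩ := hp.1
  have hz1 := hz.2.2
  set r : (Fin n → ℝ) → ℝ := fun x => ∑ i, z i * x i with hr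
  have hrz : r z = 1 := by
    simp only [hr]
    rw [← hz1]
    exact Finset.sum_congr rfl fun i _ => (sq _).symm
  have hrc : Continuous r := by fun_prop
  refine dense_aux hp h0 hz (L := Submodule.span ℝ {z}) ?_ ?_ ?_ hU
  · have h1 : Module.finrank ℝ (Submodule.span ℝ ({z} : Set (Fin n → ℝ))) ≤ 1 := by
      refine (finrank_span_le_card _).trans ?_
      simp
    omega
  · intro V hV
    have h1 : Tendsto (fun x => r x • z) (𝓝 z) (𝓝 z) := by
      have h2 : Tendsto (fun x => r x • z) (𝓝 z) (𝓝 (r z • z)) := (hrc.tendsto z).smul_const z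
      rwa [hrz, one_smul] at h2
    filter_upwards [h1 hV, (hrc.tendsto z).eventually_const_lt (by rw [hrz]; exact one_pos)]
      with x hx hx0
    refine ⟨r x • z, hx, ?_, K_smul hp hz.1 hx0.le, by rw [eval_smul' hd, hz.2.1, mul_zero]⟩
    intro l hl
    obtain ⟨c, rfl⟩ := mem_span1.1 hl
    have h2 : ∀ i, ((r x • z) i - x i) * (c • z) i = c * (r x * z i ^ 2 - z i * x i) := by
      intro i
      simp only [Pi.smul_apply, smul_eq_mul]
      ring
    simp_rw [h2]
    rw [← Finset.mul_sum, Finset.sum_sub_distrib, ← Finset.mul_sum, hz1]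
    simp only [hr, mul_one, sub_self, mul_zero]
  · obtain ⟨V, hV, hiso⟩ := isolated_of hp hz (le_trans (by norm_num) hS.two_le) hS.hm hS.he
      (fun u hu => hS.sm u hu.1 hu.2.1 (dirS_not_span hz.2.2 hu))
    set nrm : (Fin n → ℝ) → ℝ := fun x => Real.sqrt (∑ i, x i ^ 2) with hnrm
    have hnz : nrm z = 1 := by simp only [hnrm]; rw [hz1, Real.sqrt_one]
    have hnc : Continuous nrm := by fun_prop
    have hn1 : Tendsto (fun x => (nrm x)⁻¹ • x) (𝓝 z) (𝓝 z) := by
      have h1 : Tendsto (fun x => (nrm x)⁻¹ • x) (𝓝 z) (𝓝 ((nrm z)⁻¹ • z)) :=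
        ((hnc.tendsto z).inv₀ (by rw [hnz]; exact one_ne_zero)).smul tendsto_id
      rwa [hnz, inv_one, one_smul] at h1
    refine ⟨{x | (nrm x)⁻¹ • x ∈ V ∧ 0 < nrm x}, inter_mem (hn1 hV)
      ((hnc.tendsto z).eventually_const_lt (by rw [hnz]; exact one_pos)), ?_⟩
    have key : ∀ x, (nrm x)⁻¹ • x ∈ V → 0 < nrm x → x ∈ hypCone p e →
        MvPolynomial.eval x p = 0 → dd p x e = 0 → x = nrm x • z := by
      intro x h1 h2 h3 h4 h5
      by_contra hne
      have h6 : (nrm x)⁻¹ • x ∈ bdT p e := by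
        refine ⟨K_smul hp h3 (inv_pos.2 h2).le, by rw [eval_smul' hd, h4, mul_zero], ?_⟩
        have h4 : ∀ i, ((nrm x)⁻¹ • x) i ^ 2 = (nrm x ^ 2)⁻¹ * x i ^ 2 := by
          intro i
          simp only [Pi.smul_apply, smul_eq_mul]
          rw [mul_pow, inv_pow]
        simp_rw [h4]
        rw [← Finset.mul_sum]
        have h5 : nrm x ^ 2 = ∑ i, x i ^ 2 :=
          Real.sq_sqrt (Finset.sum_nonneg fun i _ => sq_nonneg _)
        rw [← h5, inv_mul_cancel₀ (by (clear * - h2; positivity))]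
      have h7 := hiso _ ⟨h1, h6⟩ (by
        intro h8
        apply hne
        rw [← h8, smul_smul, mul_inv_cancel₀ h2.ne', one_smul])
      rw [dd_smul_left hd, h5, mul_zero] at h7
      exact lt_irrefl _ h7
    intro x hx x' hx' k1 k2 k3 k4 k5 k6 k7
    have e1 := key x hx.1 hx.2 k1 k3 k5
    have e2 := key x' hx'.1 hx'.2 k2 k4 k6
    have e3 := k7 z (Submodule.mem_span_singleton_self z)
    have e4 : ∑ i, (x i - x' i) * z i = nrm x - nrm x' := by
      have h2 : ∀ i, (x i - x' i) * z i = (nrm x - nrm x') * z i ^ 2 := by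
        intro i
        have a1 : x i = nrm x * z i := by
          have := congrFun e1 i
          simpa using this
        have a2 : x' i = nrm x' * z i := by
          have := congrFun e2 i
          simpa using this
        rw [a1, a2]; ring
      simp_rw [h2]
      rw [← Finset.mul_sum, hz1, mul_one]
    rw [e4] at e3
    rw [e1, e2, sub_eq_zero.1 e3]

/-- density of smooth points near a clean stratum -/
theorem dense_strat (hp : IsHyperbolic p e) (h0 : MvPolynomial.eval 0 p = 0)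
    {z : Fin n → ℝ} (hz : z ∈ bdT p e) {m : ℕ} (hS : StratAt p e z (m + 1))
    {U : Set (Fin n → ℝ)} (hU : U ∈ 𝓝 z) : ∃ y ∈ U ∩ bdT p e, 0 < dd p y e := by
  obtain ⟨d, hd⟩ := hp.1
  refine dense_aux hp h0 hz (L := Lin (part p z (m + 1))) hS.codim ?_ ?_ hU
  · intro V hV
    obtain ⟨V', hV', h1⟩ := near_mem_K hp hz.1 hS.hm hS.he
    filter_upwards [hS.clean _ (inter_mem hV hV')] with x hx
    obtain ⟨y, hy1, hy2, hy3⟩ := hx
    exact ⟨y, hy1.1, hy2, h1 y hy1.2 hy3, (hy3.mono (by omega) : vanish p y 1).eval⟩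
  · -- uniqueness of singular points in a fibre
    have hsd := near_smooth_dirs hp hS d
    have h1 := near_dirs hp hS.hm hS.he hsd
    rw [nhds_prod_eq] at h1
    obtain ⟨pa, hpa, pb, hpb, hab⟩ := eventually_prod_iff.1 h1
    have h3 : ∀ᶠ q : (Fin n → ℝ) × (Fin n → ℝ) in 𝓝 (z, z),
        pb (Real.sqrt (∑ i, (q.1 i - q.2 i) ^ 2)) := by
      have hc : Continuous (fun q : (Fin n → ℝ) × (Fin n → ℝ) =>
          Real.sqrt (∑ i, (q.1 i - q.2 i) ^ 2)) := by fun_prop
      have h4 := hc.tendsto (z, z)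
      simp only [sub_self, ne_eq, OfNat.ofNat_ne_zero, not_false_eq_true, zero_pow,
        Finset.sum_const_zero, Real.sqrt_zero] at h4
      exact h4.eventually hpb
    rw [nhds_prod_eq] at h3
    obtain ⟨pc, hpc, pd, hpd, hcd⟩ := eventually_prod_iff.1 h3
    -- a point with a given base point in the stratum
    have key : ∀ x y : Fin n → ℝ, pa y → pc x → pd y → x ∈ hypCone p e →
        MvPolynomial.eval x p = 0 → vanish p y (m + 1) →
        (∀ l ∈ Lin (part p z (m + 1)), ∑ i, (y i - x i) * l i = 0) → dd p x e = 0 → x = y := by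
      intro x y hya hxc hyd hxK hx0 hyv hyL hxs
      by_contra hxy
      have hne : x - y ≠ 0 := sub_ne_zero.2 hxy
      set b := Real.sqrt (∑ i, (x i - y i) ^ 2) with hb
      have hb0 : 0 < b := sqrt_sum_pos hne
      have hb2 : b ^ 2 = ∑ i, (x i - y i) ^ 2 :=
        Real.sq_sqrt (Finset.sum_nonneg fun i _ => sq_nonneg _)
      set v : Fin n → ℝ := b⁻¹ • (x - y) with hv
      have hvb : y + b • v = x := by
        rw [hv, smul_smul, mul_inv_cancel₀ hb0.ne', one_smul]; abel
      have hvN : v ∈ unitN (part p z (m + 1)) := by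
        constructor
        · have : ∀ i, v i ^ 2 = (b ^ 2)⁻¹ * (x i - y i) ^ 2 := by
            intro i
            rw [hv]
            simp only [Pi.smul_apply, Pi.sub_apply, smul_eq_mul]
            rw [mul_pow, inv_pow]
          simp_rw [this]
          rw [← Finset.mul_sum, ← hb2, inv_mul_cancel₀ (by (clear * - hb0; positivity))]
        · intro l hl
          have h5 := hyL l hl
          have h6 : ∑ i, v i * l i = - (b⁻¹ * ∑ i, (y i - x i) * l i) := by
            rw [Finset.mul_sum, ← Finset.sum_neg_distrib]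
            refine Finset.sum_congr rfl fun i _ => ?_
            rw [hv]
            simp only [Pi.smul_apply, Pi.sub_apply, smul_eq_mul]
            ring
          rw [h6, h5, mul_zero, neg_zero]
      have h5 := hab hya (hcd hxc hyd) v hvN hb0 hyv (by rw [hvb]; exact hxK)
        (by rw [hvb]; exact hx0)
      have h6 := dd_e_param (e := e) hd (le_refl d) (l := wp y b v) hyv
      rw [zp_wp, bp_wp, np_wp, hvb, hxs] at h6
      exact absurd h6.symm (mul_pos (pow_pos hb0 _) h5).ne'
    have h4 := hS.clean {y | pa y ∧ pd y} (hpa.and hpd)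
    refine ⟨{x | pc x ∧ ∃ y ∈ {y | pa y ∧ pd y}, (∀ l ∈ Lin (part p z (m + 1)),
      ∑ i, (y i - x i) * l i = 0) ∧ vanish p y (m + 1)}, hpc.and h4, ?_⟩
    rintro x ⟨hxc, y, ⟨hya, hyd⟩, hyL, hyv⟩ x' ⟨hxc', _⟩ k1 k2 k3 k4 k5 k6 k7
    have e1 := key x y hya hxc hyd k1 k3 hyv hyL k5
    have e2 : x' = y := by
      refine key x' y hya hxc' hyd k2 k4 hyv (fun l hl => ?_) k6
      have h7 := hyL l hl
      have h8 := k7 l hl
      have h9 : ∑ i, (y i - x' i) * l i = ∑ i, (y i - x i) * l i + ∑ i, (x i - x' i) * l i := by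
        rw [← Finset.sum_add_distrib]
        refine Finset.sum_congr rfl fun i _ => ?_
        ring
      rw [h9, h7, h8, add_zero]
    rw [e1, e2]

theorem mainD (hn : 3 ≤ n) (hp : IsHyperbolic p e)
    (hpt : ∀ x, x ∈ hypCone p e → -x ∈ hypCone p e → x = 0)
    (hloc : ∀ z ∈ hypCone p e, z ≠ 0 → MvPolynomial.eval z p = 0 →
      LocHyp p e z ∨ ∃ m, StratAt p e z m) :
    IsSpectrahedralShadow (hypCone p e) := by
  by_cases h0 : MvPolynomial.eval 0 p = 0
  · have hne : ∀ z ∈ bdT p e, z ≠ 0 := by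
      rintro z hz rfl
      have := hz.2.2
      simp only [Pi.zero_apply, ne_eq, OfNat.ofNat_ne_zero, not_false_eq_true, zero_pow, Finset.sum_const_zero, zero_ne_one] at this
    have hor : ∀ z ∈ hypCone p e, z ≠ 0 → MvPolynomial.eval z p = 0 → LocOr p e z := by
      intro z hz hz0 hz1
      rcases hloc z hz hz0 hz1 with h | ⟨m, h⟩
      · exact Or.inl h
      · exact Or.inr h.face
    refine localize_dense hp hn hpt h0 (fun y hy U hU => ?_) fun z hz => ?_
    · rcases (K_dd_nonneg hp hy.1 hy.2.1 ((e_inOpen hp).mem hp)).lt_or_eq with h | h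
      · exact ⟨y, ⟨mem_of_mem_nhds hU, hy⟩, h⟩
      · rcases hloc y hy.1 (hne y hy) hy.2.1 with hl | ⟨m, hS⟩
        · obtain ⟨m, hS⟩ := singAt_of hp hy.1 hy.2.1 h.symm hl
          exact dense_conic hp hn h0 hy hS hU
        · obtain ⟨m', rfl⟩ : ∃ m', m = m' + 1 := ⟨m - 1, by have := hS.two_le; omega⟩
          exact dense_strat hp h0 hy hS hU
    · rcases (K_dd_nonneg hp hz.1 hz.2.1 ((e_inOpen hp).mem hp)).lt_or_eq with h | h
      · exact near_smooth' hp hpt hor hz h
      · rcases hloc z hz.1 (hne z hz) hz.2.1 with hl | ⟨m, hS⟩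
        · obtain ⟨m, hS⟩ := singAt_of hp hz.1 hz.2.1 h.symm hl
          exact near_conic' hp hpt hor hz h.symm hS
        · obtain ⟨m', rfl⟩ : ∃ m', m = m' + 1 := ⟨m - 1, by have := hS.two_le; omega⟩
          exact near_strat hp hz hS
  · rw [K_univ_of_eval_zero_ne hp h0]
    exact shadow_univ

end Vale.Agent.P256
end

section

/-! Definitions for clean strata. -/

namespace Vale.Agent.P256

open Filter Topology

variable {n : ℕ}

/-- The multiplicity of `p` at `z`: the degree of the localization `p_z`. -/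
noncomputable def mult (p : MvPolynomial (Fin n) ℝ) (z : Fin n → ℝ) : ℕ :=
  sInf {k : ℕ | MvPolynomial.homogeneousComponent k (translate p z) ≠ 0}

/-- The lineality space of `q`: all `v` such that `q` is constant on all lines of direction `v`. -/
def lineality (q : MvPolynomial (Fin n) ℝ) : Submodule ℝ (Fin n → ℝ) where
  carrier := {v | ∀ (x : Fin n → ℝ) (t : ℝ),
    MvPolynomial.eval (x + t • v) q = MvPolynomial.eval x q}
  add_mem' := by
    intro a b ha hb x t
    rw [smul_add, ← add_assoc, hb, ha]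
  zero_mem' := by
    intro x t
    rw [smul_zero, add_zero]
  smul_mem' := by
    intro c a ha x t
    rw [smul_smul]
    exact ha x (t * c)

/-- `z` is an ordinary point: the localization `p_z` is smooth at all boundary points of its own
hyperbolicity cone off the line `ℝ z`. -/
def Ordinary (p : MvPolynomial (Fin n) ℝ) (e z : Fin n → ℝ) : Prop :=
  ∀ v ∈ hypCone (localization p z) e, MvPolynomial.eval v (localization p z) = 0 →
    v ∉ Submodule.span ℝ {z} → IsSmoothPoint (localization p z) v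

/-- `z` lies on a clean curved stratum. Here `L` is the lineality space of the localization
`p_z` and `m` the multiplicity of `p` at `z`. -/
structure CleanStratum (p : MvPolynomial (Fin n) ℝ) (e z : Fin n → ℝ) : Prop where
  /-- `p_z` is smooth at all boundary points of its hyperbolicity cone outside `L` -/
  smooth : ∀ v ∈ hypCone (localization p z) e, MvPolynomial.eval v (localization p z) = 0 →
    v ∉ lineality (localization p z) → IsSmoothPoint (localization p z) v
  /-- `p_z` depends on at least two variables -/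
  codim : Module.finrank ℝ (lineality (localization p z)) + 2 ≤ n
  /-- the points of multiplicity `≥ m` near `z` project onto a neighbourhood of `z` in `z + L` -/
  equimultiple : ∀ U ∈ 𝓝 z, ∀ᶠ x in 𝓝 z, ∃ y ∈ U,
    (∀ l ∈ lineality (localization p z), ∑ i, (y i - x i) * l i = 0) ∧ mult p z ≤ mult p y
  /-- curvature: the part of degree `2m` of `y ↦ p (z + y)` has no zero on `L` off `ℝ z` -/
  curved : ∀ v ∈ lineality (localization p z), v ∉ Submodule.span ℝ {z} →
    MvPolynomial.eval v (MvPolynomial.homogeneousComponent (2 * mult p z) (translate p z)) ≠ 0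
  /-- `z` lies on no face of dimension two or more of the cone -/
  extreme : ∀ y ∈ hypCone p e, y ∉ Submodule.span ℝ {z} → MvPolynomial.eval (z + y) p ≠ 0

end Vale.Agent.P256
end

section

/-! Problem-level statement of the theorem on clean strata. -/

namespace Vale.Agent.P256

open Filter Topology

variable {n : ℕ} {p : MvPolynomial (Fin n) ℝ} {e : Fin n → ℝ}

theorem lineality_eq (q : MvPolynomial (Fin n) ℝ) : lineality q = Lin q := by
  ext v
  constructor
  · intro hv
    rw [mem_Lin]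
    intro x
    have h1 : line q x v = Polynomial.C (MvPolynomial.eval x q) := by
      apply Polynomial.funext
      intro t
      rw [eval_line, Polynomial.eval_C]
      exact hv x t
    have h2 := eval_derivative_line q x v 0
    rw [h1, Polynomial.derivative_C, Polynomial.eval_zero, zero_smul, add_zero] at h2
    exact h2.symm
  · intro hv x t
    exact eval_add_Lin ((Lin q).smul_mem t hv) x

theorem mult_eq {z : Fin n → ℝ} {m : ℕ} (h1 : ∀ k < m, part p z k = 0)
    (h2 : part p z m ≠ 0) : mult p z = m := by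
  apply le_antisymm
  · exact Nat.sInf_le h2
  · apply le_csInf ⟨m, h2⟩
    intro k hk
    by_contra hlt
    push Not at hlt
    exact hk (h1 k hlt)

theorem vanish_of_le_mult {y : Fin n → ℝ} {m : ℕ} (h : m ≤ mult p y) : vanish p y m := by
  intro k hk
  by_contra hne
  have : mult p y ≤ k := Nat.sInf_le hne
  omega

theorem loc_of_smooth {z : Fin n → ℝ} (hz0 : MvPolynomial.eval z p = 0)
    (hs : 0 < dd p z e) : LocHyp p e z := by
  have h0 : ∀ k < 1, part p z k = 0 := by
    intro k hk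
    have : k = 0 := by omega
    subst this
    apply MvPolynomial.funext
    intro y
    rw [← coeff_line, Polynomial.coeff_zero_eq_eval_zero, eval_line, zero_smul, add_zero, hz0,
      map_zero]
  have h1 : ∀ v, MvPolynomial.eval v (part p z 1) = dd p z v := by
    intro v
    have h2 := Polynomial.coeff_derivative (line p z v) 0
    rw [Polynomial.coeff_zero_eq_eval_zero, eval_derivative_line, zero_smul, add_zero,
      coeff_line] at h2
    simp only [zero_add, Nat.cast_zero, mul_one] at h2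
    exact h2.symm
  have h2 : part p z 1 ≠ 0 := by
    intro h
    have := h1 e
    rw [h, map_zero] at this
    exact hs.ne this
  intro v _ _ _
  rw [localization_eq h0 h2]
  apply smooth_of_dd_pos (v := e)
  have h3 : dd (part p z 1) v e = dd p z e := by
    rw [← zero_add (dd (part p z 1) v e)]
    have h4 := eval_derivative_line (part p z 1) v e 0
    rw [zero_smul, add_zero] at h4
    rw [zero_add, ← h4]
    have h5 : line (part p z 1) v e = Polynomial.C (dd p z v) + Polynomial.C (dd p z e) *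
        Polynomial.X := by
      apply Polynomial.funext
      intro t
      rw [eval_line, h1, dd_add, dd_smul]
      simp only [Polynomial.eval_add, Polynomial.eval_C, Polynomial.eval_mul, Polynomial.eval_X, add_right_inj]; ring
    rw [h5]
    simp only [Polynomial.derivative_add, Polynomial.derivative_C, Polynomial.derivative_mul, zero_mul, Polynomial.derivative_X, mul_one, zero_add, Polynomial.eval_C]
  rw [h3]
  exact hs.ne'

theorem mainD' (hn : 3 ≤ n) (hp : IsHyperbolic p e)
    (hpt : ∀ x, x ∈ hypCone p e → -x ∈ hypCone p e → x = 0)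
    (hloc : ∀ z ∈ hypCone p e, z ≠ 0 → MvPolynomial.eval z p = 0 →
      Ordinary p e z ∨ CleanStratum p e z) :
    IsSpectrahedralShadow (hypCone p e) := by
  refine mainD hn hp hpt fun z hzK hz hz0 => ?_
  rcases (K_dd_nonneg hp hzK hz0 ((e_inOpen hp).mem hp)).lt_or_eq with hs | hs
  · exact Or.inl (loc_of_smooth hz0 hs)
  rcases hloc z hzK hz hz0 with h | h
  · exact Or.inl h
  right
  obtain ⟨m, hm, he⟩ := exists_mult hp hzK
  have hp0 : part p z m ≠ 0 := by
    intro h
    rw [h, map_zero] at he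
    exact lt_irrefl _ he
  have hmu := mult_eq hm hp0
  have hle := localization_eq hm hp0
  have hm2 : 2 ≤ m := by
    by_contra hlt
    push Not at hlt
    have hcase : m = 0 ∨ m = 1 := by omega
    rcases hcase with h | h
    · subst h
      rw [← coeff_line, Polynomial.coeff_zero_eq_eval_zero, eval_line, zero_smul, add_zero,
        hz0] at he
      exact lt_irrefl _ he
    · subst h
      have h2 := Polynomial.coeff_derivative (line p z e) 0
      rw [Polynomial.coeff_zero_eq_eval_zero, eval_derivative_line, zero_smul, add_zero, ← hs,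
        coeff_line] at h2
      simp only [zero_add, Nat.cast_zero, mul_one] at h2
      rw [← h2] at he
      exact lt_irrefl _ he
  have hq := part_hyp hp hm he
  obtain ⟨a1, a2, a3, a4, a5⟩ := h
  rw [hle, lineality_eq] at a1 a2 a3 a4
  rw [hmu] at a3 a4
  refine ⟨m, hm2, hm, he, fun v hv hv0 hvL => dd_e_pos hq hv hv0 (a1 v hv hv0 hvL), ?_, a4, a5,
    a2⟩
  intro U hU
  filter_upwards [a3 U hU] with x hx
  obtain ⟨y, hy, hy1, hy2⟩ := hx
  exact ⟨y, hy, hy1, vanish_of_le_mult hy2⟩

end Vale.Agent.P256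
end

section

/-! Closure of the class under intersections and linear preimages. -/

namespace Vale.Agent.P256

open Matrix

variable {n : ℕ}

/-- spectrahedral shadows with arbitrary finite index types -/
def GShad (S : Set (Fin n → ℝ)) : Prop :=
  ∃ (ι κ : Type) (_ : Fintype ι) (_ : Fintype κ) (A₀ : Matrix ι ι ℝ) (A : Fin n → Matrix ι ι ℝ)
    (B : κ → Matrix ι ι ℝ), A₀.IsSymm ∧ (∀ i, (A i).IsSymm) ∧ (∀ j, (B j).IsSymm) ∧
    S = {x | ∃ u : κ → ℝ, (A₀ + ∑ i, x i • A i + ∑ j, u j • B j).PosSemidef}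

theorem GShad.shadow {S : Set (Fin n → ℝ)} (h : GShad S) : IsSpectrahedralShadow S := by
  obtain ⟨ι, κ, hι, hκ, A₀, A, B, hA₀, hA, hB, hS⟩ := h
  let f := Fintype.equivFin ι
  let g := Fintype.equivFin κ
  refine ⟨Fintype.card ι, Fintype.card κ, A₀.submatrix f.symm f.symm,
    fun i => (A i).submatrix f.symm f.symm,
    fun j => (B (g.symm j)).submatrix f.symm f.symm, hA₀.submatrix _, fun i => (hA i).submatrix _,
    fun j => (hB _).submatrix _, ?_⟩
  rw [hS]
  ext x
  simp only [Set.mem_ofPred_eq]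
  have key : ∀ u : κ → ℝ, (A₀.submatrix f.symm f.symm +
      ∑ i, x i • (A i).submatrix f.symm f.symm +
      ∑ j, u (g.symm j) • (B (g.symm j)).submatrix f.symm f.symm) =
      (A₀ + ∑ i, x i • A i + ∑ j, u j • B j).submatrix f.symm f.symm := by
    intro u
    ext a b
    simp only [Matrix.add_apply, Matrix.sum_apply, Matrix.smul_apply, Matrix.submatrix_apply]
    congr 1
    exact Equiv.sum_comp g.symm (fun j => u j • B j (f.symm a) (f.symm b))
  constructor
  · rintro ⟨u, hu⟩
    refine ⟨fun j => u (g.symm j), ?_⟩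
    rw [key]
    exact hu.submatrix _
  · rintro ⟨u, hu⟩
    refine ⟨fun j => u (g j), ?_⟩
    have h1 := key (fun j => u (g j))
    simp only [Equiv.apply_symm_apply] at h1
    rw [h1] at hu
    exact (posSemidef_submatrix_equiv f.symm).1 hu

theorem GShad.of_shadow {S : Set (Fin n → ℝ)} (h : IsSpectrahedralShadow S) : GShad S := by
  obtain ⟨m, a, A₀, A, B, hA₀, hA, hB, hS⟩ := h
  exact ⟨Fin m, Fin a, inferInstance, inferInstance, A₀, A, B, hA₀, hA, hB, hS⟩

theorem GShad.inter {S T : Set (Fin n → ℝ)} (hS : GShad S) (hT : GShad T) : GShad (S ∩ T) := by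
  obtain ⟨ι, κ, hι, hκ, A₀, A, B, hA₀, hA, hB, hS⟩ := hS
  obtain ⟨ι', κ', hι', hκ', A₀', A', B', hA₀', hA', hB', hT⟩ := hT
  refine ⟨ι ⊕ ι', κ ⊕ κ', inferInstance, inferInstance, fromBlocks A₀ 0 0 A₀',
    fun i => fromBlocks (A i) 0 0 (A' i),
    Sum.elim (fun j => fromBlocks (B j) 0 0 0) (fun j => fromBlocks 0 0 0 (B' j)),
    symm_blocks hA₀ hA₀', fun i => symm_blocks (hA i) (hA' i), ?_, ?_⟩
  · rintro (j | j)
    · exact symm_blocks (hB j) Matrix.isSymm_zero
    · exact symm_blocks Matrix.isSymm_zero (hB' j)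
  · rw [hS, hT]
    ext x
    simp only [Set.mem_inter_iff, Set.mem_ofPred_eq]
    have key : ∀ (u : κ → ℝ) (u' : κ' → ℝ), fromBlocks A₀ 0 0 A₀' +
        ∑ i, x i • fromBlocks (A i) 0 0 (A' i) +
        ∑ j : κ ⊕ κ', (Sum.elim u u') j • (Sum.elim (fun j => fromBlocks (B j) 0 0 0)
          (fun j => fromBlocks 0 0 0 (B' j)) : κ ⊕ κ' → Matrix (ι ⊕ ι') (ι ⊕ ι') ℝ) j =
        fromBlocks (A₀ + ∑ i, x i • A i + ∑ j, u j • B j) 0 0
          (A₀' + ∑ i, x i • A' i + ∑ j, u' j • B' j) := by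
      intro u u'
      rw [Fintype.sum_sum_type]
      simp only [Sum.elim_inl, Sum.elim_inr]
      rw [sum_blocks, sum_blocks, sum_blocks]
      simp only [fromBlocks_add, add_zero, zero_add, Finset.sum_const_zero, smul_zero]
    constructor
    · rintro ⟨⟨u, hu⟩, ⟨u', hu'⟩⟩
      refine ⟨Sum.elim u u', ?_⟩
      rw [key, psd_fromBlocks]
      exact ⟨hu, hu'⟩
    · rintro ⟨w, hw⟩
      have hw' : w = Sum.elim (fun j => w (Sum.inl j)) (fun j => w (Sum.inr j)) := by
        funext j
        rcases j with j | j <;> rfl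
      rw [hw', key, psd_fromBlocks] at hw
      exact ⟨⟨_, hw.1⟩, ⟨_, hw.2⟩⟩

theorem GShad.univ : GShad (Set.univ : Set (Fin n → ℝ)) := GShad.of_shadow shadow_univ

theorem GShad.preimage {k : ℕ} {S : Set (Fin k → ℝ)} (hS : GShad S)
    (L : (Fin n → ℝ) →ₗ[ℝ] (Fin k → ℝ)) : GShad (L ⁻¹' S) := by
  obtain ⟨ι, κ, hι, hκ, A₀, A, B, hA₀, hA, hB, hS⟩ := hS
  refine ⟨ι, κ, hι, hκ, A₀, fun i => ∑ j, L (Pi.single i 1) j • A j, B, hA₀, ?_, hB, ?_⟩
  · intro i
    rw [Matrix.IsSymm, Matrix.transpose_sum]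
    refine Finset.sum_congr rfl fun j _ => ?_
    rw [Matrix.transpose_smul, (hA j).eq]
  · rw [hS]
    ext x
    simp only [Set.mem_preimage, Set.mem_ofPred_eq]
    have h1 : ∑ i, x i • ∑ j, L (Pi.single i 1) j • A j = ∑ j, L x j • A j := by
      have h2 : L x = ∑ i, x i • L (Pi.single i 1) := by
        conv_lhs => rw [← Finset.univ_sum_single x]
        rw [map_sum]
        refine Finset.sum_congr rfl fun i _ => ?_
        rw [← map_smul]
        congr 1
        rw [← Pi.single_smul, smul_eq_mul, mul_one]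
      simp_rw [h2, Finset.sum_apply, Pi.smul_apply, Finset.sum_smul, Finset.smul_sum]
      rw [Finset.sum_comm]
      refine Finset.sum_congr rfl fun j _ => Finset.sum_congr rfl fun i _ => ?_
      rw [smul_smul, smul_eq_mul]
    rw [h1]

theorem GShad.halfspace (l : (Fin n → ℝ) →ₗ[ℝ] ℝ) : GShad {x | 0 ≤ l x} := by
  refine ⟨Unit, Empty, inferInstance, inferInstance, 0,
    fun i => Matrix.of fun _ _ => l (Pi.single i 1), fun j => j.elim, Matrix.isSymm_zero, ?_, ?_, ?_⟩
  · intro i
    ext a b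
    rfl
  · intro j
    exact j.elim
  · ext x
    simp only [Set.mem_ofPred_eq]
    have h1 : (0 : Matrix Unit Unit ℝ) + ∑ i, x i • (Matrix.of fun _ _ => l (Pi.single i 1)) =
        Matrix.of fun _ _ => l x := by
      ext a b
      have h2 : l x = ∑ i, x i • l (Pi.single i 1) := by
        conv_lhs => rw [← Finset.univ_sum_single x]
        rw [map_sum]
        refine Finset.sum_congr rfl fun i _ => ?_
        rw [← map_smul]
        congr 1
        rw [← Pi.single_smul, smul_eq_mul, mul_one]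
      rw [zero_add, Matrix.sum_apply, h2]
      rfl
    have h3 : ∀ u : Empty → ℝ, ∑ j, u j • (fun j => j.elim : Empty → Matrix Unit Unit ℝ) j = 0 := by
      intro u
      simp
    constructor
    · intro hx
      refine ⟨fun j => j.elim, ?_⟩
      rw [h1, h3, add_zero, posSemidef_iff_dotProduct_mulVec]
      refine ⟨?_, fun v => ?_⟩
      · ext a b
        rfl
      · simp only [dotProduct, mulVec, Finset.univ_unique, Finset.sum_singleton, Pi.star_apply,
          star_trivial]
        rw [Matrix.of_apply]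
        nlinarith only [hx, mul_self_nonneg (v default)]
    · rintro ⟨u, hu⟩
      rw [h1, h3, add_zero, posSemidef_iff_dotProduct_mulVec] at hu
      have := hu.2 (fun _ => 1)
      simpa only [ge_iff_le, dotProduct, Finset.univ_unique, PUnit.default_eq_unit, Pi.star_apply, star_trivial,     mulVec, of_apply, mul_one, Finset.sum_const, Finset.card_singleton, one_smul, one_mul] using this

theorem GShad.iInter {σ : Type*} (t : Finset σ) {E : σ → Set (Fin n → ℝ)}
    (h : ∀ s ∈ t, GShad (E s)) : GShad {x | ∀ s ∈ t, x ∈ E s} := by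
  classical
  induction t using Finset.induction_on with
  | empty =>
    have : {x : Fin n → ℝ | ∀ s ∈ (∅ : Finset σ), x ∈ E s} = Set.univ := by
      ext x; simp
    rw [this]
    exact GShad.univ
  | insert a s ha ih =>
    have : {x : Fin n → ℝ | ∀ s' ∈ insert a s, x ∈ E s'} = E a ∩ {x | ∀ s' ∈ s, x ∈ E s'} := by
      ext x; simp only [Finset.mem_insert, forall_eq_or_imp, Set.mem_ofPred_eq, Set.mem_inter_iff]
    rw [this]
    exact (h a (Finset.mem_insert_self a s)).inter
      (ih fun s' hs' => h s' (Finset.mem_insert_of_mem hs'))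

/-- hyperbolicity cones in a space spanned by `e` and one more vector are polyhedral -/
theorem shadow_of_span {p : MvPolynomial (Fin n) ℝ} {e f : Fin n → ℝ} (hp : IsHyperbolic p e)
    (hf : ∀ x : Fin n → ℝ, ∃ α β : ℝ, x = α • e + β • f) : GShad (hypCone p e) := by
  obtain ⟨d, hd⟩ := hp.1
  by_cases hd0 : d = 0
  · subst hd0
    have h1 := (MvPolynomial.totalDegree_zero_iff_isHomogeneous (Fin n)).2 hd
    rw [MvPolynomial.totalDegree_eq_zero_iff_eq_C] at h1
    have h0 : MvPolynomial.eval 0 p ≠ 0 := by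
      have := hp.2.1
      rw [h1] at this ⊢
      simpa using this.ne'
    rw [K_univ_of_eval_zero_ne hp h0]
    exact GShad.univ
  let T : ℝ × ℝ →ₗ[ℝ] (Fin n → ℝ) :=
    (LinearMap.toSpanSingleton ℝ _ e).coprod (LinearMap.toSpanSingleton ℝ _ f)
  have hT : Function.Surjective T := by
    intro x
    obtain ⟨α, β, h⟩ := hf x
    exact ⟨(α, β), by simp [T, h]⟩
  obtain ⟨R, hR⟩ := LinearMap.exists_rightInverse_of_surjective T (LinearMap.range_eq_top.2 hT)
  have hR' : ∀ x, (R x).1 • e + (R x).2 • f = x := by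
    intro x
    have := LinearMap.congr_fun hR x
    simpa [T] using this
  set g := line p (-f) e with hg
  have hg0 : g ≠ 0 := line_e_ne_zero hp (-f)
  have hgs : g.Splits := hp.splits (-f)
  have hev : ∀ x : Fin n → ℝ, ∀ t : ℝ, MvPolynomial.eval (t • e - x) p =
      MvPolynomial.eval ((t - (R x).1) • e - (R x).2 • f) p := by
    intro x t
    congr 2
    conv_lhs => rw [← hR' x]
    rw [sub_smul]
    abel
  have hK : hypCone p e = {x | ∀ μ ∈ g.roots.toFinset, x ∈ {x | 0 ≤ ((LinearMap.fst ℝ ℝ ℝ) ∘ₗ R +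
      μ • ((LinearMap.snd ℝ ℝ ℝ) ∘ₗ R)) x}} := by
    ext x
    simp only [Set.mem_ofPred_eq, LinearMap.add_apply, LinearMap.smul_apply, LinearMap.comp_apply,
      LinearMap.fst_apply, LinearMap.snd_apply, smul_eq_mul, Multiset.mem_toFinset]
    constructor
    · intro hx μ hμ
      have h1 : g.eval μ = 0 := (Polynomial.mem_roots hg0).1 hμ
      rw [hg, eval_line] at h1
      apply hx
      rw [hev]
      have h2 : ((R x).1 + μ * (R x).2 - (R x).1) • e - (R x).2 • f =
          (R x).2 • (-f + μ • e) := by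
        rw [smul_add, smul_smul, smul_neg, add_sub_cancel_left, mul_comm]
        abel
      rw [h2, eval_smul' hd, h1, mul_zero]
    · intro hx t ht
      rw [hev] at ht
      by_cases hβ : (R x).2 = 0
      · rw [hβ, zero_smul, sub_zero, eval_smul' hd] at ht
        have h1 := (mul_eq_zero.1 ht).resolve_right hp.2.1.ne'
        have h2 := pow_eq_zero_iff hd0 |>.1 h1
        -- there is at least one root
        have h3 : g.natDegree ≠ 0 := by
          have := (line_leading hd (-f) e hp.2.1.ne').1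
          rw [hg, this]
          exact hd0
        have h4 : 0 < g.roots.card := by
          rw [← hgs.natDegree_eq_card_roots]
          omega
        obtain ⟨μ, hμ⟩ := Multiset.card_pos_iff_exists_mem.1 h4
        have h5 := hx μ hμ
        rw [hβ, mul_zero, add_zero] at h5
        linarith only [h2, h5]
      · have h1 : (t - (R x).1) • e - (R x).2 • f =
            (R x).2 • (-f + ((t - (R x).1) / (R x).2) • e) := by
          rw [smul_add, smul_smul, smul_neg, mul_div_cancel₀ _ hβ]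
          abel
        rw [h1, eval_smul' hd] at ht
        have h2 := (mul_eq_zero.1 ht).resolve_left (pow_ne_zero _ hβ)
        have h3 : (t - (R x).1) / (R x).2 ∈ g.roots := by
          rw [Polynomial.mem_roots hg0, Polynomial.IsRoot.def, hg, eval_line]
          exact h2
        have h4 := hx _ h3
        rw [div_mul_cancel₀ _ hβ] at h4
        linarith only [h4]
  rw [hK]
  exact GShad.iInter _ fun μ _ => GShad.halfspace _

theorem shadow_of_le_two {p : MvPolynomial (Fin n) ℝ} {e : Fin n → ℝ} (hp : IsHyperbolic p e)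
    (hn : n ≤ 2) : GShad (hypCone p e) := by
  by_cases he : e = 0
  · subst he
    have h0 : MvPolynomial.eval 0 p ≠ 0 := hp.2.1.ne'
    rw [K_univ_of_eval_zero_ne hp h0]
    exact GShad.univ
  by_cases h : ∀ x : Fin n → ℝ, x ∈ Submodule.span ℝ {e}
  · refine shadow_of_span hp (f := 0) fun x => ?_
    obtain ⟨c, hc⟩ := mem_span1.1 (h x)
    exact ⟨c, 0, by rw [hc]; simp⟩
  · push Not at h
    obtain ⟨f, hf⟩ := h
    refine shadow_of_span hp (f := f) fun x => ?_
    have hli := linInd_of_not_span he hf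
    have hcard : Fintype.card (Fin 2) = Module.finrank ℝ (Fin n → ℝ) := by
      have h1 := hli.fintype_card_le_finrank
      rw [Module.finrank_fin_fun, Fintype.card_fin] at *
      omega
    have h2 := hli.span_eq_top_of_card_eq_finrank' hcard
    have h3 : x ∈ Submodule.span ℝ (Set.range ![e, f]) := by rw [h2]; trivial
    rw [Matrix.range_cons, Matrix.range_cons, Matrix.range_empty, Set.union_empty,
      Set.singleton_union, Submodule.mem_span_pair] at h3
    obtain ⟨a, b, h4⟩ := h3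
    exact ⟨a, b, h4.symm⟩

theorem not_span_iff {z v : Fin n → ℝ} : v ∉ Submodule.span ℝ {z} ↔ ∀ c : ℝ, v ≠ c • z := by
  rw [mem_span1, not_exists]

theorem codim_of {L : Submodule ℝ (Fin n → ℝ)}
    (h : ∃ u w : Fin n → ℝ, ∀ a b : ℝ, a • u + b • w ∈ L → a = 0 ∧ b = 0) :
    Module.finrank ℝ L + 2 ≤ n := by
  obtain ⟨u, w, h⟩ := h
  have hli : LinearIndependent ℝ ![u, w] := by
    rw [LinearIndependent.pair_iff]
    intro a b hab
    exact h a b (by rw [hab]; exact L.zero_mem)
  have h2 : Module.finrank ℝ (Submodule.span ℝ (Set.range ![u, w])) = 2 := by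
    rw [finrank_span_eq_card hli, Fintype.card_fin]
  have hdis : L ⊓ Submodule.span ℝ (Set.range ![u, w]) = ⊥ := by
    rw [eq_bot_iff]
    rintro x ⟨hx1, hx2⟩
    rw [Matrix.range_cons, Matrix.range_cons, Matrix.range_empty, Set.union_empty,
      Set.singleton_union, SetLike.mem_coe, Submodule.mem_span_pair] at hx2
    obtain ⟨a, b, rfl⟩ := hx2
    obtain ⟨rfl, rfl⟩ := h a b hx1
    simp only [zero_smul, add_zero, zero_mem]
  have h3 := Submodule.finrank_sup_add_finrank_inf_eq L (Submodule.span ℝ (Set.range ![u, w]))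
  rw [hdis, finrank_bot, h2, add_zero] at h3
  rw [← h3]
  have h4 := Submodule.finrank_le (L ⊔ Submodule.span ℝ (Set.range ![u, w]))
  rwa [Module.finrank_fin_fun] at h4

theorem NiceCone.shad {q : MvPolynomial (Fin n) ℝ} {e : Fin n → ℝ} (h : NiceCone q e) :
    GShad (hypCone q e) := by
  obtain ⟨hq, h⟩ := h
  by_cases hk : n ≤ 2
  · exact shadow_of_le_two hq hk
  · obtain ⟨h2, h3⟩ := h.resolve_left hk
    refine GShad.of_shadow (mainD' (by omega) hq h2 fun z hz hz0 hzp => ?_)
    rcases h3 z hz hz0 hzp with h4 | h4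
    · left
      intro v hv hv0 hvz
      exact h4 v hv hv0 (not_span_iff.1 hvz)
    · right
      obtain ⟨a1, a2, a3, a4, a5⟩ := h4
      refine ⟨fun v hv hv0 hvL => a1 v hv hv0 fun h5 => hvL (h5 : v ∈ lineality _), ?_, ?_, ?_, ?_⟩
      · obtain ⟨u, w, h5⟩ := a2
        exact codim_of ⟨u, w, fun a b hab => h5 a b hab⟩
      · intro U hU
        filter_upwards [a3 U hU] with x hx
        obtain ⟨y, hy, hy1, hy2⟩ := hx
        exact ⟨y, hy, fun l hl => hy1 l hl, hy2⟩
      · intro v hv hvz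
        exact a4 v hv (not_span_iff.1 hvz)
      · intro y hy hyz
        exact a5 y hy (not_span_iff.1 hyz)

theorem InterNice.shad {e : Fin n → ℝ} {S : Set (Fin n → ℝ)} (h : InterNice e S) : GShad S := by
  induction h with
  | univ => exact GShad.univ
  | inter A q hq _ ih => exact ih.inter (hq.shad.preimage A)

end Vale.Agent.P256
end
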